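import Mathlib
import Vale.Agent.P237.MathlibUsed
import Vale.Agent.P227.Defs

set_option linter.all false

section

/-! # P227/M: definitions for the proof of log-Brunn-Minkowski by the moment map (x-space form).

`E n = EuclideanSpace ℝ (Fin n)`. `V` = potential, `ψ` = Legendre transform of the moment map potential,
`τ = (D²ψ)⁻¹`, `L f = tr (τ D²f) - ⟨x, ∇f⟩`. -/

open MeasureTheory
open scoped Topology

namespace Vale.Agent.P227.M

abbrev E (n : ℕ) := EuclideanSpace ℝ (Fin n)

/-- `i`-th basis vector -/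
noncomputable def ei {n : ℕ} (i : Fin n) : E n := EuclideanSpace.single i (1 : ℝ)

/-- `i`-th partial derivative -/
noncomputable def pd {n : ℕ} (i : Fin n) (f : E n → ℝ) (x : E n) : ℝ := fderiv ℝ f x (ei i)

/-- Hessian matrix `D²f`, entry `i j` is `∂_i ∂_j f` -/
noncomputable def hess {n : ℕ} (f : E n → ℝ) (x : E n) : Matrix (Fin n) (Fin n) ℝ :=
  fun i j => pd i (pd j f) x

/-- quadratic form of a matrix -/
noncomputable def qf {n : ℕ} (A : Matrix (Fin n) (Fin n) ℝ) (v : E n) : ℝ := ∑ i, ∑ j, A i j * v i * v j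

/-- regular potential: smooth, `c ≤ D²V ≤ C`, all derivatives of order `≥ 2` bounded (not nec. even) -/
structure Reg {n : ℕ} (V : E n → ℝ) (c C : ℝ) : Prop where
  c_pos : 0 < c
  smooth : ContDiff ℝ (⊤ : ℕ∞) V
  lower : ∀ x v, c * ‖v‖ ^ 2 ≤ qf (hess V x) v
  upper : ∀ x v, qf (hess V x) v ≤ C * ‖v‖ ^ 2
  bdd : ∀ k : ℕ, 2 ≤ k → ∃ B : ℝ, ∀ x, ‖iteratedFDeriv ℝ k V x‖ ≤ B

/-- nice potential: regular and even -/
structure Nice {n : ℕ} (V : E n → ℝ) (c C : ℝ) : Prop extends Reg V c C where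
  even : ∀ x, V (-x) = V x

/-- the convex summands `V_j`: smooth, even, `0 ≤ D²V`, all derivatives of order `≥ 2` bounded -/
structure Piece {n : ℕ} (V : E n → ℝ) : Prop where
  smooth : ContDiff ℝ (⊤ : ℕ∞) V
  even : ∀ x, V (-x) = V x
  psd : ∀ x v, 0 ≤ qf (hess V x) v
  bdd : ∀ k : ℕ, 2 ≤ k → ∃ B : ℝ, ∀ x, ‖iteratedFDeriv ℝ k V x‖ ≤ B

/-- `ψ` is (the Legendre transform of) a `C^{2,1}` moment map potential of `e^{-V}` -/
structure MM {n : ℕ} (ψ V : E n → ℝ) (c C M : ℝ) : Prop where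
  c_pos : 0 < c
  C2 : ContDiff ℝ 2 ψ
  even : ∀ x, ψ (-x) = ψ x
  lower : ∀ x v, c * ‖v‖ ^ 2 ≤ qf (hess ψ x) v
  upper : ∀ x v, qf (hess ψ x) v ≤ C * ‖v‖ ^ 2
  lip : ∀ i j x y, |hess ψ x i j - hess ψ y i j| ≤ M * ‖x - y‖
  ma : ∀ x, V x = (∑ i, x i * pd i ψ x) - ψ x - Real.log (hess ψ x).det

/-- `τ = (D²ψ)⁻¹` -/
noncomputable def tau {n : ℕ} (ψ : E n → ℝ) (x : E n) : Matrix (Fin n) (Fin n) ℝ := (hess ψ x)⁻¹

/-- `L f = tr (τ D²f) - ⟨x, ∇f⟩` -/
noncomputable def Lop {n : ℕ} (ψ f : E n → ℝ) (x : E n) : ℝ :=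
  (∑ i, ∑ j, tau ψ x i j * hess f x i j) - ∑ i, x i * pd i f x

/-- expectation with respect to `e^{-V} dx / ∫ e^{-V}` -/
noncomputable def Ex {n : ℕ} (V f : E n → ℝ) : ℝ :=
  (∫ x, f x * Real.exp (-V x)) / (∫ x, Real.exp (-V x))

/-- test functions -/
def Test {n : ℕ} (f : E n → ℝ) : Prop := ContDiff ℝ (⊤ : ℕ∞) f ∧ HasCompactSupport f

/-- log-Laplace transform -/
noncomputable def logLap {n : ℕ} (W : E n → ℝ) (y : E n) : ℝ :=
  Real.log (∫ x, Real.exp (inner ℝ x y - W x))

/-- `W` is `κ`-self-concordant (on lines) -/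
def SelfConc {n : ℕ} (κ : ℝ) (W : E n → ℝ) : Prop :=
  ∀ x v : E n, |iteratedDeriv 3 (fun t : ℝ => W (x + t • v)) 0| ≤
    2 * κ * (iteratedDeriv 2 (fun t : ℝ => W (x + t • v)) 0) ^ ((3 : ℝ) / 2)

end Vale.Agent.P227.M
end

section

/-! # P227/M: the interface statements between the blocks.

SC (self-concordance) + LK (level k) + LIM (k → ∞)  ⟹ `StmtMM`
ID ⟹ `StmtStein`, `StmtIBP`, `StmtDiv`, `StmtKey`
LIN ⟹ `StmtLin`
LOC : `StmtStein → StmtIBP → StmtDiv → StmtKey → StmtLin → StmtMM → StmtLocal`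
END : `StmtLocal →` Q1 (helper459's `End/Soft.lean`, `log_bm_of_soft`). -/

open MeasureTheory
open scoped Topology

namespace Vale.Agent.P227.M

/-- block SC : log-Laplace transforms do not increase the self-concordance constant -/
def StmtSC : Prop := ∀ (n : ℕ) (W : E n → ℝ) (c C κ : ℝ), Reg W c C → 0 ≤ κ → κ ≤ 1 →
  SelfConc κ W → SelfConc κ (logLap W)

/-- blocks LK + LIM : existence of the `C^{2,1}` moment map potential (in `x`-space) -/
def StmtMM : Prop := ∀ (n : ℕ) (V : E n → ℝ) (c C : ℝ), Nice V c C → ∃ (ψ : E n → ℝ) (M : ℝ), MM ψ V c C M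

/-- `s = τ ∇u` -/
noncomputable def fld {n : ℕ} (ψ u : E n → ℝ) (b : Fin n) (x : E n) : ℝ := ∑ c, tau ψ x b c * pd c u x

/-- Stein : `E tr (D²W τ) = E ⟨∇W, x⟩` -/
def StmtStein : Prop := ∀ (n : ℕ) (ψ V : E n → ℝ) (c C M : ℝ), Nice V c C → MM ψ V c C M →
  ∀ W : E n → ℝ, Piece W →
    Ex V (fun x => (hess W x * tau ψ x).trace) = Ex V (fun x => ∑ i, x i * pd i W x)

/-- integration by parts : `E (-L u) f = E ⟨∇f, s⟩`, `f` smooth -/
def StmtIBP : Prop := ∀ (n : ℕ) (ψ V : E n → ℝ) (c C M : ℝ), Nice V c C → MM ψ V c C M →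
  ∀ u f : E n → ℝ, Test u → ContDiff ℝ (⊤ : ℕ∞) f →
    Ex V (fun x => -(Lop ψ u x) * f x) = Ex V (fun x => ∑ b, pd b f x * fld ψ u b x)

/-- `E ⟨∇W, τ ∇(LF+F)⟩ = - E tr (D²W τ D²F τ)` -/
def StmtDiv : Prop := ∀ (n : ℕ) (ψ V : E n → ℝ) (c C M : ℝ), Nice V c C → MM ψ V c C M →
  ∀ F W : E n → ℝ, Test F → ContDiff ℝ (⊤ : ℕ∞) W →
    Ex V (fun x => ∑ b, pd b W x * fld ψ (fun z => Lop ψ F z + F z) b x) =
      - Ex V (fun x => (hess W x * tau ψ x * hess F x * tau ψ x).trace)

/-- the key inequality (638's identity + Bochner), `h = LF + F + u` :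
`E tr (H τNτNτ) + E ⟨Hs,s⟩ ≤ E (Lu)² + 2 E ⟨∇h, τ L∇F⟩` -/
def StmtKey : Prop := ∀ (n : ℕ) (ψ V : E n → ℝ) (c C M : ℝ), Nice V c C → MM ψ V c C M →
  ∀ F u : E n → ℝ, Test F → Test u →
    Ex V (fun x => (hess V x * tau ψ x * hess F x * tau ψ x * hess F x * tau ψ x).trace)
      + Ex V (fun x => ∑ a, ∑ b, hess V x a b * fld ψ u a x * fld ψ u b x)
      ≤ Ex V (fun x => (Lop ψ u x) ^ 2)
        + 2 * Ex V (fun x => ∑ b, fld ψ (fun z => Lop ψ F z + F z + u z) b x * Lop ψ (pd b F) x)

/-- block LIN : approximate solution of `-Lu = r`, `-(L+1)F = u` by test functions -/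
def StmtLin : Prop := ∀ (n : ℕ) (ψ V : E n → ℝ) (c C M : ℝ), Nice V c C → MM ψ V c C M →
  ∀ r : E n → ℝ, Continuous r → (∀ x, r (-x) = r x) → (∃ B, ∀ x, |r x| ≤ B * (1 + ‖x‖ ^ 2)) → Ex V r = 0 →
  ∀ ε > 0, ∃ B : ℝ, ∀ δ > 0, ∃ F u : E n → ℝ, Test F ∧ Test u ∧
    Ex V (fun x => (Lop ψ u x + r x) ^ 2) ≤ ε ∧
    Ex V (fun x => ∑ b, (pd b (fun z => Lop ψ F z + F z + u z) x) ^ 2) ≤ δ ∧
    Ex V (fun x => ∑ b, (Lop ψ (pd b F) x) ^ 2) ≤ B

/-- block LOC : the local (functional) log-Brunn-Minkowski inequality -/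
def StmtLocal : Prop := ∀ (n : ℕ) (J : ℕ) (W : Fin J → E n → ℝ) (ρ : Fin J → ℝ) (c C : ℝ),
  (∀ j, Piece (W j)) → Nice (fun x => ∑ j, W j x) c C →
    Ex (fun x => ∑ j, W j x) (fun x => (∑ j, ρ j * ∑ i, x i * pd i (W j) x) ^ 2)
      - (Ex (fun x => ∑ j, W j x) (fun x => ∑ j, ρ j * ∑ i, x i * pd i (W j) x)) ^ 2
      ≤ ∑ j, ρ j ^ 2 * Ex (fun x => ∑ j, W j x)
          (fun x => (∑ i, x i * pd i (W j) x) + qf (hess (W j) x) x)

end Vale.Agent.P227.M
end

section

/-! # P227/M, block LK: the level-`k` descent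

`phi k c y = (1/k) log ∫ exp (k ⟪x,y⟫ - k c x) dx`, `Q k p x = log ∫ exp (k ⟪x,y⟫ - (k+1) p y) dy`,
`T V k c = (V + Q k (phi k c)) / k`.  Along `c ↦ T V k c` the functional
`J V k c = ∫ c e^{-V} - log ∫ e^{-phi k c}` drops by at least `KL / k`. -/

open MeasureTheory Set Filter Topology

namespace Vale.Agent.P227.M.LK

variable {E : Type*} [NormedAddCommGroup E] [InnerProductSpace ℝ E] [FiniteDimensional ℝ E]
  [MeasurableSpace E] [BorelSpace E]

/-- the log-Laplace transform at level `k` -/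
noncomputable def phi (k : ℝ) (c : E → ℝ) (y : E) : ℝ :=
  (1 / k) * Real.log (∫ x : E, Real.exp (k * inner ℝ x y - k * c x))

/-- the second log-Laplace transform -/
noncomputable def Q (k : ℝ) (p : E → ℝ) (x : E) : ℝ :=
  Real.log (∫ y : E, Real.exp (k * inner ℝ x y - (k + 1) * p y))

/-- the map whose fixed points are the level-`k` moment potentials -/
noncomputable def T (V : E → ℝ) (k : ℝ) (c : E → ℝ) (x : E) : ℝ := (V x + Q k (phi k c) x) / k

/-- the total mass -/
noncomputable def Z (k : ℝ) (c : E → ℝ) : ℝ := ∫ y : E, Real.exp (-phi k c y)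

/-- the potential of the `x`-marginal -/
noncomputable def W (k : ℝ) (c : E → ℝ) (x : E) : ℝ := k * c x - Q k (phi k c) x + Real.log (Z k c)

/-- the relative entropy of `e^{-V}` with respect to the `x`-marginal -/
noncomputable def KL (V : E → ℝ) (k : ℝ) (c : E → ℝ) : ℝ := ∫ x : E, (W k c x - V x) * Real.exp (-V x)

/-- the functional -/
noncomputable def J (V : E → ℝ) (k : ℝ) (c : E → ℝ) : ℝ := (∫ x : E, c x * Real.exp (-V x)) - Real.log (Z k c)

theorem exp_phi {k : ℝ} (hk : 0 < k) {c : E → ℝ} {y : E} (h : Integrable fun x : E => Real.exp (k * inner ℝ x y - k * c x)) :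
    Real.exp (k * phi k c y) = ∫ x : E, Real.exp (k * inner ℝ x y - k * c x) := by
  have h1 : k * phi k c y = Real.log (∫ x : E, Real.exp (k * inner ℝ x y - k * c x)) := by
    unfold phi
    field_simp
  rw [h1, Real.exp_log]
  exact integral_exp_pos h

theorem exp_Q {k : ℝ} {p : E → ℝ} {x : E} (h : Integrable fun y : E => Real.exp (k * inner ℝ x y - (k + 1) * p y)) :
    Real.exp (Q k p x) = ∫ y : E, Real.exp (k * inner ℝ x y - (k + 1) * p y) := by
  unfold Q
  rw [Real.exp_log]
  exact integral_exp_pos h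

theorem measurable_phi {k : ℝ} {c : E → ℝ} (hc : Measurable c) : Measurable (phi k c) := by
  unfold phi
  refine (Real.measurable_log.comp ?_).const_mul _
  have h1 : StronglyMeasurable (fun p : E × E => Real.exp (k * inner ℝ p.2 p.1 - k * c p.2)) := by
    refine Measurable.stronglyMeasurable ?_
    have : Measurable fun p : E × E => (inner ℝ p.2 p.1 : ℝ) := (continuous_snd.inner continuous_fst).measurable
    exact Real.measurable_exp.comp ((this.const_mul k).sub ((hc.comp measurable_snd).const_mul k))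
  exact (h1.integral_prod_right' (ν := volume)).measurable

theorem measurable_Q {k : ℝ} {p : E → ℝ} (hp : Measurable p) : Measurable (Q k p) := by
  unfold Q
  refine Real.measurable_log.comp ?_
  have h1 : StronglyMeasurable (fun q : E × E => Real.exp (k * inner ℝ q.1 q.2 - (k + 1) * p q.2)) := by
    refine Measurable.stronglyMeasurable ?_
    have : Measurable fun q : E × E => (inner ℝ q.1 q.2 : ℝ) := (continuous_fst.inner continuous_snd).measurable
    exact Real.measurable_exp.comp ((this.const_mul k).sub ((hp.comp measurable_snd).const_mul (k + 1)))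
  exact (h1.integral_prod_right' (ν := volume)).measurable

/-- Gaussian tails make exponentials integrable -/
theorem integrable_exp_of_quad {a k : ℝ} (ha : 0 < a) (hk : 0 < k) {f : E → ℝ} (hf : Measurable f)
    (h : ∀ x, f 0 + a / 2 * ‖x‖ ^ 2 ≤ f x) (l : ℝ) (y : E) :
    Integrable fun x : E => Real.exp (l * inner ℝ x y - k * f x) := by
  have h1 := (GaussianFourier.integrable_cexp_neg_mul_sq_norm_add (V := E) (b := ((k * a / 2 : ℝ) : ℂ)) (by
    rw [Complex.ofReal_re]; positivity) (l : ℂ) y).norm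
  have h2 : Integrable fun x : E => Real.exp (-(k * f 0)) * Real.exp (l * inner ℝ x y - k * a / 2 * ‖x‖ ^ 2) := by
    refine Integrable.const_mul ?_ _
    refine h1.congr (Eventually.of_forall fun x => ?_)
    simp only [Complex.norm_exp]
    congr 1
    simp only [Complex.add_re, Complex.mul_re, Complex.neg_re, Complex.ofReal_re, Complex.neg_im, Complex.ofReal_im]
    rw [← Complex.ofReal_pow, Complex.ofReal_re, Complex.ofReal_im, real_inner_comm]
    ring
  refine h2.mono' ?_ (Eventually.of_forall fun x => ?_)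
  · have : Measurable fun x : E => (inner ℝ x y : ℝ) := (continuous_id.inner continuous_const).measurable
    exact (Real.measurable_exp.comp ((this.const_mul l).sub (hf.const_mul k))).aestronglyMeasurable
  · rw [Real.norm_eq_abs, abs_of_pos (Real.exp_pos _), ← Real.exp_add]
    refine Real.exp_le_exp.2 ?_
    have := mul_le_mul_of_nonneg_left (h x) hk.le
    nlinarith

/-- the quantitative class on which everything is integrable -/
structure Good (k a b a' : ℝ) (c : E → ℝ) : Prop where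
  meas : Measurable c
  lo : ∀ x, c 0 + a / 2 * ‖x‖ ^ 2 ≤ c x
  hi : ∀ x, c x ≤ c 0 + b / 2 * ‖x‖ ^ 2
  plo : ∀ y, phi k c 0 + a' / 2 * ‖y‖ ^ 2 ≤ phi k c y

variable {V : E → ℝ} {k a b a' : ℝ} {c : E → ℝ}

theorem Good.int1 (hk : 0 < k) (ha : 0 < a) (h : Good k a b a' c) (y : E) :
    Integrable fun x : E => Real.exp (k * inner ℝ x y - k * c x) :=
  integrable_exp_of_quad ha hk h.meas h.lo k y

theorem Good.int2 (hk : 0 < k) (ha' : 0 < a') (h : Good k a b a' c) (x : E) :
    Integrable fun y : E => Real.exp (k * inner ℝ x y - (k + 1) * phi k c y) := by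
  have := integrable_exp_of_quad ha' (by linarith : 0 < k + 1) (measurable_phi h.meas) h.plo k x
  refine this.congr (Eventually.of_forall fun y => ?_)
  simp only [real_inner_comm]

theorem Good.int3 (ha' : 0 < a') (h : Good k a b a' c) : Integrable fun y : E => Real.exp (-phi k c y) := by
  have := integrable_exp_of_quad ha' one_pos (measurable_phi h.meas) h.plo 0 0
  refine this.congr (Eventually.of_forall fun y => ?_)
  simp

theorem Good.Z_pos (ha' : 0 < a') (h : Good k a b a' c) : 0 < Z k c := integral_exp_pos (h.int3 ha')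

/-- the joint density is integrable -/
theorem Good.int_joint (hk : 0 < k) (ha : 0 < a) (ha' : 0 < a') (h : Good k a b a' c) :
    Integrable (fun p : E × E => Real.exp (k * inner ℝ p.1 p.2 - k * c p.1 - (k + 1) * phi k c p.2))
      ((volume : Measure E).prod volume) := by
  have hm : Measurable fun p : E × E => Real.exp (k * inner ℝ p.1 p.2 - k * c p.1 - (k + 1) * phi k c p.2) := by
    have : Measurable fun p : E × E => (inner ℝ p.1 p.2 : ℝ) := (continuous_fst.inner continuous_snd).measurable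
    exact Real.measurable_exp.comp (((this.const_mul k).sub ((h.meas.comp measurable_fst).const_mul k)).sub
      (((measurable_phi h.meas).comp measurable_snd).const_mul (k + 1)))
  rw [integrable_prod_iff' hm.aestronglyMeasurable]
  refine ⟨Eventually.of_forall fun y => ?_, ?_⟩
  · have := (h.int1 hk ha y).mul_const (Real.exp (-((k + 1) * phi k c y)))
    refine this.congr (Eventually.of_forall fun x => ?_)
    simp only
    rw [← Real.exp_add]
    congr 1
  · refine (h.int3 ha').congr (Eventually.of_forall fun y => ?_)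
    simp only [Real.norm_eq_abs, abs_of_pos (Real.exp_pos _)]
    have h1 : (fun x : E => Real.exp (k * inner ℝ x y - k * c x - (k + 1) * phi k c y))
        = fun x : E => Real.exp (k * inner ℝ x y - k * c x) * Real.exp (-((k + 1) * phi k c y)) := by
      ext x
      rw [← Real.exp_add]
      congr 1
    rw [h1, integral_mul_const, ← exp_phi hk (h.int1 hk ha y), ← Real.exp_add]
    congr 1
    ring

/-- `∫_x` of the joint density -/
theorem Good.marg_y (hk : 0 < k) (ha : 0 < a) (h : Good k a b a' c) (y : E) :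
    ∫ x : E, Real.exp (k * inner ℝ x y - k * c x - (k + 1) * phi k c y) = Real.exp (-phi k c y) := by
  have h1 : (fun x : E => Real.exp (k * inner ℝ x y - k * c x - (k + 1) * phi k c y))
      = fun x : E => Real.exp (k * inner ℝ x y - k * c x) * Real.exp (-((k + 1) * phi k c y)) := by
    ext x
    rw [← Real.exp_add]
    congr 1
  rw [h1, integral_mul_const, ← exp_phi hk (h.int1 hk ha y), ← Real.exp_add]
  congr 1
  ring

/-- `∫_y` of the joint density -/
theorem Good.marg_x (hk : 0 < k) (ha' : 0 < a') (h : Good k a b a' c) (x : E) :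
    ∫ y : E, Real.exp (k * inner ℝ x y - k * c x - (k + 1) * phi k c y) = Real.exp (-(k * c x - Q k (phi k c) x)) := by
  have h1 : (fun y : E => Real.exp (k * inner ℝ x y - k * c x - (k + 1) * phi k c y))
      = fun y : E => Real.exp (k * inner ℝ x y - (k + 1) * phi k c y) * Real.exp (-(k * c x)) := by
    ext y
    rw [← Real.exp_add]
    congr 1
    ring
  rw [h1, integral_mul_const, ← exp_Q (h.int2 hk ha' x), ← Real.exp_add]
  congr 1
  ring

theorem Good.Z_eq (hk : 0 < k) (ha : 0 < a) (ha' : 0 < a') (h : Good k a b a' c) :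
    ∫ x : E, Real.exp (-(k * c x - Q k (phi k c) x)) = Z k c := by
  have h1 := integral_integral_swap (f := fun (x y : E) => Real.exp (k * inner ℝ x y - k * c x - (k + 1) * phi k c y))
    (h.int_joint hk ha ha')
  simp only [h.marg_x hk ha'] at h1
  rw [h1]
  unfold Z
  congr 1
  ext y
  exact h.marg_y hk ha y

theorem Good.integral_W (hk : 0 < k) (ha : 0 < a) (ha' : 0 < a') (h : Good k a b a' c) :
    ∫ x : E, Real.exp (-W k c x) = 1 := by
  have hZ := h.Z_pos ha'
  have h1 : (fun x : E => Real.exp (-W k c x)) = fun x => Real.exp (-(k * c x - Q k (phi k c) x)) * (Z k c)⁻¹ := by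
    ext x
    unfold W
    rw [neg_add, Real.exp_add, Real.exp_neg (Real.log _), Real.exp_log hZ]
  rw [h1, integral_mul_const, h.Z_eq hk ha ha']
  field_simp

theorem Good.integrable_exp_neg_W (hk : 0 < k) (ha : 0 < a) (ha' : 0 < a') (h : Good k a b a' c) :
    Integrable fun x : E => Real.exp (-W k c x) := by
  by_contra hcon
  have := h.integral_W hk ha ha'
  rw [integral_undef hcon] at this
  norm_num at this

/-- the key descent inequality for the mass -/
theorem Good.mass_le (hk : 0 < k) (ha : 0 < a) (ha' : 0 < a') (h : Good k a b a' c) (hT : Good k a b a' (T V k c))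
    (hVi : Integrable fun x : E => Real.exp (-V x)) (hV1 : ∫ x : E, Real.exp (-V x) = 1) :
    (1 + 1 / k) * Real.log (Z k c) ≤ Real.log (Z k (T V k c)) := by
  have hZ := h.Z_pos ha'
  have hZ' := hT.Z_pos ha'
  -- the function `t`
  have hkT : ∀ x, k * T V k c x = V x + Q k (phi k c) x := fun x => by
    unfold T
    field_simp
  have hMV : Measurable V := by
    have h1 : V = fun x => k * T V k c x - Q k (phi k c) x := by
      ext x
      rw [hkT]
      ring
    rw [h1]
    exact (hT.meas.const_mul k).sub (measurable_Q (measurable_phi h.meas))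
  have hFm : Measurable fun p : E × E => Real.exp (k * inner ℝ p.1 p.2 - k * T V k c p.1 - (k + 1) * phi k c p.2) := by
    have : Measurable fun p : E × E => (inner ℝ p.1 p.2 : ℝ) := (continuous_fst.inner continuous_snd).measurable
    exact Real.measurable_exp.comp (((this.const_mul k).sub ((hT.meas.comp measurable_fst).const_mul k)).sub
      (((measurable_phi h.meas).comp measurable_snd).const_mul (k + 1)))
  have hinner : ∀ x : E, ∫ y : E, Real.exp (k * inner ℝ x y - k * T V k c x - (k + 1) * phi k c y) = Real.exp (-V x) := by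
    intro x
    have h1 : (fun y : E => Real.exp (k * inner ℝ x y - k * T V k c x - (k + 1) * phi k c y))
        = fun y : E => Real.exp (k * inner ℝ x y - (k + 1) * phi k c y) * Real.exp (-(k * T V k c x)) := by
      ext y
      rw [← Real.exp_add]
      congr 1
      ring
    rw [h1, integral_mul_const, ← exp_Q (h.int2 hk ha' x), ← Real.exp_add, hkT]
    congr 1
    ring
  have hFi : Integrable (fun p : E × E => Real.exp (k * inner ℝ p.1 p.2 - k * T V k c p.1 - (k + 1) * phi k c p.2))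
      ((volume : Measure E).prod volume) := by
    rw [integrable_prod_iff hFm.aestronglyMeasurable]
    refine ⟨Eventually.of_forall fun x => ?_, ?_⟩
    · have := (h.int2 hk ha' x).mul_const (Real.exp (-(k * T V k c x)))
      refine this.congr (Eventually.of_forall fun y => ?_)
      simp only
      rw [← Real.exp_add]
      congr 1
      ring
    · refine hVi.congr (Eventually.of_forall fun x => ?_)
      simp only [Real.norm_eq_abs, abs_of_pos (Real.exp_pos _)]
      exact (hinner x).symm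
  have hswap := integral_integral_swap
    (f := fun (x y : E) => Real.exp (k * inner ℝ x y - k * T V k c x - (k + 1) * phi k c y)) hFi
  simp only [hinner] at hswap
  rw [hV1] at hswap
  have hy : ∀ y : E, ∫ x : E, Real.exp (k * inner ℝ x y - k * T V k c x - (k + 1) * phi k c y)
      = Real.exp (-phi k c y) * Real.exp (k * (phi k (T V k c) y - phi k c y)) := by
    intro y
    have h1 : (fun x : E => Real.exp (k * inner ℝ x y - k * T V k c x - (k + 1) * phi k c y))
        = fun x : E => Real.exp (k * inner ℝ x y - k * T V k c x) * Real.exp (-((k + 1) * phi k c y)) := by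
      ext x
      rw [← Real.exp_add]
      congr 1
    rw [h1, integral_mul_const, ← exp_phi hk (hT.int1 hk ha y), ← Real.exp_add, ← Real.exp_add]
    congr 1
    ring
  have hti : Integrable fun y : E => Real.exp (-phi k c y) * Real.exp (k * (phi k (T V k c) y - phi k c y)) := by
    refine hFi.integral_prod_right.congr (Eventually.of_forall fun y => ?_)
    exact hy y
  have ht1 : ∫ y : E, Real.exp (-phi k c y) * Real.exp (k * (phi k (T V k c) y - phi k c y)) = 1 := by
    rw [hswap]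
    congr 1
    ext y
    exact (hy y).symm
  -- pointwise inequality
  have hpt : ∀ y : E, Real.exp ((1 / k) * Real.log (Z k c)) * ((1 + 1 / k) * Real.exp (-phi k c y)
      - (Z k c / k) * (Real.exp (-phi k c y) * Real.exp (k * (phi k (T V k c) y - phi k c y))))
      ≤ Real.exp (-phi k (T V k c) y) := by
    intro y
    set t := Real.exp (k * (phi k (T V k c) y - phi k c y)) with ht
    have htp : 0 < t := Real.exp_pos _
    have h1 : Real.exp (-phi k (T V k c) y) = Real.exp ((1 / k) * Real.log (Z k c)) * (Real.exp (-phi k c y)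
        * Real.exp (-(1 / k) * Real.log (t * Z k c))) := by
      rw [Real.log_mul htp.ne' hZ.ne', ht, Real.log_exp, ← Real.exp_add, ← Real.exp_add]
      congr 1
      field_simp
      ring
    rw [h1]
    refine mul_le_mul_of_nonneg_left ?_ (Real.exp_pos _).le
    have h2 : 1 - (1 / k) * (t * Z k c - 1) ≤ Real.exp (-(1 / k) * Real.log (t * Z k c)) := by
      have h3 := Real.add_one_le_exp (-(1 / k) * Real.log (t * Z k c))
      have h4 := Real.log_le_sub_one_of_pos (mul_pos htp hZ)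
      have h5 := mul_le_mul_of_nonneg_left h4 (by positivity : 0 ≤ 1 / k)
      linarith
    calc (1 + 1 / k) * Real.exp (-phi k c y) - Z k c / k * (Real.exp (-phi k c y) * t)
        = Real.exp (-phi k c y) * (1 - (1 / k) * (t * Z k c - 1)) := by ring
      _ ≤ _ := mul_le_mul_of_nonneg_left h2 (Real.exp_pos _).le
  have hint := integral_mono ((((h.int3 ha').const_mul (1 + 1 / k)).sub (hti.const_mul (Z k c / k))).const_mul
    (Real.exp ((1 / k) * Real.log (Z k c)))) (hT.int3 ha') hpt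
  have hlhs : ∫ y : E, Real.exp ((1 / k) * Real.log (Z k c)) * ((1 + 1 / k) * Real.exp (-phi k c y)
      - (Z k c / k) * (Real.exp (-phi k c y) * Real.exp (k * (phi k (T V k c) y - phi k c y))))
      = Real.exp ((1 / k) * Real.log (Z k c)) * Z k c := by
    rw [integral_const_mul, integral_sub ((h.int3 ha').const_mul _) (hti.const_mul _), integral_const_mul,
      integral_const_mul, ht1]
    unfold Z
    ring
  have hfin : Real.exp ((1 / k) * Real.log (Z k c)) * Z k c ≤ Z k (T V k c) := by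
    rw [← hlhs]
    exact hint
  have := Real.log_le_log (by positivity) hfin
  rw [Real.log_mul (Real.exp_pos _).ne' hZ.ne', Real.log_exp] at this
  linarith

/-- **descent** -/
theorem Good.descent (hk : 0 < k) (ha : 0 < a) (ha' : 0 < a') (h : Good k a b a' c) (hT : Good k a b a' (T V k c))
    (hVi : Integrable fun x : E => Real.exp (-V x)) (hV1 : ∫ x : E, Real.exp (-V x) = 1)
    (hVV : Integrable fun x : E => V x * Real.exp (-V x))
    (hV2 : Integrable fun x : E => ‖x‖ ^ 2 * Real.exp (-V x)) :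
    J V k (T V k c) ≤ J V k c - KL V k c / k := by
  have hkT : ∀ x, k * T V k c x = V x + Q k (phi k c) x := fun x => by
    unfold T
    field_simp
  have hMV : Measurable V := by
    have h1 : V = fun x => k * T V k c x - Q k (phi k c) x := by
      ext x
      rw [hkT]
      ring
    rw [h1]
    exact (hT.meas.const_mul k).sub (measurable_Q (measurable_phi h.meas))
  have key : ∀ f : E → ℝ, (∀ x, f 0 + a / 2 * ‖x‖ ^ 2 ≤ f x) → (∀ x, f x ≤ f 0 + b / 2 * ‖x‖ ^ 2) → Measurable f →
      Integrable fun x : E => f x * Real.exp (-V x) := by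
    intro f h1 h2 hf
    have h3 : Integrable fun x : E => |f 0| * Real.exp (-V x) + (|b| / 2) * (‖x‖ ^ 2 * Real.exp (-V x)) :=
      (hVi.const_mul _).add (hV2.const_mul _)
    refine h3.mono' (hf.mul (Real.measurable_exp.comp hMV.neg)).aestronglyMeasurable (Eventually.of_forall fun x => ?_)
    rw [Real.norm_eq_abs, abs_mul, abs_of_pos (Real.exp_pos _)]
    have h4 : |f x| ≤ |f 0| + |b| / 2 * ‖x‖ ^ 2 := by
      have h5 := h1 x
      have h6 := h2 x
      have h7 : 0 ≤ a / 2 * ‖x‖ ^ 2 := by positivity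
      have h8 : b / 2 * ‖x‖ ^ 2 ≤ |b| / 2 * ‖x‖ ^ 2 := by
        have := le_abs_self b
        gcongr
      have h9 := neg_abs_le (f 0)
      have h10 := le_abs_self (f 0)
      rw [abs_le]
      constructor <;> [skip; linarith]
      have h11 : 0 ≤ |b| / 2 * ‖x‖ ^ 2 := by positivity
      linarith
    calc |f x| * Real.exp (-V x) ≤ (|f 0| + |b| / 2 * ‖x‖ ^ 2) * Real.exp (-V x) :=
          mul_le_mul_of_nonneg_right h4 (Real.exp_pos _).le
      _ = _ := by ring
  have hci := key c h.lo h.hi h.meas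
  have hTi := key (T V k c) hT.lo hT.hi hT.meas
  have hQi : Integrable fun x : E => Q k (phi k c) x * Real.exp (-V x) := by
    refine ((hTi.const_mul k).sub hVV).congr (Eventually.of_forall fun x => ?_)
    simp only [Pi.sub_apply]
    rw [← mul_assoc, hkT]
    ring
  have e1 : ∫ x : E, T V k c x * Real.exp (-V x)
      = (1 / k) * ((∫ x : E, V x * Real.exp (-V x)) + ∫ x : E, Q k (phi k c) x * Real.exp (-V x)) := by
    rw [← integral_add hVV hQi, ← integral_const_mul]
    congr 1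
    ext x
    unfold T
    field_simp
  have e2 : KL V k c = k * (∫ x : E, c x * Real.exp (-V x)) - (∫ x : E, Q k (phi k c) x * Real.exp (-V x))
      + Real.log (Z k c) - ∫ x : E, V x * Real.exp (-V x) := by
    unfold KL
    have h1 : (fun x : E => (W k c x - V x) * Real.exp (-V x)) = fun x => ((k * (c x * Real.exp (-V x))
        - Q k (phi k c) x * Real.exp (-V x)) + Real.log (Z k c) * Real.exp (-V x)) - V x * Real.exp (-V x) := by
      ext x
      unfold W
      ring
    have i1 : Integrable fun x : E => k * (c x * Real.exp (-V x)) := hci.const_mul k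
    have i2 : Integrable fun x : E => k * (c x * Real.exp (-V x)) - Q k (phi k c) x * Real.exp (-V x) := i1.sub hQi
    have i3 : Integrable fun x : E => Real.log (Z k c) * Real.exp (-V x) := hVi.const_mul _
    have i4 : Integrable fun x : E => k * (c x * Real.exp (-V x)) - Q k (phi k c) x * Real.exp (-V x)
      + Real.log (Z k c) * Real.exp (-V x) := i2.add i3
    rw [h1, integral_sub i4 hVV, integral_add i2 i3, integral_sub i1 hQi,
      integral_const_mul, integral_const_mul, hV1, mul_one]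
  have h3 := h.mass_le hk ha ha' hT hVi hV1
  unfold J
  rw [e1, e2]
  have e3 : (k * (∫ x : E, c x * Real.exp (-V x)) - (∫ x : E, Q k (phi k c) x * Real.exp (-V x))
      + Real.log (Z k c) - ∫ x : E, V x * Real.exp (-V x)) / k = (∫ x : E, c x * Real.exp (-V x))
      - (1 / k) * (∫ x : E, Q k (phi k c) x * Real.exp (-V x)) + (1 / k) * Real.log (Z k c)
      - (1 / k) * ∫ x : E, V x * Real.exp (-V x) := by
    field_simp
  rw [e3]
  nlinarith [h3]

/-- lower bound of the functional -/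
theorem Good.J_ge (hk : 0 < k) (ha : 0 < a) (hb : 0 < b) (ha' : 0 < a') (h : Good k a b a' c)
    (hVi : Integrable fun x : E => Real.exp (-V x)) (hV1 : ∫ x : E, Real.exp (-V x) = 1)
    (hci : Integrable fun x : E => c x * Real.exp (-V x)) :
    (1 / k) * Real.log (∫ x : E, Real.exp (-(k * (b / 2 * ‖x‖ ^ 2)))) - Real.log (∫ y : E, Real.exp (-(a' / 2 * ‖y‖ ^ 2)))
      ≤ J V k c := by
  have hgb : Integrable fun x : E => Real.exp (-(k * (b / 2 * ‖x‖ ^ 2))) := by
    have := integrable_exp_of_quad (f := fun x : E => b / 2 * ‖x‖ ^ 2) (a := b) hb hk (by fun_prop)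
      (fun x => by simp) 0 0
    refine this.congr (Eventually.of_forall fun x => ?_)
    simp
  have hga : Integrable fun y : E => Real.exp (-(a' / 2 * ‖y‖ ^ 2)) := by
    have := integrable_exp_of_quad (f := fun x : E => a' / 2 * ‖x‖ ^ 2) (a := a') ha' one_pos (by fun_prop)
      (fun x => by simp) 0 0
    refine this.congr (Eventually.of_forall fun x => ?_)
    simp
  have h1 : c 0 ≤ ∫ x : E, c x * Real.exp (-V x) := by
    have h2 : ∫ x : E, c 0 * Real.exp (-V x) = c 0 := by rw [integral_const_mul, hV1, mul_one]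
    rw [← h2]
    refine integral_mono (hVi.const_mul _) hci fun x => ?_
    refine mul_le_mul_of_nonneg_right ?_ (Real.exp_pos _).le
    have := h.lo x
    have : 0 ≤ a / 2 * ‖x‖ ^ 2 := by positivity
    linarith [h.lo x]
  have h2 : (1 / k) * Real.log (∫ x : E, Real.exp (-(k * (b / 2 * ‖x‖ ^ 2)))) - c 0 ≤ phi k c 0 := by
    have h3 : Real.exp (-(k * c 0)) * ∫ x : E, Real.exp (-(k * (b / 2 * ‖x‖ ^ 2)))
        ≤ ∫ x : E, Real.exp (k * inner ℝ x (0 : E) - k * c x) := by
      rw [← integral_const_mul]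
      refine integral_mono (hgb.const_mul _) (h.int1 hk ha 0) fun x => ?_
      simp only
      rw [← Real.exp_add, inner_zero_right, mul_zero, zero_sub]
      refine Real.exp_le_exp.2 ?_
      have := mul_le_mul_of_nonneg_left (h.hi x) hk.le
      linarith
    have h4 := Real.log_le_log (mul_pos (Real.exp_pos _) (integral_exp_pos hgb)) h3
    rw [Real.log_mul (Real.exp_pos _).ne' (integral_exp_pos hgb).ne', Real.log_exp] at h4
    unfold phi
    have h5 := mul_le_mul_of_nonneg_left h4 (by positivity : 0 ≤ 1 / k)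
    have h6 : (1 / k) * (-(k * c 0) + Real.log (∫ x : E, Real.exp (-(k * (b / 2 * ‖x‖ ^ 2)))))
        = (1 / k) * Real.log (∫ x : E, Real.exp (-(k * (b / 2 * ‖x‖ ^ 2)))) - c 0 := by
      field_simp
      ring
    linarith
  have h7 : Real.log (Z k c) ≤ -phi k c 0 + Real.log (∫ y : E, Real.exp (-(a' / 2 * ‖y‖ ^ 2))) := by
    have h8 : Z k c ≤ Real.exp (-phi k c 0) * ∫ y : E, Real.exp (-(a' / 2 * ‖y‖ ^ 2)) := by
      unfold Z
      rw [← integral_const_mul]
      refine integral_mono (h.int3 ha') (hga.const_mul _) fun y => ?_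
      simp only
      rw [← Real.exp_add]
      refine Real.exp_le_exp.2 ?_
      linarith [h.plo y]
    have h9 := Real.log_le_log (h.Z_pos ha') h8
    rwa [Real.log_mul (Real.exp_pos _).ne' (integral_exp_pos hga).ne', Real.log_exp] at h9
  unfold J
  linarith

/-- **small relative entropy along the iteration**, for any invariant class `P` -/
theorem exists_KL_le (hk : 0 < k) (ha : 0 < a) (hb : 0 < b) (ha' : 0 < a') (P : (E → ℝ) → Prop) (c₀ : E → ℝ) (h0 : P c₀)
    (hPT : ∀ c, P c → P (T V k c)) (hPG : ∀ c, P c → Good k a b a' c)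
    (hVi : Integrable fun x : E => Real.exp (-V x)) (hV1 : ∫ x : E, Real.exp (-V x) = 1)
    (hVV : Integrable fun x : E => V x * Real.exp (-V x))
    (hV2 : Integrable fun x : E => ‖x‖ ^ 2 * Real.exp (-V x)) {ε : ℝ} (hε : 0 < ε) :
    ∃ c, P c ∧ KL V k c ≤ ε := by
  by_contra hcon
  simp only [not_exists, not_and, not_le] at hcon
  have hMV : Measurable V := by
    have hT0 := hPG _ (hPT _ h0)
    have h1 : V = fun x => k * T V k c₀ x - Q k (phi k c₀) x := by
      ext x
      unfold T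
      field_simp
      ring
    rw [h1]
    exact (hT0.meas.const_mul k).sub (measurable_Q (measurable_phi (hPG _ h0).meas))
  have hPi : ∀ i : ℕ, P ((T V k)^[i] c₀) := by
    intro i
    induction i with
    | zero => exact h0
    | succ i ih =>
      rw [Function.iterate_succ_apply']
      exact hPT _ ih
  have hJi : ∀ i : ℕ, J V k ((T V k)^[i] c₀) ≤ J V k c₀ - i * (ε / k) := by
    intro i
    induction i with
    | zero => simp
    | succ i ih =>
      rw [Function.iterate_succ_apply']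
      have h1 := (hPG _ (hPi i)).descent hk ha ha' (hPG _ (hPT _ (hPi i))) hVi hV1 hVV hV2
      have h2 := (hcon _ (hPi i)).le
      have h3 : ε / k ≤ KL V k ((T V k)^[i] c₀) / k := by gcongr
      push_cast
      linarith
  have hci : ∀ c, P c → Integrable fun x : E => c x * Real.exp (-V x) := by
    intro c hc
    have hG := hPG c hc
    have h3 : Integrable fun x : E => |c 0| * Real.exp (-V x) + (b / 2) * (‖x‖ ^ 2 * Real.exp (-V x)) :=
      (hVi.const_mul _).add (hV2.const_mul _)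
    refine h3.mono' (hG.meas.mul (Real.measurable_exp.comp hMV.neg)).aestronglyMeasurable (Eventually.of_forall fun x => ?_)
    rw [Real.norm_eq_abs, abs_mul, abs_of_pos (Real.exp_pos _)]
    have h4 : |c x| ≤ |c 0| + b / 2 * ‖x‖ ^ 2 := by
      have h5 := hG.lo x
      have h6 := hG.hi x
      have h7 : 0 ≤ a / 2 * ‖x‖ ^ 2 := by positivity
      have h9 := neg_abs_le (c 0)
      have h10 := le_abs_self (c 0)
      have h11 : 0 ≤ b / 2 * ‖x‖ ^ 2 := by positivity
      rw [abs_le]
      constructor <;> linarith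
    calc |c x| * Real.exp (-V x) ≤ (|c 0| + b / 2 * ‖x‖ ^ 2) * Real.exp (-V x) :=
          mul_le_mul_of_nonneg_right h4 (Real.exp_pos _).le
      _ = _ := by ring
  set m := (1 / k) * Real.log (∫ x : E, Real.exp (-(k * (b / 2 * ‖x‖ ^ 2)))) - Real.log (∫ y : E, Real.exp (-(a' / 2 * ‖y‖ ^ 2)))
    with hm
  obtain ⟨i, hi⟩ := exists_nat_gt ((J V k c₀ - m) / (ε / k))
  have h1 := (hPG _ (hPi i)).J_ge hk ha hb ha' hVi hV1 (hci _ (hPi i))
  rw [← hm] at h1
  have h2 := hJi i
  rw [div_lt_iff₀ (by positivity)] at hi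
  linarith

end Vale.Agent.P227.M.LK
end

section

/-! # P227/M: basic facts about the definitions (part 1: derivatives, growth, integrability, `Ex`). -/

open MeasureTheory
open scoped Topology

namespace Vale.Agent.P227.M

variable {n : ℕ}

/-! ## Derivatives -/

theorem norm_ei (i : Fin n) : ‖(ei i : E n)‖ = 1 := by simp [ei]

theorem ei_apply (i j : Fin n) : (ei i : E n) j = if j = i then 1 else 0 := by
  simp [ei]

theorem sum_smul_ei (v : E n) : ∑ i, v i • (ei i : E n) = v := by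
  ext j
  simp [ei_apply]

theorem fderiv_eq_sum (f : E n → ℝ) (x v : E n) : fderiv ℝ f x v = ∑ i, v i * pd i f x := by
  conv_lhs => rw [← sum_smul_ei v]
  rw [map_sum]
  simp [pd]

theorem abs_coord_le (x : E n) (i : Fin n) : |x i| ≤ ‖x‖ := by
  have h := EuclideanSpace.norm_eq x
  have h1 : |x i| ^ 2 ≤ ∑ j, ‖x j‖ ^ 2 := by
    have := Finset.single_le_sum (f := fun j => ‖x j‖ ^ 2) (fun j _ => sq_nonneg _) (Finset.mem_univ i)
    simpa using this
  rw [h]
  exact Real.le_sqrt_of_sq_le h1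

theorem norm_sq_eq_sum (x : E n) : ‖x‖ ^ 2 = ∑ i, x i ^ 2 := by
  rw [EuclideanSpace.norm_sq_eq]
  simp

theorem contDiff_pd {f : E n → ℝ} {k m : WithTop ℕ∞} (hf : ContDiff ℝ m f) (hk : k + 1 ≤ m)
    (i : Fin n) : ContDiff ℝ k (pd i f) := by
  have h := hf.fderiv_right (m := k) hk
  exact h.clm_apply contDiff_const

theorem contDiff_pd_top {f : E n → ℝ} (hf : ContDiff ℝ (⊤ : ℕ∞) f) (i : Fin n) :
    ContDiff ℝ (⊤ : ℕ∞) (pd i f) := contDiff_pd hf (by simp) i

theorem hess_eq {f : E n → ℝ} (hf : ContDiff ℝ 2 f) (x : E n) (i j : Fin n) :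
    hess f x i j = (fderiv ℝ (fderiv ℝ f) x (ei i)) (ei j) := by
  have h1 : DifferentiableAt ℝ (fderiv ℝ f) x :=
    ((hf.fderiv_right (m := 1) (by norm_num)).differentiable (by norm_num)) x
  unfold hess pd
  rw [fderiv_clm_apply h1 (differentiableAt_const _)]
  simp

theorem hess_symm {f : E n → ℝ} (hf : ContDiff ℝ 2 f) (x : E n) (i j : Fin n) :
    hess f x i j = hess f x j i := by
  rw [hess_eq hf, hess_eq hf]
  have h : IsSymmSndFDerivAt ℝ f x := hf.contDiffAt.isSymmSndFDerivAt (by simp)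
  exact h.eq (ei i) (ei j)

theorem hess_isSymm {f : E n → ℝ} (hf : ContDiff ℝ 2 f) (x : E n) : (hess f x).IsSymm := by
  ext i j
  exact hess_symm hf x j i

theorem continuous_hess {f : E n → ℝ} (hf : ContDiff ℝ 2 f) (i j : Fin n) :
    Continuous (fun x => hess f x i j) := by
  have h1 : ContDiff ℝ 1 (pd j f) := contDiff_pd hf (by norm_num) j
  have h2 : ContDiff ℝ 0 (pd i (pd j f)) := contDiff_pd h1 (by norm_num) i
  exact h2.continuous

theorem contDiff_hess_top {f : E n → ℝ} (hf : ContDiff ℝ (⊤ : ℕ∞) f) (i j : Fin n) :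
    ContDiff ℝ (⊤ : ℕ∞) (fun x => hess f x i j) :=
  contDiff_pd_top (contDiff_pd_top hf j) i

theorem hess_eq_iter {f : E n → ℝ} (hf : ContDiff ℝ 2 f) (x : E n) (i j : Fin n) :
    hess f x i j = iteratedFDeriv ℝ 2 f x ![ei i, ei j] := by
  rw [hess_eq hf, iteratedFDeriv_two_apply]
  simp

theorem abs_hess_le {f : E n → ℝ} (hf : ContDiff ℝ 2 f) {B : ℝ}
    (hB : ∀ x, ‖iteratedFDeriv ℝ 2 f x‖ ≤ B) (x : E n) (i j : Fin n) : |hess f x i j| ≤ B := by
  rw [hess_eq_iter hf]
  have h := (iteratedFDeriv ℝ 2 f x).le_opNorm ![ei i, ei j]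
  rw [Fin.prod_univ_two] at h
  simp only [Matrix.cons_val_zero, Matrix.cons_val_one, norm_ei, mul_one] at h
  rw [← Real.norm_eq_abs]
  exact h.trans (hB x)

theorem qf_hess_eq {f : E n → ℝ} (hf : ContDiff ℝ 2 f) (x v : E n) :
    qf (hess f x) v = (fderiv ℝ (fderiv ℝ f) x v) v := by
  conv_rhs => rw [← sum_smul_ei v]
  unfold qf
  simp only [map_sum, map_smul, sum_apply, smul_apply,
    smul_eq_mul, hess_eq hf, Finset.mul_sum]
  rw [Finset.sum_comm]
  refine Finset.sum_congr rfl fun i _ => Finset.sum_congr rfl fun j _ => ?_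
  ring

theorem norm_fderiv_fderiv_le {f : E n → ℝ} {B : ℝ}
    (hB : ∀ x, ‖iteratedFDeriv ℝ 2 f x‖ ≤ B) (x : E n) : ‖fderiv ℝ (fderiv ℝ f) x‖ ≤ B := by
  have h := norm_iteratedFDeriv_fderiv (𝕜 := ℝ) (f := f) (n := 1) (x := x)
  have h2 := norm_iteratedFDeriv_fderiv (𝕜 := ℝ) (f := fderiv ℝ f) (n := 0) (x := x)
  rw [norm_iteratedFDeriv_zero] at h2
  rw [h2, h]
  exact hB x

theorem norm_fderiv_le {f : E n → ℝ} (hf : ContDiff ℝ 2 f) {B : ℝ}
    (hB : ∀ x, ‖iteratedFDeriv ℝ 2 f x‖ ≤ B) (x : E n) :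
    ‖fderiv ℝ f x‖ ≤ ‖fderiv ℝ f 0‖ + B * ‖x‖ := by
  have h1 : Differentiable ℝ (fderiv ℝ f) :=
    (hf.fderiv_right (m := 1) (by norm_num)).differentiable (by norm_num)
  have h2 := (convex_univ : Convex ℝ (Set.univ : Set (E n))).norm_image_sub_le_of_norm_fderiv_le
    (f := fderiv ℝ f) (C := B) (x := 0) (y := x) (fun z _ => h1 z)
    (fun z _ => norm_fderiv_fderiv_le hB z) (Set.mem_univ _) (Set.mem_univ _)
  rw [sub_zero] at h2
  calc ‖fderiv ℝ f x‖ = ‖fderiv ℝ f 0 + (fderiv ℝ f x - fderiv ℝ f 0)‖ := by rw [add_sub_cancel]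
    _ ≤ ‖fderiv ℝ f 0‖ + ‖fderiv ℝ f x - fderiv ℝ f 0‖ := norm_add_le _ _
    _ ≤ _ := by gcongr

theorem abs_pd_le_norm (f : E n → ℝ) (x : E n) (i : Fin n) : |pd i f x| ≤ ‖fderiv ℝ f x‖ := by
  have h := (fderiv ℝ f x).le_opNorm (ei i)
  rw [norm_ei, mul_one] at h
  exact h

/-- a regular quadratic lower bound -/
theorem lower_quad {f : E n → ℝ} (hf : ContDiff ℝ 2 f) {c : ℝ}
    (hc : ∀ x v, c * ‖v‖ ^ 2 ≤ qf (hess f x) v) (x : E n) :
    f 0 + fderiv ℝ f 0 x + c / 2 * ‖x‖ ^ 2 ≤ f x := by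
  have hd : Differentiable ℝ f := hf.differentiable (by norm_num)
  have h1 : Differentiable ℝ (fderiv ℝ f) :=
    (hf.fderiv_right (m := 1) (by norm_num)).differentiable (by norm_num)
  have hline : ∀ t : ℝ, HasDerivAt (fun t : ℝ => t • x) x t := fun t => by
    simpa using (hasDerivAt_id t).smul_const x
  have hg : ∀ t : ℝ, HasDerivAt (fun t : ℝ => f (t • x)) (fderiv ℝ f (t • x) x) t := fun t =>
    (hd (t • x)).hasFDerivAt.comp_hasDerivAt t (hline t)
  have hg2 : ∀ t : ℝ, HasDerivAt (fun t : ℝ => fderiv ℝ f (t • x) x)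
      ((fderiv ℝ (fderiv ℝ f) (t • x) x) x) t := fun t => by
    have h := (h1 (t • x)).hasFDerivAt.comp_hasDerivAt t (hline t)
    have h' := h.clm_apply (hasDerivAt_const t x)
    simpa using h'
  have hm : MonotoneOn (fun t : ℝ => fderiv ℝ f (t • x) x - c * t * ‖x‖ ^ 2) (Set.Ici 0) := by
    refine monotoneOn_of_deriv_nonneg (convex_Ici 0) ?_ ?_ ?_
    · exact fun t _ => (((hg2 t).sub (((hasDerivAt_id t).const_mul c).mul_const
        (‖x‖ ^ 2))).continuousAt).continuousWithinAt
    · exact fun t _ => (((hg2 t).sub (((hasDerivAt_id t).const_mul c).mul_const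
        (‖x‖ ^ 2))).differentiableAt).differentiableWithinAt
    · intro t _
      have h := ((hg2 t).sub (((hasDerivAt_id t).const_mul c).mul_const (‖x‖ ^ 2))).deriv
      have h' : deriv (fun t : ℝ => fderiv ℝ f (t • x) x - c * t * ‖x‖ ^ 2) t
          = (fderiv ℝ (fderiv ℝ f) (t • x) x) x - c * 1 * ‖x‖ ^ 2 := h
      rw [h', ← qf_hess_eq hf]
      have := hc (t • x) x
      linarith
  have hm2 : MonotoneOn (fun t : ℝ => f (t • x) - t * fderiv ℝ f 0 x - c / 2 * t ^ 2 * ‖x‖ ^ 2)
      (Set.Ici 0) := by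
    have hder : ∀ t : ℝ, HasDerivAt
        (fun t : ℝ => f (t • x) - t * fderiv ℝ f 0 x - c / 2 * t ^ 2 * ‖x‖ ^ 2)
        (fderiv ℝ f (t • x) x - fderiv ℝ f 0 x - c * t * ‖x‖ ^ 2) t := fun t => by
      have h := ((hg t).sub ((hasDerivAt_id t).mul_const (fderiv ℝ f 0 x))).sub
        ((((hasDerivAt_id t).pow 2).const_mul (c / 2)).mul_const (‖x‖ ^ 2))
      refine h.congr_deriv ?_
      simp only [id_eq, Nat.cast_ofNat, one_mul, mul_one, Nat.add_one_sub_one, pow_one]
      ring
    refine monotoneOn_of_deriv_nonneg (convex_Ici 0)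
      (fun t _ => (hder t).continuousAt.continuousWithinAt)
      (fun t _ => (hder t).differentiableAt.differentiableWithinAt) ?_
    intro t ht
    rw [interior_Ici] at ht
    rw [(hder t).deriv]
    have h := hm (Set.mem_Ici.2 le_rfl) (Set.mem_Ici.2 (le_of_lt ht)) (le_of_lt ht)
    simp only [zero_smul, mul_zero, zero_mul, sub_zero] at h
    linarith
  have h := hm2 (Set.mem_Ici.2 le_rfl) (Set.mem_Ici.2 zero_le_one) zero_le_one
  simp only [zero_smul, zero_mul, one_smul, one_mul, one_pow, mul_one] at h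
  norm_num at h
  linarith

/-! ## Functions of polynomial growth -/

/-- continuous functions of polynomial growth -/
def Gr (f : E n → ℝ) : Prop := Continuous f ∧ ∃ (B : ℝ) (k : ℕ), 0 ≤ B ∧ ∀ x, |f x| ≤ B * (1 + ‖x‖) ^ k

theorem one_le_one_add_norm (x : E n) : (1 : ℝ) ≤ 1 + ‖x‖ := by linarith [norm_nonneg x]

theorem Gr.cont {f : E n → ℝ} (hf : Gr f) : Continuous f := hf.1

theorem Gr.of_bound {f : E n → ℝ} (hf : Continuous f) {B : ℝ} (hB : ∀ x, |f x| ≤ B) : Gr f := by
  refine ⟨hf, |B|, 0, abs_nonneg _, fun x => ?_⟩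
  simpa using (hB x).trans (le_abs_self B)

theorem Gr.const (c : ℝ) : Gr (fun _ : E n => c) := Gr.of_bound continuous_const fun _ => le_rfl

theorem Gr.coord (i : Fin n) : Gr (fun x : E n => x i) := by
  refine ⟨by fun_prop, 1, 1, zero_le_one, fun x => ?_⟩
  have := abs_coord_le x i
  rw [pow_one, one_mul]
  linarith

theorem Gr.norm : Gr (fun x : E n => ‖x‖) := by
  refine ⟨continuous_norm, 1, 1, zero_le_one, fun x => ?_⟩
  rw [abs_norm, pow_one, one_mul]
  linarith

theorem Gr.add {f g : E n → ℝ} (hf : Gr f) (hg : Gr g) : Gr (fun x => f x + g x) := by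
  obtain ⟨hfc, B, k, hB, hb⟩ := hf
  obtain ⟨hgc, D, l, hD, hd⟩ := hg
  refine ⟨hfc.add hgc, B + D, k + l, add_nonneg hB hD, fun x => ?_⟩
  have h1 := one_le_one_add_norm x
  have hk : (1 + ‖x‖) ^ k ≤ (1 + ‖x‖) ^ (k + l) := pow_le_pow_right₀ h1 (Nat.le_add_right _ _)
  have hl : (1 + ‖x‖) ^ l ≤ (1 + ‖x‖) ^ (k + l) := pow_le_pow_right₀ h1 (Nat.le_add_left _ _)
  calc |f x + g x| ≤ |f x| + |g x| := abs_add_le _ _
    _ ≤ B * (1 + ‖x‖) ^ k + D * (1 + ‖x‖) ^ l := add_le_add (hb x) (hd x)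
    _ ≤ B * (1 + ‖x‖) ^ (k + l) + D * (1 + ‖x‖) ^ (k + l) := by gcongr
    _ = _ := by ring

theorem Gr.mul {f g : E n → ℝ} (hf : Gr f) (hg : Gr g) : Gr (fun x => f x * g x) := by
  obtain ⟨hfc, B, k, hB, hb⟩ := hf
  obtain ⟨hgc, D, l, hD, hd⟩ := hg
  refine ⟨hfc.mul hgc, B * D, k + l, mul_nonneg hB hD, fun x => ?_⟩
  rw [abs_mul, pow_add]
  calc |f x| * |g x| ≤ (B * (1 + ‖x‖) ^ k) * (D * (1 + ‖x‖) ^ l) :=
        mul_le_mul (hb x) (hd x) (abs_nonneg _) (mul_nonneg hB (pow_nonneg (by positivity) _))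
    _ = _ := by ring

theorem Gr.neg {f : E n → ℝ} (hf : Gr f) : Gr (fun x => -f x) := by
  obtain ⟨hfc, B, k, hB, hb⟩ := hf
  exact ⟨hfc.neg, B, k, hB, fun x => by rw [abs_neg]; exact hb x⟩

theorem Gr.sub {f g : E n → ℝ} (hf : Gr f) (hg : Gr g) : Gr (fun x => f x - g x) := by
  have h := hf.add hg.neg
  simpa [sub_eq_add_neg] using h

theorem Gr.const_mul {f : E n → ℝ} (hf : Gr f) (c : ℝ) : Gr (fun x => c * f x) :=
  (Gr.const c).mul hf

theorem Gr.pow {f : E n → ℝ} (hf : Gr f) (k : ℕ) : Gr (fun x => f x ^ k) := by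
  induction k with
  | zero => simpa using Gr.const (n := n) 1
  | succ k ih =>
    have h := ih.mul hf
    simpa [pow_succ] using h

theorem Gr.abs {f : E n → ℝ} (hf : Gr f) : Gr (fun x => |f x|) := by
  obtain ⟨hfc, B, k, hB, hb⟩ := hf
  exact ⟨hfc.abs, B, k, hB, fun x => by rw [abs_abs]; exact hb x⟩

theorem Gr.sum {ι : Type*} (s : Finset ι) {f : ι → E n → ℝ} (hf : ∀ i ∈ s, Gr (f i)) :
    Gr (fun x => ∑ i ∈ s, f i x) := by
  classical
  induction s using Finset.induction_on with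
  | empty => simpa using Gr.const (n := n) 0
  | insert a s ha ih =>
    have h := (hf a (Finset.mem_insert_self a s)).add
      (ih fun i hi => hf i (Finset.mem_insert_of_mem hi))
    simpa [Finset.sum_insert ha] using h

theorem Gr.of_test {f : E n → ℝ} (hf : Continuous f) (hs : HasCompactSupport f) : Gr f := by
  obtain ⟨B, hB⟩ := hf.bounded_above_of_compact_support hs
  exact Gr.of_bound hf hB

/-! ## Integrability against `exp (-V)` -/

theorem integrable_gauss {a : ℝ} (ha : 0 < a) :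
    Integrable (fun x : E n => Real.exp (-a * ‖x‖ ^ 2)) := by
  have h := GaussianFourier.integrable_cexp_neg_mul_sq_norm_add (V := E n) (b := (a : ℂ))
    (by simpa using ha) 0 0
  have h2 := h.norm
  refine h2.congr (Filter.Eventually.of_forall fun x => ?_)
  simp only [Complex.norm_exp]
  congr 1
  simp
  left
  norm_cast

theorem growth_le_exp {a : ℝ} (ha : 0 < a) (k : ℕ) :
    ∃ C : ℝ, 0 < C ∧ ∀ r : ℝ, 0 ≤ r → (1 + r) ^ k ≤ C * Real.exp (a * r ^ 2) := by
  refine ⟨k.factorial * Real.exp (1 + 1 / (4 * a)), by positivity, fun r hr => ?_⟩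
  have h1 : (1 + r) ^ k / k.factorial ≤ Real.exp (1 + r) :=
    Real.pow_div_factorial_le_exp (1 + r) (by linarith) k
  have h2 : (1 + r) ^ k ≤ k.factorial * Real.exp (1 + r) := by
    rw [div_le_iff₀ (by positivity)] at h1
    linarith
  have h3 : 1 + r ≤ 1 + 1 / (4 * a) + a * r ^ 2 := by
    have h4 : 0 ≤ a * (r - 1 / (2 * a)) ^ 2 := by positivity
    have h5 : a * (r - 1 / (2 * a)) ^ 2 = a * r ^ 2 - r + 1 / (4 * a) := by
      field_simp
      ring
    linarith
  calc (1 + r) ^ k ≤ k.factorial * Real.exp (1 + r) := h2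
    _ ≤ k.factorial * Real.exp (1 + 1 / (4 * a) + a * r ^ 2) := by gcongr
    _ = _ := by rw [Real.exp_add]; ring

namespace Reg

variable {V : E n → ℝ} {c C : ℝ}

theorem C2 (h : Reg V c C) : ContDiff ℝ 2 V := h.smooth.of_le (by norm_cast)

theorem cont (h : Reg V c C) : Continuous V := h.smooth.continuous

theorem quad_lower (h : Reg V c C) : ∃ A : ℝ, ∀ x, c / 4 * ‖x‖ ^ 2 - A ≤ V x := by
  refine ⟨-V 0 + ‖fderiv ℝ V 0‖ ^ 2 / c, fun x => ?_⟩
  have h1 := lower_quad h.C2 h.lower x
  have h2 : -(‖fderiv ℝ V 0‖ * ‖x‖) ≤ fderiv ℝ V 0 x := by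
    have := (fderiv ℝ V 0).le_opNorm x
    rw [Real.norm_eq_abs] at this
    linarith [neg_abs_le (fderiv ℝ V 0 x)]
  have hc := h.c_pos
  have h3 : ‖fderiv ℝ V 0‖ * ‖x‖ ≤ c / 4 * ‖x‖ ^ 2 + ‖fderiv ℝ V 0‖ ^ 2 / c := by
    have h4 : 0 ≤ (c / 2 * ‖x‖ - ‖fderiv ℝ V 0‖) ^ 2 / c := by positivity
    have h5 : (c / 2 * ‖x‖ - ‖fderiv ℝ V 0‖) ^ 2 / c
        = c / 4 * ‖x‖ ^ 2 - ‖fderiv ℝ V 0‖ * ‖x‖ + ‖fderiv ℝ V 0‖ ^ 2 / c := by
      field_simp
      ring
    linarith
  nlinarith

theorem integrable_gr (h : Reg V c C) {f : E n → ℝ} (hf : Gr f) :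
    Integrable (fun x => f x * Real.exp (-V x)) := by
  obtain ⟨hfc, B, k, hB, hb⟩ := hf
  obtain ⟨A, hA⟩ := h.quad_lower
  have hc := h.c_pos
  obtain ⟨D, hD, hd⟩ := growth_le_exp (a := c / 8) (by positivity) k
  have hi := (integrable_gauss (n := n) (a := c / 8) (by positivity)).const_mul
    (B * D * Real.exp A)
  refine hi.mono' ?_ (Filter.Eventually.of_forall fun x => ?_)
  · exact (hfc.mul (Real.continuous_exp.comp h.cont.neg)).aestronglyMeasurable
  · rw [norm_mul, Real.norm_eq_abs, Real.norm_eq_abs, Real.abs_exp]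
    have h1 := hb x
    have h2 := hd ‖x‖ (norm_nonneg x)
    have h3 : Real.exp (-V x) ≤ Real.exp A * Real.exp (-(c / 4) * ‖x‖ ^ 2) := by
      rw [← Real.exp_add]
      exact Real.exp_le_exp.2 (by have := hA x; linarith)
    calc |f x| * Real.exp (-V x)
        ≤ (B * (D * Real.exp (c / 8 * ‖x‖ ^ 2))) *
          (Real.exp A * Real.exp (-(c / 4) * ‖x‖ ^ 2)) :=
          mul_le_mul (h1.trans (mul_le_mul_of_nonneg_left h2 hB)) h3 (Real.exp_pos _).le
            (by positivity)
      _ = B * D * Real.exp A * (Real.exp (c / 8 * ‖x‖ ^ 2) * Real.exp (-(c / 4) * ‖x‖ ^ 2)) := by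
          ring
      _ = B * D * Real.exp A * Real.exp (-(c / 8) * ‖x‖ ^ 2) := by
          rw [← Real.exp_add]
          congr 2
          ring

theorem integrable_exp (h : Reg V c C) : Integrable (fun x => Real.exp (-V x)) := by
  simpa using h.integrable_gr (Gr.const 1)

theorem Z_pos (h : Reg V c C) : 0 < ∫ x, Real.exp (-V x) := by
  rw [integral_pos_iff_support_of_nonneg (fun x => (Real.exp_pos _).le) h.integrable_exp]
  have : Function.support (fun x => Real.exp (-V x)) = Set.univ := by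
    ext x
    simp [Real.exp_ne_zero]
  rw [this]
  exact isOpen_univ.measure_pos volume ⟨0, trivial⟩

end Reg

/-- functions with bounded second derivative have gradients of polynomial growth -/
theorem gr_pd_of_bdd {f : E n → ℝ} (hf : ContDiff ℝ 2 f) {B : ℝ}
    (hB : ∀ x, ‖iteratedFDeriv ℝ 2 f x‖ ≤ B) (i : Fin n) : Gr (pd i f) := by
  have hB0 : 0 ≤ B := (norm_nonneg _).trans (hB 0)
  refine ⟨(contDiff_pd (k := 1) hf (by norm_num) i).continuous,
    ‖fderiv ℝ f 0‖ + B, 1, by positivity, fun x => ?_⟩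
  have h1 := abs_pd_le_norm f x i
  have h2 := norm_fderiv_le hf hB x
  have h3 := norm_nonneg x
  have h4 := norm_nonneg (fderiv ℝ f 0)
  rw [pow_one]
  nlinarith

theorem gr_hess_of_bdd {f : E n → ℝ} (hf : ContDiff ℝ 2 f) {B : ℝ}
    (hB : ∀ x, ‖iteratedFDeriv ℝ 2 f x‖ ≤ B) (i j : Fin n) : Gr (fun x => hess f x i j) :=
  Gr.of_bound (continuous_hess hf i j) fun x => abs_hess_le hf hB x i j

theorem gr_of_bdd {f : E n → ℝ} (hf : ContDiff ℝ 2 f) {B : ℝ}
    (hB : ∀ x, ‖iteratedFDeriv ℝ 2 f x‖ ≤ B) : Gr f := by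
  have hB0 : 0 ≤ B := (norm_nonneg _).trans (hB 0)
  have hd : Differentiable ℝ f := hf.differentiable (by norm_num)
  refine ⟨hf.continuous, |f 0| + (‖fderiv ℝ f 0‖ + B), 2, by positivity, fun x => ?_⟩
  have h2 := (convex_closedBall (0 : E n) ‖x‖).norm_image_sub_le_of_norm_fderiv_le
    (f := f) (C := ‖fderiv ℝ f 0‖ + B * ‖x‖) (x := 0) (y := x) (fun z _ => hd z)
    (fun z hz => by
      have := norm_fderiv_le hf hB z
      have hz' : ‖z‖ ≤ ‖x‖ := by simpa using hz
      nlinarith) (by simp) (by simp)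
  rw [sub_zero, Real.norm_eq_abs] at h2
  have h3 : |f x| ≤ |f 0| + |f x - f 0| := by
    calc |f x| = |f 0 + (f x - f 0)| := by rw [add_sub_cancel]
      _ ≤ _ := abs_add_le _ _
  have h4 := norm_nonneg x
  have h5 := norm_nonneg (fderiv ℝ f 0)
  have h6 := abs_nonneg (f 0)
  nlinarith [mul_nonneg h5 h4, mul_nonneg hB0 h4, mul_nonneg h6 h4, mul_nonneg h6 (mul_nonneg h4 h4),
    mul_nonneg h5 (mul_nonneg h4 h4), mul_nonneg hB0 (mul_nonneg h4 h4)]

theorem Reg.gr {V : E n → ℝ} {c C : ℝ} (h : Reg V c C) : Gr V := by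
  obtain ⟨B, hB⟩ := h.bdd 2 le_rfl
  exact gr_of_bdd h.C2 hB

theorem Piece.C2 {W : E n → ℝ} (h : Piece W) : ContDiff ℝ 2 W :=
  h.smooth.of_le (by norm_cast)

theorem Piece.gr_pd {W : E n → ℝ} (h : Piece W) (i : Fin n) : Gr (pd i W) := by
  obtain ⟨B, hB⟩ := h.bdd 2 le_rfl
  exact gr_pd_of_bdd h.C2 hB i

theorem Piece.gr_hess {W : E n → ℝ} (h : Piece W) (i j : Fin n) : Gr (fun x => hess W x i j) := by
  obtain ⟨B, hB⟩ := h.bdd 2 le_rfl
  exact gr_hess_of_bdd h.C2 hB i j

end Vale.Agent.P227.M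
end

section

open MeasureTheory Set
open scoped ENNReal NNReal Pointwise

namespace Vale.Agent.P227

/-- One-dimensional Brunn-Minkowski, compact case. -/
theorem bm_one_compact {A B C : Set ℝ} {s t : ℝ} (hs : 0 < s) (ht : 0 < t)
    (hA : IsCompact A) (hB : IsCompact B)
    (nA : A.Nonempty) (nB : B.Nonempty) (h : ∀ a ∈ A, ∀ b ∈ B, s * a + t * b ∈ C) :
    ENNReal.ofReal s * volume A + ENNReal.ofReal t * volume B ≤ volume C := by
  obtain ⟨a, haA, ha⟩ := hA.exists_isGreatest nA
  obtain ⟨b, hbB, hb⟩ := hB.exists_isLeast nB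
  have h1 : (fun x => x + t * b) '' (s • A) ⊆ C := by
    rintro _ ⟨_, ⟨x, hx, rfl⟩, rfl⟩
    exact h x hx b hbB
  have h2 : (fun y => s * a + y) '' (t • B) ⊆ C := by
    rintro _ ⟨_, ⟨y, hy, rfl⟩, rfl⟩
    exact h a haA y hy
  have c1 : IsCompact ((fun x => x + t * b) '' (s • A)) := (hA.smul s).image (by fun_prop)
  have c2 : IsCompact ((fun y => s * a + y) '' (t • B)) := (hB.smul t).image (by fun_prop)
  have hdis : AEDisjoint volume ((fun x => x + t * b) '' (s • A))
      ((fun y => s * a + y) '' (t • B)) := by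
    have : ((fun x => x + t * b) '' (s • A)) ∩ ((fun y => s * a + y) '' (t • B)) ⊆
        {s * a + t * b} := by
      rintro _ ⟨⟨_, ⟨x, hx, rfl⟩, rfl⟩, ⟨_, ⟨y, hy, rfl⟩, hxy⟩⟩
      have hx' := ha hx
      have hy' := hb hy
      simp only [smul_eq_mul] at hxy
      simp only [mem_singleton_iff, smul_eq_mul]
      have e1 : s * x ≤ s * a := by gcongr
      have e2 : t * b ≤ t * y := by gcongr
      linarith
    exact measure_mono_null this (by simp)
  have v1 : volume ((fun x => x + t * b) '' (s • A)) = ENNReal.ofReal s * volume A := by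
    rw [image_add_right, measure_preimage_add_right, Measure.addHaar_smul]
    simp [abs_of_pos hs]
  have v2 : volume ((fun y => s * a + y) '' (t • B)) = ENNReal.ofReal t * volume B := by
    rw [image_add_left, measure_preimage_add, Measure.addHaar_smul]
    simp [abs_of_pos ht]
  calc ENNReal.ofReal s * volume A + ENNReal.ofReal t * volume B
      = volume ((fun x => x + t * b) '' (s • A)) + volume ((fun y => s * a + y) '' (t • B)) := by
        rw [v1, v2]
    _ = volume (((fun x => x + t * b) '' (s • A)) ∪ ((fun y => s * a + y) '' (t • B))) := by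
        rw [measure_union₀ c2.measurableSet.nullMeasurableSet hdis]
    _ ≤ volume C := measure_mono (union_subset h1 h2)

/-- One-dimensional Brunn-Minkowski. -/
theorem bm_one {A B C : Set ℝ} {s t : ℝ} (hs : 0 < s) (ht : 0 < t)
    (hA : MeasurableSet A) (hB : MeasurableSet B)
    (nA : A.Nonempty) (nB : B.Nonempty) (h : ∀ a ∈ A, ∀ b ∈ B, s * a + t * b ∈ C) :
    ENNReal.ofReal s * volume A + ENNReal.ofReal t * volume B ≤ volume C := by
  have hs0 : ENNReal.ofReal s ≠ 0 := by simpa using hs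
  have ht0 : ENNReal.ofReal t ≠ 0 := by simpa using ht
  have key : ∀ K L : Set ℝ, IsCompact K → IsCompact L → K ⊆ A → L ⊆ B →
      ENNReal.ofReal s * volume K + ENNReal.ofReal t * volume L ≤ volume C := by
    intro K L hK hL hKA hLB
    obtain ⟨a0, ha0⟩ := nA
    obtain ⟨b0, hb0⟩ := nB
    have hK' : IsCompact (K ∪ {a0}) := hK.union isCompact_singleton
    have hL' : IsCompact (L ∪ {b0}) := hL.union isCompact_singleton
    have := bm_one_compact hs ht hK' hL' ⟨a0, by simp⟩ ⟨b0, by simp⟩ (C := C) (by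
      intro a ha b hb
      apply h
      · rcases ha with ha | ha
        · exact hKA ha
        · rw [mem_singleton_iff.mp ha]; exact ha0
      · rcases hb with hb | hb
        · exact hLB hb
        · rw [mem_singleton_iff.mp hb]; exact hb0)
    refine le_trans (add_le_add ?_ ?_) this
    · gcongr; exact subset_union_left
    · gcongr; exact subset_union_left
  have key1 : ∀ K : Set ℝ, IsCompact K → K ⊆ A →
      ENNReal.ofReal s * volume K + ENNReal.ofReal t * volume B ≤ volume C := by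
    intro K hK hKA
    have : volume B = ⨆ (L) (_ : L ⊆ B) (_ : IsCompact L), volume L := hB.measure_eq_iSup_isCompact _
    rw [this]
    simp_rw [ENNReal.mul_iSup]
    by_cases htop : volume C = ∞
    · rw [htop]; exact le_top
    have hKfin : ENNReal.ofReal s * volume K ≠ ∞ :=
      ENNReal.mul_ne_top ENNReal.ofReal_ne_top hK.measure_lt_top.ne
    have h0 : ENNReal.ofReal s * volume K ≤ volume C := by
      simpa using key K ∅ hK isCompact_empty hKA (empty_subset _)
    refine le_trans (add_le_add_right (?_ : _ ≤ volume C - ENNReal.ofReal s * volume K) _) ?_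
    · refine iSup_le fun L => iSup_le fun hL => iSup_le fun hLc => ?_
      exact ENNReal.le_sub_of_add_le_left hKfin (key K L hK hLc hKA hL)
    · rw [add_tsub_cancel_of_le h0]
  by_cases htop : volume C = ∞
  · rw [htop]; exact le_top
  have h0 : ENNReal.ofReal t * volume B ≤ volume C := by
    simpa using key1 ∅ isCompact_empty (empty_subset _)
  have hBfin : ENNReal.ofReal t * volume B ≠ ∞ := ne_top_of_le_ne_top htop h0
  have : volume A = ⨆ (L) (_ : L ⊆ A) (_ : IsCompact L), volume L := hA.measure_eq_iSup_isCompact _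
  rw [this]
  simp_rw [ENNReal.mul_iSup]
  refine le_trans (add_le_add_left (?_ : _ ≤ volume C - ENNReal.ofReal t * volume B) _) ?_
  · refine iSup_le fun L => iSup_le fun hL => iSup_le fun hLc => ?_
    exact ENNReal.le_sub_of_add_le_right hBfin (key1 L hLc hL)
  · rw [tsub_add_cancel_of_le h0]


/-- Normalised one-dimensional Prekopa-Leindler. -/
theorem pl_one_normalized {s t : ℝ} (hs : 0 < s) (ht : 0 < t) (hst : s + t = 1)
    (f g h : ℝ → ℝ≥0∞) (hf : Measurable f) (hg : Measurable g)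
    (hh : Measurable h) (hf1 : ⨆ x, f x = 1) (hg1 : ⨆ x, g x = 1)
    (hfg : ∀ x y, f x ^ s * g y ^ t ≤ h (s * x + t * y)) :
    ENNReal.ofReal s * (∫⁻ x, f x) + ENNReal.ofReal t * (∫⁻ x, g x) ≤ ∫⁻ x, h x := by
  have hfle : ∀ x, f x ≤ 1 := fun x => hf1 ▸ le_iSup f x
  have hgle : ∀ x, g x ≤ 1 := fun x => hg1 ▸ le_iSup g x
  set k : ℝ → ℝ≥0∞ := fun x => min (h x) 1 with hk
  have hkm : Measurable k := hh.min measurable_const
  have hk1 : ∀ x, k x ≤ 1 := fun x => min_le_right _ _
  have hfgk : ∀ x y, f x ^ s * g y ^ t ≤ k (s * x + t * y) := by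
    intro x y
    have h1 : f x ^ s * g y ^ t ≤ 1 := by
      calc f x ^ s * g y ^ t ≤ 1 * 1 :=
            mul_le_mul' (ENNReal.rpow_le_one (hfle x) hs.le) (ENNReal.rpow_le_one (hgle y) ht.le)
        _ = 1 := by simp
    simp only [hk]
    exact le_min (hfg x y) h1
  have hcake : ∀ u : ℝ → ℝ≥0∞, Measurable u → (∀ x, u x ≤ 1) →
      ∫⁻ x, u x = ∫⁻ r in Ioi (0 : ℝ), volume {x | r < (u x).toReal} := by
    intro u hu hu1
    rw [← lintegral_eq_lintegral_meas_lt volume (Filter.Eventually.of_forall fun x => by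
      simp) hu.ennreal_toReal.aemeasurable]
    apply lintegral_congr
    intro x
    rw [ENNReal.ofReal_toReal (ne_top_of_le_ne_top ENNReal.one_ne_top (hu1 x))]
  have hkh : ∫⁻ x, k x ≤ ∫⁻ x, h x := lintegral_mono fun x => min_le_left _ _
  refine le_trans ?_ hkh
  rw [hcake f hf hfle, hcake g hg hgle, hcake k hkm hk1]
  have hmeas : ∀ u : ℝ → ℝ≥0∞, Measurable (fun r : ℝ => volume {x | r < (u x).toReal}) := by
    intro u
    apply Antitone.measurable
    intro a b hab
    exact measure_mono fun x hx => lt_of_le_of_lt hab hx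
  rw [← lintegral_const_mul _ (hmeas f), ← lintegral_const_mul _ (hmeas g),
    ← lintegral_add_left ((hmeas f).const_mul _)]
  refine setLIntegral_mono' measurableSet_Ioi ?_
  intro r hr
  have hr0 : 0 < r := hr
  rcases lt_or_ge r 1 with hr1 | hr1
  · apply bm_one hs ht
    · exact measurableSet_lt measurable_const hf.ennreal_toReal
    · exact measurableSet_lt measurable_const hg.ennreal_toReal
    · have : ENNReal.ofReal r < ⨆ x, f x := by
        rw [hf1]
        rw [← ENNReal.ofReal_one]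
        exact (ENNReal.ofReal_lt_ofReal_iff one_pos).2 hr1
      obtain ⟨x, hx⟩ := lt_iSup_iff.1 this
      refine ⟨x, ?_⟩
      exact (ENNReal.ofReal_lt_iff_lt_toReal hr0.le
        (ne_top_of_le_ne_top ENNReal.one_ne_top (hfle x))).1 hx
    · have : ENNReal.ofReal r < ⨆ x, g x := by
        rw [hg1]
        rw [← ENNReal.ofReal_one]
        exact (ENNReal.ofReal_lt_ofReal_iff one_pos).2 hr1
      obtain ⟨x, hx⟩ := lt_iSup_iff.1 this
      refine ⟨x, ?_⟩
      exact (ENNReal.ofReal_lt_iff_lt_toReal hr0.le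
        (ne_top_of_le_ne_top ENNReal.one_ne_top (hgle x))).1 hx
    · intro a ha b hb
      simp only [mem_ofPred_eq] at ha hb ⊢
      have h3 := ENNReal.toReal_mono (ne_top_of_le_ne_top ENNReal.one_ne_top (hk1 _)) (hfgk a b)
      rw [ENNReal.toReal_mul, ← ENNReal.toReal_rpow, ← ENNReal.toReal_rpow] at h3
      have h4 : r < (k (s * a + t * b)).toReal := by
        calc r = r ^ s * r ^ t := by
              rw [← Real.rpow_add hr0, hst, Real.rpow_one]
          _ < (f a).toReal ^ s * (g b).toReal ^ t := by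
            apply mul_lt_mul''
            · exact Real.rpow_lt_rpow hr0.le ha hs
            · exact Real.rpow_lt_rpow hr0.le hb ht
            · positivity
            · positivity
          _ ≤ _ := h3
      exact h4
  · have e1 : {x | r < (f x).toReal} = ∅ := by
      ext x
      simp only [mem_ofPred_eq, mem_empty_iff_false, iff_false, not_lt]
      refine le_trans ?_ hr1
      have := ENNReal.toReal_mono ENNReal.one_ne_top (hfle x)
      simpa using this
    have e2 : {x | r < (g x).toReal} = ∅ := by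
      ext x
      simp only [mem_ofPred_eq, mem_empty_iff_false, iff_false, not_lt]
      refine le_trans ?_ hr1
      have := ENNReal.toReal_mono ENNReal.one_ne_top (hgle x)
      simpa using this
    rw [e1, e2]
    simp

theorem ennreal_amgm {s t : ℝ} (hs : 0 < s) (ht : 0 < t) (hst : s + t = 1) (x y : ℝ≥0∞) :
    x ^ s * y ^ t ≤ ENNReal.ofReal s * x + ENNReal.ofReal t * y := by
  have hs0 : ENNReal.ofReal s ≠ 0 := by simpa using hs
  have ht0 : ENNReal.ofReal t ≠ 0 := by simpa using ht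
  by_cases hx : x = ∞
  · subst hx; simp [ENNReal.mul_top hs0]
  by_cases hy : y = ∞
  · subst hy; simp [ENNReal.mul_top ht0]
  lift x to ℝ≥0 using hx
  lift y to ℝ≥0 using hy
  have := NNReal.geom_mean_le_arith_mean2_weighted s.toNNReal t.toNNReal x y (by
    rw [← Real.toNNReal_add hs.le ht.le, hst, Real.toNNReal_one])
  rw [Real.coe_toNNReal s hs.le, Real.coe_toNNReal t ht.le] at this
  rw [ENNReal.ofReal, ENNReal.ofReal, ← ENNReal.coe_rpow_of_nonneg _ hs.le,
    ← ENNReal.coe_rpow_of_nonneg _ ht.le]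
  exact_mod_cast this

theorem pl_one_bdd {s t : ℝ} (hs : 0 < s) (ht : 0 < t) (hst : s + t = 1)
    (f g h : ℝ → ℝ≥0∞) (hf : Measurable f) (hg : Measurable g)
    (hh : Measurable h) (hf1 : ⨆ x, f x ≠ ∞) (hg1 : ⨆ x, g x ≠ ∞)
    (hfg : ∀ x y, f x ^ s * g y ^ t ≤ h (s * x + t * y)) :
    (∫⁻ x, f x) ^ s * (∫⁻ x, g x) ^ t ≤ ∫⁻ x, h x := by
  by_cases hf0 : ⨆ x, f x = 0
  · have : f = fun _ => 0 := by
      funext x
      have := le_iSup f x
      rw [hf0] at this
      simpa using this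
    rw [this]
    simp [hs]
  by_cases hg0 : ⨆ x, g x = 0
  · have : g = fun _ => 0 := by
      funext x
      have := le_iSup g x
      rw [hg0] at this
      simpa using this
    rw [this]
    simp [ht]
  set a := ⨆ x, f x with ha
  set b := ⨆ x, g x with hb
  have has : a ^ s ≠ 0 := by simp [hf0, hf1, ENNReal.rpow_eq_zero_iff]
  have has' : a ^ s ≠ ∞ := ENNReal.rpow_ne_top_of_nonneg hs.le hf1
  have hbt : b ^ t ≠ 0 := by simp [hg0, hg1, ENNReal.rpow_eq_zero_iff]
  have hbt' : b ^ t ≠ ∞ := ENNReal.rpow_ne_top_of_nonneg ht.le hg1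
  set c := a ^ s * b ^ t with hc
  have hc0 : c ≠ 0 := mul_ne_zero has hbt
  have hc1 : c ≠ ∞ := ENNReal.mul_ne_top has' hbt'
  have key := pl_one_normalized hs ht hst (fun x => a⁻¹ * f x) (fun x => b⁻¹ * g x)
    (fun x => c⁻¹ * h x) (hf.const_mul _) (hg.const_mul _) (hh.const_mul _)
    (by rw [← ENNReal.mul_iSup, ← ha]; exact ENNReal.inv_mul_cancel hf0 hf1)
    (by rw [← ENNReal.mul_iSup, ← hb]; exact ENNReal.inv_mul_cancel hg0 hg1)
    (by
      intro x y
      rw [ENNReal.mul_rpow_of_nonneg _ _ hs.le, ENNReal.mul_rpow_of_nonneg _ _ ht.le,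
        ENNReal.inv_rpow, ENNReal.inv_rpow, hc, ENNReal.mul_inv (Or.inl has) (Or.inl has')]
      calc (a ^ s)⁻¹ * f x ^ s * ((b ^ t)⁻¹ * g y ^ t)
          = ((a ^ s)⁻¹ * (b ^ t)⁻¹) * (f x ^ s * g y ^ t) := by ring
        _ ≤ _ := by gcongr; exact hfg x y)
  rw [lintegral_const_mul _ hf, lintegral_const_mul _ hg, lintegral_const_mul _ hh] at key
  set F := ∫⁻ x, f x
  set G := ∫⁻ x, g x
  set H := ∫⁻ x, h x
  have h5 := le_trans (ennreal_amgm hs ht hst _ _) key
  rw [ENNReal.mul_rpow_of_nonneg _ _ hs.le, ENNReal.mul_rpow_of_nonneg _ _ ht.le,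
        ENNReal.inv_rpow, ENNReal.inv_rpow] at h5
  have h6 : c * ((a ^ s)⁻¹ * F ^ s * ((b ^ t)⁻¹ * G ^ t)) ≤ c * (c⁻¹ * H) := by gcongr
  have h7 : c * ((a ^ s)⁻¹ * F ^ s * ((b ^ t)⁻¹ * G ^ t)) = F ^ s * G ^ t := by
    rw [hc]
    calc a ^ s * b ^ t * ((a ^ s)⁻¹ * F ^ s * ((b ^ t)⁻¹ * G ^ t))
        = (a ^ s * (a ^ s)⁻¹) * (b ^ t * (b ^ t)⁻¹) * (F ^ s * G ^ t) := by ring
      _ = _ := by
        rw [ENNReal.mul_inv_cancel has has', ENNReal.mul_inv_cancel hbt hbt']; simp
  rw [h7, ← mul_assoc, ENNReal.mul_inv_cancel hc0 hc1, one_mul] at h6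
  exact h6

theorem pl_one {s t : ℝ} (hs : 0 < s) (ht : 0 < t) (hst : s + t = 1)
    (f g h : ℝ → ℝ≥0∞) (hf : Measurable f) (hg : Measurable g)
    (hh : Measurable h) (hfg : ∀ x y, f x ^ s * g y ^ t ≤ h (s * x + t * y)) :
    (∫⁻ x, f x) ^ s * (∫⁻ x, g x) ^ t ≤ ∫⁻ x, h x := by
  have hcut : ∀ u : ℝ → ℝ≥0∞, Measurable u →
      ∫⁻ x, u x = ⨆ n : ℕ, ∫⁻ x, min (u x) n := by
    intro u hu
    rw [← lintegral_iSup (fun n => hu.min measurable_const)
      (fun m n hmn x => min_le_min_left _ (by exact_mod_cast hmn))]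
    apply lintegral_congr
    intro x
    apply le_antisymm
    · by_cases hx : u x = ∞
      · rw [hx]
        simp only [top_le_iff, le_top, inf_of_le_right]
        exact ENNReal.iSup_natCast
      · obtain ⟨n, hn⟩ := ENNReal.exists_nat_gt hx
        refine le_trans ?_ (le_iSup _ n)
        rw [min_eq_left hn.le]
    · exact iSup_le fun n => min_le_left _ _
  have hsup : ∀ (u : ℝ → ℝ≥0∞) (n : ℕ), ⨆ x, min (u x) (n : ℝ≥0∞) ≠ ∞ := by
    intro u n
    refine ne_top_of_le_ne_top (ENNReal.natCast_ne_top n) (iSup_le fun x => min_le_right _ _)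
  have hpow : ∀ (r : ℝ) (_ : 0 < r) (u : ℕ → ℝ≥0∞), (⨆ n, u n) ^ r = ⨆ n, u n ^ r := by
    intro r hr u
    exact (ENNReal.orderIsoRpow r hr).map_iSup u
  rw [hcut f hf, hcut g hg, hpow s hs, hpow t ht, ENNReal.iSup_mul]
  refine iSup_le fun n => ?_
  rw [ENNReal.mul_iSup]
  refine iSup_le fun m => ?_
  refine pl_one_bdd hs ht hst _ _ h (hf.min measurable_const) (hg.min measurable_const) hh
    (hsup f n) (hsup g m) ?_
  intro x y
  exact le_trans (mul_le_mul' (ENNReal.rpow_le_rpow (min_le_left _ _) hs.le)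
    (ENNReal.rpow_le_rpow (min_le_left _ _) ht.le)) (hfg x y)

/-- Prekopa-Leindler inequality on `Fin n → ℝ`. -/
theorem pl_pi {s t : ℝ} (hs : 0 < s) (ht : 0 < t) (hst : s + t = 1) (n : ℕ) :
    ∀ (f g h : (Fin n → ℝ) → ℝ≥0∞), Measurable f → Measurable g →
    Measurable h → (∀ x y, f x ^ s * g y ^ t ≤ h (s • x + t • y)) →
    (∫⁻ x, f x) ^ s * (∫⁻ x, g x) ^ t ≤ ∫⁻ x, h x := by
  induction n with
  | zero =>
    intro f g h hf hg hh hfg
    have hv : (volume : Measure (Fin 0 → ℝ)) univ = 1 := by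
      simp [volume_pi]
    rw [lintegral_unique, lintegral_unique, lintegral_unique, hv]
    simp only [mul_one]
    exact (hfg _ _).trans (le_of_eq (congrArg h (Subsingleton.elim _ _)))
  | succ n ih =>
    intro f g h hf hg hh hfg
    set e := MeasurableEquiv.piFinSuccAbove (fun _ : Fin (n + 1) => ℝ) 0 with he
    have hvp : MeasurePreserving e volume volume :=
      volume_preserving_piFinSuccAbove (fun _ : Fin (n + 1) => ℝ) 0
    have hsplit : ∀ u : (Fin (n + 1) → ℝ) → ℝ≥0∞, Measurable u →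
        ∫⁻ x, u x = ∫⁻ a : ℝ, ∫⁻ x : Fin n → ℝ, u (e.symm (a, x)) := by
      intro u hu
      rw [← hvp.symm.lintegral_comp hu]
      exact lintegral_prod _ (hu.comp e.symm.measurable).aemeasurable
    have hmid : ∀ (a b : ℝ) (x y : Fin n → ℝ),
        s • e.symm (a, x) + t • e.symm (b, y) = e.symm (s * a + t * b, s • x + t • y) := by
      intro a b x y
      funext i
      refine Fin.cases ?_ (fun j => ?_) i
      · simp [he, MeasurableEquiv.piFinSuccAbove]
      · simp [he, MeasurableEquiv.piFinSuccAbove]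
    have hm2 : ∀ u : (Fin (n + 1) → ℝ) → ℝ≥0∞, Measurable u →
        Measurable fun a : ℝ => ∫⁻ x : Fin n → ℝ, u (e.symm (a, x)) := by
      intro u hu
      exact (hu.comp e.symm.measurable).lintegral_prod_right'
    rw [hsplit f hf, hsplit g hg, hsplit h hh]
    apply pl_one hs ht hst _ _ _ (hm2 f hf) (hm2 g hg) (hm2 h hh)
    intro a b
    have hsec : ∀ (u : (Fin (n + 1) → ℝ) → ℝ≥0∞) (c : ℝ), Measurable u →
        Measurable fun x : Fin n → ℝ => u (e.symm (c, x)) := by
      intro u c hu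
      exact hu.comp (e.symm.measurable.comp measurable_prodMk_left)
    apply ih _ _ _ (hsec f a hf) (hsec g b hg) (hsec h _ hh)
    intro x y
    have := hfg (e.symm (a, x)) (e.symm (b, y))
    rwa [hmid] at this

end Vale.Agent.P227
end

section

/-!
# P227/M/Dif: the gradient map of a uniformly convex function is a diffeomorphism

`GMap g A a b`: `g` has derivative `A`, `A` continuous, symmetric and
`a |v|^2 <= <A y v, v> <= b |v|^2`.  No potential is needed here.
-/

noncomputable section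

open MeasureTheory Set Filter Topology
open scoped RealInnerProductSpace NNReal

namespace Vale.Agent.P227.M.Dif

variable {E : Type*} [NormedAddCommGroup E] [InnerProductSpace ℝ E] [FiniteDimensional ℝ E]

/-- A (symmetric, uniformly elliptic) gradient-like map. -/
structure GMap (g : E → E) (A : E → E →L[ℝ] E) (a b : ℝ) : Prop where
  pos : 0 < a
  der : ∀ y, HasFDerivAt g (A y) y
  cont : Continuous A
  lower : ∀ y v, a * ‖v‖ ^ 2 ≤ ⟪A y v, v⟫
  upper : ∀ y v, ⟪A y v, v⟫ ≤ b * ‖v‖ ^ 2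
  symm : ∀ y v w, ⟪A y v, w⟫ = ⟪v, A y w⟫

namespace GMap

variable {g : E → E} {A : E → E →L[ℝ] E} {a b : ℝ}

omit [FiniteDimensional ℝ E] in
/-- Cauchy-Schwarz for a positive semidefinite operator. -/
lemma cs_op {T : E →L[ℝ] E} (hs : ∀ v w, ⟪T v, w⟫ = ⟪v, T w⟫) (hp : ∀ v, 0 ≤ ⟪T v, v⟫)
    (v w : E) : ⟪T v, w⟫ ^ 2 ≤ ⟪T v, v⟫ * ⟪T w, w⟫ := by
  have key : ∀ t : ℝ, 0 ≤ ⟪T w, w⟫ * (t * t) + (2 * ⟪T v, w⟫) * t + ⟪T v, v⟫ := by
    intro t
    have h := hp (v + t • w)
    have h2 : ⟪T w, v⟫ = ⟪T v, w⟫ := by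
      rw [hs w v, real_inner_comm]
    simp only [map_add, map_smul, inner_add_left, inner_add_right, inner_smul_left,
      inner_smul_right, RCLike.conj_to_real, h2] at h
    linarith
  have h := discrim_le_zero key
  unfold discrim at h
  nlinarith

omit [FiniteDimensional ℝ E] in
lemma norm_apply_le {T : E →L[ℝ] E} (hs : ∀ v w, ⟪T v, w⟫ = ⟪v, T w⟫)
    (hp : ∀ v, 0 ≤ ⟪T v, v⟫) (hb : ∀ v, ⟪T v, v⟫ ≤ b * ‖v‖ ^ 2) (v : E) :
    ‖T v‖ ≤ b * ‖v‖ := by
  by_cases h0 : T v = 0
  · by_cases hv : v = 0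
    · simp [hv]
    · have : 0 ≤ b * ‖v‖ ^ 2 := (hp v).trans (hb v)
      have hv' : 0 < ‖v‖ := norm_pos_iff.2 hv
      rw [h0, norm_zero]
      have : 0 ≤ (b * ‖v‖) * ‖v‖ := by nlinarith
      exact nonneg_of_mul_nonneg_left this hv'
  · have h1 := cs_op hs hp v (T v)
    rw [real_inner_self_eq_norm_sq] at h1
    have h2 : (‖T v‖ ^ 2) ^ 2 ≤ (b * ‖v‖ ^ 2) * (b * ‖T v‖ ^ 2) := by
      refine h1.trans ?_
      exact mul_le_mul (hb v) (hb _) (hp _) ((hp v).trans (hb v))
    have hT : 0 < ‖T v‖ := norm_pos_iff.2 h0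
    have hb0 : 0 ≤ b := by
      have := (hp (T v)).trans (hb (T v))
      exact nonneg_of_mul_nonneg_left this (by positivity)
    have h3 : ‖T v‖ ^ 2 ≤ (b * ‖v‖) ^ 2 := by
      have hT2 : 0 < ‖T v‖ ^ 2 := by positivity
      have : ‖T v‖ ^ 2 * ‖T v‖ ^ 2 ≤ (b * ‖v‖) ^ 2 * ‖T v‖ ^ 2 := by nlinarith
      exact le_of_mul_le_mul_right this hT2
    exact le_of_sq_le_sq h3 (by positivity)

omit [FiniteDimensional ℝ E] in
lemma nonneg_form (h : GMap g A a b) (y v : E) : 0 ≤ ⟪A y v, v⟫ :=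
  le_trans (by have := h.pos; positivity) (h.lower y v)

omit [FiniteDimensional ℝ E] in
lemma norm_A_apply_le (h : GMap g A a b) (y v : E) : ‖A y v‖ ≤ b * ‖v‖ :=
  norm_apply_le (h.symm y) (h.nonneg_form y) (h.upper y) v

omit [FiniteDimensional ℝ E] in
lemma le_norm_A_apply (h : GMap g A a b) (y v : E) : a * ‖v‖ ≤ ‖A y v‖ := by
  by_cases hv : v = 0
  · simp [hv]
  · have hv' : 0 < ‖v‖ := norm_pos_iff.2 hv
    have h1 := h.lower y v
    have h2 : ⟪A y v, v⟫ ≤ ‖A y v‖ * ‖v‖ := real_inner_le_norm _ _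
    have : (a * ‖v‖) * ‖v‖ ≤ ‖A y v‖ * ‖v‖ := by nlinarith
    exact le_of_mul_le_mul_right this hv'

omit [FiniteDimensional ℝ E] in
lemma continuous (h : GMap g A a b) : Continuous g :=
  continuous_iff_continuousAt.2 fun y => (h.der y).continuousAt

omit [FiniteDimensional ℝ E] in
/-- Strong monotonicity. -/
lemma mono (h : GMap g A a b) (y z : E) : a * ‖y - z‖ ^ 2 ≤ ⟪g y - g z, y - z⟫ := by
  set f : ℝ → ℝ := fun t => ⟪g (z + t • (y - z)), y - z⟫ with hf
  have hder : ∀ t : ℝ, HasDerivAt f ⟪A (z + t • (y - z)) (y - z), y - z⟫ t := by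
    intro t
    have h1 : HasDerivAt (fun t : ℝ => z + t • (y - z)) (y - z) t := by
      simpa using ((hasDerivAt_id t).smul_const (y - z)).const_add z
    have h2 : HasDerivAt (fun t : ℝ => g (z + t • (y - z))) (A (z + t • (y - z)) (y - z)) t :=
      (h.der _).comp_hasDerivAt t h1
    have h3 := h2.inner ℝ (hasDerivAt_const t (y - z))
    simpa using h3
  have hdiff : Differentiable ℝ f := fun t => (hder t).differentiableAt
  have hmv := (convex_Icc (0:ℝ) 1).mul_sub_le_image_sub_of_le_deriv (f := f)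
    hdiff.continuous.continuousOn hdiff.differentiableOn (C := a * ‖y - z‖ ^ 2)
    (fun t _ => by rw [(hder t).deriv]; exact h.lower _ _) 0 (by simp) 1 (by simp) zero_le_one
  have e1 : f 1 = ⟪g y, y - z⟫ := by simp [hf]
  have e0 : f 0 = ⟪g z, y - z⟫ := by simp [hf]
  rw [e1, e0] at hmv
  rw [inner_sub_left]
  linarith

omit [FiniteDimensional ℝ E] in
lemma le_dist (h : GMap g A a b) (y z : E) : a * ‖y - z‖ ≤ ‖g y - g z‖ := by
  by_cases hv : y - z = 0
  · simp [hv]
  · have hv' : 0 < ‖y - z‖ := norm_pos_iff.2 hv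
    have h1 := h.mono y z
    have h2 : ⟪g y - g z, y - z⟫ ≤ ‖g y - g z‖ * ‖y - z‖ := real_inner_le_norm _ _
    have : (a * ‖y - z‖) * ‖y - z‖ ≤ ‖g y - g z‖ * ‖y - z‖ := by nlinarith
    exact le_of_mul_le_mul_right this hv'

omit [FiniteDimensional ℝ E] in
lemma dist_le (h : GMap g A a b) (y z : E) : ‖g y - g z‖ ≤ b * ‖y - z‖ := by
  by_cases hyz : y = z
  · simp [hyz]
  have hb : 0 ≤ b := by
    have h1 := (h.nonneg_form y (y - z)).trans (h.upper y (y - z))
    exact nonneg_of_mul_nonneg_left h1 (by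
      have := norm_pos_iff.2 (sub_ne_zero.2 hyz); positivity)
  refine Convex.norm_image_sub_le_of_norm_hasFDerivWithin_le (𝕜 := ℝ) (s := univ)
    (f' := A) (fun x _ => (h.der x).hasFDerivWithinAt) (fun x _ => ?_) convex_univ
    (mem_univ z) (mem_univ y)
  exact ContinuousLinearMap.opNorm_le_bound _ hb (h.norm_A_apply_le x)

omit [FiniteDimensional ℝ E] in
lemma injective (h : GMap g A a b) : Function.Injective g := by
  intro y z hyz
  have h1 := h.le_dist y z
  rw [hyz, sub_self, norm_zero] at h1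
  have h2 : ‖y - z‖ ≤ 0 := by
    by_contra hc
    push Not at hc
    have := mul_pos h.pos hc
    linarith
  exact sub_eq_zero.1 (norm_le_zero_iff.1 h2)

/-- The derivative as an equivalence. -/
def eqv (h : GMap g A a b) (y : E) : E ≃L[ℝ] E :=
  LinearEquiv.toContinuousLinearEquiv
    (LinearEquiv.ofInjectiveEndo (A y : E →ₗ[ℝ] E) (by
      rw [injective_iff_map_eq_zero]
      intro v hv
      have h1 := h.le_norm_A_apply y v
      have h2 : A y v = 0 := hv
      rw [h2, norm_zero] at h1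
      have h3 : ‖v‖ ≤ 0 := by
        by_contra hc
        push Not at hc
        have := mul_pos h.pos hc
        linarith
      exact norm_le_zero_iff.1 h3))

@[simp] lemma eqv_apply (h : GMap g A a b) (y v : E) : h.eqv y v = A y v := rfl

lemma coe_eqv (h : GMap g A a b) (y : E) : (h.eqv y : E →L[ℝ] E) = A y := by
  ext v; rfl

lemma strict (h : GMap g A a b) (y : E) : HasStrictFDerivAt g (h.eqv y : E →L[ℝ] E) y := by
  rw [coe_eqv]
  exact hasStrictFDerivAt_of_hasFDerivAt_of_continuousAt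
    (Filter.Eventually.of_forall fun z => h.der z) h.cont.continuousAt

lemma isOpenMap (h : GMap g A a b) : IsOpenMap g :=
  isOpenMap_of_hasStrictFDerivAt_equiv (f' := h.eqv) h.strict

lemma surjective (h : GMap g A a b) : Function.Surjective g := by
  have hanti : AntilipschitzWith (Real.toNNReal a⁻¹) g := by
    refine AntilipschitzWith.of_le_mul_dist fun y z => ?_
    rw [dist_eq_norm, dist_eq_norm, Real.coe_toNNReal _ (inv_nonneg.2 h.pos.le)]
    have := h.le_dist y z
    rw [inv_mul_eq_div, le_div_iff₀ h.pos]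
    linarith
  have huc : UniformContinuous g := by
    have : LipschitzWith (Real.toNNReal b) g := by
      refine LipschitzWith.of_dist_le_mul fun y z => ?_
      rw [dist_eq_norm, dist_eq_norm]
      exact (h.dist_le y z).trans (mul_le_mul_of_nonneg_right (Real.le_coe_toNNReal b)
        (norm_nonneg _))
    exact this.uniformContinuous
  have hcl : IsClosed (range g) := (hanti.isClosedEmbedding huc).isClosed_range
  have hop : IsOpen (range g) := h.isOpenMap.isOpen_range
  have hclop : IsClopen (range g) := ⟨hcl, hop⟩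
  have := hclop.eq_univ ⟨g 0, mem_range_self 0⟩
  exact range_eq_univ.1 this

/-- The inverse map. -/
def inv (h : GMap g A a b) : E → E :=
  (Equiv.ofBijective g ⟨h.injective, h.surjective⟩).symm

lemma g_inv (h : GMap g A a b) (x : E) : g (h.inv x) = x :=
  (Equiv.ofBijective g ⟨h.injective, h.surjective⟩).apply_symm_apply x

lemma inv_g (h : GMap g A a b) (y : E) : h.inv (g y) = y :=
  (Equiv.ofBijective g ⟨h.injective, h.surjective⟩).symm_apply_apply y

lemma inv_dist_le (h : GMap g A a b) (x z : E) : ‖h.inv x - h.inv z‖ ≤ a⁻¹ * ‖x - z‖ := by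
  have := h.le_dist (h.inv x) (h.inv z)
  rw [h.g_inv, h.g_inv] at this
  rw [inv_mul_eq_div, le_div_iff₀ h.pos]
  linarith

lemma continuous_inv (h : GMap g A a b) : Continuous h.inv := by
  have : LipschitzWith (Real.toNNReal a⁻¹) h.inv := by
    refine LipschitzWith.of_dist_le_mul fun y z => ?_
    rw [dist_eq_norm, dist_eq_norm]
    exact (h.inv_dist_le y z).trans (mul_le_mul_of_nonneg_right (Real.le_coe_toNNReal _)
      (norm_nonneg _))
  exact this.continuous

/-- `g` as a homeomorphism. -/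
def homeo (h : GMap g A a b) : E ≃ₜ E where
  toEquiv := Equiv.ofBijective g ⟨h.injective, h.surjective⟩
  continuous_toFun := h.continuous
  continuous_invFun := h.continuous_inv

lemma inv_strict (h : GMap g A a b) (x : E) :
    HasStrictFDerivAt h.inv ((h.eqv (h.inv x)).symm : E →L[ℝ] E) x := by
  refine HasStrictFDerivAt.of_local_left_inverse h.continuous_inv.continuousAt
    (h.strict (h.inv x)) ?_
  exact Filter.Eventually.of_forall fun z => h.g_inv z

lemma inv_der (h : GMap g A a b) (x : E) :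
    HasFDerivAt h.inv ((h.eqv (h.inv x)).symm : E →L[ℝ] E) x :=
  (h.inv_strict x).hasFDerivAt

/-! ### Determinant and change of variables -/

lemma det_pos (h : GMap g A a b) (y : E) : 0 < (A y).det := by
  -- along `(1 - t) a I + t A`, the determinant never vanishes
  have hne : ∀ t ∈ Icc (0:ℝ) 1,
      ((1 - t) • (a • ContinuousLinearMap.id ℝ E) + t • A y : E →L[ℝ] E).det ≠ 0 := by
    intro t ht
    have hinj : Function.Injective
        ((1 - t) • (a • ContinuousLinearMap.id ℝ E) + t • A y : E →L[ℝ] E) := by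
      rw [injective_iff_map_eq_zero]
      intro v hv
      have h1 : ⟪((1 - t) • (a • ContinuousLinearMap.id ℝ E) + t • A y : E →L[ℝ] E) v, v⟫
          = (1 - t) * (a * ‖v‖ ^ 2) + t * ⟪A y v, v⟫ := by
        simp only [add_apply, smul_apply, ContinuousLinearMap.id_apply, inner_add_left,
          inner_smul_left, RCLike.conj_to_real, real_inner_self_eq_norm_sq]
      rw [hv, inner_zero_left] at h1
      have h2 := h.lower y v
      have h3 : (a * ‖v‖ ^ 2) ≤ (1 - t) * (a * ‖v‖ ^ 2) + t * ⟪A y v, v⟫ := by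
        nlinarith [mul_le_mul_of_nonneg_left h2 ht.1]
      have h4 : a * ‖v‖ ^ 2 ≤ 0 := by linarith
      have h5 : ‖v‖ ^ 2 ≤ 0 := by
        by_contra hc
        push Not at hc
        have := mul_pos h.pos hc
        linarith
      have h6 : ‖v‖ = 0 := by nlinarith [norm_nonneg v]
      exact norm_eq_zero.1 h6
    have := LinearEquiv.isUnit_det' (LinearEquiv.ofInjectiveEndo
      (((1 - t) • (a • ContinuousLinearMap.id ℝ E) + t • A y : E →L[ℝ] E) : E →ₗ[ℝ] E) hinj)
    exact this.ne_zero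
  set f : ℝ → ℝ := fun t =>
    ((1 - t) • (a • ContinuousLinearMap.id ℝ E) + t • A y : E →L[ℝ] E).det with hf
  have hcont : Continuous f := by
    refine ContinuousLinearMap.continuous_det.comp ?_
    fun_prop
  have h0 : 0 < f 0 := by
    have : f 0 = a ^ Module.finrank ℝ E := by
      simp only [hf, sub_zero, one_smul, zero_smul, add_zero]
      rw [ContinuousLinearMap.det]
      rw [show ((a • ContinuousLinearMap.id ℝ E : E →L[ℝ] E) : E →ₗ[ℝ] E)
        = a • (LinearMap.id : E →ₗ[ℝ] E) from rfl, LinearMap.det_smul, LinearMap.det_id, mul_one]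
    rw [this]
    exact pow_pos h.pos _
  have h1 : f 1 = (A y).det := by simp [hf]
  rw [← h1]
  by_contra hc
  push Not at hc
  obtain ⟨t, ht, ht0⟩ : (0:ℝ) ∈ f '' Icc 0 1 :=
    intermediate_value_Icc' zero_le_one hcont.continuousOn ⟨hc, h0.le⟩
  exact hne t ht ht0

variable [MeasurableSpace E] [BorelSpace E]

/-- Change of variables, general form. -/
theorem integral_comp_g {F : Type*} [NormedAddCommGroup F] [NormedSpace ℝ F]
    (h : GMap g A a b) (μ : Measure E) [μ.IsAddHaarMeasure] (G : E → F) :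
    ∫ x, G x ∂μ = ∫ y, (A y).det • G (g y) ∂μ := by
  have h1 := integral_image_eq_integral_abs_det_fderiv_smul μ (s := univ) MeasurableSet.univ
    (f := g) (f' := A) (fun x _ => (h.der x).hasFDerivWithinAt) h.injective.injOn G
  rw [image_univ, h.surjective.range_eq, setIntegral_univ, setIntegral_univ] at h1
  rw [h1]
  refine integral_congr_ae (Filter.Eventually.of_forall fun y => ?_)
  simp only [abs_of_pos (h.det_pos y)]

theorem integrable_comp_g {F : Type*} [NormedAddCommGroup F] [NormedSpace ℝ F]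
    (h : GMap g A a b) (μ : Measure E) [μ.IsAddHaarMeasure] (G : E → F) :
    Integrable G μ ↔ Integrable (fun y => (A y).det • G (g y)) μ := by
  have h1 := integrableOn_image_iff_integrableOn_abs_det_fderiv_smul μ (s := univ)
    MeasurableSet.univ
    (f := g) (f' := A) (fun x _ => (h.der x).hasFDerivWithinAt) h.injective.injOn G
  rw [image_univ, h.surjective.range_eq, integrableOn_univ, integrableOn_univ] at h1
  rw [h1]
  refine integrable_congr (Filter.Eventually.of_forall fun y => ?_)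
  simp only [abs_of_pos (h.det_pos y)]

end GMap

end Vale.Agent.P227.M.Dif
end
end

section

/-! # P227/M/ID: basic calculus of `pd`, `hess`, `tau` (helper294) -/

open MeasureTheory
open scoped Topology

namespace Vale.Agent.P227.M.B294

variable {n : ℕ}

lemma eq_sum_ei (v : E n) : v = ∑ i, v i • (ei i : E n) := by
  ext k
  simp [ei, Pi.single_apply]

lemma clm_apply {F : Type*} [NormedAddCommGroup F] [NormedSpace ℝ F] (L : E n →L[ℝ] F) (v : E n) :
    L v = ∑ i, v i • L (ei i) := by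
  conv_lhs => rw [eq_sum_ei v]
  simp [map_sum]

lemma fderiv_apply_eq (f : E n → ℝ) (x v : E n) : fderiv ℝ f x v = ∑ i, v i * pd i f x := by
  rw [clm_apply (fderiv ℝ f x) v]
  simp [pd]

lemma pd_mul {f g : E n → ℝ} {x : E n} (i : Fin n) (hf : DifferentiableAt ℝ f x)
    (hg : DifferentiableAt ℝ g x) :
    pd i (fun z => f z * g z) x = f x * pd i g x + pd i f x * g x := by
  unfold pd
  rw [fderiv_fun_mul hf hg]
  simp [mul_comm]

lemma pd_sum {ι : Type*} {s : Finset ι} {f : ι → E n → ℝ} {x : E n} (i : Fin n)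
    (hf : ∀ k ∈ s, DifferentiableAt ℝ (f k) x) :
    pd i (fun z => ∑ k ∈ s, f k z) x = ∑ k ∈ s, pd i (f k) x := by
  unfold pd
  rw [fderiv_fun_sum hf]
  simp

lemma pd_coord (i j : Fin n) (x : E n) : pd i (fun z : E n => z j) x = if j = i then 1 else 0 := by
  unfold pd
  have h : HasFDerivAt (fun z : E n => z j) (EuclideanSpace.proj j : E n →L[ℝ] ℝ) x :=
    (EuclideanSpace.proj j : E n →L[ℝ] ℝ).hasFDerivAt
  rw [h.fderiv]
  simp [ei, Pi.single_apply]

/-- partial derivatives of `C^{k+1}` functions are `C^k` -/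
lemma contDiff_pd {f : E n → ℝ} {m k : WithTop ℕ∞} (hf : ContDiff ℝ k f) (h : m + 1 ≤ k) (i : Fin n) :
    ContDiff ℝ m (pd i f) := by
  unfold pd
  exact (hf.fderiv_right h).clm_apply contDiff_const

lemma differentiable_pd {f : E n → ℝ} (hf : ContDiff ℝ 2 f) (i : Fin n) :
    Differentiable ℝ (pd i f) :=
  (contDiff_pd (m := 1) hf (by norm_num) i).differentiable (by norm_num)

lemma hess_eq {f : E n → ℝ} (hf : ContDiff ℝ 2 f) (x : E n) (i j : Fin n) :
    hess f x i j = fderiv ℝ (fderiv ℝ f) x (ei i) (ei j) := by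
  unfold hess pd
  have h : DifferentiableAt ℝ (fderiv ℝ f) x :=
    ((hf.fderiv_right (m := 1) (by norm_num)).differentiable (by norm_num)) x
  have := (h.hasFDerivAt.clm_apply (hasFDerivAt_const (ei j) x)).fderiv
  rw [this]
  simp

lemma hess_symm {f : E n → ℝ} (hf : ContDiff ℝ 2 f) (x : E n) (i j : Fin n) :
    hess f x i j = hess f x j i := by
  rw [hess_eq hf, hess_eq hf]
  have h : IsSymmSndFDerivAt ℝ f x :=
    (hf.contDiffAt (x := x)).isSymmSndFDerivAt (by simp)
  exact h (ei i) (ei j)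

lemma continuous_hess {f : E n → ℝ} (hf : ContDiff ℝ 2 f) (i j : Fin n) :
    Continuous (fun x => hess f x i j) := by
  unfold hess
  exact (contDiff_pd (m := 0) (contDiff_pd (m := 1) hf (by norm_num) j) (by norm_num) i).continuous

/-- the gradient as a vector -/
noncomputable def gr (f : E n → ℝ) (x : E n) : E n := WithLp.toLp 2 (fun i => pd i f x)

/-- the Hessian as an operator -/
noncomputable def Aop (f : E n → ℝ) (x : E n) : E n →L[ℝ] E n :=
  Matrix.toEuclideanCLM (𝕜 := ℝ) (n := Fin n) (hess f x)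

lemma Aop_apply (f : E n → ℝ) (x v : E n) (i : Fin n) :
    Aop f x v i = ∑ j, hess f x i j * v j := by
  unfold Aop
  rw [Matrix.ofLp_toEuclideanCLM]
  rfl

lemma inner_eq (v w : E n) : inner ℝ v w = ∑ i, v i * w i := by
  simp [PiLp.inner_apply, mul_comm]

lemma hasFDerivAt_gr {f : E n → ℝ} (hf : ContDiff ℝ 2 f) (x : E n) :
    HasFDerivAt (gr f) (Aop f x) x := by
  rw [← hasFDerivWithinAt_univ, hasFDerivWithinAt_piLp]
  intro i
  have h := (differentiable_pd hf i x).hasFDerivAt
  rw [hasFDerivWithinAt_univ]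
  refine h.congr_fderiv ?_
  refine ContinuousLinearMap.ext fun v => ?_
  change fderiv ℝ (pd i f) x v = Aop f x v i
  rw [fderiv_apply_eq, Aop_apply]
  refine Finset.sum_congr rfl fun j _ => ?_
  rw [hess_symm hf x i j, mul_comm]
  rfl

lemma continuous_Aop {f : E n → ℝ} (hf : ContDiff ℝ 2 f) : Continuous (Aop f) := by
  unfold Aop
  refine LinearMap.continuous_of_finiteDimensional
    ((Matrix.toEuclideanCLM (𝕜 := ℝ) (n := Fin n)).toAlgEquiv.toLinearMap) |>.comp ?_
  refine continuous_matrix fun i j => continuous_hess hf i j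

lemma inner_Aop (f : E n → ℝ) (x v w : E n) :
    inner ℝ (Aop f x v) w = ∑ i, ∑ j, hess f x i j * v j * w i := by
  rw [inner_eq]
  refine Finset.sum_congr rfl fun i _ => ?_
  rw [Aop_apply, Finset.sum_mul]

lemma gmap {ψ V : E n → ℝ} {c C M : ℝ} (h : MM ψ V c C M) :
    Dif.GMap (gr ψ) (Aop ψ) c C where
  pos := h.c_pos
  der := fun x => hasFDerivAt_gr h.C2 x
  cont := continuous_Aop h.C2
  lower := fun x v => by
    have := h.lower x v
    rw [inner_Aop]
    unfold qf at this
    refine this.trans (le_of_eq ?_)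
    refine Finset.sum_congr rfl fun i _ => Finset.sum_congr rfl fun j _ => by ring
  upper := fun x v => by
    have := h.upper x v
    rw [inner_Aop]
    unfold qf at this
    refine le_trans (le_of_eq ?_) this
    refine Finset.sum_congr rfl fun i _ => Finset.sum_congr rfl fun j _ => by ring
  symm := fun x v w => by
    rw [real_inner_comm (Aop ψ x w) v, inner_Aop, inner_Aop, Finset.sum_comm]
    refine Finset.sum_congr rfl fun i _ => Finset.sum_congr rfl fun j _ => ?_
    rw [hess_symm h.C2 x j i]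
    ring

lemma det_Aop (f : E n → ℝ) (x : E n) : (Aop f x).det = (hess f x).det := by
  unfold Aop ContinuousLinearMap.det
  have : ((Matrix.toEuclideanCLM (𝕜 := ℝ) (n := Fin n) (hess f x) : E n →L[ℝ] E n) : E n →ₗ[ℝ] E n)
      = Matrix.toLin (PiLp.basisFun 2 ℝ (Fin n)) (PiLp.basisFun 2 ℝ (Fin n)) (hess f x) := rfl
  rw [this, LinearMap.det_toLin]

end Vale.Agent.P227.M.B294
end

section

/-! # P227/M/ID: the core weak identity `∫ (∑_b τ_ab ∂_b G) e^{-V} = ∫ x_a G e^{-V}` (helper294)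

Change of variables `y = ∇ψ(x)`, no mollification. -/

open MeasureTheory
open scoped Topology

namespace Vale.Agent.P227.M.B294

variable {n : ℕ} {ψ V : E n → ℝ} {c C M : ℝ}

lemma det_hess_pos (h : MM ψ V c C M) (x : E n) : 0 < (hess ψ x).det := by
  rw [← det_Aop]
  exact (gmap h).det_pos x

lemma isUnit_hess (h : MM ψ V c C M) (x : E n) : IsUnit (hess ψ x).det :=
  (det_hess_pos h x).ne'.isUnit

lemma tau_mul_hess (h : MM ψ V c C M) (x : E n) : tau ψ x * hess ψ x = 1 :=
  Matrix.nonsing_inv_mul _ (isUnit_hess h x)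

lemma hess_mul_tau (h : MM ψ V c C M) (x : E n) : hess ψ x * tau ψ x = 1 :=
  Matrix.mul_nonsing_inv _ (isUnit_hess h x)

lemma hess_transpose (h : MM ψ V c C M) (x : E n) : (hess ψ x).transpose = hess ψ x := by
  ext i j
  exact hess_symm h.C2 x j i

lemma tau_transpose (h : MM ψ V c C M) (x : E n) : (tau ψ x).transpose = tau ψ x := by
  unfold tau
  rw [Matrix.transpose_nonsing_inv, hess_transpose h x]

lemma tau_symm (h : MM ψ V c C M) (x : E n) (i j : Fin n) : tau ψ x i j = tau ψ x j i := by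
  conv_lhs => rw [← tau_transpose h x]
  rfl

/-- `τ` as an operator -/
noncomputable def Top (ψ : E n → ℝ) (x : E n) : E n →L[ℝ] E n :=
  Matrix.toEuclideanCLM (𝕜 := ℝ) (n := Fin n) (tau ψ x)

lemma Top_apply (ψ : E n → ℝ) (x v : E n) (i : Fin n) :
    Top ψ x v i = ∑ j, tau ψ x i j * v j := by
  unfold Top
  rw [Matrix.ofLp_toEuclideanCLM]
  rfl

lemma Aop_Top (h : MM ψ V c C M) (x v : E n) : Aop ψ x (Top ψ x v) = v := by
  have : Aop ψ x * Top ψ x = 1 := by
    unfold Aop Top
    rw [← map_mul, hess_mul_tau h x, map_one]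
  exact congrArg (fun T : E n →L[ℝ] E n => T v) this

lemma symm_apply_eq (h : MM ψ V c C M) (x v : E n) : ((gmap h).eqv x).symm v = Top ψ x v := by
  rw [ContinuousLinearEquiv.symm_apply_eq, Dif.GMap.eqv_apply, Aop_Top h]

lemma Top_ei (x : E n) (a b : Fin n) : Top ψ x (ei a) b = tau ψ x b a := by
  rw [Top_apply]
  simp [ei, Pi.single_apply]

/-- the Legendre transform -/
noncomputable def ph (h : MM ψ V c C M) (y : E n) : ℝ :=
  inner ℝ ((gmap h).inv y) y - ψ ((gmap h).inv y)

lemma hasFDerivAt_inv (h : MM ψ V c C M) (y : E n) :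
    HasFDerivAt (gmap h).inv (Top ψ ((gmap h).inv y)) y := by
  have := (gmap h).inv_der y
  refine this.congr_fderiv ?_
  refine ContinuousLinearMap.ext fun v => ?_
  exact symm_apply_eq h _ v

lemma hasFDerivAt_ph (h : MM ψ V c C M) (y : E n) :
    HasFDerivAt (ph h) (innerSL ℝ ((gmap h).inv y)) y := by
  have h1 := hasFDerivAt_inv h y
  have h2 := h1.inner ℝ (hasFDerivAt_id y)
  have h3 : HasFDerivAt ψ (fderiv ℝ ψ ((gmap h).inv y)) ((gmap h).inv y) :=
    ((h.C2.differentiable (by norm_num)) _).hasFDerivAt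
  have h4 := h2.sub (h3.comp y h1)
  refine h4.congr_fderiv ?_
  refine ContinuousLinearMap.ext fun v => ?_
  simp only [sub_apply, ContinuousLinearMap.comp_apply,
    ContinuousLinearMap.prod_apply, fderivInnerCLM_apply, ContinuousLinearMap.id_apply,
    innerSL_apply_apply, id_eq]
  have h5 : fderiv ℝ ψ ((gmap h).inv y) (Top ψ ((gmap h).inv y) v)
      = inner ℝ (Top ψ ((gmap h).inv y) v) y := by
    rw [fderiv_apply_eq, inner_eq]
    refine Finset.sum_congr rfl fun i _ => ?_
    congr 1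
    have := (gmap h).g_inv y
    conv_rhs => rw [← this]
    rfl
  rw [h5]
  ring

lemma ph_g (h : MM ψ V c C M) (x : E n) : ph h (gr ψ x) = (∑ i, x i * pd i ψ x) - ψ x := by
  unfold ph
  rw [(gmap h).inv_g, inner_eq]
  rfl

lemma det_exp (h : MM ψ V c C M) (x : E n) :
    (Aop ψ x).det * Real.exp (-(ph h (gr ψ x))) = Real.exp (-(V x)) := by
  have hd := det_hess_pos h x
  rw [det_Aop, ph_g, h.ma x]
  rw [show -((∑ i, x i * pd i ψ x) - ψ x - Real.log (hess ψ x).det)
      = Real.log (hess ψ x).det + -((∑ i, x i * pd i ψ x) - ψ x) by ring, Real.exp_add,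
    Real.exp_log hd]

/-- transfer of integrals -/
lemma integral_y (h : MM ψ V c C M) (H : E n → ℝ) :
    ∫ y, H ((gmap h).inv y) * Real.exp (-(ph h y)) = ∫ x, H x * Real.exp (-(V x)) := by
  rw [(gmap h).integral_comp_g volume]
  refine integral_congr_ae (Filter.Eventually.of_forall fun x => ?_)
  simp only [smul_eq_mul, (gmap h).inv_g]
  rw [← det_exp h x]
  ring

lemma integrable_y (h : MM ψ V c C M) (H : E n → ℝ) :
    Integrable (fun y => H ((gmap h).inv y) * Real.exp (-(ph h y))) ↔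
      Integrable (fun x => H x * Real.exp (-(V x))) := by
  rw [(gmap h).integrable_comp_g volume]
  refine integrable_congr (Filter.Eventually.of_forall fun x => ?_)
  simp only [smul_eq_mul, (gmap h).inv_g]
  rw [← det_exp h x]
  ring

lemma hasFDerivAt_exp_ph (h : MM ψ V c C M) (y : E n) :
    HasFDerivAt (fun y => Real.exp (-(ph h y)))
      (Real.exp (-(ph h y)) • (-(innerSL ℝ ((gmap h).inv y)))) y := by
  exact ((hasFDerivAt_ph h y).neg).exp

/-- CORE, `C¹` version with integrability -/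
theorem core_c1 (h : MM ψ V c C M) (a : Fin n) (G : E n → ℝ) (hG : Differentiable ℝ G)
    (h1 : Integrable (fun x => (∑ b, tau ψ x a b * pd b G x) * Real.exp (-(V x))))
    (h2 : Integrable (fun x => (x a * G x) * Real.exp (-(V x))))
    (h3 : Integrable (fun x => G x * Real.exp (-(V x)))) :
    ∫ x, (∑ b, tau ψ x a b * pd b G x) * Real.exp (-(V x))
      = ∫ x, (x a * G x) * Real.exp (-(V x)) := by
  have hd : ∀ y, HasFDerivAt (fun y => G ((gmap h).inv y))
      ((fderiv ℝ G ((gmap h).inv y)).comp (Top ψ ((gmap h).inv y))) y := fun y =>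
    (hG _).hasFDerivAt.comp y (hasFDerivAt_inv h y)
  have hval : ∀ y, fderiv ℝ (fun y => G ((gmap h).inv y)) y (ei a)
      = ∑ b, tau ψ ((gmap h).inv y) a b * pd b G ((gmap h).inv y) := by
    intro y
    rw [(hd y).fderiv]
    rw [ContinuousLinearMap.comp_apply, fderiv_apply_eq]
    refine Finset.sum_congr rfl fun b _ => ?_
    rw [Top_ei, tau_symm h]
  have he : ∀ y, fderiv ℝ (fun y => Real.exp (-(ph h y))) y (ei a)
      = -((gmap h).inv y a * Real.exp (-(ph h y))) := by
    intro y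
    rw [(hasFDerivAt_exp_ph h y).fderiv]
    simp only [smul_apply, neg_apply, innerSL_apply_apply, smul_eq_mul]
    rw [inner_eq]
    simp [ei, Pi.single_apply]
    ring
  have hibp := integral_mul_fderiv_eq_neg_fderiv_mul_of_integrable (𝕜 := ℝ) (μ := volume)
    (f := fun y => G ((gmap h).inv y)) (g := fun y => Real.exp (-(ph h y))) (v := ei a)
    (by
      simp only [hval]
      exact (integrable_y h (fun x => ∑ b, tau ψ x a b * pd b G x)).2 h1)
    (by
      simp only [he]
      have := ((integrable_y h (fun x => x a * G x)).2 h2).neg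
      refine this.congr (Filter.Eventually.of_forall fun y => ?_)
      simp only [Pi.neg_apply]
      ring)
    ((integrable_y h G).2 h3)
    (fun y _ => (hd y).differentiableAt)
    (fun y _ => (hasFDerivAt_exp_ph h y).differentiableAt)
  simp only [hval, he] at hibp
  rw [← integral_y h (fun x => ∑ b, tau ψ x a b * pd b G x), ← integral_y h (fun x => x a * G x)]
  have e1 : ∫ y, G ((gmap h).inv y) * -((gmap h).inv y a * Real.exp (-(ph h y)))
      = - ∫ y, (gmap h).inv y a * G ((gmap h).inv y) * Real.exp (-(ph h y)) := by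
    rw [← integral_neg]
    refine integral_congr_ae (Filter.Eventually.of_forall fun y => ?_)
    simp only
    ring
  rw [e1] at hibp
  linarith

end Vale.Agent.P227.M.B294
end

section

/-! # P227/M/LIN: interface of the block LIN (owner: helper592).

`StmtLin` follows (file `LIN/Top.lean`) from
`StmtIBP` (block ID), `StmtESA`, `StmtBoch`, `StmtConst`, `StmtAff`, `StmtH1` and the abstract lemma `StmtHilb`. -/

open MeasureTheory Filter
open scoped Topology

namespace Vale.Agent.P227.M.LIN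

/-- the measure `e^{-V} dx` -/
noncomputable def mu {n : ℕ} (V : E n → ℝ) : Measure (E n) :=
  volume.withDensity (fun x => ENNReal.ofReal (Real.exp (-V x)))

/-- LIN-2 (456, hedge 929): essential self-adjointness -/
def StmtESA : Prop := ∀ (n : ℕ) (ψ V : E n → ℝ) (c C M : ℝ), Nice V c C → MM ψ V c C M →
  ∀ h : E n → ℝ, MemLp h 2 (mu V) →
    (∀ f : E n → ℝ, Test f → ∫ x, h x * (f x - Lop ψ f x) * Real.exp (-V x) = 0) →
    h =ᵐ[volume] 0

/-- LIN-5a (365, 150): Bochner `E (Lf)² = E tr(τD²fτD²f) + E ⟨τ∇f,∇f⟩` -/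
def StmtBoch : Prop := ∀ (n : ℕ) (ψ V : E n → ℝ) (c C M : ℝ), Nice V c C → MM ψ V c C M →
  ∀ f : E n → ℝ, Test f →
    Ex V (fun x => (Lop ψ f x) ^ 2) =
      Ex V (fun x => (tau ψ x * hess f x * tau ψ x * hess f x).trace)
        + Ex V (fun x => ∑ b, pd b f x * fld ψ f b x)

/-- LIN-5b (985, 113): gradients `→ 0` implies constant limit -/
def StmtConst : Prop := ∀ (n : ℕ) (V : E n → ℝ) (c C : ℝ), Nice V c C →
  ∀ (f : ℕ → E n → ℝ) (h : E n → ℝ), (∀ m, Test (f m)) → MemLp h 2 (mu V) →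
    Tendsto (fun m => Ex V (fun x => (f m x - h x) ^ 2)) atTop (𝓝 0) →
    Tendsto (fun m => Ex V (fun x => ∑ a, (pd a (f m) x) ^ 2)) atTop (𝓝 0) →
    ∃ a0 : ℝ, h =ᵐ[volume] fun _ => a0

/-- LIN-5c (985, 113): Hessians `→ 0` implies affine limit -/
def StmtAff : Prop := ∀ (n : ℕ) (V : E n → ℝ) (c C : ℝ), Nice V c C →
  ∀ (f : ℕ → E n → ℝ) (h : E n → ℝ), (∀ m, Test (f m)) → MemLp h 2 (mu V) →
    Tendsto (fun m => Ex V (fun x => (f m x - h x) ^ 2)) atTop (𝓝 0) →
    Tendsto (fun m => Ex V (fun x => ∑ a, ∑ b, (hess (f m) x a b) ^ 2)) atTop (𝓝 0) →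
    ∃ (a0 : ℝ) (a : Fin n → ℝ), h =ᵐ[volume] fun x => a0 + ∑ i, a i * x i

/-- LIN-4 (479, hedge 929/52): second Friedrichs step -/
def StmtH1 : Prop := ∀ (n : ℕ) (ψ V : E n → ℝ) (c C M : ℝ), Nice V c C → MM ψ V c C M →
  ∀ (w : E n → ℝ) (v : ℕ → E n → ℝ), Test w → (∀ i, Test (v i)) →
    Tendsto (fun i => Ex V (fun x => (v i x - Lop ψ (v i) x - w x) ^ 2)) atTop (𝓝 0) →
    (∀ ε > 0, ∃ N : ℕ, ∀ i ≥ N, ∀ j ≥ N, Ex V (fun x => (v i x - v j x) ^ 2
      + (∑ a, (pd a (v i) x - pd a (v j) x) ^ 2)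
      + ∑ a, ∑ b, (hess (v i) x a b - hess (v j) x a b) ^ 2) ≤ ε) →
    ∃ B : ℝ, ∀ δ > 0, ∃ (F : E n → ℝ) (N : ℕ), Test F ∧
      Ex V (fun x => ∑ b, (pd b (fun z => F z - Lop ψ F z - w z) x) ^ 2) ≤ δ ∧
      (∀ i ≥ N, Ex V (fun x => ∑ b, (pd b F x - pd b (v i) x) ^ 2) ≤ δ) ∧
      Ex V (fun x => ∑ b, (Lop ψ (pd b F) x) ^ 2) ≤ B

/-- LIN-3 (737, hedges 879/437/119): abstract Hilbert space part -/
def StmtHilb : Prop := ∀ (W H : Type) [AddCommGroup W] [Module ℝ W] [NormedAddCommGroup H]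
  [InnerProductSpace ℝ H] [CompleteSpace H] (J A : W →ₗ[ℝ] H),
  (∀ f g, inner ℝ (A f) (J g) = inner ℝ (J f) (A g)) →
  (∀ f, inner ℝ (A f) (J f) ≤ 0) →
  DenseRange (fun f => J f - A f) →
  ∀ r : H,
  (∀ (h : H) (f : ℕ → W), Tendsto (fun m => J (f m)) atTop (𝓝 h) →
    Tendsto (fun m => A (f m)) atTop (𝓝 0) → inner ℝ r h = 0) →
  (∀ (h : H) (f : ℕ → W), Tendsto (fun m => J (f m)) atTop (𝓝 h) →
    Tendsto (fun m => A (f m)) atTop (𝓝 (-h)) → inner ℝ r h = 0) →
  ∀ ε > 0, ∃ (w : W) (v : ℕ → W), Tendsto (fun i => J (v i) - A (v i)) atTop (𝓝 (J w)) ∧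
    ∀ i, ‖r + A (w - (2 : ℝ) • v i)‖ ≤ ε

end Vale.Agent.P227.M.LIN
end

section

/-! # P227/M/LIN/TopA: the `L²(e^{-V})` glue for the assembly of `StmtLin` (helper592). -/

open MeasureTheory Filter
open scoped Topology ENNReal InnerProductSpace

namespace Vale.Agent.P227.M.LIN.T592

variable {n : ℕ} {V : E n → ℝ} {c C : ℝ}

theorem integral_mu (hV : Continuous V) (g : E n → ℝ) :
    ∫ x, g x ∂(mu V) = ∫ x, g x * Real.exp (-V x) := by
  unfold mu
  rw [integral_withDensity_eq_integral_toReal_smul (by fun_prop) (by simp)]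
  refine integral_congr_ae (Eventually.of_forall fun x => ?_)
  simp only [ENNReal.toReal_ofReal (Real.exp_pos _).le, smul_eq_mul, mul_comm]

theorem integrable_mu (hV : Continuous V) (g : E n → ℝ) :
    Integrable g (mu V) ↔ Integrable (fun x => g x * Real.exp (-V x)) := by
  unfold mu
  rw [integrable_withDensity_iff_integrable_smul' (by fun_prop) (by simp)]
  refine integrable_congr (Eventually.of_forall fun x => ?_)
  simp only [ENNReal.toReal_ofReal (Real.exp_pos _).le, smul_eq_mul, mul_comm]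

theorem mu_ac (V : E n → ℝ) : mu V ≪ volume := withDensity_absolutelyContinuous _ _

theorem memLp_gr (h : Reg V c C) {f : E n → ℝ} (hf : Gr f) : MemLp f 2 (mu V) := by
  rw [memLp_two_iff_integrable_sq hf.cont.aestronglyMeasurable, integrable_mu h.cont]
  exact h.integrable_gr (hf.pow 2)

theorem inner_toLp (hV : Continuous V) {f g : E n → ℝ} (hf : MemLp f 2 (mu V))
    (hg : MemLp g 2 (mu V)) :
    inner ℝ (hf.toLp f) (hg.toLp g) = ∫ x, f x * g x * Real.exp (-V x) := by
  rw [L2.inner_def, ← integral_mu hV]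
  refine integral_congr_ae ?_
  filter_upwards [hf.coeFn_toLp, hg.coeFn_toLp] with x h1 h2
  rw [h1, h2]
  simp [mul_comm]

theorem inner_lp_toLp (hV : Continuous V) (f : MeasureTheory.Lp ℝ 2 (mu V)) {g : E n → ℝ}
    (hg : MemLp g 2 (mu V)) :
    inner ℝ f (hg.toLp g) = ∫ x, f x * g x * Real.exp (-V x) := by
  have h := inner_toLp hV (MeasureTheory.Lp.memLp f) hg
  rwa [MeasureTheory.Lp.toLp_coeFn] at h

theorem normsq_toLp (h : Reg V c C) {f : E n → ℝ} (hf : MemLp f 2 (mu V)) :
    ‖hf.toLp f‖ ^ 2 = (∫ x, Real.exp (-V x)) * Ex V (fun x => f x ^ 2) := by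
  rw [← real_inner_self_eq_norm_sq, inner_toLp h.cont hf hf]
  unfold Ex
  rw [mul_div_cancel₀ _ h.Z_pos.ne']
  simp only [sq]

/-- the submodule of test functions -/
noncomputable def TF (n : ℕ) : Submodule ℝ (E n → ℝ) where
  carrier := {f | Test f}
  add_mem' := fun {a b} ha hb => ⟨ha.1.add hb.1, ha.2.add hb.2⟩
  zero_mem' := ⟨contDiff_const, HasCompactSupport.zero⟩
  smul_mem' := fun r f hf => ⟨contDiff_const.smul hf.1, by
    have : HasCompactSupport ((fun _ : E n => r) • f) := HasCompactSupport.smul_left hf.2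
    exact this⟩

theorem gr_test {f : E n → ℝ} (hf : Test f) : Gr f := Gr.of_test hf.1.continuous hf.2

theorem test_pd {f : E n → ℝ} (hf : Test f) (i : Fin n) : Test (pd i f) :=
  ⟨contDiff_pd_top hf.1 i, by
    have h := hf.2.fderiv (𝕜 := ℝ)
    refine h.comp_left (g := fun L : E n →L[ℝ] ℝ => L (ei i)) (by simp)⟩

theorem pd_add {f g : E n → ℝ} (hf : Differentiable ℝ f) (hg : Differentiable ℝ g) (i : Fin n)
    (x : E n) : pd i (fun y => f y + g y) x = pd i f x + pd i g x := by
  unfold pd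
  have := fderiv_add (hf x) (hg x)
  have h2 : fderiv ℝ (fun y => f y + g y) x = fderiv ℝ f x + fderiv ℝ g x := this
  rw [h2]; rfl

theorem pd_smul {f : E n → ℝ} (hf : Differentiable ℝ f) (r : ℝ) (i : Fin n)
    (x : E n) : pd i (fun y => r * f y) x = r * pd i f x := by
  unfold pd
  have h2 : fderiv ℝ (fun y => r * f y) x = r • fderiv ℝ f x := by
    have := fderiv_const_mul (hf x) r
    exact this
  rw [h2]; rfl

theorem test_diff {f : E n → ℝ} (hf : Test f) : Differentiable ℝ f :=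
  hf.1.differentiable (by simp)

theorem hess_add {f g : E n → ℝ} (hf : Test f) (hg : Test g) (i j : Fin n) (x : E n) :
    hess (fun y => f y + g y) x i j = hess f x i j + hess g x i j := by
  unfold hess
  have : pd j (fun y => f y + g y) = fun y => pd j f y + pd j g y := by
    funext y; exact pd_add (test_diff hf) (test_diff hg) j y
  rw [this]
  exact pd_add (test_diff (test_pd hf j)) (test_diff (test_pd hg j)) i x

theorem hess_smul {f : E n → ℝ} (hf : Test f) (r : ℝ) (i j : Fin n) (x : E n) :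
    hess (fun y => r * f y) x i j = r * hess f x i j := by
  unfold hess
  have : pd j (fun y => r * f y) = fun y => r * pd j f y := by
    funext y; exact pd_smul (test_diff hf) r j y
  rw [this]
  exact pd_smul (test_diff (test_pd hf j)) r i x

theorem Lop_add {ψ f g : E n → ℝ} (hf : Test f) (hg : Test g) (x : E n) :
    Lop ψ (fun y => f y + g y) x = Lop ψ f x + Lop ψ g x := by
  unfold Lop
  simp only [hess_add hf hg, pd_add (test_diff hf) (test_diff hg), mul_add, Finset.sum_add_distrib]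
  ring

theorem Lop_smul {ψ f : E n → ℝ} (hf : Test f) (r : ℝ) (x : E n) :
    Lop ψ (fun y => r * f y) x = r * Lop ψ f x := by
  unfold Lop
  simp only [hess_smul hf r, pd_smul (test_diff hf) r, mul_sub, Finset.mul_sum]
  congr 1
  · refine Finset.sum_congr rfl fun i _ => Finset.sum_congr rfl fun j _ => by ring
  · refine Finset.sum_congr rfl fun i _ => by ring

end Vale.Agent.P227.M.LIN.T592
end

section

/-! # P227/M/LIN/TopB: `tr (τNτN) ≥ a² |N|²` (helper592). -/

open MeasureTheory Filter Matrix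
open scoped Topology

namespace Vale.Agent.P227.M.LIN.T592

variable {n : ℕ}

theorem trace_quad (X τ : Matrix (Fin n) (Fin n) ℝ) :
    (X * τ * Xᵀ).trace = ∑ m, ∑ i, ∑ j, τ i j * X m i * X m j := by
  simp only [Matrix.trace, Matrix.diag, Matrix.mul_apply, Matrix.transpose_apply]
  refine Finset.sum_congr rfl fun m _ => ?_
  rw [Finset.sum_congr rfl fun j _ => Finset.sum_mul _ _ _, Finset.sum_comm]
  refine Finset.sum_congr rfl fun i _ => Finset.sum_congr rfl fun j _ => by ring

theorem trace_ge (X τ : Matrix (Fin n) (Fin n) ℝ) (a : ℝ)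
    (hl : ∀ g : Fin n → ℝ, a * ∑ i, g i ^ 2 ≤ ∑ i, ∑ j, τ i j * g i * g j) :
    a * ∑ m, ∑ i, X m i ^ 2 ≤ (X * τ * Xᵀ).trace := by
  rw [trace_quad, Finset.mul_sum]
  exact Finset.sum_le_sum fun m _ => hl (fun i => X m i)

theorem quad_tensor (τ N : Matrix (Fin n) (Fin n) ℝ) (hτ : τ.PosSemidef) (a : ℝ) (ha : 0 ≤ a)
    (hl : ∀ g : Fin n → ℝ, a * ∑ i, g i ^ 2 ≤ ∑ i, ∑ j, τ i j * g i * g j) (hN : Nᵀ = N) :
    a ^ 2 * ∑ i, ∑ j, N i j ^ 2 ≤ (τ * N * τ * N).trace := by
  obtain ⟨B, hB'⟩ : ∃ B : Matrix (Fin n) (Fin n) ℝ, τ = Bᵀ * B := by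
    open scoped MatrixOrder in
    open scoped ComplexOrder in
    obtain ⟨B, hB⟩ := CStarAlgebra.nonneg_iff_eq_star_mul_self.mp hτ.nonneg
    exact ⟨B, by rw [hB, Matrix.star_eq_conjTranspose, Matrix.conjTranspose_eq_transpose_of_trivial]⟩
  set X := B * N with hX
  have h1 : (τ * N * τ * N).trace = (X * τ * Xᵀ).trace := by
    have : X * τ * Xᵀ = B * (N * τ * N * Bᵀ) := by
      rw [hX, Matrix.transpose_mul, hN]; simp only [Matrix.mul_assoc]
    have h2 : N * τ * N * Bᵀ * B = (N * τ * N) * τ := by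
      rw [Matrix.mul_assoc, ← hB']
    have h3 : τ * N * τ * N = τ * (N * τ * N) := by simp only [Matrix.mul_assoc]
    rw [this, Matrix.trace_mul_comm B, h2, h3, Matrix.trace_mul_comm]
  have h2 : ∑ m, ∑ i, X m i ^ 2 = (Nᵀ * τ * N).trace := by
    have h3 : Nᵀ * τ * N = Xᵀ * X := by
      rw [hX, Matrix.transpose_mul, hB']; simp only [Matrix.mul_assoc]
    rw [h3, Matrix.trace_mul_comm]
    simp only [Matrix.trace, Matrix.diag, Matrix.mul_apply, Matrix.transpose_apply, sq]
  have h4 : a * ∑ i, ∑ j, N i j ^ 2 ≤ (Nᵀ * τ * N).trace := by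
    have := trace_ge Nᵀ τ a hl
    rw [Matrix.transpose_transpose] at this
    refine le_trans (le_of_eq ?_) this
    rw [Finset.sum_comm]
    rfl
  have h5 := trace_ge X τ a hl
  rw [h1]
  refine le_trans ?_ h5
  rw [h2, sq, mul_assoc]
  exact mul_le_mul_of_nonneg_left h4 ha

end Vale.Agent.P227.M.LIN.T592
end

section

/-! # P227/M/Loc/TauB: linear algebra and `τ = (D²ψ)⁻¹`: symmetry, positivity, bounds, Lipschitz -/

open MeasureTheory Matrix

namespace Vale.Agent.P227.M.Loc

variable {n : ℕ}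

/-- trace of a product of two positive semidefinite real matrices -/
theorem trace_mul_psd {H K : Matrix (Fin n) (Fin n) ℝ} (hH : H.PosSemidef) (hK : K.PosSemidef) :
    0 ≤ (H * K).trace := by
  obtain ⟨m, a, ha⟩ := Matrix.posSemidef_iff_eq_sum_vecMulVec.1 hH
  rw [ha, Finset.sum_mul, Matrix.trace_sum]
  refine Finset.sum_nonneg fun i _ => ?_
  rw [Matrix.vecMulVec_mul, Matrix.trace_vecMulVec]
  have h := hK.dotProduct_mulVec_nonneg (a i)
  rw [Matrix.dotProduct_mulVec, dotProduct_comm] at h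
  exact h

/-- `0 ≤ ρ² tr (Hτ) - 2ρ tr (HτNτ) + tr (HτNτNτ)` -/
theorem trace_square_nonneg {H T N : Matrix (Fin n) (Fin n) ℝ} (hH : H.PosSemidef)
    (hT : T.PosSemidef) (hN : N.IsHermitian) (ρ : ℝ) :
    0 ≤ ρ ^ 2 * (H * T).trace - 2 * ρ * (H * T * N * T).trace + (H * T * N * T * N * T).trace := by
  have h := trace_mul_psd hH (hT.mul_mul_conjTranspose_same (ρ • (1 : Matrix (Fin n) (Fin n) ℝ) - T * N))
  have e : H * ((ρ • (1 : Matrix (Fin n) (Fin n) ℝ) - T * N) * T *
      (ρ • (1 : Matrix (Fin n) (Fin n) ℝ) - T * N)ᴴ)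
      = ρ ^ 2 • (H * T) - (2 * ρ) • (H * T * N * T) + H * T * N * T * N * T := by
    rw [Matrix.conjTranspose_sub, Matrix.conjTranspose_mul, hN.eq, hT.1.eq, Matrix.conjTranspose_smul,
      Matrix.conjTranspose_one]
    simp only [Matrix.sub_mul, Matrix.mul_sub, Matrix.smul_mul, Matrix.mul_smul, Matrix.one_mul,
      Matrix.mul_one, Matrix.mul_assoc, star_trivial, smul_sub, smul_smul]
    rw [two_mul, add_smul, pow_two]
    abel
  rw [e, Matrix.trace_add, Matrix.trace_sub, Matrix.trace_smul, Matrix.trace_smul] at h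
  simpa [smul_eq_mul] using h

theorem qf_eq (A : Matrix (Fin n) (Fin n) ℝ) (v : E n) : qf A v = (v.ofLp) ⬝ᵥ (A *ᵥ v.ofLp) := by
  simp only [qf, dotProduct, Matrix.mulVec, Finset.mul_sum]
  refine Finset.sum_congr rfl fun i _ => Finset.sum_congr rfl fun j _ => ?_
  ring

theorem posSemidef_of_qf {A : Matrix (Fin n) (Fin n) ℝ} (hs : ∀ i j, A i j = A j i)
    (h : ∀ v : E n, 0 ≤ qf A v) : A.PosSemidef := by
  refine Matrix.PosSemidef.of_dotProduct_mulVec_nonneg ?_ fun v => ?_
  · ext i j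
    simp [hs i j]
  · have := h (WithLp.toLp 2 v)
    rw [qf_eq] at this
    simpa using this

theorem posDef_of_qf {A : Matrix (Fin n) (Fin n) ℝ} (hs : ∀ i j, A i j = A j i) {c : ℝ} (hc : 0 < c)
    (h : ∀ v : E n, c * ‖v‖ ^ 2 ≤ qf A v) : A.PosDef := by
  refine Matrix.PosDef.of_dotProduct_mulVec_pos ?_ fun v hv => ?_
  · ext i j
    simp [hs i j]
  · have := h (WithLp.toLp 2 v)
    rw [qf_eq] at this
    have h2 : 0 < ‖WithLp.toLp 2 v‖ := by
      rw [norm_pos_iff]
      intro h0
      apply hv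
      simpa using h0
    have h3 : 0 < c * ‖WithLp.toLp 2 v‖ ^ 2 := by positivity
    simpa using lt_of_lt_of_le h3 this

/-- second derivatives of a `C²` function -/
theorem hess_eq {f : E n → ℝ} (hf : ContDiff ℝ 2 f) (x : E n) (i j : Fin n) :
    hess f x i j = fderiv ℝ (fderiv ℝ f) x (ei i) (ei j) := by
  have hd : DifferentiableAt ℝ (fderiv ℝ f) x :=
    ((hf.fderiv_right (m := 1) (by norm_num)).differentiable (by norm_num)) x
  have h : HasFDerivAt (fun y => fderiv ℝ f y (ei j))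
      ((ContinuousLinearMap.apply ℝ ℝ (ei j)).comp (fderiv ℝ (fderiv ℝ f) x)) x :=
    (ContinuousLinearMap.apply ℝ ℝ (ei j : E n)).hasFDerivAt.comp x hd.hasFDerivAt
  show fderiv ℝ (fun y => fderiv ℝ f y (ei j)) x (ei i) = _
  rw [h.fderiv]
  rfl

theorem hess_symm {f : E n → ℝ} (hf : ContDiff ℝ 2 f) (x : E n) (i j : Fin n) :
    hess f x i j = hess f x j i := by
  rw [hess_eq hf, hess_eq hf]
  have h : IsSymmSndFDerivAt ℝ f x := hf.contDiffAt.isSymmSndFDerivAt (by simp)
  exact h _ _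

/-! ### bounds for the inverse matrix -/

theorem abs_inv_le {A : Matrix (Fin n) (Fin n) ℝ} (hA : A.PosDef) {c : ℝ} (hc : 0 < c)
    (h : ∀ v : E n, c * ‖v‖ ^ 2 ≤ qf A v) (i j : Fin n) : |A⁻¹ i j| ≤ 1 / c := by
  set w : E n := WithLp.toLp 2 (A⁻¹ *ᵥ (Pi.single j 1)) with hw
  have hwi : ∀ i, w i = A⁻¹ i j := fun i => by simp [hw]
  have hdet : IsUnit A.det := (Matrix.isUnit_iff_isUnit_det A).1 hA.isUnit
  have h1 := h w
  rw [qf_eq] at h1
  have h2 : A *ᵥ w.ofLp = Pi.single j 1 := by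
    rw [hw]
    simp only [Matrix.mulVec_mulVec]
    rw [Matrix.mul_nonsing_inv _ hdet, Matrix.one_mulVec]
  rw [h2] at h1
  simp only [dotProduct_single, mul_one] at h1
  have h3 : ∀ i, |w i| ≤ ‖w‖ := fun i => by
    have := PiLp.norm_apply_le w i
    simpa using this
  have h4 : c * ‖w‖ ^ 2 ≤ ‖w‖ := h1.trans ((le_abs_self _).trans (h3 j))
  have h5 : ‖w‖ ≤ 1 / c := by
    rw [le_div_iff₀ hc]
    by_contra hcon
    push Not at hcon
    have h0 : 0 < ‖w‖ := by
      by_contra h0
      have : ‖w‖ = 0 := le_antisymm (not_lt.1 h0) (norm_nonneg _)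
      rw [this] at hcon
      linarith
    nlinarith
  rw [← hwi i]
  exact (h3 i).trans h5

theorem inv_sub_inv {A B : Matrix (Fin n) (Fin n) ℝ} (hA : A.PosDef) (hB : B.PosDef) :
    A⁻¹ - B⁻¹ = A⁻¹ * (B - A) * B⁻¹ := by
  have hdA : IsUnit A.det := (Matrix.isUnit_iff_isUnit_det A).1 hA.isUnit
  have hdB : IsUnit B.det := (Matrix.isUnit_iff_isUnit_det B).1 hB.isUnit
  rw [Matrix.mul_sub, Matrix.sub_mul, Matrix.nonsing_inv_mul _ hdA, Matrix.mul_assoc,
    Matrix.mul_nonsing_inv _ hdB]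
  simp

theorem abs_inv_sub_le {A B : Matrix (Fin n) (Fin n) ℝ} (hA : A.PosDef) (hB : B.PosDef) {c : ℝ}
    (hc : 0 < c) (h : ∀ v : E n, c * ‖v‖ ^ 2 ≤ qf A v) (h' : ∀ v : E n, c * ‖v‖ ^ 2 ≤ qf B v)
    {d : ℝ} (hd : ∀ i j, |A i j - B i j| ≤ d) (i j : Fin n) :
    |A⁻¹ i j - B⁻¹ i j| ≤ (n : ℝ) ^ 2 * (1 / c) ^ 2 * d := by
  have e : A⁻¹ i j - B⁻¹ i j = ∑ b, ∑ a, A⁻¹ i a * (B a b - A a b) * B⁻¹ b j := by
    have := congrFun (congrFun (inv_sub_inv hA hB) i) j
    rw [Matrix.sub_apply] at this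
    rw [this, Matrix.mul_apply]
    refine Finset.sum_congr rfl fun b _ => ?_
    rw [Matrix.mul_apply, Finset.sum_mul]
    rfl
  rw [e]
  have h0 : (0 : ℝ) < 1 / c := by positivity
  calc |∑ b, ∑ a, A⁻¹ i a * (B a b - A a b) * B⁻¹ b j|
      ≤ ∑ b, ∑ a, |A⁻¹ i a * (B a b - A a b) * B⁻¹ b j| :=
        (Finset.abs_sum_le_sum_abs _ _).trans
          (Finset.sum_le_sum fun b _ => Finset.abs_sum_le_sum_abs _ _)
    _ ≤ ∑ _b : Fin n, ∑ _a : Fin n, (1 / c) * d * (1 / c) := by
        refine Finset.sum_le_sum fun b _ => Finset.sum_le_sum fun a _ => ?_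
        rw [abs_mul, abs_mul]
        have h1 := abs_inv_le hA hc h i a
        have h2 := abs_inv_le hB hc h' b j
        have h3 : |B a b - A a b| ≤ d := by rw [abs_sub_comm]; exact hd a b
        exact mul_le_mul (mul_le_mul h1 h3 (abs_nonneg _) h0.le) h2 (abs_nonneg _)
          (mul_nonneg h0.le ((abs_nonneg _).trans h3))
    _ = (n : ℝ) ^ 2 * (1 / c) ^ 2 * d := by
        simp only [Finset.sum_const, Finset.card_univ, Fintype.card_fin, nsmul_eq_mul]
        ring

/-! ### `τ` -/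

variable {ψ V : E n → ℝ} {c C M : ℝ}

theorem hess_psi_posDef (h : MM ψ V c C M) (x : E n) : (hess ψ x).PosDef :=
  posDef_of_qf (hess_symm h.C2 x) h.c_pos (h.lower x)

theorem tau_posDef (h : MM ψ V c C M) (x : E n) : (tau ψ x).PosDef := (hess_psi_posDef h x).inv

theorem tau_symm (h : MM ψ V c C M) (x : E n) (i j : Fin n) : tau ψ x i j = tau ψ x j i := by
  have := (tau_posDef h x).isHermitian
  have h2 := congrFun (congrFun this j) i
  simpa using h2

theorem tau_bdd (h : MM ψ V c C M) (x : E n) (i j : Fin n) : |tau ψ x i j| ≤ 1 / c :=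
  abs_inv_le (hess_psi_posDef h x) h.c_pos (h.lower x) i j

theorem tau_lip (h : MM ψ V c C M) (x y : E n) (i j : Fin n) :
    |tau ψ x i j - tau ψ y i j| ≤ (n : ℝ) ^ 2 * (1 / c) ^ 2 * M * ‖x - y‖ := by
  have := abs_inv_sub_le (hess_psi_posDef h x) (hess_psi_posDef h y) h.c_pos (h.lower x) (h.lower y)
    (fun i j => h.lip i j x y) i j
  rw [mul_assoc]
  exact this

theorem tau_continuous (h : MM ψ V c C M) (i j : Fin n) : Continuous (fun x => tau ψ x i j) := by
  have : LipschitzWith (Real.toNNReal ((n : ℝ) ^ 2 * (1 / c) ^ 2 * M)) (fun x => tau ψ x i j) := by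
    refine LipschitzWith.of_dist_le' fun x y => ?_
    rw [Real.dist_eq, dist_eq_norm]
    exact tau_lip h x y i j
  exact this.continuous

end Vale.Agent.P227.M.Loc
end

section

open MeasureTheory Filter Topology
open scoped NNReal

namespace Vale.Agent.P227.M.AE

variable {n : ℕ} {ψ V : E n → ℝ} {c C M : ℝ}

lemma vec_eq_sum (v : E n) : v = ∑ i, v i • (ei i : E n) := by
  ext j
  simp [ei, Finset.sum_apply, Pi.single_apply]

/-- decomposition of a linear functional -/
lemma clm_eq_sum (l : E n →L[ℝ] ℝ) :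
    l = ∑ i, l (ei i) • (EuclideanSpace.proj i : E n →L[ℝ] ℝ) := by
  ext v
  conv_lhs => rw [vec_eq_sum v]
  simp [map_sum, mul_comm]

lemma norm_ei (i : Fin n) : ‖(ei i : E n)‖ = 1 := by simp [ei]

lemma pd_sub {f g : E n → ℝ} {x : E n} (hf : DifferentiableAt ℝ f x) (hg : DifferentiableAt ℝ g x)
    (i : Fin n) : pd i (fun z => f z - g z) x = pd i f x - pd i g x := by
  unfold pd; rw [fderiv_fun_sub hf hg]; rfl

lemma pd_mul {f g : E n → ℝ} {x : E n} (hf : DifferentiableAt ℝ f x) (hg : DifferentiableAt ℝ g x)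
    (i : Fin n) : pd i (fun z => f z * g z) x = pd i f x * g x + f x * pd i g x := by
  unfold pd; rw [fderiv_fun_mul hf hg]; simp; ring

lemma pd_sum {ι : Type*} (s : Finset ι) {f : ι → E n → ℝ} {x : E n}
    (hf : ∀ k ∈ s, DifferentiableAt ℝ (f k) x) (i : Fin n) :
    pd i (fun z => ∑ k ∈ s, f k z) x = ∑ k ∈ s, pd i (f k) x := by
  unfold pd; rw [fderiv_fun_sum hf]; simp

lemma pd_const (a : ℝ) (i : Fin n) (x : E n) : pd i (fun _ : E n => a) x = 0 := by
  unfold pd; simp

lemma pd_coord (i j : Fin n) (x : E n) : pd i (fun z : E n => z j) x = if j = i then 1 else 0 := by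
  unfold pd
  have : (fun z : E n => z j) = (EuclideanSpace.proj j : E n →L[ℝ] ℝ) := rfl
  rw [this, ContinuousLinearMap.fderiv]
  simp [ei]

lemma diff_coord (j : Fin n) (x : E n) : DifferentiableAt ℝ (fun z : E n => z j) x :=
  (EuclideanSpace.proj j : E n →L[ℝ] ℝ).differentiableAt

lemma hess_symm (h : ContDiff ℝ 2 ψ) (x : E n) (i j : Fin n) : hess ψ x i j = hess ψ x j i := by
  have h1 : Differentiable ℝ (fderiv ℝ ψ) :=
    (h.fderiv_right (m := 1) (by norm_num)).differentiable (by norm_num)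
  have key : ∀ i j : Fin n, hess ψ x i j = fderiv ℝ (fderiv ℝ ψ) x (ei i) (ei j) := by
    intro i j
    unfold hess pd
    have := fderiv_clm_apply (𝕜 := ℝ) (c := fun y => fderiv ℝ ψ y) (u := fun _ => (ei j : E n))
      (x := x) h1.differentiableAt (differentiableAt_const _)
    rw [this]; simp
  rw [key, key]
  have := (h.contDiffAt (x := x)).isSymmSndFDerivAt (by simp)
  exact this _ _

/-- `A v · v` for the Hessian matrix -/
lemma qf_eq (A : Matrix (Fin n) (Fin n) ℝ) (v : E n) :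
    qf A v = ∑ i, v i * (A.mulVec (fun j => v j)) i := by
  unfold qf Matrix.mulVec dotProduct
  refine Finset.sum_congr rfl fun i _ => ?_
  rw [Finset.mul_sum]
  exact Finset.sum_congr rfl fun j _ => by ring

lemma hess_inj (h : MM ψ V c C M) (x : E n) (w : Fin n → ℝ) (hw : (hess ψ x).mulVec w = 0) :
    w = 0 := by
  have h1 := h.lower x (WithLp.toLp 2 w)
  rw [qf_eq] at h1
  have h2 : (∑ i, (WithLp.toLp 2 w : E n) i *
      ((hess ψ x).mulVec (fun j => (WithLp.toLp 2 w : E n) j)) i) = 0 := by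
    have : (fun j => (WithLp.toLp 2 w : E n) j) = w := rfl
    rw [this, hw]; simp
  rw [h2] at h1
  have h3 : ‖(WithLp.toLp 2 w : E n)‖ = 0 := by
    have := h.c_pos
    have h4 : ‖(WithLp.toLp 2 w : E n)‖ ^ 2 ≤ 0 := by
      by_contra hcon
      push Not at hcon
      nlinarith
    nlinarith [norm_nonneg (WithLp.toLp 2 w : E n), sq_nonneg ‖(WithLp.toLp 2 w : E n)‖,
      pow_eq_zero_iff (two_ne_zero) |>.mp (le_antisymm h4 (sq_nonneg _))]
  have h5 := norm_eq_zero.mp h3
  have : w = fun j => (WithLp.toLp 2 w : E n) j := rfl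
  rw [this, h5]; rfl

lemma hess_det_isUnit (h : MM ψ V c C M) (x : E n) : IsUnit (hess ψ x).det := by
  rw [isUnit_iff_ne_zero]
  intro h0
  obtain ⟨w, hw, hw0⟩ := Matrix.exists_mulVec_eq_zero_iff.mpr h0
  exact hw (hess_inj h x w hw0)

lemma hess_mul_tau (h : MM ψ V c C M) (x : E n) : hess ψ x * tau ψ x = 1 :=
  Matrix.mul_nonsing_inv _ (hess_det_isUnit h x)

lemma tau_mul_hess (h : MM ψ V c C M) (x : E n) : tau ψ x * hess ψ x = 1 :=
  Matrix.nonsing_inv_mul _ (hess_det_isUnit h x)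

lemma hess_transpose (h : MM ψ V c C M) (x : E n) : (hess ψ x).transpose = hess ψ x := by
  ext i j
  exact hess_symm h.C2 x j i

lemma tau_transpose (h : MM ψ V c C M) (x : E n) : (tau ψ x).transpose = tau ψ x := by
  unfold tau
  rw [Matrix.transpose_nonsing_inv, hess_transpose h x]

lemma tau_symm (h : MM ψ V c C M) (x : E n) (i j : Fin n) : tau ψ x i j = tau ψ x j i := by
  have := congrFun (congrFun (tau_transpose h x) j) i
  simpa [Matrix.transpose_apply] using this

lemma hess_tau_apply (h : MM ψ V c C M) (x : E n) (i k : Fin n) :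
    ∑ j, hess ψ x i j * tau ψ x j k = if i = k then 1 else 0 := by
  have := congrFun (congrFun (hess_mul_tau h x) i) k
  simpa [Matrix.mul_apply, Matrix.one_apply] using this

lemma tau_hess_apply (h : MM ψ V c C M) (x : E n) (i k : Fin n) :
    ∑ j, tau ψ x i j * hess ψ x j k = if i = k then 1 else 0 := by
  have := congrFun (congrFun (tau_mul_hess h x) i) k
  simpa [Matrix.mul_apply, Matrix.one_apply] using this

lemma tau_bound (h : MM ψ V c C M) (x : E n) (i j : Fin n) : |tau ψ x i j| ≤ 1 / c := by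
  set w : E n := WithLp.toLp 2 (fun k => tau ψ x k j) with hw
  have h1 := h.lower x w
  have h2 : qf (hess ψ x) w = w j := by
    rw [qf_eq]
    have : ∀ k, ((hess ψ x).mulVec (fun l => w l)) k = if k = j then 1 else 0 := by
      intro k
      have := hess_tau_apply h x k j
      simpa [Matrix.mulVec, dotProduct, hw] using this
    simp [this]
  rw [h2] at h1
  have h3 : ∀ k, |w k| ≤ ‖w‖ := fun k => by
    have := PiLp.norm_apply_le w k
    simpa using this
  have h4 : w j ≤ ‖w‖ := le_trans (le_abs_self _) (h3 j)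
  have h5 : ‖w‖ ≤ 1 / c := by
    rw [le_div_iff₀ h.c_pos]
    by_contra hcon
    push Not at hcon
    have hpos : 0 < ‖w‖ := by
      by_contra h0
      have : ‖w‖ = 0 := le_antisymm (not_lt.mp h0) (norm_nonneg _)
      rw [this] at hcon; simp at hcon; linarith
    nlinarith
  have h6 : tau ψ x i j = w i := rfl
  rw [h6]
  exact (h3 i).trans h5

lemma tau_sub (h : MM ψ V c C M) (x y : E n) :
    tau ψ x - tau ψ y = tau ψ x * (hess ψ y - hess ψ x) * tau ψ y := by
  rw [mul_sub, sub_mul, mul_assoc, hess_mul_tau h y, tau_mul_hess h x]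
  simp

lemma tau_lip (h : MM ψ V c C M) : ∃ K : ℝ≥0, ∀ i j, LipschitzWith K (fun x => tau ψ x i j) := by
  have hc := h.c_pos
  refine ⟨(∑ _p : Fin n, ∑ _q : Fin n, (1 / c) * (1 / c) * |M|).toNNReal, fun i j => ?_⟩
  refine LipschitzWith.of_dist_le_mul fun x y => ?_
  rw [Real.coe_toNNReal _ (by positivity), Real.dist_eq, dist_eq_norm]
  have h1 := congrFun (congrFun (tau_sub h x y) i) j
  have h2 : tau ψ x i j - tau ψ y i j =
      ∑ q, ∑ p, tau ψ x i p * (hess ψ y p q - hess ψ x p q) * tau ψ y q j := by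
    rw [Matrix.sub_apply] at h1
    rw [h1, Matrix.mul_apply]
    refine Finset.sum_congr rfl fun q _ => ?_
    rw [Matrix.mul_apply, Finset.sum_mul]
    rfl
  rw [h2, Finset.sum_mul]
  refine (Finset.abs_sum_le_sum_abs _ _).trans (Finset.sum_le_sum fun q _ => ?_)
  rw [Finset.sum_mul]
  refine (Finset.abs_sum_le_sum_abs _ _).trans (Finset.sum_le_sum fun p _ => ?_)
  rw [abs_mul, abs_mul]
  have h3 : |hess ψ y p q - hess ψ x p q| ≤ |M| * ‖x - y‖ := by
    refine (h.lip p q y x).trans ?_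
    rw [norm_sub_rev]
    exact mul_le_mul_of_nonneg_right (le_abs_self _) (norm_nonneg _)
  calc |tau ψ x i p| * |hess ψ y p q - hess ψ x p q| * |tau ψ y q j|
      ≤ (1 / c) * (|M| * ‖x - y‖) * (1 / c) := by
        refine mul_le_mul (mul_le_mul (tau_bound h x i p) h3 (abs_nonneg _) (by positivity))
          (tau_bound h y q j) (abs_nonneg _) (by positivity)
    _ = (1 / c) * (1 / c) * |M| * ‖x - y‖ := by ring

lemma hess_lip (h : MM ψ V c C M) (i j : Fin n) :
    LipschitzWith M.toNNReal (fun x => hess ψ x i j) := by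
  refine LipschitzWith.of_dist_le_mul fun x y => ?_
  rw [Real.dist_eq, dist_eq_norm]
  exact (h.lip i j x y).trans (mul_le_mul_of_nonneg_right (Real.le_coe_toNNReal _) (norm_nonneg _))

/-- the good points: all entries of `D²ψ` and of `τ` are differentiable -/
def Good (ψ : E n → ℝ) (x : E n) : Prop :=
  (∀ i j, DifferentiableAt ℝ (fun z => hess ψ z i j) x) ∧
    ∀ i j, DifferentiableAt ℝ (fun z => tau ψ z i j) x

lemma ae_good (h : MM ψ V c C M) : ∀ᵐ x : E n, Good ψ x := by
  obtain ⟨K, hK⟩ := tau_lip h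
  have h1 : ∀ᵐ x : E n, ∀ i j, DifferentiableAt ℝ (fun z => hess ψ z i j) x := by
    rw [ae_all_iff]; intro i; rw [ae_all_iff]; intro j
    exact (hess_lip h i j).ae_differentiableAt
  have h2 : ∀ᵐ x : E n, ∀ i j, DifferentiableAt ℝ (fun z => tau ψ z i j) x := by
    rw [ae_all_iff]; intro i; rw [ae_all_iff]; intro j
    exact (hK i j).ae_differentiableAt
  filter_upwards [h1, h2] with x a b using ⟨a, b⟩

/-- third derivatives -/
noncomputable def T3 (ψ : E n → ℝ) (x : E n) (a i j : Fin n) : ℝ := pd a (fun z => hess ψ z i j) x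

lemma T3_symm12 (h : MM ψ V c C M) {x : E n} (hx : Good ψ x) (a i j : Fin n) :
    T3 ψ x a i j = T3 ψ x i a j := by
  have hd : ∀ y, HasFDerivAt (pd j ψ) (fderiv ℝ (pd j ψ) y) y := by
    intro y
    have h1 : Differentiable ℝ (fderiv ℝ ψ) :=
      (h.C2.fderiv_right (m := 1) (by norm_num)).differentiable (by norm_num)
    have h2 : DifferentiableAt ℝ (pd j ψ) y := by
      unfold pd
      exact (h1.differentiableAt).clm_apply (differentiableAt_const _)
    exact h2.hasFDerivAt
  have hf : fderiv ℝ (pd j ψ) = fun y => ∑ k, hess ψ y k j • (EuclideanSpace.proj k : E n →L[ℝ] ℝ) := by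
    funext y
    exact clm_eq_sum _
  have hf' : HasFDerivAt (fderiv ℝ (pd j ψ))
      (∑ k, (fderiv ℝ (fun z => hess ψ z k j) x).smulRight (EuclideanSpace.proj k : E n →L[ℝ] ℝ)) x := by
    rw [hf]
    refine HasFDerivAt.fun_sum fun k _ => ?_
    exact ((hx.1 k j).hasFDerivAt).smul_const (EuclideanSpace.proj k : E n →L[ℝ] ℝ)
  have key := second_derivative_symmetric_of_eventually (Eventually.of_forall hd) hf' (ei a) (ei i)
  have h3 : ∀ a i : Fin n, (∑ k, (fderiv ℝ (fun z => hess ψ z k j) x).smulRight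
      (EuclideanSpace.proj k : E n →L[ℝ] ℝ)) (ei a) (ei i) = T3 ψ x a i j := by
    intro a i
    simp [T3, pd, ei]
  rw [h3, h3] at key
  exact key

/-- derivative of `τ` -/
lemma pd_tau (h : MM ψ V c C M) {x : E n} (hx : Good ψ x) (a i j : Fin n) :
    pd a (fun z => tau ψ z i j) x = - ∑ p, ∑ q, tau ψ x i p * T3 ψ x a p q * tau ψ x q j := by
  have h1 : ∀ p, ∑ q, (T3 ψ x a p q * tau ψ x q j + hess ψ x p q * pd a (fun z => tau ψ z q j) x)
      = 0 := by
    intro p
    have h2 : (fun z => ∑ q, hess ψ z p q * tau ψ z q j) = fun _ => if p = j then (1 : ℝ) else 0 := by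
      funext z; exact hess_tau_apply h z p j
    have h3 : pd a (fun z => ∑ q, hess ψ z p q * tau ψ z q j) x = 0 := by
      rw [h2]; exact pd_const _ _ _
    rw [pd_sum Finset.univ (fun q _ => (hx.1 p q).fun_mul (hx.2 q j))] at h3
    rw [← h3]
    refine Finset.sum_congr rfl fun q _ => ?_
    rw [pd_mul (hx.1 p q) (hx.2 q j)]
    rfl
  have h4 : ∑ p, tau ψ x i p * ∑ q, (T3 ψ x a p q * tau ψ x q j +
      hess ψ x p q * pd a (fun z => tau ψ z q j) x) = 0 := by
    simp [h1]
  have h5 : ∑ p, tau ψ x i p * ∑ q, hess ψ x p q * pd a (fun z => tau ψ z q j) x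
      = pd a (fun z => tau ψ z i j) x := by
    simp only [Finset.mul_sum]
    rw [Finset.sum_comm]
    have : ∀ q, ∑ p, tau ψ x i p * (hess ψ x p q * pd a (fun z => tau ψ z q j) x)
        = (if i = q then 1 else 0) * pd a (fun z => tau ψ z q j) x := by
      intro q
      rw [← tau_hess_apply h x i q, Finset.sum_mul]
      exact Finset.sum_congr rfl fun p _ => by ring
    simp [this]
  simp only [Finset.sum_add_distrib, mul_add] at h4
  rw [h5] at h4
  have h6 : ∑ p, tau ψ x i p * ∑ q, T3 ψ x a p q * tau ψ x q j =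
      ∑ p, ∑ q, tau ψ x i p * T3 ψ x a p q * tau ψ x q j := by
    refine Finset.sum_congr rfl fun p _ => ?_
    rw [Finset.mul_sum]
    exact Finset.sum_congr rfl fun q _ => by ring
  rw [h6] at h4
  linarith

/-- `S a b c = ∑_e τ_ae ∂_e τ_bc` -/
noncomputable def S3 (ψ : E n → ℝ) (x : E n) (a b k : Fin n) : ℝ :=
  ∑ e, tau ψ x a e * pd e (fun z => tau ψ z b k) x

lemma S3_eq (h : MM ψ V c C M) {x : E n} (hx : Good ψ x) (a b k : Fin n) :
    S3 ψ x a b k = - ∑ e, ∑ p, ∑ q, tau ψ x a e * tau ψ x b p * tau ψ x k q * T3 ψ x e p q := by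
  unfold S3
  rw [← Finset.sum_neg_distrib]
  refine Finset.sum_congr rfl fun e _ => ?_
  rw [pd_tau h hx, mul_neg, Finset.mul_sum]
  congr 1
  refine Finset.sum_congr rfl fun p _ => ?_
  rw [Finset.mul_sum]
  refine Finset.sum_congr rfl fun q _ => ?_
  rw [tau_symm h x q k]
  ring

/-- (SY) -/
lemma S3_symm12 (h : MM ψ V c C M) {x : E n} (hx : Good ψ x) (a b k : Fin n) :
    S3 ψ x a b k = S3 ψ x b a k := by
  rw [S3_eq h hx, S3_eq h hx, Finset.sum_comm]
  congr 1
  refine Finset.sum_congr rfl fun p _ => Finset.sum_congr rfl fun e _ =>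
    Finset.sum_congr rfl fun q _ => ?_
  rw [T3_symm12 h hx e p q]
  ring

/-- Jacobi's formula for a matrix of differentiable functions -/
lemma pd_det {A : E n → Matrix (Fin n) (Fin n) ℝ} {x : E n}
    (hA : ∀ i j, DifferentiableAt ℝ (fun z => A z i j) x) (a : Fin n) :
    DifferentiableAt ℝ (fun z => (A z).det) x ∧
    pd a (fun z => (A z).det) x =
      ∑ i, ∑ k, (A x).adjugate i k * pd a (fun z => A z k i) x := by
  have h1 : (fun z => (A z).det) = fun z => ∑ σ : Equiv.Perm (Fin n),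
      (Equiv.Perm.sign σ : ℝ) * ∏ i, A z (σ i) i := by
    funext z
    rw [Matrix.det_apply']
  have h2 : ∀ σ : Equiv.Perm (Fin n), HasFDerivAt (fun z => ∏ i, A z (σ i) i)
      (∑ i, (∏ j ∈ Finset.univ.erase i, A x (σ j) j) • fderiv ℝ (fun z => A z (σ i) i) x) x := by
    intro σ
    exact HasFDerivAt.finsetProd fun i _ => (hA (σ i) i).hasFDerivAt
  have h3 : HasFDerivAt (fun z => (A z).det) (∑ σ : Equiv.Perm (Fin n),
      (Equiv.Perm.sign σ : ℝ) •
      (∑ i, (∏ j ∈ Finset.univ.erase i, A x (σ j) j) • fderiv ℝ (fun z => A z (σ i) i) x)) x := by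
    rw [h1]
    refine HasFDerivAt.fun_sum fun σ _ => ?_
    exact (h2 σ).const_mul _
  refine ⟨h3.differentiableAt, ?_⟩
  unfold pd
  rw [h3.fderiv]
  have h4 : ∀ i, ∑ k, (A x).adjugate i k * fderiv ℝ (fun z => A z k i) x (ei a) =
      ∑ σ : Equiv.Perm (Fin n), (Equiv.Perm.sign σ : ℝ) *
        ((∏ j ∈ Finset.univ.erase i, A x (σ j) j) * fderiv ℝ (fun z => A z (σ i) i) x (ei a)) := by
    intro i
    have h5 := congrFun (Matrix.cramer_eq_adjugate_mulVec (A x)
      (fun k => fderiv ℝ (fun z => A z k i) x (ei a))) i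
    rw [Matrix.cramer_apply] at h5
    have h6 : ((A x).adjugate.mulVec (fun k => fderiv ℝ (fun z => A z k i) x (ei a))) i =
        ∑ k, (A x).adjugate i k * fderiv ℝ (fun z => A z k i) x (ei a) := rfl
    rw [← h6, ← h5, Matrix.det_apply']
    refine Finset.sum_congr rfl fun σ _ => ?_
    congr 1
    rw [← Finset.mul_prod_erase Finset.univ _ (Finset.mem_univ i), mul_comm]
    congr 1
    · refine Finset.prod_congr rfl fun j hj => ?_
      rw [Matrix.updateCol_apply, if_neg (Finset.ne_of_mem_erase hj)]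
    · rw [Matrix.updateCol_apply, if_pos rfl]
  simp only [sum_apply, smul_apply, smul_eq_mul, Finset.mul_sum]
  rw [Finset.sum_comm]
  refine Finset.sum_congr rfl fun i _ => ?_
  rw [h4]

lemma diff_pd (h : MM ψ V c C M) (i : Fin n) (x : E n) : DifferentiableAt ℝ (pd i ψ) x := by
  have h1 : Differentiable ℝ (fderiv ℝ ψ) :=
    (h.C2.fderiv_right (m := 1) (by norm_num)).differentiable (by norm_num)
  unfold pd
  exact (h1.differentiableAt).clm_apply (differentiableAt_const _)

lemma diff_psi (h : MM ψ V c C M) (x : E n) : DifferentiableAt ℝ ψ x :=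
  (h.C2.differentiable (by norm_num)).differentiableAt

lemma pd_V (h : MM ψ V c C M) {x : E n} (hx : Good ψ x) (b : Fin n) :
    pd b V x = (∑ i, x i * hess ψ x b i) - ∑ i, ∑ k, tau ψ x i k * T3 ψ x b k i := by
  have h1 : V = fun z => (∑ i, z i * pd i ψ z) - ψ z - Real.log (hess ψ z).det := by
    funext z; exact h.ma z
  have hdet := pd_det (A := hess ψ) hx.1 b
  have hne : (hess ψ x).det ≠ 0 := (hess_det_isUnit h x).ne_zero
  have hlog : DifferentiableAt ℝ (fun z => Real.log (hess ψ z).det) x := hdet.1.log hne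
  have hs : ∀ i ∈ (Finset.univ : Finset (Fin n)), DifferentiableAt ℝ (fun z : E n => z i * pd i ψ z) x :=
    fun i _ => (diff_coord i x).fun_mul (diff_pd h i x)
  have hsum : DifferentiableAt ℝ (fun z : E n => ∑ i, z i * pd i ψ z) x :=
    DifferentiableAt.fun_sum hs
  rw [h1, pd_sub (hsum.fun_sub (diff_psi h x)) hlog, pd_sub hsum (diff_psi h x),
    pd_sum Finset.univ hs]
  have h2 : ∀ i, pd b (fun z : E n => z i * pd i ψ z) x =
      (if i = b then 1 else 0) * pd i ψ x + x i * hess ψ x b i := by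
    intro i
    rw [pd_mul (diff_coord i x) (diff_pd h i x), pd_coord]
    rfl
  have h3 : pd b (fun z => Real.log (hess ψ z).det) x =
      ∑ i, ∑ k, tau ψ x i k * T3 ψ x b k i := by
    have h4 : pd b (fun z => Real.log (hess ψ z).det) x =
        ((hess ψ x).det)⁻¹ * pd b (fun z => (hess ψ z).det) x := by
      unfold pd
      rw [fderiv.log hdet.1 hne]; rfl
    rw [h4, hdet.2, Finset.mul_sum]
    refine Finset.sum_congr rfl fun i _ => ?_
    rw [Finset.mul_sum]
    refine Finset.sum_congr rfl fun k _ => ?_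
    have h5 : tau ψ x i k = ((hess ψ x).det)⁻¹ * (hess ψ x).adjugate i k := by
      unfold tau
      rw [Matrix.inv_def, Ring.inverse_eq_inv']; rfl
    rw [h5, T3]; ring
  rw [h3]
  simp only [h2, Finset.sum_add_distrib]
  simp

/-- (ST) -/
lemma stein_ae (h : MM ψ V c C M) {x : E n} (hx : Good ψ x) (a : Fin n) :
    ∑ b, (pd b V x * tau ψ x a b - pd b (fun z => tau ψ z a b) x) = x a := by
  rw [Finset.sum_sub_distrib]
  have h1 : ∑ b, pd b V x * tau ψ x a b = x a -
      ∑ b, ∑ q, ∑ p, tau ψ x a b * tau ψ x q p * T3 ψ x b p q := by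
    have h2 : ∀ b, pd b V x * tau ψ x a b = (∑ i, x i * (tau ψ x a b * hess ψ x b i)) -
        ∑ q, ∑ p, tau ψ x a b * tau ψ x q p * T3 ψ x b p q := by
      intro b
      rw [pd_V h hx b, sub_mul, Finset.sum_mul, Finset.sum_mul]
      congr 1
      · exact Finset.sum_congr rfl fun i _ => by ring
      · refine Finset.sum_congr rfl fun q _ => ?_
        rw [Finset.sum_mul]
        exact Finset.sum_congr rfl fun p _ => by ring
    simp only [h2]
    rw [Finset.sum_sub_distrib, Finset.sum_comm]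
    congr 1
    have h3 : ∀ i, ∑ b, x i * (tau ψ x a b * hess ψ x b i) = x i * (if a = i then 1 else 0) := by
      intro i
      rw [← Finset.mul_sum, tau_hess_apply h x a i]
    simp [h3]
  have h4 : ∑ b, pd b (fun z => tau ψ z a b) x =
      - ∑ b, ∑ q, ∑ p, tau ψ x a b * tau ψ x q p * T3 ψ x b p q := by
    have h5 : ∀ b, pd b (fun z => tau ψ z a b) x =
        - ∑ p, ∑ q, tau ψ x a p * tau ψ x q b * T3 ψ x p b q := by
      intro b
      rw [pd_tau h hx]
      congr 1
      refine Finset.sum_congr rfl fun p _ => Finset.sum_congr rfl fun q _ => ?_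
      rw [T3_symm12 h hx b p q]; ring
    simp only [h5]
    rw [Finset.sum_neg_distrib, Finset.sum_comm]
    congr 1
    refine Finset.sum_congr rfl fun p _ => ?_
    rw [Finset.sum_comm]
  rw [h1, h4]; ring

end Vale.Agent.P227.M.AE
end

section

/-! # P227/M, block LIN: kernel facts.  If test functions `v m` converge to `h` in `L²(e^{-V})` and
all their first (second) derivatives tend to `0` there, then `h` is a.e. constant (affine). -/

set_option linter.all false

open MeasureTheory Filter Topology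
open scoped Convolution

namespace Vale.Agent.P227.M.Aff

open Vale.Agent.P227.M

variable {n : ℕ}

noncomputable abbrev cv (f g : E n → ℝ) (x : E n) : ℝ := (f ⋆[ContinuousLinearMap.lsmul ℝ ℝ, volume] g) x

theorem cv_apply (f g : E n → ℝ) (x : E n) : cv f g x = ∫ t, f t * g (x - t) := by
  simp [cv, convolution_def]

theorem cv_apply' (f g : E n → ℝ) (x : E n) : cv f g x = ∫ z, f (x - z) * g z := by
  rw [cv_apply, ← integral_sub_left_eq_self (fun t => f t * g (x - t)) volume x]
  congr 1; funext z; simp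

theorem pd_continuous {f : E n → ℝ} (hf : ContDiff ℝ 1 f) (i : Fin n) : Continuous (pd i f) :=
  (hf.continuous_fderiv one_ne_zero).clm_apply continuous_const

theorem pd_contDiff {f : E n → ℝ} {k : ℕ∞} (hf : ContDiff ℝ ((k + 1 : ℕ∞) : WithTop ℕ∞) f) (i : Fin n) :
    ContDiff ℝ (k : WithTop ℕ∞) (pd i f) := by
  have h := hf.fderiv_right (m := (k : WithTop ℕ∞)) (by push_cast; exact le_rfl)
  exact h.clm_apply contDiff_const

theorem pd_supp {f : E n → ℝ} (hf : HasCompactSupport f) (i : Fin n) : HasCompactSupport (pd i f) :=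
  (hf.fderiv ℝ).comp_left (g := fun A : E n →L[ℝ] ℝ => A (ei i)) (by simp)

theorem hasFDeriv_right {f g : E n → ℝ} (hg : HasCompactSupport g) (hf : LocallyIntegrable f volume)
    (hg1 : ContDiff ℝ 1 g) (x : E n) :
    HasFDerivAt (cv f g) ((f ⋆[(ContinuousLinearMap.lsmul ℝ ℝ).precompR (E n), volume] fderiv ℝ g) x) x :=
  hg.hasFDerivAt_convolution_right _ hf hg1 x

theorem hasFDeriv_left {f g : E n → ℝ} (hf : HasCompactSupport f) (hg : LocallyIntegrable g volume)
    (hf1 : ContDiff ℝ 1 f) (x : E n) :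
    HasFDerivAt (cv f g) ((fderiv ℝ f ⋆[(ContinuousLinearMap.lsmul ℝ ℝ).precompL (E n), volume] g) x) x :=
  hf.hasFDerivAt_convolution_left _ hf1 hg x

theorem pd_cv_right {f g : E n → ℝ} (hg : HasCompactSupport g) (hf : LocallyIntegrable f volume)
    (hg1 : ContDiff ℝ 1 g) (i : Fin n) (x : E n) : pd i (cv f g) x = cv f (pd i g) x := by
  unfold pd
  rw [(hasFDeriv_right hg hf hg1 x).fderiv]
  rw [convolution_precompR_apply _ hf (hg.fderiv ℝ) (hg1.continuous_fderiv one_ne_zero)]

theorem cv_comm (f g : E n → ℝ) (x : E n) : cv f g x = cv g f x := by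
  rw [cv_apply, cv_apply']
  congr 1; funext z; ring

theorem cv_comm' (f g : E n → ℝ) : cv f g = cv g f := funext (cv_comm f g)

theorem pd_cv_left {f g : E n → ℝ} (hf : HasCompactSupport f) (hg : LocallyIntegrable g volume)
    (hf1 : ContDiff ℝ 1 f) (i : Fin n) (x : E n) : pd i (cv f g) x = cv (pd i f) g x := by
  rw [cv_comm', pd_cv_right hf hg hf1 i x, cv_comm]

theorem diff_cv_left {f g : E n → ℝ} (hf : HasCompactSupport f) (hg : LocallyIntegrable g volume)
    (hf1 : ContDiff ℝ 1 f) : Differentiable ℝ (cv f g) :=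
  fun x => (hasFDeriv_left hf hg hf1 x).differentiableAt

/-- all partial derivatives zero: constant -/
theorem const_of_pd {f : E n → ℝ} (hf : Differentiable ℝ f) (h : ∀ i x, pd i f x = 0) (x y : E n) :
    f x = f y := by
  refine is_const_of_fderiv_eq_zero hf (fun z => ?_) x y
  have hb : (fderiv ℝ f z).toLinearMap = (0 : E n →ₗ[ℝ] ℝ) := by
    apply (EuclideanSpace.basisFun (Fin n) ℝ).toBasis.ext
    intro i
    have := h i z
    simpa [pd, ei] using this
  ext v
  have := congrArg (fun A : E n →ₗ[ℝ] ℝ => A v) hb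
  simpa using this

/-- pairing with a compactly supported continuous function is continuous for `L²(e^{-V})` -/
theorem tendsto_cv {V : E n → ℝ} (hV : Continuous V) {v : ℕ → E n → ℝ} {h : E n → ℝ}
    (hvh : ∀ m, AEStronglyMeasurable (fun x => v m x - h x) volume)
    (hI : ∀ m, Integrable (fun x => (v m x - h x) ^ 2 * Real.exp (-V x)))
    (hli : ∀ m, LocallyIntegrable (v m) volume) (hlh : LocallyIntegrable h volume)
    (h1 : Tendsto (fun m => ∫ x, (v m x - h x) ^ 2 * Real.exp (-V x)) atTop (𝓝 0))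
    {f : E n → ℝ} (hf : Continuous f) (hfs : HasCompactSupport f) (x : E n) :
    Tendsto (fun m => cv f (v m) x) atTop (𝓝 (cv f h x)) := by
  set χ : E n → ℝ := fun z => f (x - z) with hχ
  have hχc : Continuous χ := hf.comp (by fun_prop)
  have hχs : HasCompactSupport χ := by
    have := hfs.comp_homeomorph (Homeomorph.subLeft x)
    exact this
  have hint : ∀ g : E n → ℝ, LocallyIntegrable g volume → Integrable (fun z => χ z * g z) := by
    intro g hg
    have := hg.integrable_smul_left_of_hasCompactSupport hχc hχs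
    simpa [smul_eq_mul] using this
  have hQ : Integrable (fun z => χ z ^ 2 * Real.exp (V z)) := by
    refine Continuous.integrable_of_hasCompactSupport ?_ ?_
    · exact (hχc.pow 2).mul (Real.continuous_exp.comp hV)
    · have h0 : HasCompactSupport (fun z => χ z * (χ z * Real.exp (V z))) := hχs.mul_right
      have h1 : (fun z => χ z * (χ z * Real.exp (V z))) = fun z => χ z ^ 2 * Real.exp (V z) := by
        funext z; ring
      rw [h1] at h0
      exact h0
  set Q : ℝ := ∫ z, χ z ^ 2 * Real.exp (V z) with hQd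
  have hQ0 : 0 ≤ Q := integral_nonneg (fun z => by positivity)
  have key : ∀ m, ∀ t : ℝ, 0 < t → |cv f (v m) x - cv f h x| ≤
      t * Q + (1 / t) * ∫ z, (v m z - h z) ^ 2 * Real.exp (-V z) := by
    intro m t ht
    rw [cv_apply', cv_apply', ← integral_sub (hint _ (hli m)) (hint _ hlh)]
    have hpt : ∀ z, |χ z * v m z - χ z * h z| ≤
        t * (χ z ^ 2 * Real.exp (V z)) + (1 / t) * ((v m z - h z) ^ 2 * Real.exp (-V z)) := by
      intro z
      have e1 : Real.exp (V z) = Real.exp (V z / 2) ^ 2 := by rw [← Real.exp_nat_mul]; congr 1; push_cast; ring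
      have e2 : Real.exp (-V z) = Real.exp (-(V z / 2)) ^ 2 := by
        rw [← Real.exp_nat_mul]; congr 1; push_cast; ring
      have e3 : Real.exp (V z / 2) * Real.exp (-(V z / 2)) = 1 := by rw [← Real.exp_add]; simp
      rw [e1, e2]
      set a := χ z * Real.exp (V z / 2) with ha
      set b := (v m z - h z) * Real.exp (-(V z / 2)) with hb
      have hab : χ z * v m z - χ z * h z = a * b := by
        rw [ha, hb]
        calc χ z * v m z - χ z * h z = χ z * (v m z - h z) * 1 := by ring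
          _ = χ z * (v m z - h z) * (Real.exp (V z / 2) * Real.exp (-(V z / 2))) := by rw [e3]
          _ = _ := by ring
      have hr : t * (χ z ^ 2 * Real.exp (V z / 2) ^ 2) + 1 / t * ((v m z - h z) ^ 2 * Real.exp (-(V z / 2)) ^ 2)
          = t * a ^ 2 + 1 / t * b ^ 2 := by rw [ha, hb]; ring
      rw [hab, hr, abs_mul]
      have h2 : 0 ≤ (t * |a| - |b|) ^ 2 / t := by positivity
      have h3 : (t * |a| - |b|) ^ 2 / t = t * a ^ 2 + 1 / t * b ^ 2 - 2 * (|a| * |b|) := by
        have : a ^ 2 = |a| ^ 2 := (sq_abs a).symm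
        have h' : b ^ 2 = |b| ^ 2 := (sq_abs b).symm
        rw [this, h']; field_simp; ring
      have h4 : 0 ≤ |a| * |b| := by positivity
      linarith
    calc |∫ z, (χ z * v m z - χ z * h z)| ≤ ∫ z, |χ z * v m z - χ z * h z| := abs_integral_le_integral_abs
      _ ≤ ∫ z, (t * (χ z ^ 2 * Real.exp (V z)) + (1 / t) * ((v m z - h z) ^ 2 * Real.exp (-V z))) := by
          refine integral_mono ?_ ?_ hpt
          · exact ((hint _ (hli m)).sub (hint _ hlh)).abs
          · exact (hQ.const_mul t).add ((hI m).const_mul (1 / t))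
      _ = _ := by
          rw [integral_add (hQ.const_mul t) ((hI m).const_mul (1 / t)), integral_const_mul, integral_const_mul]
  rw [Metric.tendsto_atTop]
  intro ε hε
  set t : ℝ := ε / (4 * (Q + 1)) with ht
  have htp : 0 < t := by positivity
  have h5 : t * Q < ε / 2 := by
    have : t * Q ≤ t * (Q + 1) := by nlinarith
    have h6 : t * (Q + 1) = ε / 4 := by rw [ht]; field_simp
    linarith
  obtain ⟨N, hN⟩ := (Metric.tendsto_atTop.1 h1) (t * (ε / 2)) (by positivity)
  refine ⟨N, fun m hm => ?_⟩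
  have h7 := hN m hm
  rw [Real.dist_eq, sub_zero] at h7
  have h8 := lt_of_le_of_lt (le_abs_self _) h7
  rw [Real.dist_eq]
  have h9 := key m t htp
  have h10 : (1 / t) * ∫ z, (v m z - h z) ^ 2 * Real.exp (-V z) < (1 / t) * (t * (ε / 2)) :=
    mul_lt_mul_of_pos_left h8 (by positivity)
  have h11 : (1 / t) * (t * (ε / 2)) = ε / 2 := by field_simp
  linarith

theorem locInt_of_sq {V : E n → ℝ} (hV : Continuous V) {h : E n → ℝ} (hh : AEStronglyMeasurable h volume)
    (hI : Integrable (fun x => h x ^ 2 * Real.exp (-V x))) : LocallyIntegrable h volume := by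
  have h1 : LocallyIntegrable (fun x => h x ^ 2 * Real.exp (-V x) + Real.exp (V x)) volume :=
    hI.locallyIntegrable.add (Real.continuous_exp.comp hV).locallyIntegrable
  refine h1.mono hh (Filter.Eventually.of_forall fun x => ?_)
  have e1 : Real.exp (V x) = Real.exp (V x / 2) ^ 2 := by rw [← Real.exp_nat_mul]; congr 1; push_cast; ring
  have e2 : Real.exp (-V x) = Real.exp (-(V x / 2)) ^ 2 := by
    rw [← Real.exp_nat_mul]; congr 1; push_cast; ring
  have e3 : Real.exp (V x / 2) * Real.exp (-(V x / 2)) = 1 := by rw [← Real.exp_add]; simp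
  have h2 : 0 ≤ h x ^ 2 * Real.exp (-V x) + Real.exp (V x) := by positivity
  rw [Real.norm_eq_abs, Real.norm_eq_abs, abs_of_nonneg h2, e1, e2]
  set a := |h x| * Real.exp (-(V x / 2)) with ha
  set b := Real.exp (V x / 2) with hb
  have h3 : |h x| = a * b := by
    rw [ha, hb]
    calc |h x| = |h x| * 1 := by ring
      _ = |h x| * (Real.exp (V x / 2) * Real.exp (-(V x / 2))) := by rw [e3]
      _ = _ := by ring
  have h4 : h x ^ 2 * Real.exp (-(V x / 2)) ^ 2 = a ^ 2 := by
    rw [ha, mul_pow, sq_abs]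
  rw [h3, h4]
  nlinarith [sq_nonneg (a - b), sq_nonneg a, sq_nonneg b, mul_nonneg (show 0 ≤ a by positivity) (show 0 ≤ b by positivity)]

/-- a sequence of bumps with radii tending to zero -/
theorem exists_bumps (n : ℕ) : ∃ φ : ℕ → ContDiffBump (0 : E n),
    Tendsto (fun k => (φ k).rOut) atTop (𝓝 0) ∧ ∀ᶠ k in atTop, (φ k).rOut ≤ 2 * (φ k).rIn := by
  refine ⟨fun k => ⟨1 / ((k : ℝ) + 1), 2 * (1 / ((k : ℝ) + 1)), by positivity, ?_⟩, ?_, ?_⟩
  · have : (0 : ℝ) < 1 / ((k : ℝ) + 1) := by positivity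
    linarith
  · have := (tendsto_one_div_add_atTop_nhds_zero_nat (𝕜 := ℝ)).const_mul 2
    simpa using this
  · exact Filter.Eventually.of_forall (fun k => le_rfl)

/-- a.e. limit of affine functions is a.e. affine -/
theorem affine_limit {c : ℕ → ℝ} {l : ℕ → Fin n → ℝ} {h : E n → ℝ}
    (H : ∀ᵐ x ∂(volume : Measure (E n)), Tendsto (fun k => c k + ∑ i, l k i * x i) atTop (𝓝 (h x))) :
    ∃ (C : ℝ) (L : Fin n → ℝ), (∀ i, Tendsto (fun k => l k i) atTop (𝓝 (L i))) ∧
      Tendsto c atTop (𝓝 C) ∧ ∀ᵐ x ∂(volume : Measure (E n)), h x = C + ∑ i, L i * x i := by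
  have hL : ∀ i, ∃ L, Tendsto (fun k => l k i) atTop (𝓝 L) := by
    intro i
    have H2 : ∀ᵐ x ∂(volume : Measure (E n)),
        Tendsto (fun k => c k + ∑ j, l k j * (x + ei i) j) atTop (𝓝 (h (x + ei i))) :=
      (quasiMeasurePreserving_add_right volume (ei i)).ae H
    obtain ⟨x, hx1, hx2⟩ := (H.and H2).exists
    refine ⟨h (x + ei i) - h x, ?_⟩
    refine (hx2.sub hx1).congr (fun k => ?_)
    have : ∀ j, l k j * (x + ei i) j = l k j * x j + l k j * (ei i : E n) j := by
      intro j; simp [mul_add]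
    simp only [this, Finset.sum_add_distrib]
    have h3 : ∑ j, l k j * (ei i : E n) j = l k i := by
      rw [Finset.sum_eq_single i]
      · simp [ei]
      · intro j _ hj; simp [ei, hj]
      · simp
    rw [h3]; ring
  choose L hL using hL
  obtain ⟨x0, hx0⟩ := H.exists
  have hs : ∀ x : E n, Tendsto (fun k => ∑ i, l k i * x i) atTop (𝓝 (∑ i, L i * x i)) := fun x =>
    tendsto_finset_sum _ (fun i _ => (hL i).mul_const _)
  have hc : Tendsto c atTop (𝓝 (h x0 - ∑ i, L i * x0 i)) := by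
    refine (hx0.sub (hs x0)).congr (fun k => by ring)
  refine ⟨_, L, hL, hc, ?_⟩
  filter_upwards [H] with x hx
  exact tendsto_nhds_unique hx (hc.add (hs x))

/-- weak first derivatives zero (tested through convolutions): constant -/
theorem const_of_cv {h : E n → ℝ} (hh : LocallyIntegrable h volume)
    (H : ∀ f : E n → ℝ, ContDiff ℝ (⊤ : ℕ∞) f → HasCompactSupport f → ∀ i x, cv (pd i f) h x = 0) :
    ∃ c : ℝ, ∀ᵐ x ∂(volume : Measure (E n)), h x = c := by
  obtain ⟨φ, hφ0, hφ1⟩ := exists_bumps n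
  have hlim := ContDiffBump.ae_convolution_tendsto_right_of_locallyIntegrable (μ := volume) hφ0 hφ1 hh
  have hc : ∀ k, ∃ c, ∀ x, cv ((φ k).normed volume) h x = c := by
    intro k
    have h1 : ContDiff ℝ (⊤ : ℕ∞) ((φ k).normed (volume : Measure (E n))) := (φ k).contDiff_normed
    have h2 : HasCompactSupport ((φ k).normed (volume : Measure (E n))) := (φ k).hasCompactSupport_normed
    have h11 : ContDiff ℝ 1 ((φ k).normed (volume : Measure (E n))) := h1.of_le (by exact_mod_cast le_top)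
    refine ⟨cv ((φ k).normed volume) h 0, fun x => ?_⟩
    refine const_of_pd (diff_cv_left h2 hh h11) (fun i z => ?_) x 0
    rw [pd_cv_left h2 hh h11 i z]
    exact H _ h1 h2 i z
  choose c hc using hc
  have : ∀ᵐ x ∂(volume : Measure (E n)), Tendsto (fun k => c k + ∑ i : Fin n, (0 : ℝ) * x i) atTop (𝓝 (h x)) := by
    filter_upwards [hlim] with x hx
    refine hx.congr (fun k => ?_)
    have := hc k x
    simp only [cv] at this
    rw [this]; simp
  obtain ⟨C, L, hL, -, hC⟩ := affine_limit (l := fun _ _ => (0 : ℝ)) this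
  refine ⟨C, ?_⟩
  have hL0 : ∀ i, L i = 0 := fun i => tendsto_nhds_unique (hL i) tendsto_const_nhds
  filter_upwards [hC] with x hx
  rw [hx]; simp [hL0]

/-- weak second derivatives zero (tested through convolutions): affine -/
theorem affine_of_cv {h : E n → ℝ} (hh : LocallyIntegrable h volume)
    (H : ∀ f : E n → ℝ, ContDiff ℝ (⊤ : ℕ∞) f → HasCompactSupport f →
      ∀ i j x, cv (pd i (pd j f)) h x = 0) :
    ∃ (c : ℝ) (l : Fin n → ℝ), ∀ᵐ x ∂(volume : Measure (E n)), h x = c + ∑ i, l i * x i := by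
  obtain ⟨φ, hφ0, hφ1⟩ := exists_bumps n
  have hlim := ContDiffBump.ae_convolution_tendsto_right_of_locallyIntegrable (μ := volume) hφ0 hφ1 hh
  have hc : ∀ k, ∃ (c : ℝ) (l : Fin n → ℝ), ∀ x : E n,
      cv ((φ k).normed volume) h x = c + ∑ i, l i * x i := by
    intro k
    have h1 : ContDiff ℝ (⊤ : ℕ∞) ((φ k).normed (volume : Measure (E n))) := (φ k).contDiff_normed
    have h2 : HasCompactSupport ((φ k).normed (volume : Measure (E n))) := (φ k).hasCompactSupport_normed
    have h11 : ContDiff ℝ 1 ((φ k).normed (volume : Measure (E n))) := h1.of_le (by exact_mod_cast le_top)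
    have hj1 : ∀ j, ContDiff ℝ (⊤ : ℕ∞) (pd j ((φ k).normed (volume : Measure (E n)))) := fun j =>
      pd_contDiff (k := ⊤) (by simpa using h1) j
    have hj11 : ∀ j, ContDiff ℝ 1 (pd j ((φ k).normed (volume : Measure (E n)))) := fun j =>
      (hj1 j).of_le (by exact_mod_cast le_top)
    have hj2 : ∀ j, HasCompactSupport (pd j ((φ k).normed (volume : Measure (E n)))) := fun j => pd_supp h2 j
    set l : Fin n → ℝ := fun j => cv (pd j ((φ k).normed volume)) h 0 with hl
    have hl1 : ∀ j x, cv (pd j ((φ k).normed volume)) h x = l j := by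
      intro j x
      refine const_of_pd (diff_cv_left (hj2 j) hh (hj11 j)) (fun i z => ?_) x 0
      rw [pd_cv_left (hj2 j) hh (hj11 j) i z]
      exact H _ h1 h2 i j z
    have hd : Differentiable ℝ (fun x : E n => cv ((φ k).normed volume) h x - ∑ i, l i * x i) :=
      (diff_cv_left h2 hh h11).sub (by fun_prop)
    refine ⟨cv ((φ k).normed volume) h 0, l, fun x => ?_⟩
    have hz := const_of_pd hd (fun i z => ?_) x 0
    · simp only [PiLp.zero_apply, mul_zero, Finset.sum_const_zero, sub_zero] at hz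
      linarith
    · have e1 : HasFDerivAt (fun x : E n => ∑ j, l j * x j)
          (∑ j, l j • (EuclideanSpace.proj j : E n →L[ℝ] ℝ)) z := by
        refine HasFDerivAt.fun_sum (fun j _ => ?_)
        exact ((EuclideanSpace.proj j : E n →L[ℝ] ℝ).hasFDerivAt).const_mul (l j)
      have e2 := ((diff_cv_left h2 hh h11) z).hasFDerivAt.sub e1
      unfold pd
      have e3 : fderiv ℝ (fun x : E n => cv ((φ k).normed volume) h x - ∑ i, l i * x i) z = _ := e2.fderiv
      rw [e3]
      have e4 := pd_cv_left h2 hh h11 i z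
      rw [hl1 i z] at e4
      unfold pd at e4
      simp only [ContinuousLinearMap.sub_apply]
      rw [e4]
      simp only [ContinuousLinearMap.sum_apply, ContinuousLinearMap.smul_apply, smul_eq_mul]
      have : ∑ j, l j * (EuclideanSpace.proj j : E n →L[ℝ] ℝ) (ei i) = l i := by
        rw [Finset.sum_eq_single i]
        · simp [ei]
        · intro j _ hj; simp [ei, hj]
        · simp
      rw [this]; ring
  choose c l hc using hc
  have : ∀ᵐ x ∂(volume : Measure (E n)), Tendsto (fun k => c k + ∑ i : Fin n, l k i * x i) atTop (𝓝 (h x)) := by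
    filter_upwards [hlim] with x hx
    refine hx.congr (fun k => ?_)
    have := hc k x
    simp only [cv] at this
    rw [this]
  obtain ⟨C, L, -, -, hC⟩ := affine_limit this
  exact ⟨C, L, hC⟩

section main

variable {V : E n → ℝ} (hV : Continuous V) {v : ℕ → E n → ℝ} (hv : ∀ m, Test (v m))
  {h : E n → ℝ} (hh : AEStronglyMeasurable h volume) (hI : Integrable (fun x => h x ^ 2 * Real.exp (-V x)))
  (h1 : Tendsto (fun m => ∫ x, (v m x - h x) ^ 2 * Real.exp (-V x)) atTop (𝓝 0))

include hV hv hh hI in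
theorem int_sub_sq (m : ℕ) : Integrable (fun x => (v m x - h x) ^ 2 * Real.exp (-V x)) := by
  have hc : Continuous (v m) := (hv m).1.continuous
  have hi : Integrable (fun x => v m x ^ 2 * Real.exp (-V x)) := by
    refine Continuous.integrable_of_hasCompactSupport
      ((hc.pow 2).mul (Real.continuous_exp.comp hV.neg)) ?_
    have h0 : HasCompactSupport (fun z => v m z * (v m z * Real.exp (-V z))) := (hv m).2.mul_right
    have h1 : (fun z => v m z * (v m z * Real.exp (-V z))) = fun z => v m z ^ 2 * Real.exp (-V z) := by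
      funext z; ring
    rw [h1] at h0
    exact h0
  have hb : Integrable (fun x => 2 * (v m x ^ 2 * Real.exp (-V x)) + 2 * (h x ^ 2 * Real.exp (-V x))) :=
    (hi.const_mul 2).add (hI.const_mul 2)
  refine hb.mono ?_ (Filter.Eventually.of_forall fun x => ?_)
  · exact ((hc.aestronglyMeasurable.sub hh).pow 2).mul
      (Real.continuous_exp.comp hV.neg).aestronglyMeasurable
  · have e := Real.exp_pos (-V x)
    rw [Real.norm_eq_abs, Real.norm_eq_abs, abs_of_nonneg (by positivity), abs_of_nonneg (by positivity)]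
    nlinarith [sq_nonneg (v m x + h x), mul_nonneg e.le (sq_nonneg (v m x + h x))]

include hV hv hh hI h1 in
theorem tendsto_cv' {f : E n → ℝ} (hf : Continuous f) (hfs : HasCompactSupport f) (x : E n) :
    Tendsto (fun m => cv f (v m) x) atTop (𝓝 (cv f h x)) :=
  tendsto_cv hV (fun m => (hv m).1.continuous.aestronglyMeasurable.sub hh)
    (int_sub_sq hV hv hh hI) (fun m => (hv m).1.continuous.locallyIntegrable) (locInt_of_sq hV hh hI) h1
    hf hfs x

omit hV in
theorem tendsto_cv_zero (hV : Continuous V) {g : ℕ → E n → ℝ} (hg : ∀ m, Continuous (g m)) (hgs : ∀ m, HasCompactSupport (g m))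
    (h2 : Tendsto (fun m => ∫ x, (g m x) ^ 2 * Real.exp (-V x)) atTop (𝓝 0))
    {f : E n → ℝ} (hf : Continuous f) (hfs : HasCompactSupport f) (x : E n) :
    Tendsto (fun m => cv f (g m) x) atTop (𝓝 0) := by
  have hz : LocallyIntegrable (fun _ : E n => (0 : ℝ)) volume := (integrable_zero (E n) ℝ volume).locallyIntegrable
  have := tendsto_cv (h := fun _ => (0 : ℝ)) hV
    (fun m => by simpa using (hg m).aestronglyMeasurable)
    (fun m => by
      simp only [sub_zero]
      refine Continuous.integrable_of_hasCompactSupport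
        (((hg m).pow 2).mul (Real.continuous_exp.comp hV.neg)) ?_
      have h0 : HasCompactSupport (fun z => g m z * (g m z * Real.exp (-V z))) := (hgs m).mul_right
      have h1 : (fun z => g m z * (g m z * Real.exp (-V z))) = fun z => g m z ^ 2 * Real.exp (-V z) := by
        funext z; ring
      rw [h1] at h0
      exact h0)
    (fun m => (hg m).locallyIntegrable) hz (by simpa using h2) hf hfs x
  have h0 : cv f (fun _ => (0 : ℝ)) x = 0 := by rw [cv_apply]; simp
  rwa [h0] at this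

include hV hv hh hI h1 in
/-- (A0) -/
theorem ae_const_of_grad
    (h2 : ∀ i, Tendsto (fun m => ∫ x, (pd i (v m) x) ^ 2 * Real.exp (-V x)) atTop (𝓝 0)) :
    ∃ c : ℝ, ∀ᵐ x ∂(volume : Measure (E n)), h x = c := by
  refine const_of_cv (locInt_of_sq hV hh hI) (fun f hf hfs i x => ?_)
  have hf1 : ContDiff ℝ 1 f := hf.of_le (by exact_mod_cast le_top)
  have a1 := tendsto_cv' hV hv hh hI h1 (pd_continuous hf1 i) (pd_supp hfs i) x
  have a2 := tendsto_cv_zero hV (fun m => pd_continuous ((hv m).1.of_le (by exact_mod_cast le_top)) i)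
    (fun m => pd_supp (hv m).2 i) (h2 i) hf.continuous hfs x
  refine tendsto_nhds_unique a1 (a2.congr (fun m => ?_))
  have hv1 : ContDiff ℝ 1 (v m) := (hv m).1.of_le (by exact_mod_cast le_top)
  rw [← pd_cv_left hfs (hv m).1.continuous.locallyIntegrable hf1 i x,
    pd_cv_right (hv m).2 hf.continuous.locallyIntegrable hv1 i x]

include hV hv hh hI h1 in
/-- (A1) -/
theorem ae_affine_of_hess
    (h2 : ∀ i j, Tendsto (fun m => ∫ x, (hess (v m) x i j) ^ 2 * Real.exp (-V x)) atTop (𝓝 0)) :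
    ∃ (c : ℝ) (l : Fin n → ℝ), ∀ᵐ x ∂(volume : Measure (E n)), h x = c + ∑ i, l i * x i := by
  refine affine_of_cv (locInt_of_sq hV hh hI) (fun f hf hfs i j x => ?_)
  have hf1 : ContDiff ℝ 1 f := hf.of_le (by exact_mod_cast le_top)
  have hfj : ContDiff ℝ (⊤ : ℕ∞) (pd j f) := pd_contDiff (k := ⊤) (by simpa using hf) j
  have hfj1 : ContDiff ℝ 1 (pd j f) := hfj.of_le (by exact_mod_cast le_top)
  have hvj : ∀ m, ContDiff ℝ (⊤ : ℕ∞) (pd i (v m)) := fun m =>
    pd_contDiff (k := ⊤) (by simpa using (hv m).1) i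
  have hvj1 : ∀ m, ContDiff ℝ 1 (pd i (v m)) := fun m => (hvj m).of_le (by exact_mod_cast le_top)
  have a1 := tendsto_cv' hV hv hh hI h1 (pd_continuous hfj1 i) (pd_supp (pd_supp hfs j) i) x
  have a2 := tendsto_cv_zero hV (g := fun m => pd j (pd i (v m))) (fun m => pd_continuous (hvj1 m) j)
    (fun m => pd_supp (pd_supp (hv m).2 i) j) (h2 j i) hf.continuous hfs x
  refine tendsto_nhds_unique a1 (a2.congr (fun m => ?_))
  have hv1 : ContDiff ℝ 1 (v m) := (hv m).1.of_le (by exact_mod_cast le_top)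
  have b1 : cv (pd i (pd j f)) (v m) x = cv (pd j f) (pd i (v m)) x := by
    rw [← pd_cv_left (pd_supp hfs j) (hv m).1.continuous.locallyIntegrable hfj1 i x,
      pd_cv_right (hv m).2 hfj.continuous.locallyIntegrable hv1 i x]
  have b2 : cv (pd j f) (pd i (v m)) x = cv f (pd j (pd i (v m))) x := by
    rw [← pd_cv_left hfs (hvj m).continuous.locallyIntegrable hf1 j x,
      pd_cv_right (pd_supp (hv m).2 i) hf.continuous.locallyIntegrable (hvj1 m) j x]
  rw [b1, b2]

end main

end Vale.Agent.P227.M.Aff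
end

section

open MeasureTheory Set Metric Filter Topology
open scoped ENNReal NNReal Pointwise

namespace Vale.Agent.P227

/-- Euclidean space -/
abbrev EV (n : ℕ) := EuclideanSpace ℝ (Fin n)

variable {n : ℕ}

theorem SymConvexBody.zero_mem_int {K : Set (EV n)} (hK : SymConvexBody K) :
    (0 : EV n) ∈ interior K := by
  obtain ⟨x, hx⟩ := hK.nonempty_interior
  have hneg : (Homeomorph.neg (EV n)) ⁻¹' K = K := by
    ext y
    constructor
    · intro hy
      have := hK.symm _ hy
      simpa using this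
    · intro hy
      exact hK.symm _ hy
  have hx' : -x ∈ interior K := by
    have h1 := (Homeomorph.neg (EV n)).preimage_interior K
    rw [hneg] at h1
    have h2 : x ∈ (Homeomorph.neg (EV n)) ⁻¹' interior K := by rw [h1]; exact hx
    exact h2
  have := hK.convex.interior hx hx' (by norm_num : (0 : ℝ) ≤ 1 / 2)
    (by norm_num : (0 : ℝ) ≤ 1 / 2) (by norm_num)
  simpa using this

theorem SymConvexBody.nhds {K : Set (EV n)} (hK : SymConvexBody K) : K ∈ 𝓝 (0 : EV n) :=
  mem_interior_iff_mem_nhds.1 hK.zero_mem_int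

theorem SymConvexBody.zero_mem {K : Set (EV n)} (hK : SymConvexBody K) : (0 : EV n) ∈ K :=
  interior_subset hK.zero_mem_int

theorem SymConvexBody.exists_ball {K : Set (EV n)} (hK : SymConvexBody K) :
    ∃ r : ℝ, 0 < r ∧ closedBall (0 : EV n) r ⊆ K := by
  obtain ⟨r, hr0, hr⟩ := Metric.nhds_basis_closedBall.mem_iff.1 hK.nhds
  exact ⟨r, hr0, hr⟩

theorem SymConvexBody.exists_bound {K : Set (EV n)} (hK : SymConvexBody K) :
    ∃ R : ℝ, 0 < R ∧ ∀ x ∈ K, ‖x‖ ≤ R :=
  hK.isCompact.isBounded.exists_pos_norm_le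

theorem bddAbove_inner {K : Set (EV n)} (hK : IsCompact K) (u : EV n) :
    BddAbove ((fun x => inner ℝ x u) '' K) :=
  (hK.image (by fun_prop)).bddAbove

theorem inner_le_supportFn {K : Set (EV n)} (hK : IsCompact K) {x : EV n} (hx : x ∈ K)
    (u : EV n) : inner ℝ x u ≤ supportFn K u :=
  le_csSup (bddAbove_inner hK u) ⟨x, hx, rfl⟩

theorem supportFn_le {K : Set (EV n)} (hne : K.Nonempty) {u : EV n} {c : ℝ}
    (h : ∀ x ∈ K, inner ℝ x u ≤ c) : supportFn K u ≤ c := by
  apply csSup_le (hne.image _)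
  rintro _ ⟨x, hx, rfl⟩
  exact h x hx

theorem supportFn_add_le {K : Set (EV n)} (hK : IsCompact K) (hne : K.Nonempty) (u v : EV n) :
    supportFn K (u + v) ≤ supportFn K u + supportFn K v := by
  apply supportFn_le hne
  intro x hx
  rw [inner_add_right]
  exact add_le_add (inner_le_supportFn hK hx u) (inner_le_supportFn hK hx v)

theorem SymConvexBody.supportFn_neg {K : Set (EV n)} (hK : SymConvexBody K) (u : EV n) :
    supportFn K (-u) = supportFn K u := by
  have key : ∀ w : EV n, supportFn K (-w) ≤ supportFn K w := by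
    intro w
    apply supportFn_le ⟨0, hK.zero_mem⟩
    intro x hx
    rw [inner_neg_right, ← inner_neg_left]
    exact inner_le_supportFn hK.isCompact (hK.symm x hx) w
  apply le_antisymm (key u)
  have := key (-u)
  rwa [neg_neg] at this

theorem SymConvexBody.supportFn_ge {K : Set (EV n)} {r : ℝ} (hr : 0 < r)
    (hK : IsCompact K) (hb : closedBall (0 : EV n) r ⊆ K) (u : EV n) :
    r * ‖u‖ ≤ supportFn K u := by
  by_cases hu : u = 0
  · subst hu
    have := inner_le_supportFn hK (hb (mem_closedBall_self hr.le)) (0 : EV n)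
    simpa using this
  · have hu' : 0 < ‖u‖ := norm_pos_iff.2 hu
    have hmem : (r / ‖u‖) • u ∈ K := by
      apply hb
      rw [mem_closedBall_zero_iff, norm_smul, norm_div, norm_norm, Real.norm_of_nonneg hr.le]
      field_simp
      exact le_rfl
    have := inner_le_supportFn hK hmem u
    rw [real_inner_smul_left, real_inner_self_eq_norm_sq] at this
    calc r * ‖u‖ = r / ‖u‖ * ‖u‖ ^ 2 := by field_simp
      _ ≤ _ := this

theorem SymConvexBody.supportFn_pos {K : Set (EV n)} (hK : SymConvexBody K) {u : EV n}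
    (hu : u ≠ 0) : 0 < supportFn K u := by
  obtain ⟨r, hr0, hr⟩ := hK.exists_ball
  have := SymConvexBody.supportFn_ge hr0 hK.isCompact hr u
  have h2 : 0 < r * ‖u‖ := mul_pos hr0 (norm_pos_iff.2 hu)
  linarith

theorem SymConvexBody.supportFn_le_norm {K : Set (EV n)} (hK : SymConvexBody K) {R : ℝ}
    (hR : ∀ x ∈ K, ‖x‖ ≤ R) (u : EV n) : supportFn K u ≤ R * ‖u‖ := by
  apply supportFn_le ⟨0, hK.zero_mem⟩
  intro x hx
  exact (real_inner_le_norm x u).trans (mul_le_mul_of_nonneg_right (hR x hx) (norm_nonneg _))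

theorem SymConvexBody.continuous_supportFn {K : Set (EV n)} (hK : SymConvexBody K) :
    Continuous (supportFn K) := by
  obtain ⟨R, hR0, hR⟩ := hK.exists_bound
  have : LipschitzWith R.toNNReal (supportFn K) := by
    apply LipschitzWith.of_le_add_mul
    intro u v
    have h1 := supportFn_add_le hK.isCompact ⟨0, hK.zero_mem⟩ v (u - v)
    have h2 := hK.supportFn_le_norm hR (u - v)
    rw [Real.coe_toNNReal _ hR0.le, dist_eq_norm]
    have h3 : v + (u - v) = u := by abel
    rw [h3] at h1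
    linarith
  exact this.continuous

end Vale.Agent.P227
end

section

/-! # P227: end reduction, part B: log-concavity of intersections of slabs gives the logarithmic Brunn-Minkowski inequality -/

open MeasureTheory Set Metric Filter Topology
open scoped ENNReal NNReal

namespace Vale.Agent.P227.End

/-- intersection of slabs -/
def slab {n J : ℕ} (ν : Fin J → EV n) (h : Fin J → ℝ) : Set (EV n) := {x | ∀ j, |(inner ℝ x (ν j) : ℝ)| ≤ h j}

/-- log-Brunn-Minkowski for two families of parallel slabs -/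
def SlabStmt : Prop := ∀ (n J : ℕ) (ν : Fin J → EV n), 0 < n → (∀ x : EV n, (∀ j, (inner ℝ x (ν j) : ℝ) = 0) → x = 0) →
  ∀ (g h : Fin J → ℝ) (t : ℝ), (∀ j, 0 < g j) → (∀ j, 0 < h j) → 0 ≤ t → t ≤ 1 →
    (volume (slab ν g)).toReal ^ (1 - t) * (volume (slab ν h)).toReal ^ t ≤
      (volume (slab ν (fun j => g j ^ (1 - t) * h j ^ t))).toReal

/-- the standard basis followed by a finite part of a sequence -/
private noncomputable def fam {n : ℕ} (u : ℕ → EV n) (N : ℕ) : Fin (n + N) → EV n :=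
  Fin.append (fun i : Fin n => EuclideanSpace.single i (1 : ℝ)) (fun i : Fin N => u i)

private theorem fam_left {n : ℕ} (u : ℕ → EV n) (N : ℕ) (i : Fin n) : fam u N (Fin.castAdd N i) = EuclideanSpace.single i (1 : ℝ) :=
  Fin.append_left _ _ _

private theorem fam_right {n : ℕ} (u : ℕ → EV n) (N : ℕ) (i : Fin N) : fam u N (Fin.natAdd n i) = u i :=
  Fin.append_right _ _ _

private theorem slab_closed {n J : ℕ} (ν : Fin J → EV n) (h : Fin J → ℝ) : IsClosed (slab ν h) := by
  have : slab ν h = ⋂ j, {x | |(inner ℝ x (ν j) : ℝ)| ≤ h j} := by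
    ext x
    simp [slab]
  rw [this]
  exact isClosed_iInter fun j => isClosed_le (by fun_prop) continuous_const

private theorem fam_span {n : ℕ} (u : ℕ → EV n) (N : ℕ) (x : EV n) (hx : ∀ j, (inner ℝ x (fam u N j) : ℝ) = 0) : x = 0 := by
  ext i
  have h := hx (Fin.castAdd N i)
  rw [fam_left] at h
  simpa [EuclideanSpace.inner_single_right] using h

private theorem fam_bdd {n : ℕ} (u : ℕ → EV n) (N : ℕ) (h : Fin (n + N) → ℝ) : volume (slab (fam u N) h) ≠ ⊤ := by
  have hb : Bornology.IsBounded (slab (fam u N) h) := by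
    rw [isBounded_iff_forall_norm_le]
    refine ⟨Real.sqrt (∑ i : Fin n, h (Fin.castAdd N i) ^ 2), fun x hx => ?_⟩
    rw [EuclideanSpace.norm_eq]
    refine Real.sqrt_le_sqrt (Finset.sum_le_sum fun i _ => ?_)
    have h1 := hx (Fin.castAdd N i)
    rw [fam_left] at h1
    have h2 : |x i| ≤ h (Fin.castAdd N i) := by simpa [EuclideanSpace.inner_single_right] using h1
    rw [Real.norm_eq_abs]
    exact pow_le_pow_left₀ (abs_nonneg _) h2 2
  exact hb.measure_lt_top.ne

/-- slabs give the whole inequality -/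
theorem log_bm_of_slab (H : SlabStmt) {n : ℕ} (hn : 0 < n) {K L : Set (EV n)} (hK : SymConvexBody K)
    (hL : SymConvexBody L) {t : ℝ} (ht0 : 0 ≤ t) (ht1 : t ≤ 1) :
    (volume K).toReal ^ (1 - t) * (volume L).toReal ^ t ≤ (volume (logComb t K L)).toReal := by
  obtain ⟨m, rfl⟩ : ∃ m, n = m + 1 := ⟨n - 1, by omega⟩
  have : Nonempty (sphere (0 : EV (m + 1)) 1) := by
    refine ⟨⟨EuclideanSpace.single 0 1, ?_⟩⟩
    simp
  let u : ℕ → EV (m + 1) := fun i => (TopologicalSpace.denseSeq (sphere (0 : EV (m + 1)) 1) i : EV (m + 1))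
  have hu1 : ∀ i, ‖u i‖ = 1 := fun i => mem_sphere_zero_iff_norm.1 (TopologicalSpace.denseSeq (sphere (0 : EV (m + 1)) 1) i).2
  let f : EV (m + 1) → ℝ := fun v => supportFn K v ^ (1 - t) * supportFn L v ^ t
  have hKc := hK.continuous_supportFn
  have hLc := hL.continuous_supportFn
  have hfc : Continuous f :=
    (hKc.rpow_const fun v => Or.inr (by linarith)).mul (hLc.rpow_const fun v => Or.inr ht0)
  have hfe : ∀ v, f (-v) = f v := fun v => by
    simp only [f]
    rw [hK.supportFn_neg, hL.supportFn_neg]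
  -- nonzero vectors in the family
  have hfam0 : ∀ N j, fam u N j ≠ 0 := by
    intro N j
    refine Fin.addCases (fun i => ?_) (fun i => ?_) j
    · rw [fam_left]
      intro h
      have := congrArg (fun z : EV (m + 1) => z i) h
      simp at this
    · rw [fam_right]
      intro h
      have := hu1 i
      rw [h] at this
      simp at this
  have hstep : ∀ N, (volume K).toReal ^ (1 - t) * (volume L).toReal ^ t ≤
      (volume (slab (fam u N) (fun j => f (fam u N j)))).toReal := by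
    intro N
    have h1 := H (m + 1) (m + 1 + N) (fam u N) hn (fam_span u N) (fun j => supportFn K (fam u N j))
      (fun j => supportFn L (fam u N j)) t (fun j => hK.supportFn_pos (hfam0 N j)) (fun j => hL.supportFn_pos (hfam0 N j)) ht0 ht1
    refine le_trans ?_ h1
    have hsub : ∀ {A : Set (EV (m + 1))}, SymConvexBody A → A ⊆ slab (fam u N) (fun j => supportFn A (fam u N j)) := by
      intro A hA x hx j
      rw [abs_le]
      constructor
      · have h2 := inner_le_supportFn hA.isCompact (hA.symm x hx) (fam u N j)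
        rw [inner_neg_left] at h2
        linarith
      · exact inner_le_supportFn hA.isCompact hx _
    have hvK : (volume K).toReal ≤ (volume (slab (fam u N) (fun j => supportFn K (fam u N j)))).toReal :=
      ENNReal.toReal_mono (fam_bdd u N _) (measure_mono (hsub hK))
    have hvL : (volume L).toReal ≤ (volume (slab (fam u N) (fun j => supportFn L (fam u N j)))).toReal :=
      ENNReal.toReal_mono (fam_bdd u N _) (measure_mono (hsub hL))
    exact mul_le_mul (Real.rpow_le_rpow ENNReal.toReal_nonneg hvK (by linarith))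
      (Real.rpow_le_rpow ENNReal.toReal_nonneg hvL ht0) (Real.rpow_nonneg ENNReal.toReal_nonneg _)
      (Real.rpow_nonneg ENNReal.toReal_nonneg _)
  -- the slabs decrease to the Wulff body
  have hanti : Antitone fun N => slab (fam u N) (fun j => f (fam u N j)) := by
    refine antitone_nat_of_succ_le fun N x hx => ?_
    intro j
    refine Fin.addCases (fun i => ?_) (fun i => ?_) j
    · have h := hx (Fin.castAdd (N + 1) i)
      have e1 := fam_left u (N + 1) i
      have e2 := fam_left u N i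
      simp only [e1] at h
      simp only [e2]
      exact h
    · have h := hx (Fin.natAdd (m + 1) (Fin.castSucc i))
      have e1 := fam_right u (N + 1) (Fin.castSucc i)
      have e2 := fam_right u N i
      simp only [e1] at h
      simp only [e2]
      exact h
  have hinter : (⋂ N, slab (fam u N) (fun j => f (fam u N j))) = logComb t K L := by
    ext x
    constructor
    · intro hx v hv
      have hx1 : ∀ i, inner ℝ x (u i) ≤ f (u i) := by
        intro i
        have h1 := mem_iInter.1 hx (i + 1) (Fin.natAdd (m + 1) (Fin.last i))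
        have e1 := fam_right u (i + 1) (Fin.last i)
        simp only [e1] at h1
        exact (le_abs_self _).trans h1
      have hcl : IsClosed {w : sphere (0 : EV (m + 1)) 1 | inner ℝ x (w : EV (m + 1)) ≤ f w} :=
        isClosed_le (by fun_prop) (hfc.comp continuous_subtype_val)
      have hd := TopologicalSpace.denseRange_denseSeq (sphere (0 : EV (m + 1)) 1)
      have hall : {w : sphere (0 : EV (m + 1)) 1 | inner ℝ x (w : EV (m + 1)) ≤ f w} = univ := by
        refine hcl.closure_eq ▸ (hd.mono ?_).closure_eq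
        rintro _ ⟨i, rfl⟩
        exact hx1 i
      have h3 : (⟨v, mem_sphere_zero_iff_norm.2 hv⟩ : sphere (0 : EV (m + 1)) 1) ∈
          {w : sphere (0 : EV (m + 1)) 1 | inner ℝ x (w : EV (m + 1)) ≤ f w} := by
        rw [hall]
        trivial
      exact h3
    · intro hx
      rw [mem_iInter]
      intro N j
      have hone : ‖fam u N j‖ = 1 := by
        refine Fin.addCases (fun i => ?_) (fun i => ?_) j
        · rw [fam_left]
          simp
        · rw [fam_right]
          exact hu1 i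
      rw [abs_le]
      constructor
      · have h1 := hx (-fam u N j) (by rw [norm_neg]; exact hone)
        have h2 : f (-fam u N j) = f (fam u N j) := hfe _
        have h3 : inner ℝ x (-fam u N j) ≤ f (-fam u N j) := h1
        rw [inner_neg_right, h2] at h3
        linarith
      · exact hx _ hone
  have hlim := tendsto_measure_iInter_atTop (μ := (volume : Measure (EV (m + 1))))
    (fun N => (slab_closed (fam u N) (fun j => f (fam u N j))).measurableSet.nullMeasurableSet) hanti ⟨0, fam_bdd u 0 _⟩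
  rw [hinter] at hlim
  have hfin : volume (logComb t K L) ≠ ⊤ := by
    rw [← hinter]
    exact ((measure_mono (iInter_subset (fun N => slab (fam u N) (fun j => f (fam u N j))) 0)).trans_lt (fam_bdd u 0 _).lt_top).ne
  have hlim2 := (ENNReal.tendsto_toReal hfin).comp hlim
  exact ge_of_tendsto' hlim2 hstep

end Vale.Agent.P227.End
end

section

/-! # P227: end reduction, part A: soft walls give slabs -/

open MeasureTheory Set Metric Filter Topology
open scoped ENNReal NNReal

namespace Vale.Agent.P227.End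

/-- the integral of the Gibbs weight with soft walls `v (⟪x, ν j⟫ / h j)` and a Gaussian term -/
noncomputable def softInt {n J : ℕ} (v : ℝ → ℝ) (e : ℝ) (ν : Fin J → EV n) (h : Fin J → ℝ) : ℝ :=
  ∫ x : EV n, Real.exp (-(∑ j, v ((inner ℝ x (ν j) : ℝ) / h j)) - e * ‖x‖ ^ 2)

/-- `exp (-a ‖x‖)` is integrable -/
theorem integrable_exp_neg_norm {n : ℕ} {a : ℝ} (ha : 0 < a) : Integrable (fun x : EV n => Real.exp (-(a * ‖x‖))) := by
  have h1 : Integrable (fun x : EV n => (1 + ‖x‖) ^ (-((n : ℝ) + 1))) := by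
    refine integrable_one_add_norm ?_
    simp
  have h2 : Integrable (fun x : EV n => (Real.exp a * ((n + 1).factorial / a ^ (n + 1))) * (1 + ‖x‖) ^ (-((n : ℝ) + 1))) :=
    h1.const_mul _
  refine h2.mono' (by fun_prop) (Eventually.of_forall fun x => ?_)
  rw [Real.norm_eq_abs, abs_of_pos (Real.exp_pos _)]
  have hp : (0 : ℝ) < 1 + ‖x‖ := by positivity
  have h3 := Real.pow_div_factorial_le_exp (a * (1 + ‖x‖)) (by positivity) (n + 1)
  have h4 : Real.exp (-(a * ‖x‖)) = Real.exp a * (Real.exp (a * (1 + ‖x‖)))⁻¹ := by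
    rw [← Real.exp_neg, ← Real.exp_add]
    congr 1
    ring
  rw [h4, mul_assoc]
  refine mul_le_mul_of_nonneg_left ?_ (Real.exp_pos _).le
  have h5 : (1 + ‖x‖) ^ (-((n : ℝ) + 1)) = ((1 + ‖x‖) ^ (n + 1))⁻¹ := by
    rw [Real.rpow_neg hp.le]
    congr 1
    exact_mod_cast Real.rpow_natCast (1 + ‖x‖) (n + 1)
  rw [h5, mul_pow] at *
  have h6 : (0 : ℝ) < (n + 1).factorial := by exact_mod_cast Nat.factorial_pos _
  have h7 : 0 < a ^ (n + 1) * (1 + ‖x‖) ^ (n + 1) / ((n + 1).factorial : ℝ) := by positivity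
  calc (Real.exp (a * (1 + ‖x‖)))⁻¹ ≤ (a ^ (n + 1) * (1 + ‖x‖) ^ (n + 1) / ((n + 1).factorial : ℝ))⁻¹ := inv_anti₀ h7 h3
    _ = _ := by
      field_simp

/-- a spanning family controls the norm -/
theorem exists_norm_le {n J : ℕ} (ν : Fin J → EV n) (hν : ∀ x : EV n, (∀ j, (inner ℝ x (ν j) : ℝ) = 0) → x = 0)
    (h : Fin J → ℝ) (hh : ∀ j, 0 < h j) : ∃ a : ℝ, 0 < a ∧ ∀ x : EV n, a * ‖x‖ ≤ ∑ j, |(inner ℝ x (ν j) : ℝ) / h j| := by
  let T : EV n →ₗ[ℝ] (Fin J → ℝ) :=
    { toFun := fun x j => (inner ℝ x (ν j) : ℝ) / h j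
      map_add' := fun x y => by
        ext j
        simp [inner_add_left, add_div]
      map_smul' := fun c x => by
        ext j
        simp [inner_smul_left, mul_div_assoc] }
  have hT : LinearMap.ker T = ⊥ := by
    rw [LinearMap.ker_eq_bot']
    intro x hx
    refine hν x fun j => ?_
    have := congrFun hx j
    have h1 : (inner ℝ x (ν j) : ℝ) / h j = 0 := this
    rcases div_eq_zero_iff.1 h1 with h2 | h2
    · exact h2
    · exact absurd h2 (hh j).ne'
  obtain ⟨K, hK0, hK⟩ := LinearMap.exists_antilipschitzWith T hT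
  refine ⟨(K : ℝ)⁻¹, by positivity, fun x => ?_⟩
  have h1 := hK.le_mul_dist x 0
  rw [map_zero, dist_zero_right, dist_zero_right] at h1
  have h2 : ‖T x‖ ≤ ∑ j, |(inner ℝ x (ν j) : ℝ) / h j| := by
    refine (pi_norm_le_iff_of_nonneg (by positivity)).2 fun j => ?_
    rw [Real.norm_eq_abs]
    exact Finset.single_le_sum (f := fun j => |(inner ℝ x (ν j) : ℝ) / h j|) (fun i _ => abs_nonneg _) (Finset.mem_univ j)
  have hK0' : (0 : ℝ) < K := by exact_mod_cast hK0
  rw [inv_mul_le_iff₀ hK0']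
  exact h1.trans (mul_le_mul_of_nonneg_left h2 hK0'.le)

/-- affine hyperplanes are null sets -/
theorem null_plane {n : ℕ} (ν : EV n) {c : ℝ} (hc : c ≠ 0) : volume {x : EV n | (inner ℝ x ν : ℝ) = c} = 0 := by
  by_cases hne : ∃ x0 : EV n, (inner ℝ x0 ν : ℝ) = c
  · obtain ⟨x0, hx0⟩ := hne
    let φ : EV n →ₗ[ℝ] ℝ := (innerₗ (EV n)) ν
    have hφ : ∀ x, φ x = inner ℝ x ν := fun x => by
      change inner ℝ ν x = inner ℝ x ν
      exact real_inner_comm x ν
    have hset : {x : EV n | (inner ℝ x ν : ℝ) = c} = (fun x => x + (-x0)) ⁻¹' (LinearMap.ker φ : Set (EV n)) := by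
      ext x
      simp only [mem_ofPred_eq, mem_preimage, SetLike.mem_coe, LinearMap.mem_ker, hφ, inner_add_left,
        inner_neg_left, hx0]
      constructor
      · intro h
        linarith
      · intro h
        linarith
    rw [hset, measure_preimage_add_right]
    refine Measure.addHaar_submodule _ _ fun htop => hc ?_
    have : x0 ∈ LinearMap.ker φ := by
      rw [htop]
      trivial
    rw [LinearMap.mem_ker, hφ, hx0] at this
    exact this
  · have : {x : EV n | (inner ℝ x ν : ℝ) = c} = ∅ := by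
      ext x
      simp only [mem_ofPred_eq, mem_empty_iff_false, iff_false]
      exact fun h => hne ⟨x, h⟩
    rw [this, measure_empty]

theorem null_boundary {n : ℕ} (ν : EV n) {c : ℝ} (hc : 0 < c) : volume {x : EV n | |(inner ℝ x ν : ℝ)| = c} = 0 := by
  have hs : {x : EV n | |(inner ℝ x ν : ℝ)| = c} ⊆ {x : EV n | (inner ℝ x ν : ℝ) = c} ∪ {x : EV n | (inner ℝ x ν : ℝ) = -c} := by
    intro x hx
    have hx' : |(inner ℝ x ν : ℝ)| = c := hx
    rcases abs_eq hc.le |>.1 hx' with h | h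
    · exact Or.inl h
    · exact Or.inr h
  refine measure_mono_null hs (measure_union_null (null_plane ν hc.ne') (null_plane ν (by linarith [hc] : -c ≠ 0)))

/-- the soft integrals converge to the volume of the intersection of slabs -/
theorem tendsto_softInt {n J : ℕ} (ν : Fin J → EV n) (hν : ∀ x : EV n, (∀ j, (inner ℝ x (ν j) : ℝ) = 0) → x = 0)
    (h : Fin J → ℝ) (hh : ∀ j, 0 < h j) (v : ℕ → ℝ → ℝ) (e : ℕ → ℝ) (hvc : ∀ k, Continuous (v k))
    (hvb : ∀ k t, |t| - 1 ≤ v k t) (hv0 : ∀ t, |t| < 1 → Tendsto (fun k => v k t) atTop (𝓝 0))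
    (hv1 : ∀ t, 1 < |t| → Tendsto (fun k => v k t) atTop atTop) (he0 : ∀ k, 0 ≤ e k) (he : Tendsto e atTop (𝓝 0)) :
    Tendsto (fun k => softInt (v k) (e k) ν h) atTop (𝓝 (volume (slab ν h)).toReal) := by
  obtain ⟨a, ha, hab⟩ := exists_norm_le ν hν h hh
  have hms : MeasurableSet (slab ν h) := by
    have : slab ν h = ⋂ j, {x | |(inner ℝ x (ν j) : ℝ)| ≤ h j} := by
      ext x
      simp [slab]
    rw [this]
    exact MeasurableSet.iInter fun j => (isClosed_le (by fun_prop) continuous_const).measurableSet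
  have hlim : (volume (slab ν h)).toReal = ∫ x : EV n, (slab ν h).indicator (fun _ => (1 : ℝ)) x := by
    rw [integral_indicator hms, setIntegral_const, smul_eq_mul, mul_one]
    rfl
  rw [hlim]
  refine tendsto_integral_of_dominated_convergence (fun x => Real.exp J * Real.exp (-(a * ‖x‖))) ?_
    ((integrable_exp_neg_norm ha).const_mul _) ?_ ?_
  · intro k
    have := hvc k
    refine Continuous.aestronglyMeasurable ?_
    refine Real.continuous_exp.comp ?_
    refine Continuous.sub (Continuous.neg (continuous_finsetSum _ fun j _ => this.comp ?_)) (by fun_prop)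
    fun_prop
  · intro k
    refine Eventually.of_forall fun x => ?_
    rw [Real.norm_eq_abs, abs_of_pos (Real.exp_pos _), ← Real.exp_add]
    refine Real.exp_le_exp.2 ?_
    have h1 : ∑ j, (|(inner ℝ x (ν j) : ℝ) / h j| - 1) ≤ ∑ j, v k ((inner ℝ x (ν j) : ℝ) / h j) :=
      Finset.sum_le_sum fun j _ => hvb k _
    rw [Finset.sum_sub_distrib] at h1
    simp only [Finset.sum_const, Finset.card_univ, Fintype.card_fin, nsmul_eq_mul, mul_one] at h1
    have h2 := hab x
    have h3 : 0 ≤ e k * ‖x‖ ^ 2 := mul_nonneg (he0 k) (by positivity)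
    linarith
  · have hae : ∀ᵐ x : EV n, ∀ j, |(inner ℝ x (ν j) : ℝ)| ≠ h j := by
      rw [ae_all_iff]
      intro j
      rw [ae_iff]
      simpa using null_boundary (ν j) (hh j)
    refine hae.mono fun x hx => ?_
    have hex : Tendsto (fun k => e k * ‖x‖ ^ 2) atTop (𝓝 0) := by
      simpa using he.mul_const (‖x‖ ^ 2)
    by_cases hxs : x ∈ slab ν h
    · rw [indicator_of_mem hxs]
      have h1 : Tendsto (fun k => ∑ j, v k ((inner ℝ x (ν j) : ℝ) / h j)) atTop (𝓝 (∑ _j : Fin J, (0 : ℝ))) := by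
        refine tendsto_finsetSum _ fun j _ => hv0 _ ?_
        rw [abs_div, abs_of_pos (hh j), div_lt_one (hh j)]
        exact lt_of_le_of_ne (hxs j) (hx j)
      rw [Finset.sum_const_zero] at h1
      have h2 := (h1.neg.sub hex)
      have h3 := (Real.continuous_exp.tendsto _).comp h2
      simpa [Function.comp_def] using h3
    · rw [indicator_of_notMem hxs]
      have : ∃ j, h j < |(inner ℝ x (ν j) : ℝ)| := by
        by_contra hcon
        push Not at hcon
        exact hxs hcon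
      obtain ⟨i, hi⟩ := this
      have h1 : Tendsto (fun k => v k ((inner ℝ x (ν i) : ℝ) / h i)) atTop atTop := by
        refine hv1 _ ?_
        rw [abs_div, abs_of_pos (hh i), one_lt_div (hh i)]
        exact hi
      have h2 : Tendsto (fun k => (∑ j, v k ((inner ℝ x (ν j) : ℝ) / h j)) + e k * ‖x‖ ^ 2) atTop atTop := by
        refine tendsto_atTop_mono (fun k => ?_) (tendsto_atTop_add_const_right atTop (-(J : ℝ)) h1)
        have h3 : 0 ≤ e k * ‖x‖ ^ 2 := mul_nonneg (he0 k) (by positivity)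
        have h4 : ∑ j, (v k ((inner ℝ x (ν j) : ℝ) / h j) + 1) ≥ v k ((inner ℝ x (ν i) : ℝ) / h i) := by
          have h5 : v k ((inner ℝ x (ν i) : ℝ) / h i) + 1 ≤ ∑ j, (v k ((inner ℝ x (ν j) : ℝ) / h j) + 1) :=
            Finset.single_le_sum (f := fun j => v k ((inner ℝ x (ν j) : ℝ) / h j) + 1)
              (fun j _ => by
                have := hvb k ((inner ℝ x (ν j) : ℝ) / h j)
                have h6 := abs_nonneg ((inner ℝ x (ν j) : ℝ) / h j)
                linarith) (Finset.mem_univ i)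
          linarith
        rw [Finset.sum_add_distrib] at h4
        simp only [Finset.sum_const, Finset.card_univ, Fintype.card_fin, nsmul_eq_mul, mul_one] at h4
        linarith
      have h3 := Real.tendsto_exp_neg_atTop_nhds_zero.comp h2
      refine h3.congr fun k => ?_
      simp only [Function.comp]
      congr 1
      ring

/-- soft walls give the statement for slabs -/
theorem slab_of_soft (v : ℕ → ℝ → ℝ) (e : ℕ → ℝ) (hvc : ∀ k, Continuous (v k))
    (hvb : ∀ k t, |t| - 1 ≤ v k t) (hv0 : ∀ t, |t| < 1 → Tendsto (fun k => v k t) atTop (𝓝 0))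
    (hv1 : ∀ t, 1 < |t| → Tendsto (fun k => v k t) atTop atTop) (he0 : ∀ k, 0 ≤ e k) (he : Tendsto e atTop (𝓝 0))
    (H : ∀ (k n J : ℕ) (ν : Fin J → EV n), 0 < n → (∀ x : EV n, (∀ j, (inner ℝ x (ν j) : ℝ) = 0) → x = 0) →
      ∀ (g h : Fin J → ℝ) (t : ℝ), (∀ j, 0 < g j) → (∀ j, 0 < h j) → 0 ≤ t → t ≤ 1 →
      softInt (v k) (e k) ν g ^ (1 - t) * softInt (v k) (e k) ν h ^ t ≤
        softInt (v k) (e k) ν (fun j => g j ^ (1 - t) * h j ^ t)) : SlabStmt := by
  intro n J ν hn hν g h t hg hh ht0 ht1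
  have hm : ∀ j, 0 < g j ^ (1 - t) * h j ^ t := fun j => mul_pos (Real.rpow_pos_of_pos (hg j) _) (Real.rpow_pos_of_pos (hh j) _)
  have h1 := tendsto_softInt ν hν g hg v e hvc hvb hv0 hv1 he0 he
  have h2 := tendsto_softInt ν hν h hh v e hvc hvb hv0 hv1 he0 he
  have h3 := tendsto_softInt ν hν _ hm v e hvc hvb hv0 hv1 he0 he
  refine le_of_tendsto_of_tendsto' ((h1.rpow_const (Or.inr (by linarith))).mul (h2.rpow_const (Or.inr ht0))) h3 fun k => ?_
  exact H k n J ν hn hν g h t hg hh ht0 ht1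

/-- soft walls give the whole logarithmic Brunn-Minkowski inequality -/
theorem log_bm_of_soft (v : ℕ → ℝ → ℝ) (e : ℕ → ℝ) (hvc : ∀ k, Continuous (v k))
    (hvb : ∀ k t, |t| - 1 ≤ v k t) (hv0 : ∀ t, |t| < 1 → Tendsto (fun k => v k t) atTop (𝓝 0))
    (hv1 : ∀ t, 1 < |t| → Tendsto (fun k => v k t) atTop atTop) (he0 : ∀ k, 0 ≤ e k) (he : Tendsto e atTop (𝓝 0))
    (H : ∀ (k n J : ℕ) (ν : Fin J → EV n), 0 < n → (∀ x : EV n, (∀ j, (inner ℝ x (ν j) : ℝ) = 0) → x = 0) →
      ∀ (g h : Fin J → ℝ) (t : ℝ), (∀ j, 0 < g j) → (∀ j, 0 < h j) → 0 ≤ t → t ≤ 1 →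
      softInt (v k) (e k) ν g ^ (1 - t) * softInt (v k) (e k) ν h ^ t ≤
        softInt (v k) (e k) ν (fun j => g j ^ (1 - t) * h j ^ t))
    {n : ℕ} (hn : 0 < n) {K L : Set (EV n)} (hK : SymConvexBody K)
    (hL : SymConvexBody L) {t : ℝ} (ht0 : 0 ≤ t) (ht1 : t ≤ 1) :
    (volume K).toReal ^ (1 - t) * (volume L).toReal ^ t ≤ (volume (logComb t K L)).toReal :=
  log_bm_of_slab (slab_of_soft v e hvc hvb hv0 hv1 he0 he H) hn hK hL ht0 ht1

end Vale.Agent.P227.End
end

section

/-! # P227: concrete soft walls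

`wall k t = log (1 + exp ((k+1)(t-1)) + exp (-(k+1)(t+1)))` is even, smooth, convex, all its
derivatives of order at least one are bounded, and it converges to the hard wall of `[-1,1]`. -/

open Filter Topology
open scoped ContDiff

namespace Vale.Agent.P227.M

/-- the argument of the logarithm -/
noncomputable def wg (K t : ℝ) : ℝ := 1 + Real.exp (K * (t - 1)) + Real.exp (-(K * (t + 1)))

/-- weight of the right exponential -/
noncomputable def wp (K t : ℝ) : ℝ := Real.exp (K * (t - 1)) / wg K t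

/-- weight of the left exponential -/
noncomputable def wq (K t : ℝ) : ℝ := Real.exp (-(K * (t + 1))) / wg K t

/-- the wall with slope `K` -/
noncomputable def wW (K t : ℝ) : ℝ := Real.log (wg K t)

/-- first derivative of the wall -/
noncomputable def wW1 (K t : ℝ) : ℝ := K * (wp K t - wq K t)

/-- second derivative of the wall -/
noncomputable def wW2 (K t : ℝ) : ℝ := K ^ 2 * (wp K t + wq K t - (wp K t - wq K t) ^ 2)

/-- third derivative of the wall -/
noncomputable def wW3 (K t : ℝ) : ℝ :=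
  K ^ 3 * ((wp K t - wq K t) * (1 - 3 * (wp K t + wq K t) + 2 * (wp K t - wq K t) ^ 2))

/-- the concrete soft wall -/
noncomputable def wall (k : ℕ) (t : ℝ) : ℝ := wW ((k : ℝ) + 1) t

theorem wg_pos (K t : ℝ) : 0 < wg K t := by unfold wg; positivity

theorem one_lt_wg (K t : ℝ) : 1 < wg K t := by
  unfold wg
  have h1 := Real.exp_pos (K * (t - 1))
  have h2 := Real.exp_pos (-(K * (t + 1)))
  linarith

theorem wp_pos (K t : ℝ) : 0 < wp K t := div_pos (Real.exp_pos _) (wg_pos K t)

theorem wq_pos (K t : ℝ) : 0 < wq K t := div_pos (Real.exp_pos _) (wg_pos K t)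

theorem wpq_lt (K t : ℝ) : wp K t + wq K t < 1 := by
  unfold wp wq
  rw [← add_div, div_lt_one (wg_pos K t)]
  unfold wg
  linarith

theorem wg_even (K t : ℝ) : wg K (-t) = wg K t := by
  unfold wg
  have h1 : K * (-t - 1) = -(K * (t + 1)) := by ring
  have h2 : -(K * (-t + 1)) = K * (t - 1) := by ring
  rw [h1, h2]
  ring

theorem wW_even (K t : ℝ) : wW K (-t) = wW K t := by
  unfold wW
  rw [wg_even]

theorem hasDerivAt_wg (K t : ℝ) :
    HasDerivAt (wg K) (K * Real.exp (K * (t - 1)) - K * Real.exp (-(K * (t + 1)))) t := by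
  have h1 : HasDerivAt (fun t : ℝ => K * (t - 1)) K t := by
    simpa using ((hasDerivAt_id t).sub_const 1).const_mul K
  have h2 : HasDerivAt (fun t : ℝ => -(K * (t + 1))) (-K) t := by
    have h := ((hasDerivAt_id t).add_const 1).const_mul (-K)
    refine (h.congr_deriv (by ring)).congr_of_eventuallyEq (Eventually.of_forall fun s => ?_)
    simp only [id]
    ring
  have h3 := (h1.exp.const_add 1).add h2.exp
  refine (h3.congr_deriv ?_)
  ring

theorem hasDerivAt_wp (K t : ℝ) :
    HasDerivAt (wp K) (K * wp K t * (1 - wp K t + wq K t)) t := by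
  have h1 : HasDerivAt (fun t : ℝ => K * (t - 1)) K t := by
    simpa using ((hasDerivAt_id t).sub_const 1).const_mul K
  have h3 := h1.exp.div (hasDerivAt_wg K t) (wg_pos K t).ne'
  refine (h3.congr_deriv ?_)
  have hg := (wg_pos K t).ne'
  unfold wp wq
  field_simp
  ring

theorem hasDerivAt_wq (K t : ℝ) :
    HasDerivAt (wq K) (-(K * wq K t * (1 + wp K t - wq K t))) t := by
  have h2 : HasDerivAt (fun t : ℝ => -(K * (t + 1))) (-K) t := by
    have h := ((hasDerivAt_id t).add_const 1).const_mul (-K)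
    refine (h.congr_deriv (by ring)).congr_of_eventuallyEq (Eventually.of_forall fun s => ?_)
    simp only [id]
    ring
  have h3 := h2.exp.div (hasDerivAt_wg K t) (wg_pos K t).ne'
  refine (h3.congr_deriv ?_)
  have hg := (wg_pos K t).ne'
  unfold wp wq
  field_simp
  ring

theorem hasDerivAt_wW (K t : ℝ) : HasDerivAt (wW K) (wW1 K t) t := by
  have h := (hasDerivAt_wg K t).log (wg_pos K t).ne'
  refine h.congr_deriv ?_
  unfold wW1 wp wq
  ring

theorem hasDerivAt_wW1 (K t : ℝ) : HasDerivAt (wW1 K) (wW2 K t) t := by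
  have h := ((hasDerivAt_wp K t).sub (hasDerivAt_wq K t)).const_mul K
  refine h.congr_deriv ?_
  unfold wW2
  ring

theorem hasDerivAt_wW2 (K t : ℝ) : HasDerivAt (wW2 K) (wW3 K t) t := by
  have h := (((hasDerivAt_wp K t).add (hasDerivAt_wq K t)).sub
    (((hasDerivAt_wp K t).sub (hasDerivAt_wq K t)).pow 2)).const_mul (K ^ 2)
  refine (h.congr_deriv ?_)
  unfold wW3
  simp only [Pi.sub_apply]
  ring

theorem wW1_bound {K : ℝ} (hK : 0 ≤ K) (t : ℝ) : |wW1 K t| ≤ K := by
  have h1 := wp_pos K t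
  have h2 := wq_pos K t
  have h3 := wpq_lt K t
  unfold wW1
  rw [abs_mul, abs_of_nonneg hK]
  have h4 : |wp K t - wq K t| ≤ 1 := abs_le.2 ⟨by linarith, by linarith⟩
  nlinarith

theorem wW2_nonneg (K t : ℝ) : 0 ≤ wW2 K t := by
  have h1 := wp_pos K t
  have h2 := wq_pos K t
  have h3 := wpq_lt K t
  unfold wW2
  refine mul_nonneg (sq_nonneg K) ?_
  nlinarith [mul_pos h1 h2]

theorem wW2_le (K t : ℝ) : wW2 K t ≤ K ^ 2 := by
  have h1 := wp_pos K t
  have h2 := wq_pos K t
  have h3 := wpq_lt K t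
  unfold wW2
  have h4 : wp K t + wq K t - (wp K t - wq K t) ^ 2 ≤ 1 := by nlinarith [sq_nonneg (wp K t - wq K t)]
  nlinarith [sq_nonneg K]

theorem wW_nonneg (K t : ℝ) : 0 ≤ wW K t := Real.log_nonneg (one_lt_wg K t).le

theorem wW_ge_right (K t : ℝ) : K * (t - 1) ≤ wW K t := by
  unfold wW
  rw [Real.le_log_iff_exp_le (wg_pos K t)]
  unfold wg
  have h2 := Real.exp_pos (-(K * (t + 1)))
  linarith

theorem wW_ge {K : ℝ} (t : ℝ) : K * (|t| - 1) ≤ wW K t := by
  rcases abs_cases t with ⟨h, _⟩ | ⟨h, _⟩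
  · rw [h]; exact wW_ge_right K t
  · rw [h, ← wW_even]; exact wW_ge_right K (-t)

theorem contDiff_wg (K : ℝ) : ContDiff ℝ ∞ (wg K) := by
  unfold wg
  fun_prop

theorem contDiff_wW (K : ℝ) : ContDiff ℝ ∞ (wW K) := by
  unfold wW
  exact (contDiff_wg K).log fun t => (wg_pos K t).ne'

/-! ## all derivatives are bounded -/

/-- the algebra generated by the weights -/
inductive WAlg (K : ℝ) : (ℝ → ℝ) → Prop
  | const (c : ℝ) : WAlg K (fun _ => c)
  | p : WAlg K (wp K)
  | q : WAlg K (wq K)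
  | add {f g : ℝ → ℝ} : WAlg K f → WAlg K g → WAlg K (fun t => f t + g t)
  | mul {f g : ℝ → ℝ} : WAlg K f → WAlg K g → WAlg K (fun t => f t * g t)

theorem WAlg.bdd {K : ℝ} {f : ℝ → ℝ} (h : WAlg K f) : ∃ C : ℝ, 0 ≤ C ∧ ∀ t, |f t| ≤ C := by
  induction h with
  | const c => exact ⟨|c|, abs_nonneg c, fun _ => le_rfl⟩
  | p =>
    refine ⟨1, zero_le_one, fun t => ?_⟩
    have h1 := wp_pos K t
    have h2 := wq_pos K t
    have h3 := wpq_lt K t
    exact abs_le.2 ⟨by linarith, by linarith⟩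
  | q =>
    refine ⟨1, zero_le_one, fun t => ?_⟩
    have h1 := wp_pos K t
    have h2 := wq_pos K t
    have h3 := wpq_lt K t
    exact abs_le.2 ⟨by linarith, by linarith⟩
  | add _ _ hf hg =>
    obtain ⟨A, hA0, hA⟩ := hf
    obtain ⟨B, hB0, hB⟩ := hg
    exact ⟨A + B, by positivity, fun t => (abs_add_le _ _).trans (add_le_add (hA t) (hB t))⟩
  | mul _ _ hf hg =>
    obtain ⟨A, hA0, hA⟩ := hf
    obtain ⟨B, hB0, hB⟩ := hg
    refine ⟨A * B, by positivity, fun t => ?_⟩
    rw [abs_mul]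
    exact mul_le_mul (hA t) (hB t) (abs_nonneg _) hA0

theorem WAlg.deriv {K : ℝ} {f : ℝ → ℝ} (h : WAlg K f) :
    ∃ g : ℝ → ℝ, WAlg K g ∧ ∀ t, HasDerivAt f (g t) t := by
  induction h with
  | const c => exact ⟨fun _ => 0, .const 0, fun t => hasDerivAt_const t c⟩
  | p =>
    refine ⟨fun t => (fun _ => K) t * wp K t * ((fun _ => (1 : ℝ)) t + (fun _ => (-1 : ℝ)) t * wp K t + wq K t), ?_, ?_⟩
    · exact .mul (.mul (.const K) .p) (.add (.add (.const 1) (.mul (.const (-1)) .p)) .q)
    · intro t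
      refine (hasDerivAt_wp K t).congr_deriv ?_
      ring
  | q =>
    refine ⟨fun t => (fun _ => -K) t * wq K t * ((fun _ => (1 : ℝ)) t + wp K t + (fun _ => (-1 : ℝ)) t * wq K t), ?_, ?_⟩
    · exact .mul (.mul (.const (-K)) .q) (.add (.add (.const 1) .p) (.mul (.const (-1)) .q))
    · intro t
      refine (hasDerivAt_wq K t).congr_deriv ?_
      ring
  | add _ _ hf hg =>
    obtain ⟨f', hf1, hf2⟩ := hf
    obtain ⟨g', hg1, hg2⟩ := hg
    exact ⟨fun t => f' t + g' t, .add hf1 hg1, fun t => (hf2 t).add (hg2 t)⟩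
  | @mul f g hf0 hg0 hf hg =>
    obtain ⟨f', hf1, hf2⟩ := hf
    obtain ⟨g', hg1, hg2⟩ := hg
    exact ⟨fun t => f' t * g t + f t * g' t, .add (.mul hf1 hg0) (.mul hf0 hg1), fun t => (hf2 t).mul (hg2 t)⟩

theorem WAlg.iter {K : ℝ} (m : ℕ) : ∀ {f : ℝ → ℝ}, WAlg K f → ∃ C : ℝ, 0 ≤ C ∧ ∀ t, |iteratedDeriv m f t| ≤ C := by
  induction m with
  | zero => intro f hf; simpa using hf.bdd
  | succ m ih =>
    intro f hf
    obtain ⟨g, hg1, hg2⟩ := hf.deriv
    have : _root_.deriv f = g := funext fun t => (hg2 t).deriv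
    rw [iteratedDeriv_succ', this]
    exact ih hg1

theorem wW1_alg (K : ℝ) : WAlg K (wW1 K) := by
  have h : WAlg K (fun t => (fun _ => K) t * (wp K t + (fun _ => (-1 : ℝ)) t * wq K t)) :=
    .mul (.const K) (.add .p (.mul (.const (-1)) .q))
  convert h using 2
  unfold wW1
  ring

/-- every derivative of the wall of order at least one is bounded -/
theorem wW_iteratedDeriv_bdd (K : ℝ) (m : ℕ) : ∃ C : ℝ, 0 ≤ C ∧ ∀ t, |iteratedDeriv (m + 1) (wW K) t| ≤ C := by
  have : _root_.deriv (wW K) = wW1 K := funext fun t => (hasDerivAt_wW K t).deriv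
  rw [iteratedDeriv_succ', this]
  exact (wW1_alg K).iter m

/-! ## limits -/

theorem wall_contDiff (k : ℕ) : ContDiff ℝ ∞ (wall k) := contDiff_wW _

theorem wall_even (k : ℕ) (t : ℝ) : wall k (-t) = wall k t := wW_even _ t

theorem wall_ge (k : ℕ) (t : ℝ) : |t| - 1 ≤ wall k t := by
  rcases le_total 1 |t| with h | h
  · have h1 := wW_ge (K := (k : ℝ) + 1) t
    have h2 : (0 : ℝ) ≤ k := Nat.cast_nonneg k
    unfold wall
    nlinarith
  · have h1 := wW_nonneg ((k : ℝ) + 1) t
    unfold wall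
    linarith

theorem wall_iter (k m : ℕ) (hm : 1 ≤ m) : ∃ B : ℝ, 0 ≤ B ∧ ∀ t, |iteratedDeriv m (wall k) t| ≤ B := by
  obtain ⟨j, rfl⟩ : ∃ j, m = j + 1 := ⟨m - 1, by omega⟩
  exact wW_iteratedDeriv_bdd ((k : ℝ) + 1) j

theorem tendsto_wall_zero (t : ℝ) (ht : |t| < 1) : Tendsto (fun k => wall k t) atTop (𝓝 0) := by
  obtain ⟨h1, h2⟩ := abs_lt.1 ht
  have hk : Tendsto (fun k : ℕ => (k : ℝ) + 1) atTop atTop :=
    tendsto_atTop_add_const_right _ _ tendsto_natCast_atTop_atTop
  have e1 : Tendsto (fun k : ℕ => Real.exp (((k : ℝ) + 1) * (t - 1))) atTop (𝓝 0) := by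
    refine Real.tendsto_exp_atBot.comp ?_
    exact hk.atTop_mul_const_of_neg (by linarith)
  have e2 : Tendsto (fun k : ℕ => Real.exp (-(((k : ℝ) + 1) * (t + 1)))) atTop (𝓝 0) := by
    refine Real.tendsto_exp_neg_atTop_nhds_zero.comp ?_
    exact hk.atTop_mul_const (by linarith)
  have e3 : Tendsto (fun k : ℕ => wg ((k : ℝ) + 1) t) atTop (𝓝 1) := by
    have := (e1.const_add 1).add e2
    simpa [wg] using this
  have e4 := e3.log one_ne_zero
  simpa [wall, wW] using e4

theorem tendsto_wall_atTop (t : ℝ) (ht : 1 < |t|) : Tendsto (fun k => wall k t) atTop atTop := by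
  have hk : Tendsto (fun k : ℕ => (k : ℝ) + 1) atTop atTop :=
    tendsto_atTop_add_const_right _ _ tendsto_natCast_atTop_atTop
  have h1 : Tendsto (fun k : ℕ => ((k : ℝ) + 1) * (|t| - 1)) atTop atTop :=
    hk.atTop_mul_const (by linarith)
  exact tendsto_atTop_mono (fun k => wW_ge (K := (k : ℝ) + 1) t) h1

end Vale.Agent.P227.M
end

section

/-! # P227/M/ID: regularity of `τ = (D²ψ)⁻¹` for `MM ψ V c C M`

Output: `tau` symmetric, entries bounded by `c⁻¹`, Lipschitz, ellipticity, and at almost every point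
(Stein) `∑_b (∂_b V τ_ab - ∂_b τ_ab) = x_a`, (symmetry) `τ_ae ∂_e τ_bc` symmetric in `a b`. -/

noncomputable section

open MeasureTheory Set Filter Topology Matrix
open scoped NNReal

namespace Vale.Agent.P227.M.ID169

variable {n : ℕ} {ψ V : E n → ℝ} {c C M : ℝ}

/-! ## matrices and quadratic forms -/

theorem qf_eq (A : Matrix (Fin n) (Fin n) ℝ) (v : E n) :
    qf A v = (v : Fin n → ℝ) ⬝ᵥ (A *ᵥ (v : Fin n → ℝ)) := by
  unfold qf
  simp only [dotProduct, mulVec, Finset.mul_sum]
  refine Finset.sum_congr rfl fun i _ => Finset.sum_congr rfl fun j _ => ?_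
  ring

theorem ei_apply (i j : Fin n) : (ei i : E n) j = if j = i then 1 else 0 := by
  unfold ei
  simp

theorem norm_ei (i : Fin n) : ‖(ei i : E n)‖ = 1 := by
  unfold ei
  simp

/-- the second derivative as a symmetric matrix -/
theorem pd_pd_eq (hψ : ContDiff ℝ 2 ψ) (i j : Fin n) (x : E n) :
    pd i (pd j ψ) x = fderiv ℝ (fderiv ℝ ψ) x (ei i) (ei j) := by
  unfold pd
  have h1 : Differentiable ℝ (fderiv ℝ ψ) :=
    (hψ.fderiv_right (m := 1) (by norm_num)).differentiable (by norm_num)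
  have h2 : HasFDerivAt (fun y => fderiv ℝ ψ y (ei j))
      ((ContinuousLinearMap.apply ℝ ℝ (ei j)).comp (fderiv ℝ (fderiv ℝ ψ) x)) x :=
    (ContinuousLinearMap.apply ℝ ℝ (ei j)).hasFDerivAt.comp x (h1 x).hasFDerivAt
  rw [h2.fderiv]
  rfl

theorem hess_symm (hψ : ContDiff ℝ 2 ψ) (x : E n) (i j : Fin n) :
    hess ψ x i j = hess ψ x j i := by
  unfold hess
  rw [pd_pd_eq hψ, pd_pd_eq hψ]
  have := (hψ.contDiffAt (x := x)).isSymmSndFDerivAt (by simp)
  exact this.eq _ _

theorem hess_transpose (hψ : ContDiff ℝ 2 ψ) (x : E n) : (hess ψ x)ᵀ = hess ψ x := by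
  ext i j
  exact hess_symm hψ x j i

theorem hess_posDef (h : MM ψ V c C M) (x : E n) : (hess ψ x).PosDef := by
  refine Matrix.PosDef.of_dotProduct_mulVec_pos ?_ ?_
  · rw [Matrix.IsHermitian, conjTranspose_eq_transpose_of_trivial]
    exact hess_transpose h.C2 x
  · intro v hv
    have h1 := h.lower x (WithLp.toLp 2 v)
    rw [qf_eq] at h1
    have h2 : 0 < ‖(WithLp.toLp 2 v : E n)‖ := by
      rw [norm_pos_iff]
      intro h3
      apply hv
      have := congrArg (WithLp.ofLp) h3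
      simpa using this
    have h3 : 0 < c * ‖(WithLp.toLp 2 v : E n)‖ ^ 2 := mul_pos h.c_pos (by positivity)
    simpa using h3.trans_le h1

theorem det_pos (h : MM ψ V c C M) (x : E n) : 0 < (hess ψ x).det := (hess_posDef h x).det_pos

theorem tau_mul_hess (h : MM ψ V c C M) (x : E n) : tau ψ x * hess ψ x = 1 :=
  Matrix.nonsing_inv_mul _ (det_pos h x).ne'.isUnit

theorem hess_mul_tau (h : MM ψ V c C M) (x : E n) : hess ψ x * tau ψ x = 1 :=
  Matrix.mul_nonsing_inv _ (det_pos h x).ne'.isUnit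

theorem tau_transpose (h : MM ψ V c C M) (x : E n) : (tau ψ x)ᵀ = tau ψ x := by
  unfold tau
  rw [Matrix.transpose_nonsing_inv, hess_transpose h.C2]

theorem tau_symm (h : MM ψ V c C M) (x : E n) (i j : Fin n) : tau ψ x i j = tau ψ x j i := by
  have := congrFun (congrFun (tau_transpose h x) j) i
  exact this

/-! ## bounds -/

theorem qf_eq_inner (A : Matrix (Fin n) (Fin n) ℝ) (v : E n) :
    qf A v = inner ℝ (WithLp.toLp 2 (A *ᵥ (v : Fin n → ℝ)) : E n) v := by
  rw [qf_eq, EuclideanSpace.inner_eq_star_dotProduct]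
  simp

/-- `τ v` as a vector -/
theorem qf_tau (h : MM ψ V c C M) (x : E n) (v : E n) :
    qf (hess ψ x) (WithLp.toLp 2 (tau ψ x *ᵥ (v : Fin n → ℝ))) = qf (tau ψ x) v := by
  rw [qf_eq, qf_eq]
  have h1 : hess ψ x *ᵥ (tau ψ x *ᵥ (v : Fin n → ℝ)) = v := by
    rw [Matrix.mulVec_mulVec, hess_mul_tau h, Matrix.one_mulVec]
  show (tau ψ x *ᵥ (v : Fin n → ℝ)) ⬝ᵥ (hess ψ x *ᵥ (tau ψ x *ᵥ (v : Fin n → ℝ))) = _
  rw [h1, dotProduct_comm]

theorem norm_tau_le (h : MM ψ V c C M) (x : E n) (v : E n) :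
    ‖(WithLp.toLp 2 (tau ψ x *ᵥ (v : Fin n → ℝ)) : E n)‖ ≤ c⁻¹ * ‖v‖ := by
  set w : E n := WithLp.toLp 2 (tau ψ x *ᵥ (v : Fin n → ℝ)) with hw
  have h1 : c * ‖w‖ ^ 2 ≤ qf (hess ψ x) w := h.lower x w
  rw [qf_tau h x v, qf_eq_inner] at h1
  have h2 : inner ℝ w v ≤ ‖w‖ * ‖v‖ := real_inner_le_norm w v
  have h3 : c * ‖w‖ ^ 2 ≤ ‖w‖ * ‖v‖ := h1.trans h2
  have hc := h.c_pos
  rcases eq_or_lt_of_le (norm_nonneg w) with h0 | h0
  · rw [← h0]; positivity
  · rw [inv_mul_eq_div, le_div_iff₀ hc]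
    have : (‖w‖ * c) * ‖w‖ ≤ ‖v‖ * ‖w‖ := by nlinarith
    exact le_of_mul_le_mul_right this h0

theorem abs_apply_le_norm (v : E n) (i : Fin n) : |v i| ≤ ‖v‖ := by
  have := EuclideanSpace.norm_sq_eq v
  have h1 : ‖v i‖ ^ 2 ≤ ‖v‖ ^ 2 := by
    rw [this]
    exact Finset.single_le_sum (f := fun i => ‖v i‖ ^ 2) (fun i _ => sq_nonneg _)
      (Finset.mem_univ i)
  rw [← Real.norm_eq_abs]
  exact (sq_le_sq₀ (norm_nonneg _) (norm_nonneg _)).1 h1

theorem abs_tau_le (h : MM ψ V c C M) (x : E n) (i j : Fin n) : |tau ψ x i j| ≤ c⁻¹ := by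
  have h1 := norm_tau_le h x (ei j)
  rw [norm_ei, mul_one] at h1
  refine le_trans ?_ h1
  have h2 := abs_apply_le_norm (WithLp.toLp 2 (tau ψ x *ᵥ ((ei j : E n) : Fin n → ℝ)) : E n) i
  have h3 : (WithLp.toLp 2 (tau ψ x *ᵥ ((ei j : E n) : Fin n → ℝ)) : E n) i = tau ψ x i j := by
    show (tau ψ x *ᵥ ((ei j : E n) : Fin n → ℝ)) i = _
    simp [mulVec, dotProduct, ei_apply]
  rwa [h3] at h2

theorem tau_sub (h : MM ψ V c C M) (x y : E n) :
    tau ψ x - tau ψ y = tau ψ x * (hess ψ y - hess ψ x) * tau ψ y := by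
  rw [Matrix.mul_sub, Matrix.sub_mul, tau_mul_hess h, Matrix.mul_assoc, hess_mul_tau h,
    Matrix.mul_one, Matrix.one_mul]

theorem M_nonneg [hn : Nonempty (Fin n)] (h : MM ψ V c C M) : 0 ≤ M := by
  obtain ⟨i⟩ := hn
  have := h.lip i i 0 (ei i)
  rw [zero_sub, norm_neg, norm_ei, mul_one] at this
  exact le_trans (abs_nonneg _) this

theorem abs_tau_sub_le (h : MM ψ V c C M) (x y : E n) (i j : Fin n) :
    |tau ψ x i j - tau ψ y i j| ≤ (n * n * (c⁻¹ * M * c⁻¹)) * ‖x - y‖ := by
  have h1 := congrFun (congrFun (tau_sub h x y) i) j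
  rw [Matrix.sub_apply] at h1
  have hc := h.c_pos
  have : Nonempty (Fin n) := ⟨i⟩
  have hM := M_nonneg h
  rw [h1, Matrix.mul_apply]
  calc |∑ l, (tau ψ x * (hess ψ y - hess ψ x)) i l * tau ψ y l j|
      ≤ ∑ l : Fin n, |(tau ψ x * (hess ψ y - hess ψ x)) i l * tau ψ y l j| :=
        Finset.abs_sum_le_sum_abs _ _
    _ ≤ ∑ l : Fin n, (n * (c⁻¹ * (M * ‖x - y‖))) * c⁻¹ := by
        refine Finset.sum_le_sum fun l _ => ?_
        rw [abs_mul]
        refine mul_le_mul ?_ (abs_tau_le h y l j) (abs_nonneg _) (by positivity)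
        rw [Matrix.mul_apply]
        calc |∑ k, tau ψ x i k * (hess ψ y - hess ψ x) k l|
            ≤ ∑ k : Fin n, |tau ψ x i k * (hess ψ y - hess ψ x) k l| :=
              Finset.abs_sum_le_sum_abs _ _
          _ ≤ ∑ k : Fin n, c⁻¹ * (M * ‖x - y‖) := by
              refine Finset.sum_le_sum fun k _ => ?_
              rw [abs_mul]
              refine mul_le_mul (abs_tau_le h x i k) ?_ (abs_nonneg _) (by positivity)
              rw [Matrix.sub_apply, abs_sub_comm]
              exact h.lip k l x y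
          _ = n * (c⁻¹ * (M * ‖x - y‖)) := by simp
    _ = _ := by simp; ring

/-- Lipschitz constant of the entries of `τ` -/
def KT (n : ℕ) (c M : ℝ) : ℝ≥0 := Real.toNNReal (n * n * (c⁻¹ * M * c⁻¹))

theorem tau_lipschitz (h : MM ψ V c C M) (i j : Fin n) :
    LipschitzWith (KT n c M) (fun x => tau ψ x i j) := by
  refine LipschitzWith.of_dist_le_mul fun x y => ?_
  rw [Real.dist_eq, dist_eq_norm]
  refine (abs_tau_sub_le h x y i j).trans ?_
  gcongr
  exact Real.le_coe_toNNReal _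

theorem hess_lipschitz (h : MM ψ V c C M) (i j : Fin n) :
    LipschitzWith (Real.toNNReal M) (fun x => hess ψ x i j) := by
  refine LipschitzWith.of_dist_le_mul fun x y => ?_
  rw [Real.dist_eq, dist_eq_norm]
  refine (h.lip i j x y).trans ?_
  gcongr
  exact Real.le_coe_toNNReal _

/-! ## Jacobi's formula -/

theorem sum_updateCol_eq (X Y : Matrix (Fin n) (Fin n) ℝ) :
    ∑ σ : Equiv.Perm (Fin n), (Equiv.Perm.sign σ : ℤ) •
      ∑ i, (∏ j ∈ Finset.univ.erase i, X (σ j) j) * Y (σ i) i =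
      (X.adjugate * Y).trace := by
  simp only [Finset.smul_sum]
  rw [Finset.sum_comm]
  rw [Matrix.trace]
  refine Finset.sum_congr rfl fun i _ => ?_
  have h1 : (X.adjugate * Y).diag i = (X.updateCol i (fun j => Y j i)).det := by
    rw [← Matrix.cramer_apply, Matrix.cramer_eq_adjugate_mulVec]
    simp only [diag, Matrix.mul_apply, mulVec, dotProduct]
  rw [h1, Matrix.det_apply]
  refine Finset.sum_congr rfl fun σ _ => ?_
  have : ∏ k, (X.updateCol i (fun j => Y j i)) (σ k) k =
      (∏ j ∈ Finset.univ.erase i, X (σ j) j) * Y (σ i) i := by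
    rw [← Finset.prod_erase_mul Finset.univ _ (Finset.mem_univ i)]
    congr 1
    · refine Finset.prod_congr rfl fun j hj => ?_
      rw [Matrix.updateCol_ne (Finset.ne_of_mem_erase hj)]
    · simp
  rw [this]
  rfl

/-- Jacobi's formula. -/
theorem hasDerivAt_det {N : ℝ → Matrix (Fin n) (Fin n) ℝ} {N' : Matrix (Fin n) (Fin n) ℝ} {t : ℝ}
    (hN : ∀ i j, HasDerivAt (fun s => N s i j) (N' i j) t) :
    HasDerivAt (fun t => (N t).det) ((N t).adjugate * N').trace t := by
  rw [← sum_updateCol_eq]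
  have h1 : ∀ t, (N t).det =
      ∑ σ : Equiv.Perm (Fin n), (Equiv.Perm.sign σ : ℤ) • ∏ i, N t (σ i) i := by
    intro t
    rw [Matrix.det_apply]
    rfl
  simp only [h1]
  refine HasDerivAt.fun_sum (fun σ _ => ?_)
  have h2 := HasDerivAt.fun_finsetProd (u := Finset.univ) (x := t)
    (f := fun i t => N t (σ i) i) (f' := fun i => N' (σ i) i) (fun i _ => hN (σ i) i)
  simp only [smul_eq_mul] at h2
  exact h2.const_smul ((Equiv.Perm.sign σ : ℤ))

theorem hasDerivAt_log_det {N : ℝ → Matrix (Fin n) (Fin n) ℝ} {N' : Matrix (Fin n) (Fin n) ℝ}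
    {t : ℝ} (hN : ∀ i j, HasDerivAt (fun s => N s i j) (N' i j) t) (hd : (N t).det ≠ 0) :
    HasDerivAt (fun t => Real.log (N t).det) ((N t)⁻¹ * N').trace t := by
  have h1 := (hasDerivAt_det hN).log hd
  refine h1.congr_deriv ?_
  rw [Matrix.inv_def, Ring.inverse_eq_inv', Matrix.smul_mul, Matrix.trace_smul, smul_eq_mul]
  field_simp

/-! ## partial derivatives -/

theorem line {f : E n → ℝ} {x : E n} (hf : DifferentiableAt ℝ f x) (b : Fin n) :
    HasDerivAt (fun t : ℝ => f (x + t • ei b)) (pd b f x) 0 :=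
  hf.hasFDerivAt.hasLineDerivAt (ei b)

theorem pd_congr {f g : E n → ℝ} (h : ∀ x, f x = g x) (b : Fin n) (x : E n) :
    pd b f x = pd b g x := by
  rw [funext h]

theorem pd_const (a : ℝ) (b : Fin n) (x : E n) : pd b (fun _ => a) x = 0 := by
  unfold pd
  simp

theorem pd_mul {f g : E n → ℝ} {x : E n} (hf : DifferentiableAt ℝ f x)
    (hg : DifferentiableAt ℝ g x) (b : Fin n) :
    pd b (fun y => f y * g y) x = pd b f x * g x + f x * pd b g x := by
  unfold pd
  rw [fderiv_fun_mul hf hg]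
  simp
  ring

theorem pd_sum {ι : Type*} (s : Finset ι) {f : ι → E n → ℝ} {x : E n}
    (hf : ∀ i ∈ s, DifferentiableAt ℝ (f i) x) (b : Fin n) :
    pd b (fun y => ∑ i ∈ s, f i y) x = ∑ i ∈ s, pd b (f i) x := by
  unfold pd
  rw [fderiv_fun_sum hf]
  simp

/-- points where the second derivative is differentiable -/
structure Good (ψ : E n → ℝ) (x : E n) : Prop where
  hess : ∀ i j, DifferentiableAt ℝ (fun y => hess ψ y i j) x
  tau : ∀ i j, DifferentiableAt ℝ (fun y => tau ψ y i j) x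

theorem ae_good (h : MM ψ V c C M) : ∀ᵐ x : E n, Good ψ x := by
  have h1 : ∀ᵐ x : E n, ∀ i j, DifferentiableAt ℝ (fun y => hess ψ y i j) x := by
    rw [ae_all_iff]; intro i
    rw [ae_all_iff]; intro j
    exact (hess_lipschitz h i j).ae_differentiableAt
  have h2 : ∀ᵐ x : E n, ∀ i j, DifferentiableAt ℝ (fun y => tau ψ y i j) x := by
    rw [ae_all_iff]; intro i
    rw [ae_all_iff]; intro j
    exact (tau_lipschitz h i j).ae_differentiableAt
  filter_upwards [h1, h2] with x a b
  exact ⟨a, b⟩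

/-- the third derivatives -/
def D3 (ψ : E n → ℝ) (b i j : Fin n) (x : E n) : ℝ := pd b (fun y => hess ψ y i j) x

theorem D3_symm_right (h : MM ψ V c C M) (b i j : Fin n) (x : E n) :
    D3 ψ b i j x = D3 ψ b j i x :=
  pd_congr (fun y => hess_symm h.C2 y i j) b x

theorem fderiv_eq_sum_proj {f : E n → ℝ} (x : E n) :
    fderiv ℝ f x = ∑ i, pd i f x • (EuclideanSpace.proj i : E n →L[ℝ] ℝ) := by
  ext v
  have h1 : v = ∑ i, v i • ei i := by
    ext j
    simp [ei_apply]
  conv_lhs => rw [h1]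
  rw [map_sum]
  simp only [map_smul, smul_eq_mul, FunLike.coe_sum, Finset.sum_apply,
    FunLike.coe_smul, Pi.smul_apply]
  refine Finset.sum_congr rfl fun i _ => ?_
  show v i * fderiv ℝ f x (ei i) = fderiv ℝ f x (ei i) * v i
  ring

theorem D3_symm_left (h : MM ψ V c C M) {x : E n} (hx : Good ψ x) (b i j : Fin n) :
    D3 ψ b i j x = D3 ψ i b j x := by
  -- `g = ∂_j ψ`
  have hg1 : ContDiff ℝ 1 (fun y => pd j ψ y) := by
    unfold pd
    have := h.C2.fderiv_right (m := 1) (by norm_num)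
    exact this.clm_apply contDiff_const
  have hf : ∀ᶠ y in 𝓝 x, HasFDerivAt (fun y => pd j ψ y) (fderiv ℝ (fun y => pd j ψ y) y) y :=
    Filter.Eventually.of_forall fun y =>
      ((hg1.differentiable (by norm_num)) y).hasFDerivAt
  have hd : DifferentiableAt ℝ (fderiv ℝ (fun y => pd j ψ y)) x := by
    have : (fderiv ℝ (fun y => pd j ψ y)) =
        fun y => ∑ i, hess ψ y i j • (EuclideanSpace.proj i : E n →L[ℝ] ℝ) := by
      funext y
      exact fderiv_eq_sum_proj y
    rw [this]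
    refine DifferentiableAt.fun_sum fun i _ => ?_
    exact (hx.hess i j).smul_const _
  have h2 := second_derivative_symmetric_of_eventually hf hd.hasFDerivAt (ei b) (ei i)
  have h3 : ∀ k l : Fin n, fderiv ℝ (fderiv ℝ (fun y => pd j ψ y)) x (ei k) (ei l) =
      D3 ψ k l j x := by
    intro k l
    unfold D3
    show _ = fderiv ℝ (fun y => fderiv ℝ (fun y => pd j ψ y) y (ei l)) x (ei k)
    have h4 : HasFDerivAt (fun y => fderiv ℝ (fun y => pd j ψ y) y (ei l))
      ((ContinuousLinearMap.apply ℝ ℝ (ei l)).comp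
        (fderiv ℝ (fderiv ℝ (fun y => pd j ψ y)) x)) x :=
      (ContinuousLinearMap.apply ℝ ℝ (ei l)).hasFDerivAt.comp x hd.hasFDerivAt
    rw [h4.fderiv]
    rfl
  rw [h3, h3] at h2
  exact h2

theorem pd_tau (h : MM ψ V c C M) {x : E n} (hx : Good ψ x) (b i j : Fin n) :
    pd b (fun y => tau ψ y i j) x = -∑ k, ∑ l, tau ψ x i k * D3 ψ b k l x * tau ψ x l j := by
  set dT : Matrix (Fin n) (Fin n) ℝ := fun i j => pd b (fun y => tau ψ y i j) x with hdT
  set dH : Matrix (Fin n) (Fin n) ℝ := fun i j => D3 ψ b i j x with hdH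
  have h1 : dT * hess ψ x + tau ψ x * dH = 0 := by
    ext i j
    have h2 : ∀ y, ∑ k, tau ψ y i k * hess ψ y k j = (1 : Matrix (Fin n) (Fin n) ℝ) i j := by
      intro y
      rw [← Matrix.mul_apply, tau_mul_hess h]
    have h3 := pd_congr h2 b x
    rw [pd_const, pd_sum _ (fun k _ => (hx.tau i k).fun_mul (hx.hess k j))] at h3
    rw [Matrix.add_apply, Matrix.mul_apply, Matrix.mul_apply, Matrix.zero_apply, ← h3,
      ← Finset.sum_add_distrib]
    refine Finset.sum_congr rfl fun k _ => ?_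
    rw [pd_mul (hx.tau i k) (hx.hess k j)]
    rfl
  have h4 : dT = -(tau ψ x * dH * tau ψ x) := by
    have h5 : dT * hess ψ x * tau ψ x = -(tau ψ x * dH) * tau ψ x := by
      rw [eq_neg_of_add_eq_zero_left h1]
    rwa [Matrix.mul_assoc, hess_mul_tau h, Matrix.mul_one, Matrix.neg_mul] at h5
  have h6 := congrFun (congrFun h4 i) j
  rw [show pd b (fun y => tau ψ y i j) x = dT i j from rfl, h6, Matrix.neg_apply,
    Matrix.mul_apply]
  congr 1
  simp only [Matrix.mul_apply, Finset.sum_mul]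
  rw [Finset.sum_comm]

theorem pd_V (h : MM ψ V c C M) (hV : ContDiff ℝ (⊤ : ℕ∞) V) {x : E n} (hx : Good ψ x)
    (b : Fin n) :
    pd b V x = (∑ i, x i * hess ψ x b i) - ∑ i, ∑ j, tau ψ x i j * D3 ψ b j i x := by
  have hψ1 : Differentiable ℝ ψ := h.C2.differentiable (by norm_num)
  have hp1 : ∀ i, Differentiable ℝ (fun y => pd i ψ y) := by
    intro i
    unfold pd
    have := h.C2.fderiv_right (m := 1) (by norm_num)
    exact (this.clm_apply contDiff_const).differentiable (by norm_num)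
  have h1 : HasDerivAt (fun t : ℝ => V (x + t • ei b)) (pd b V x) 0 :=
    line ((hV.differentiable (by simp)) x) b
  have h2 : HasDerivAt (fun t : ℝ => ∑ i, (x + t • ei b) i * pd i ψ (x + t • ei b))
      (∑ i, ((ei b : E n) i * pd i ψ x + x i * hess ψ x b i)) 0 := by
    refine HasDerivAt.fun_sum fun i _ => ?_
    have h3 : HasDerivAt (fun t : ℝ => (x + t • ei b) i) ((ei b : E n) i) 0 := by
      have : (fun t : ℝ => (x + t • ei b) i) = fun t : ℝ => x i + t * (ei b : E n) i := by
        funext t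
        simp
      rw [this]
      simpa using ((hasDerivAt_id (0 : ℝ)).mul_const ((ei b : E n) i)).const_add (x i)
    have h4 := h3.mul (line (hp1 i x) b)
    simp only [zero_smul, add_zero] at h4
    exact h4
  have h5 : HasDerivAt (fun t : ℝ => Real.log (hess ψ (x + t • ei b)).det)
      ((hess ψ x)⁻¹ * Matrix.of (fun i j => D3 ψ b i j x)).trace 0 := by
    have h6 := hasDerivAt_log_det (N := fun t : ℝ => hess ψ (x + t • ei b))
      (N' := Matrix.of (fun i j => D3 ψ b i j x)) (t := 0)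
      (fun i j => line (hx.hess i j) b) (det_pos h _).ne'
    simpa using h6
  have h7 := (h2.sub (line (hψ1 x) b)).sub h5
  have h8 : (fun t : ℝ => V (x + t • ei b)) = fun t : ℝ =>
      (∑ i, (x + t • ei b) i * pd i ψ (x + t • ei b)) - ψ (x + t • ei b)
        - Real.log (hess ψ (x + t • ei b)).det := by
    funext t
    exact h.ma _
  rw [h8] at h1
  have h9 := h1.unique h7
  rw [h9, Finset.sum_add_distrib]
  have h10 : ∑ i, (ei b : E n) i * pd i ψ x = pd b ψ x := by
    simp [ei_apply]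
  rw [h10]
  have h11 : ((hess ψ x)⁻¹ * Matrix.of (fun i j => D3 ψ b i j x)).trace
      = ∑ i, ∑ j, tau ψ x i j * D3 ψ b j i x := by
    rw [Matrix.trace]
    refine Finset.sum_congr rfl fun i _ => ?_
    rw [Matrix.diag_apply, Matrix.mul_apply]
    rfl
  rw [h11]
  ring

/-- (ST) -/
theorem stein_pointwise (h : MM ψ V c C M) (hV : ContDiff ℝ (⊤ : ℕ∞) V) {x : E n}
    (hx : Good ψ x) (a : Fin n) :
    ∑ b, (pd b V x * tau ψ x a b - pd b (fun y => tau ψ y a b) x) = x a := by
  have h1 : ∀ b, pd b V x * tau ψ x a b - pd b (fun y => tau ψ y a b) x =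
      (∑ i, x i * (tau ψ x a b * hess ψ x b i)) -
        (∑ i, ∑ j, tau ψ x a b * tau ψ x i j * D3 ψ b j i x) +
        ∑ k, ∑ l, tau ψ x a k * D3 ψ b k l x * tau ψ x l b := by
    intro b
    rw [pd_V h hV hx, pd_tau h hx, sub_mul, Finset.sum_mul, sub_neg_eq_add]
    congr 1
    congr 1
    · refine Finset.sum_congr rfl fun i _ => by ring
    · rw [Finset.sum_mul]
      refine Finset.sum_congr rfl fun i _ => ?_
      rw [Finset.sum_mul]
      refine Finset.sum_congr rfl fun j _ => by ring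
  rw [Finset.sum_congr rfl fun b _ => h1 b, Finset.sum_add_distrib, Finset.sum_sub_distrib]
  have h2 : ∑ b, ∑ i, x i * (tau ψ x a b * hess ψ x b i) = x a := by
    rw [Finset.sum_comm]
    have : ∀ i, ∑ b, x i * (tau ψ x a b * hess ψ x b i) =
        x i * (1 : Matrix (Fin n) (Fin n) ℝ) a i := by
      intro i
      rw [← Finset.mul_sum, ← Matrix.mul_apply, tau_mul_hess h]
    rw [Finset.sum_congr rfl fun i _ => this i]
    simp [Matrix.one_apply]
  have h3 : ∑ b, ∑ i, ∑ j, tau ψ x a b * tau ψ x i j * D3 ψ b j i x =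
      ∑ b, ∑ k, ∑ l, tau ψ x a k * D3 ψ b k l x * tau ψ x l b := by
    -- right side: k ↦ b, b ↦ i, l ↦ j
    conv_rhs => rw [Finset.sum_comm]
    refine Finset.sum_congr rfl fun b _ => Finset.sum_congr rfl fun i _ =>
      Finset.sum_congr rfl fun j _ => ?_
    rw [D3_symm_left h hx i b j, D3_symm_right h b i j, tau_symm h x j i]
    ring
  rw [h2, h3]
  ring

/-- (SY) -/
theorem symm_pointwise (h : MM ψ V c C M) {x : E n} (hx : Good ψ x) (a b k : Fin n) :
    ∑ e, tau ψ x a e * pd e (fun y => tau ψ y b k) x =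
      ∑ e, tau ψ x b e * pd e (fun y => tau ψ y a k) x := by
  have h1 : ∀ a b : Fin n, ∑ e, tau ψ x a e * pd e (fun y => tau ψ y b k) x =
      -∑ e, ∑ p, ∑ q, tau ψ x a e * tau ψ x b p * D3 ψ e p q x * tau ψ x q k := by
    intro a b
    rw [← Finset.sum_neg_distrib]
    refine Finset.sum_congr rfl fun e _ => ?_
    rw [pd_tau h hx, mul_neg, Finset.mul_sum]
    congr 1
    refine Finset.sum_congr rfl fun p _ => ?_
    rw [Finset.mul_sum]
    refine Finset.sum_congr rfl fun q _ => by ring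
  rw [h1, h1]
  congr 1
  conv_rhs => rw [Finset.sum_comm]
  refine Finset.sum_congr rfl fun e _ => Finset.sum_congr rfl fun p _ =>
      Finset.sum_congr rfl fun q _ => ?_
  rw [D3_symm_left h hx e p q]
  ring

end Vale.Agent.P227.M.ID169
end
end

section

/-! # P227/M/ID: `XStruct` (for helper590): the facts on `τ` used by the direct a.e. calculus.
Everything is from helper169's `Reg169`; only the exact form asked for. -/

open MeasureTheory

namespace Vale.Agent.P227.M.XS

variable {n : ℕ} {ψ V : E n → ℝ} {c C M : ℝ}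

/-- (1a) `τ` Lipschitz -/
theorem tau_lip (h : MM ψ V c C M) :
    ∃ K, 0 ≤ K ∧ ∀ i j x y, |tau ψ x i j - tau ψ y i j| ≤ K * ‖x - y‖ :=
  ⟨n * n * (c⁻¹ * |M| * c⁻¹), by have := h.c_pos; positivity, fun i j x y =>
    (ID169.abs_tau_sub_le h x y i j).trans (by
      have hc := h.c_pos
      have : c⁻¹ * M * c⁻¹ ≤ c⁻¹ * |M| * c⁻¹ := by
        have := le_abs_self M
        gcongr
      gcongr)⟩

/-- (1c) `τ` symmetric -/
theorem tau_symm (h : MM ψ V c C M) : ∀ x i j, tau ψ x i j = tau ψ x j i := fun x i j =>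
  ID169.tau_symm h x i j

/-- (2) SY -/
theorem SY (h : MM ψ V c C M) : ∀ᵐ x : E n, ∀ a b k : Fin n,
    ∑ e, tau ψ x a e * pd e (fun z => tau ψ z b k) x =
      ∑ e, tau ψ x b e * pd e (fun z => tau ψ z a k) x := by
  filter_upwards [ID169.ae_good h] with x hx a b k
  exact ID169.symm_pointwise h hx a b k

/-- (3) ST -/
theorem ST (hV : ContDiff ℝ (⊤ : ℕ∞) V) (h : MM ψ V c C M) : ∀ᵐ x : E n, ∀ a : Fin n,
    (∑ b, pd b V x * tau ψ x a b) - (∑ b, pd b (fun z => tau ψ z a b) x) = x a := by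
  filter_upwards [ID169.ae_good h] with x hx a
  rw [← Finset.sum_sub_distrib]
  exact ID169.stein_pointwise h hV hx a

end Vale.Agent.P227.M.XS
end

section

/-! # P227/M/LK: the level-`k` objects (helper750 10513, helper874 10615). -/

open MeasureTheory

namespace Vale.Agent.P227.M.LK

variable {n : ℕ}

end Vale.Agent.P227.M.LK
end

section

/-! # Derivatives along lines, scalings and sums for `Reg`, `Nice`, `SelfConc`. -/

open MeasureTheory
open scoped ContDiff

namespace Vale.Agent.P227.M.LK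

variable {n : ℕ}

/-- line derivatives are diagonal values of the iterated derivative -/
theorem iteratedDeriv_line {W : E n → ℝ} (hW : ContDiff ℝ (⊤ : ℕ∞) W) (i : ℕ) (x v : E n) (s : ℝ) :
    iteratedDeriv i (fun t : ℝ => W (x + t • v)) s = iteratedFDeriv ℝ i W (x + s • v) (fun _ => v) := by
  have h1 : (fun t : ℝ => W (x + t • v)) =
      (fun z => W (x + z)) ∘ (ContinuousLinearMap.toSpanSingleton ℝ v) := by
    funext t; simp [ContinuousLinearMap.toSpanSingleton_apply]
  have h2 : ContDiff ℝ (⊤ : ℕ∞) (fun z => W (x + z)) := hW.comp (contDiff_const.add contDiff_id)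
  have hi : (i : WithTop ℕ∞) ≤ (⊤ : ℕ∞) := by exact_mod_cast le_top
  rw [iteratedDeriv_eq_iteratedFDeriv, h1,
    ContinuousLinearMap.iteratedFDeriv_comp_right _ h2 s hi,
    ContinuousMultilinearMap.compContinuousLinearMap_apply]
  have h3 := iteratedFDeriv_comp_add_left (𝕜 := ℝ) (f := W) i x
    ((ContinuousLinearMap.toSpanSingleton ℝ v) s)
  rw [h3]
  simp [ContinuousLinearMap.toSpanSingleton_apply]

theorem iteratedDeriv_line_zero {W : E n → ℝ} (hW : ContDiff ℝ (⊤ : ℕ∞) W) (i : ℕ) (x v : E n) :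
    iteratedDeriv i (fun t : ℝ => W (x + t • v)) 0 = iteratedFDeriv ℝ i W x (fun _ => v) := by
  rw [iteratedDeriv_line hW]; simp

theorem sum_ei (v : E n) : ∑ i, v i • (ei i : E n) = v := by
  ext j
  simp [ei, Pi.single_apply]

/-- the quadratic form of the Hessian matrix is the second derivative -/
theorem qf_hess {W : E n → ℝ} (hW : ContDiff ℝ 2 W) (x v : E n) :
    qf (hess W x) v = fderiv ℝ (fderiv ℝ W) x v v := by
  have hd : Differentiable ℝ (fderiv ℝ W) :=
    (hW.fderiv_right (m := 1) (by norm_num)).differentiable (by norm_num)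
  have h1 : ∀ i j : Fin n, hess W x i j = fderiv ℝ (fderiv ℝ W) x (ei i) (ei j) := by
    intro i j
    unfold hess pd
    rw [fderiv_clm_apply (hd x) (differentiableAt_const _)]
    simp
  unfold qf
  conv_rhs => rw [← sum_ei v]
  simp only [map_sum, map_smul, sum_apply, smul_apply,
    smul_eq_mul, Finset.mul_sum]
  simp only [h1]
  rw [Finset.sum_comm]
  refine Finset.sum_congr rfl fun i _ => Finset.sum_congr rfl fun j _ => ?_
  ring

theorem iteratedDeriv_two_line {W : E n → ℝ} (hW : ContDiff ℝ (⊤ : ℕ∞) W) (x v : E n) :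
    iteratedDeriv 2 (fun t : ℝ => W (x + t • v)) 0 = qf (hess W x) v := by
  rw [iteratedDeriv_line_zero hW, qf_hess (by exact_mod_cast contDiff_infty.1 hW 2), iteratedFDeriv_two_apply]

theorem rpow_three_half {x : ℝ} (hx : 0 ≤ x) : x ^ ((3 : ℝ) / 2) = √x ^ 3 := by
  rw [Real.sqrt_eq_rpow, ← Real.rpow_natCast, ← Real.rpow_mul hx]
  norm_num

/-! ### Scaling -/

end Vale.Agent.P227.M.LK
end

section

/-! Log-convexity (Hoelder) and log-concavity (Prekopa) of integrals of exponentials. -/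

open MeasureTheory Set
open scoped ENNReal

namespace Vale.Agent.P227.M.LKE

/-- Prekopa-Leindler on Euclidean space with weights. -/
theorem pl_euclidean {s t : ℝ} (hs : 0 < s) (ht : 0 < t) (hst : s + t = 1) {d : ℕ}
    (f g h : EuclideanSpace ℝ (Fin d) → ℝ≥0∞) (hf : Measurable f) (hg : Measurable g)
    (hh : Measurable h) (hfg : ∀ x y, f x ^ s * g y ^ t ≤ h (s • x + t • y)) :
    (∫⁻ x, f x) ^ s * (∫⁻ x, g x) ^ t ≤ ∫⁻ x, h x := by
  have hvp := PiLp.volume_preserving_toLp (Fin d)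
  have htr : ∀ u : EuclideanSpace ℝ (Fin d) → ℝ≥0∞, Measurable u →
      ∫⁻ x, u x = ∫⁻ x : Fin d → ℝ, u (WithLp.toLp 2 x) := by
    intro u hu
    rw [← hvp.lintegral_comp hu]
  have hm : ∀ u : EuclideanSpace ℝ (Fin d) → ℝ≥0∞, Measurable u →
      Measurable fun x : Fin d → ℝ => u (WithLp.toLp 2 x) := by
    intro u hu
    exact hu.comp hvp.measurable
  rw [htr f hf, htr g hg, htr h hh]
  refine pl_pi hs ht hst d _ _ _ (hm f hf) (hm g hg) (hm h hh) ?_
  intro x y
  have := hfg (WithLp.toLp 2 x) (WithLp.toLp 2 y)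
  convert this using 2
  ext i
  simp

/-- Prekopa: if `F` is jointly convex, then `y ↦ - log ∫ exp (- F y x) dx` is convex. -/
theorem convexOn_neg_log_integral_exp_neg {Y : Type*} [AddCommGroup Y] [Module ℝ Y] {d : ℕ}
    (F : Y → EuclideanSpace ℝ (Fin d) → ℝ)
    (hF : ∀ y0 y1 x0 x1, ∀ s t : ℝ, 0 < s → 0 < t → s + t = 1 →
      F (s • y0 + t • y1) (s • x0 + t • x1) ≤ s * F y0 x0 + t * F y1 x1)
    (hmeas : ∀ y, Measurable (F y))
    (hint : ∀ y, Integrable (fun x => Real.exp (- F y x))) :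
    ConvexOn ℝ univ (fun y => - Real.log (∫ x, Real.exp (- F y x))) := by
  refine ⟨convex_univ, ?_⟩
  intro y0 _ y1 _ s t hs ht hst
  rcases hs.eq_or_lt with h0 | hs'
  · subst h0
    have ht1 : t = 1 := by linarith
    subst ht1
    simp
  rcases ht.eq_or_lt with h0 | ht'
  · subst h0
    have hs1 : s = 1 := by linarith
    subst hs1
    simp
  have hpos : ∀ y, 0 < ∫ x, Real.exp (- F y x) := fun y => integral_exp_pos (hint y)
  have hlin : ∀ y, ∫⁻ x, ENNReal.ofReal (Real.exp (- F y x)) =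
      ENNReal.ofReal (∫ x, Real.exp (- F y x)) := fun y =>
    (ofReal_integral_eq_lintegral_ofReal (hint y)
      (Filter.Eventually.of_forall fun x => (Real.exp_pos _).le)).symm
  have hm : ∀ y, Measurable (fun x => ENNReal.ofReal (Real.exp (- F y x))) := fun y =>
    (Real.measurable_exp.comp (hmeas y).neg).ennreal_ofReal
  have hpl := pl_euclidean hs' ht' hst _ _ _ (hm y0) (hm y1) (hm (s • y0 + t • y1)) (by
    intro x0 x1
    rw [ENNReal.ofReal_rpow_of_pos (Real.exp_pos _), ENNReal.ofReal_rpow_of_pos (Real.exp_pos _),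
      ← ENNReal.ofReal_mul (Real.rpow_nonneg (Real.exp_pos _).le _)]
    refine ENNReal.ofReal_le_ofReal ?_
    rw [← Real.exp_mul, ← Real.exp_mul, ← Real.exp_add]
    refine Real.exp_le_exp.2 ?_
    have := hF y0 y1 x0 x1 s t hs' ht' hst
    linarith)
  rw [hlin, hlin, hlin, ENNReal.ofReal_rpow_of_pos (hpos _), ENNReal.ofReal_rpow_of_pos (hpos _),
    ← ENNReal.ofReal_mul (Real.rpow_nonneg (hpos _).le _),
    ENNReal.ofReal_le_ofReal_iff (hpos _).le] at hpl
  have h7 := Real.log_le_log (mul_pos (Real.rpow_pos_of_pos (hpos y0) s)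
    (Real.rpow_pos_of_pos (hpos y1) t)) hpl
  rw [Real.log_mul (Real.rpow_pos_of_pos (hpos y0) s).ne' (Real.rpow_pos_of_pos (hpos y1) t).ne',
    Real.log_rpow (hpos y0), Real.log_rpow (hpos y1)] at h7
  simp only [smul_eq_mul]
  linarith

end Vale.Agent.P227.M.LKE
end

section

/-! # P227/M/SC2: linear tilts of regular self-concordant potentials (helper204). -/

open MeasureTheory Filter Topology

namespace Vale.Agent.P227.M.HL

variable {n : ℕ}

/-- tilt -/
noncomputable def tl (W : E n → ℝ) (y : E n) (x : E n) : ℝ := W x - inner ℝ y x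

theorem contDiff_tl {W : E n → ℝ} (hW : ContDiff ℝ (⊤ : ℕ∞) W) (y : E n) :
    ContDiff ℝ (⊤ : ℕ∞) (tl W y) :=
  hW.sub (innerSL ℝ y).contDiff

theorem iter_tl {W : E n → ℝ} (hW : ContDiff ℝ (⊤ : ℕ∞) W) (y : E n) {k : ℕ} (hk : 2 ≤ k) (x : E n) :
    iteratedFDeriv ℝ k (tl W y) x = iteratedFDeriv ℝ k W x := by
  have h1 : iteratedFDeriv ℝ k (fun x : E n => innerSL ℝ y x) x = 0 := by
    obtain ⟨m, rfl⟩ : ∃ m, k = m + 2 := ⟨k - 2, by omega⟩
    have h2 : fderiv ℝ (fun x : E n => innerSL ℝ y x) = fun _ => innerSL ℝ y := by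
      funext z; exact (innerSL ℝ y).fderiv
    have h3 : ‖iteratedFDeriv ℝ (m + 1 + 1) (fun x : E n => innerSL ℝ y x) x‖ = 0 := by
      rw [← norm_iteratedFDeriv_fderiv, h2, iteratedFDeriv_const_of_ne (by omega)]
      simp
    exact norm_eq_zero.1 h3
  have h4 : tl W y = W - (fun x : E n => innerSL ℝ y x) := by
    funext z; simp [tl]
  have hk' : (k : WithTop ℕ∞) ≤ (⊤ : ℕ∞) := by exact_mod_cast le_top
  rw [h4, iteratedFDeriv_sub_apply (hW.of_le hk').contDiffAt (innerSL ℝ y).contDiff.contDiffAt, h1,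
    sub_zero]

theorem qf_tl {W : E n → ℝ} (hW : ContDiff ℝ (⊤ : ℕ∞) W) (y x v : E n) :
    qf (hess (tl W y) x) v = qf (hess W x) v := by
  rw [← LK.iteratedDeriv_two_line (contDiff_tl hW y), LK.iteratedDeriv_line_zero (contDiff_tl hW y),
    iter_tl hW y le_rfl, ← LK.iteratedDeriv_line_zero hW, LK.iteratedDeriv_two_line hW]

theorem reg_tl {W : E n → ℝ} {c C : ℝ} (h : Reg W c C) (y : E n) : Reg (tl W y) c C where
  c_pos := h.c_pos
  smooth := contDiff_tl h.smooth y
  lower x v := by rw [qf_tl h.smooth]; exact h.lower x v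
  upper x v := by rw [qf_tl h.smooth]; exact h.upper x v
  bdd k hk := by
    obtain ⟨B, hB⟩ := h.bdd k hk
    exact ⟨B, fun x => by rw [iter_tl h.smooth y hk]; exact hB x⟩

theorem selfConc_tl {W : E n → ℝ} (hW : ContDiff ℝ (⊤ : ℕ∞) W) {κ : ℝ} (hs : SelfConc κ W) (y : E n) :
    SelfConc κ (tl W y) := by
  intro x v
  have h := hs x v
  rw [LK.iteratedDeriv_line_zero hW, LK.iteratedDeriv_line_zero hW] at h
  rw [LK.iteratedDeriv_line_zero (contDiff_tl hW y), LK.iteratedDeriv_line_zero (contDiff_tl hW y),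
    iter_tl hW y le_rfl, iter_tl hW y (by norm_num)]
  exact h

end Vale.Agent.P227.M.HL
end

section

/-! # P227/M/SC: the discrete (two-point) step for self-concordance of marginals. Definitions.

`dd v f` = directional derivative, `avg δ e w = -log ((e^{-w(x+δe)} + e^{-w(x-δe)})/2)`,
`St a b C3 C4 κ ε w` = the bounds carried along the steps. -/

namespace Vale.Agent.P227.M.SC

/-- directional derivative -/
noncomputable def dd {E : Type*} [NormedAddCommGroup E] [NormedSpace ℝ E]
    (v : E) (f : E → ℝ) (x : E) : ℝ := fderiv ℝ f x v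

/-- two-point average of `e^{-w}` in direction `e`, on the level of `w` -/
noncomputable def avg {E : Type*} [NormedAddCommGroup E] [NormedSpace ℝ E]
    (δ : ℝ) (e : E) (w : E → ℝ) (x : E) : ℝ :=
  -Real.log ((Real.exp (-w (x + δ • e)) + Real.exp (-w (x - δ • e))) / 2)

/-- the bounds carried along the steps -/
structure St {E : Type*} [NormedAddCommGroup E] [NormedSpace ℝ E]
    (a b C3 C4 κ ε : ℝ) (w : E → ℝ) : Prop where
  smooth : ContDiff ℝ (⊤ : ℕ∞) w
  lower : ∀ x v, a * ‖v‖ ^ 2 ≤ dd v (dd v w) x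
  upper : ∀ x v, dd v (dd v w) x ≤ b * ‖v‖ ^ 2
  b3 : ∀ x v₁ v₂ v₃, |dd v₃ (dd v₂ (dd v₁ w)) x| ≤ C3 * (‖v₁‖ * ‖v₂‖ * ‖v₃‖)
  b4 : ∀ x v₁ v₂ v₃ v₄, |dd v₄ (dd v₃ (dd v₂ (dd v₁ w))) x| ≤ C4 * (‖v₁‖ * ‖v₂‖ * ‖v₃‖ * ‖v₄‖)
  sc : ∀ x v, dd v (dd v (dd v w)) x ≤ 2 * κ * (dd v (dd v w) x) ^ ((3 : ℝ) / 2) + ε * ‖v‖ ^ 3

/-- THE STEP (proved in `Step.lean`). -/
def StepStmt (E : Type*) [NormedAddCommGroup E] [NormedSpace ℝ E] : Prop :=
  ∀ a0 b A3 A4 : ℝ, 0 < a0 → ∃ K : ℝ, 0 ≤ K ∧
    ∀ (κ δ ε a C3 C4 : ℝ) (e : E) (w : E → ℝ), 0 ≤ κ → κ ≤ 1 → 0 < δ → δ ≤ 1 → 0 ≤ ε → ε ≤ 1 →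
      a0 ≤ a → C3 ≤ A3 → C4 ≤ A4 → ‖e‖ = 1 → St a b C3 C4 κ ε w →
      St (a * (1 - b * δ ^ 2) - K * δ ^ 3) b
        (C3 * (1 + 3 * b * δ ^ 2) + 2 * b ^ 3 * δ ^ 3)
        (C4 * (1 + 4 * b * δ ^ 2) + δ ^ 2 * (3 * C3 ^ 2 + 12 * C3 * b ^ 2 + 4 * b ^ 4))
        κ (ε * (1 + K * δ ^ 2) + K * δ ^ 3) (avg δ e w)

end Vale.Agent.P227.M.SC
end

section

/-! # P227/M/SC: iteration of the two-point step (Gronwall). -/

namespace Vale.Agent.P227.M.SC

variable {E : Type*} [NormedAddCommGroup E] [NormedSpace ℝ E]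

/-- iterated two-point averages -/
noncomputable def avgs (δ : ℝ) : List E → (E → ℝ) → (E → ℝ)
  | [], w => w
  | e :: l, w => avgs δ l (avg δ e w)

theorem St.mono {a b C3 C4 κ ε a' ε' : ℝ} {w : E → ℝ} (h : St a b C3 C4 κ ε w) (ha : a' ≤ a)
    (hε : ε ≤ ε') : St a' b C3 C4 κ ε' w where
  smooth := h.smooth
  lower := fun x v => le_trans (mul_le_mul_of_nonneg_right ha (by positivity)) (h.lower x v)
  upper := h.upper
  b3 := h.b3
  b4 := h.b4
  sc := fun x v => (h.sc x v).trans (by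
    have : ε * ‖v‖ ^ 3 ≤ ε' * ‖v‖ ^ 3 := mul_le_mul_of_nonneg_right hε (by positivity)
    linarith)

theorem one_sub_ge {x : ℝ} (h0 : 0 ≤ x) (h1 : x ≤ 1 / 2) : Real.exp (-(2 * x)) ≤ 1 - x := by
  -- e^{-2x} ≤ 1/(1+2x) ≤ 1 - x  for 0 ≤ x ≤ 1/2
  have h2 : 1 + 2 * x ≤ Real.exp (2 * x) := by
    have := Real.add_one_le_exp (2 * x); linarith
  rw [Real.exp_neg]
  have h3 : (Real.exp (2 * x))⁻¹ ≤ (1 + 2 * x)⁻¹ := inv_anti₀ (by linarith) h2
  refine h3.trans ?_
  rw [inv_le_iff_one_le_mul₀ (by linarith)]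
  nlinarith

theorem inv_a {a b K s δ ai : ℝ} (ha : 0 < a) (hK : 0 ≤ K) (hs : 0 ≤ s) (hδ : 0 < δ) (hb : 0 ≤ b)
    (hδb : b * δ ^ 2 ≤ 1 / 2) (hai : a * Real.exp (-(2 * b * s)) - K * s * δ ≤ ai) :
    a * Real.exp (-(2 * b * (s + δ ^ 2))) - K * (s + δ ^ 2) * δ ≤
      ai * (1 - b * δ ^ 2) - K * δ ^ 3 := by
  have h1 : Real.exp (-(2 * b * (s + δ ^ 2))) =
      Real.exp (-(2 * b * s)) * Real.exp (-(2 * (b * δ ^ 2))) := by
    rw [← Real.exp_add]; congr 1; ring
  have h2 := one_sub_ge (x := b * δ ^ 2) (by positivity) hδb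
  have h3 : a * Real.exp (-(2 * b * s)) * Real.exp (-(2 * (b * δ ^ 2))) ≤
      a * Real.exp (-(2 * b * s)) * (1 - b * δ ^ 2) :=
    mul_le_mul_of_nonneg_left h2 (by positivity)
  have h4 : (a * Real.exp (-(2 * b * s)) - K * s * δ) * (1 - b * δ ^ 2) ≤
      ai * (1 - b * δ ^ 2) := mul_le_mul_of_nonneg_right hai (by linarith)
  have h5 : 0 ≤ K * s * δ * (b * δ ^ 2) := by positivity
  rw [h1]
  have e1 : (a * Real.exp (-(2 * b * s)) - K * s * δ) * (1 - b * δ ^ 2) =
      a * Real.exp (-(2 * b * s)) * (1 - b * δ ^ 2) - K * s * δ + K * s * δ * (b * δ ^ 2) := by ring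
  have e2 : K * (s + δ ^ 2) * δ = K * s * δ + K * δ ^ 3 := by ring
  have e3 : a * (Real.exp (-(2 * b * s)) * Real.exp (-(2 * (b * δ ^ 2)))) =
      a * Real.exp (-(2 * b * s)) * Real.exp (-(2 * (b * δ ^ 2))) := by ring
  rw [e2, e3]
  linarith

/-- one Gronwall step: `x ≤ (X + Y s) e^{g s}` is kept by `x ↦ x (1 + g t) + Y t` -/
theorem gron {x X Y g s t y : ℝ} (hX : 0 ≤ X) (hY : 0 ≤ Y) (hg : 0 ≤ g) (hs : 0 ≤ s) (ht : 0 ≤ t)
    (hx : x ≤ (X + Y * s) * Real.exp (g * s)) (hy : y ≤ Y * t) :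
    x * (1 + g * t) + y ≤ (X + Y * (s + t)) * Real.exp (g * (s + t)) := by
  have h1 : Real.exp (g * (s + t)) = Real.exp (g * s) * Real.exp (g * t) := by
    rw [← Real.exp_add]; congr 1; ring
  have h2 : 1 + g * t ≤ Real.exp (g * t) := by
    have := Real.add_one_le_exp (g * t); linarith
  have h3a : x * (1 + g * t) ≤ (X + Y * s) * Real.exp (g * s) * (1 + g * t) :=
    mul_le_mul_of_nonneg_right hx (by positivity)
  have h3b : (X + Y * s) * Real.exp (g * s) * (1 + g * t) ≤
      (X + Y * s) * Real.exp (g * s) * Real.exp (g * t) :=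
    mul_le_mul_of_nonneg_left h2 (by positivity)
  have h5 : (1 : ℝ) ≤ Real.exp (g * s) * Real.exp (g * t) := by
    rw [← Real.exp_add]; exact Real.one_le_exp (by positivity)
  have h6 : Y * t * 1 ≤ Y * t * (Real.exp (g * s) * Real.exp (g * t)) :=
    mul_le_mul_of_nonneg_left h5 (by positivity)
  have e1 : (X + Y * (s + t)) * (Real.exp (g * s) * Real.exp (g * t)) =
      (X + Y * s) * Real.exp (g * s) * Real.exp (g * t) +
        Y * t * (Real.exp (g * s) * Real.exp (g * t)) := by ring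
  rw [h1, e1]
  linarith

theorem iter_aux {a b C3 C4 κ S K δ a0 A3 A4 : ℝ}
    (ha : 0 < a) (hb : 0 ≤ b) (hC3 : 0 ≤ C3) (hC4 : 0 ≤ C4) (hκ0 : 0 ≤ κ) (hκ1 : κ ≤ 1)
    (hS : 0 ≤ S) (hK : 0 ≤ K) (hδ : 0 < δ) (hδ1 : δ ≤ 1) (hδb : b * δ ^ 2 ≤ 1 / 2)
    (hA3 : A3 = (C3 + 2 * b ^ 3 * S) * Real.exp (3 * b * S))
    (hA4 : A4 = (C4 + (3 * A3 ^ 2 + 12 * A3 * b ^ 2 + 4 * b ^ 4) * S) * Real.exp (4 * b * S))
    (ha0 : a0 + K * S * δ ≤ a * Real.exp (-(2 * b * S)))
    (hε1 : K * S * δ * Real.exp (K * S) ≤ 1)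
    (hstep : ∀ (ε a C3 C4 : ℝ) (e : E) (w : E → ℝ), 0 ≤ ε → ε ≤ 1 →
      a0 ≤ a → C3 ≤ A3 → C4 ≤ A4 → ‖e‖ = 1 → St a b C3 C4 κ ε w →
      St (a * (1 - b * δ ^ 2) - K * δ ^ 3) b
        (C3 * (1 + 3 * b * δ ^ 2) + 2 * b ^ 3 * δ ^ 3)
        (C4 * (1 + 4 * b * δ ^ 2) + δ ^ 2 * (3 * C3 ^ 2 + 12 * C3 * b ^ 2 + 4 * b ^ 4))
        κ (ε * (1 + K * δ ^ 2) + K * δ ^ 3) (avg δ e w)) :
    ∀ (l : List E) (w : E → ℝ) (ai c3 c4 ε s : ℝ), (∀ e ∈ l, ‖e‖ = 1) → 0 ≤ s →
      s + l.length * δ ^ 2 ≤ S →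
      a * Real.exp (-(2 * b * s)) - K * s * δ ≤ ai →
      0 ≤ c3 → c3 ≤ (C3 + 2 * b ^ 3 * s) * Real.exp (3 * b * s) →
      c4 ≤ (C4 + (3 * A3 ^ 2 + 12 * A3 * b ^ 2 + 4 * b ^ 4) * s) * Real.exp (4 * b * s) →
      0 ≤ ε → ε ≤ K * s * δ * Real.exp (K * s) →
      St ai b c3 c4 κ ε w →
      ∃ c3' c4', St a0 b c3' c4' κ (K * S * Real.exp (K * S) * δ) (avgs δ l w) := by
  have hA3nn : 0 ≤ A3 := by rw [hA3]; positivity
  set D4 : ℝ := 3 * A3 ^ 2 + 12 * A3 * b ^ 2 + 4 * b ^ 4 with hD4
  have hD4nn : 0 ≤ D4 := by positivity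
  -- bounds at any time s ≤ S
  have ba : ∀ s, 0 ≤ s → s ≤ S → a0 ≤ a * Real.exp (-(2 * b * s)) - K * s * δ := by
    intro s hs hsS
    have h1 : Real.exp (-(2 * b * S)) ≤ Real.exp (-(2 * b * s)) :=
      Real.exp_le_exp.2 (by nlinarith)
    have h2 : a * Real.exp (-(2 * b * S)) ≤ a * Real.exp (-(2 * b * s)) :=
      mul_le_mul_of_nonneg_left h1 ha.le
    have h3 : K * s * δ ≤ K * S * δ := by
      have : K * s ≤ K * S := mul_le_mul_of_nonneg_left hsS hK
      exact mul_le_mul_of_nonneg_right this hδ.le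
    linarith
  have b3 : ∀ s, 0 ≤ s → s ≤ S → (C3 + 2 * b ^ 3 * s) * Real.exp (3 * b * s) ≤ A3 := by
    intro s hs hsS
    rw [hA3]
    have h1 : Real.exp (3 * b * s) ≤ Real.exp (3 * b * S) := Real.exp_le_exp.2 (by nlinarith)
    have h2 : C3 + 2 * b ^ 3 * s ≤ C3 + 2 * b ^ 3 * S := by
      have : 2 * b ^ 3 * s ≤ 2 * b ^ 3 * S := mul_le_mul_of_nonneg_left hsS (by positivity)
      linarith
    exact mul_le_mul h2 h1 (Real.exp_pos _).le (by positivity)
  have b4 : ∀ s, 0 ≤ s → s ≤ S → (C4 + D4 * s) * Real.exp (4 * b * s) ≤ A4 := by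
    intro s hs hsS
    rw [hA4]
    have h1 : Real.exp (4 * b * s) ≤ Real.exp (4 * b * S) := Real.exp_le_exp.2 (by nlinarith)
    have h2 : C4 + D4 * s ≤ C4 + D4 * S := by
      have : D4 * s ≤ D4 * S := mul_le_mul_of_nonneg_left hsS hD4nn
      linarith
    exact mul_le_mul h2 h1 (Real.exp_pos _).le (by positivity)
  have bε : ∀ s, 0 ≤ s → s ≤ S → K * s * δ * Real.exp (K * s) ≤ K * S * δ * Real.exp (K * S) := by
    intro s hs hsS
    have h1 : Real.exp (K * s) ≤ Real.exp (K * S) :=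
      Real.exp_le_exp.2 (mul_le_mul_of_nonneg_left hsS hK)
    have h2 : K * s * δ ≤ K * S * δ :=
      mul_le_mul_of_nonneg_right (mul_le_mul_of_nonneg_left hsS hK) hδ.le
    exact mul_le_mul h2 h1 (Real.exp_pos _).le (by positivity)
  intro l
  induction l with
  | nil =>
    intro w ai c3 c4 ε s _ hs hsS hai hc3 hc3' hc4 hε hε' hw
    have hsS' : s ≤ S := by simpa using hsS
    refine ⟨c3, c4, ?_⟩
    refine hw.mono ((ba s hs hsS').trans hai) ?_
    refine hε'.trans ((bε s hs hsS').trans (le_of_eq ?_))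
    ring
  | cons e l ih =>
    intro w ai c3 c4 ε s hl hs hsS hai hc3 hc3' hc4 hε hε' hw
    have hlen : s + δ ^ 2 + l.length * δ ^ 2 ≤ S := by
      have : ((e :: l).length : ℝ) = l.length + 1 := by simp
      rw [this] at hsS
      linarith
    have hsS' : s ≤ S := by
      have : 0 ≤ (l.length : ℝ) * δ ^ 2 := by positivity
      nlinarith [sq_nonneg δ]
    have hstep1 := hstep ε ai c3 c4 e w hε ((hε'.trans (bε s hs hsS')).trans hε1)
      ((ba s hs hsS').trans hai) (hc3'.trans (b3 s hs hsS')) (hc4.trans (b4 s hs hsS'))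
      (hl e (by simp)) hw
    refine ih (avg δ e w) _ _ _ _ (s + δ ^ 2) (fun e' he' => hl e' (by simp [he'])) (by positivity)
      hlen ?_ (by positivity) ?_ ?_ (by positivity) ?_ hstep1
    · exact inv_a ha hK hs hδ hb hδb hai
    · -- c3
      refine gron hC3 (by positivity) (by positivity) hs (by positivity) hc3' ?_
      have : δ ^ 3 ≤ δ ^ 2 := pow_le_pow_of_le_one hδ.le hδ1 (by norm_num)
      exact mul_le_mul_of_nonneg_left this (by positivity)
    · -- c4
      refine gron hC4 hD4nn (by positivity) hs (by positivity) hc4 ?_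
      have hc3A : c3 ≤ A3 := hc3'.trans (b3 s hs hsS')
      have h4 : 3 * c3 ^ 2 + 12 * c3 * b ^ 2 + 4 * b ^ 4 ≤ D4 := by
        rw [hD4]
        have e1 : c3 ^ 2 ≤ A3 ^ 2 := pow_le_pow_left₀ hc3 hc3A 2
        have e2 : c3 * b ^ 2 ≤ A3 * b ^ 2 := mul_le_mul_of_nonneg_right hc3A (by positivity)
        linarith
      rw [mul_comm D4]
      exact mul_le_mul_of_nonneg_left h4 (by positivity)
    · -- ε
      have h := gron (x := ε) (X := 0) (Y := K * δ) (g := K) (s := s) (t := δ ^ 2)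
        (y := K * δ ^ 3) le_rfl (by positivity) hK hs (by positivity)
        (by rw [zero_add]; refine hε'.trans (le_of_eq ?_); ring) (le_of_eq (by ring))
      refine h.trans (le_of_eq ?_)
      ring

/-- After at most `S/δ²` steps from an exactly self-concordant function, the error is `O(δ)`. -/
theorem iterate (hstep : StepStmt E) {a b C3 C4 κ S : ℝ} (ha : 0 < a) (hb : 0 ≤ b)
    (hC3 : 0 ≤ C3) (hC4 : 0 ≤ C4) (hκ0 : 0 ≤ κ) (hκ1 : κ ≤ 1) (hS : 0 ≤ S) :
    ∃ a' K δ0 : ℝ, 0 < a' ∧ 0 ≤ K ∧ 0 < δ0 ∧ ∀ δ, 0 < δ → δ ≤ δ0 → ∀ (l : List E) (w : E → ℝ),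
      (∀ e ∈ l, ‖e‖ = 1) → l.length * δ ^ 2 ≤ S → St a b C3 C4 κ 0 w →
      ∃ C3' C4', St a' b C3' C4' κ (K * δ) (avgs δ l w) := by
  set a0 : ℝ := a * Real.exp (-(2 * b * S)) / 2 with ha0
  have ha0pos : 0 < a0 := by positivity
  set A3 : ℝ := (C3 + 2 * b ^ 3 * S) * Real.exp (3 * b * S) with hA3
  set A4 : ℝ := (C4 + (3 * A3 ^ 2 + 12 * A3 * b ^ 2 + 4 * b ^ 4) * S) * Real.exp (4 * b * S)
    with hA4
  obtain ⟨K, hK, hst⟩ := hstep a0 b A3 A4 ha0pos
  refine ⟨a0, K * S * Real.exp (K * S), min (min 1 (1 / (2 * b + 1)))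
    (min (a0 / (K * S + 1)) (1 / (K * S * Real.exp (K * S) + 1))), ha0pos, by positivity,
    by positivity, ?_⟩
  intro δ hδ hδ0 l w hl hlen hw
  have hδ1 : δ ≤ 1 := hδ0.trans ((min_le_left _ _).trans (min_le_left _ _))
  have hδb : δ ≤ 1 / (2 * b + 1) := hδ0.trans ((min_le_left _ _).trans (min_le_right _ _))
  have hδa : δ ≤ a0 / (K * S + 1) := hδ0.trans ((min_le_right _ _).trans (min_le_left _ _))
  have hδe : δ ≤ 1 / (K * S * Real.exp (K * S) + 1) :=
    hδ0.trans ((min_le_right _ _).trans (min_le_right _ _))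
  have hb2 : b * δ ^ 2 ≤ 1 / 2 := by
    have h1 : δ * (2 * b + 1) ≤ 1 := by
      rw [le_div_iff₀ (by positivity)] at hδb; exact hδb
    have h2 : δ ^ 2 ≤ δ := by nlinarith
    nlinarith [mul_le_mul_of_nonneg_left h2 hb]
  have ha1 : a0 + K * S * δ ≤ a * Real.exp (-(2 * b * S)) := by
    have h1 : δ * (K * S + 1) ≤ a0 := by
      rw [le_div_iff₀ (by positivity)] at hδa; exact hδa
    have h2 : a * Real.exp (-(2 * b * S)) = 2 * a0 := by rw [ha0]; ring
    rw [h2]; nlinarith
  have he1 : K * S * δ * Real.exp (K * S) ≤ 1 := by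
    have h1 : δ * (K * S * Real.exp (K * S) + 1) ≤ 1 := by
      rw [le_div_iff₀ (by positivity)] at hδe; exact hδe
    nlinarith
  have := iter_aux (E := E) ha hb hC3 hC4 hκ0 hκ1 hS hK hδ hδ1 hb2 hA3 hA4 ha1 he1
    (fun ε a C3 C4 e w h1 h2 h3 h4 h5 h6 h7 => hst κ δ ε a C3 C4 e w hκ0 hκ1 hδ hδ1 h1 h2 h3 h4 h5 h6 h7)
    l w a C3 C4 0 0 hl le_rfl (by simpa using hlen) (by simp) hC3 (by simp) (by simp) le_rfl
    (by simp) hw
  exact this

end Vale.Agent.P227.M.SC
end

section

/-! # P227/M/SC: iterated two-point averages and the Gaussian limit (Lévy). -/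

open MeasureTheory Filter Topology

namespace Vale.Agent.P227.M.SC.F79

section Alg
variable {E : Type*} [NormedAddCommGroup E] [NormedSpace ℝ E]

/-- iterated two-point average of a function -/
noncomputable def AA (δ : ℝ) : List E → (E → ℝ) → (E → ℝ)
  | [], f => f
  | e :: l, f => AA δ l (fun x => (f (x + δ • e) + f (x - δ • e)) / 2)

theorem exp_avgs (δ : ℝ) : ∀ (l : List E) (w : E → ℝ) (x : E),
    Real.exp (-(avgs δ l w x)) = AA δ l (fun y => Real.exp (-w y)) x := by
  intro l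
  induction l with
  | nil => intro w x; rfl
  | cons e l ih =>
    intro w x
    rw [avgs, AA, ih]
    congr 1
    funext y
    rw [avg, neg_neg, Real.exp_log (by positivity)]

theorem AA_pos (δ : ℝ) : ∀ (l : List E) (f : E → ℝ) (_ : ∀ x, 0 < f x) (x : E), 0 < AA δ l f x := by
  intro l
  induction l with
  | nil => intro f hf x; exact hf x
  | cons e l ih =>
    intro f hf x
    rw [AA]
    refine ih _ (fun y => ?_) x
    have h1 := hf (y + δ • e)
    have h2 := hf (y - δ • e)
    positivity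

theorem avgs_eq (δ : ℝ) (l : List E) (w : E → ℝ) (x : E) :
    avgs δ l w x = -Real.log (AA δ l (fun y => Real.exp (-w y)) x) := by
  rw [← exp_avgs, Real.log_exp, neg_neg]

end Alg

section Meas
variable {E : Type*} [NormedAddCommGroup E] [InnerProductSpace ℝ E] [MeasurableSpace E]
  [BorelSpace E]

/-- the law of the sum of the steps -/
noncomputable def nu (δ : ℝ) : List E → Measure E
  | [] => Measure.dirac 0
  | e :: l => (2⁻¹ : ENNReal) • ((nu δ l).map (· + δ • e)) +
      (2⁻¹ : ENNReal) • ((nu δ l).map (· + (-(δ • e))))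

theorem nu_prob (δ : ℝ) : ∀ l : List E, IsProbabilityMeasure (nu δ l) := by
  intro l
  induction l with
  | nil => rw [nu]; infer_instance
  | cons e l ih =>
    have := ih
    have h1 : IsProbabilityMeasure ((nu δ l).map (· + δ • e)) :=
      Measure.isProbabilityMeasure_map (by fun_prop)
    have h2 : IsProbabilityMeasure ((nu δ l).map (· + (-(δ • e)))) :=
      Measure.isProbabilityMeasure_map (by fun_prop)
    constructor
    rw [nu]
    simp [ENNReal.inv_two_add_inv_two]

theorem nu_int (δ : ℝ) : ∀ (l : List E) (f : E → ℝ), Continuous f → (∃ B, ∀ x, |f x| ≤ B) →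
    ∀ x, AA δ l f x = ∫ z, f (x + z) ∂(nu δ l) := by
  intro l
  induction l with
  | nil => intro f hf hb x; simp [AA, nu]
  | cons e l ih =>
    intro f hf hb x
    obtain ⟨B, hB⟩ := hb
    have := nu_prob δ l
    have h1 : IsProbabilityMeasure ((nu δ l).map (· + δ • e)) :=
      Measure.isProbabilityMeasure_map (by fun_prop)
    have h2 : IsProbabilityMeasure ((nu δ l).map (· + (-(δ • e)))) :=
      Measure.isProbabilityMeasure_map (by fun_prop)
    rw [AA, ih _ (by fun_prop) ⟨B, fun y => ?_⟩ x, nu]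
    · have hint : ∀ (μ : Measure E) [IsProbabilityMeasure μ] (g : E → ℝ), Continuous g →
          (∀ x, |g x| ≤ B) → Integrable g μ := by
        intro μ _ g hg hgB
        exact Integrable.of_bound hg.aestronglyMeasurable B (Eventually.of_forall hgB)
      rw [integral_add_measure, integral_smul_measure, integral_smul_measure,
        integral_map (by fun_prop) (Continuous.aestronglyMeasurable (by fun_prop)),
        integral_map (by fun_prop) (Continuous.aestronglyMeasurable (by fun_prop))]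
      · rw [integral_div, integral_add]
        · have e1 : ∀ z : E, f (x + z + δ • e) = f (x + (z + δ • e)) := fun z => by rw [add_assoc]
          have e2 : ∀ z : E, f (x + z - δ • e) = f (x + (z + -(δ • e))) := fun z => by
            rw [sub_eq_add_neg, add_assoc]
          simp only [e1, e2]
          simp
          ring
        · exact hint _ _ (by fun_prop) fun z => hB _
        · exact hint _ _ (by fun_prop) fun z => hB _
      · exact (hint _ _ (by fun_prop) fun z => hB _).smul_measure (by simp)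
      · exact (hint _ _ (by fun_prop) fun z => hB _).smul_measure (by simp)
    · rw [abs_div, abs_two, div_le_iff₀ (by norm_num)]
      refine (abs_add_le _ _).trans ?_
      have := hB (y + δ • e)
      have := hB (y - δ • e)
      linarith

theorem charFun_nu (δ : ℝ) (θ : E) : ∀ l : List E,
    charFun (nu δ l) θ = ((l.map fun e => Real.cos (δ * inner ℝ e θ)).prod : ℝ) := by
  intro l
  induction l with
  | nil => simp [nu]
  | cons e l ih =>
    have := nu_prob δ l
    have h1 : IsProbabilityMeasure ((nu δ l).map (· + δ • e)) :=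
      Measure.isProbabilityMeasure_map (by fun_prop)
    have h2 : IsProbabilityMeasure ((nu δ l).map (· + (-(δ • e)))) :=
      Measure.isProbabilityMeasure_map (by fun_prop)
    have hint : ∀ (μ : Measure E) [IsProbabilityMeasure μ],
        Integrable (fun x : E => Complex.exp ((inner ℝ x θ : ℝ) * Complex.I)) μ := by
      intro μ _
      refine Integrable.of_bound (Continuous.aestronglyMeasurable (by fun_prop)) 1
        (Eventually.of_forall fun x => ?_)
      rw [Complex.norm_exp_ofReal_mul_I]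
    have key : charFun (nu δ (e :: l)) θ =
        2⁻¹ * charFun ((nu δ l).map (· + δ • e)) θ +
          2⁻¹ * charFun ((nu δ l).map (· + (-(δ • e)))) θ := by
      rw [nu, charFun_apply, charFun_apply, charFun_apply, integral_add_measure,
        integral_smul_measure, integral_smul_measure]
      · simp
      · exact (hint _).smul_measure (by simp)
      · exact (hint _).smul_measure (by simp)
    rw [key, charFun_map_add_const, charFun_map_add_const, ih]
    simp only [List.map_cons, List.prod_cons, Complex.ofReal_mul, Complex.ofReal_cos]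
    rw [inner_neg_left, real_inner_smul_left]
    have : Complex.cos ((δ : ℂ) * (inner ℝ e θ : ℝ)) =
        (Complex.exp (((δ * inner ℝ e θ : ℝ) : ℂ) * Complex.I) +
          Complex.exp (((-(δ * inner ℝ e θ) : ℝ) : ℂ) * Complex.I)) / 2 := by
      rw [Complex.cos]
      push_cast
      ring_nf
    rw [this]
    ring

end Meas

end Vale.Agent.P227.M.SC.F79
end

section

/-! # P227/M/SC: the Gaussian limit of the iterated two-point averages. -/

open MeasureTheory Filter Topology

namespace Vale.Agent.P227.M.SC.F79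

/-- `k (cos (b/√k) - 1) → -b²/2` -/
theorem cos_lim (b : ℝ) :
    Tendsto (fun k : ℕ => (k : ℝ) * (Real.cos ((√(k : ℝ))⁻¹ * b) - 1)) atTop
      (𝓝 (-b ^ 2 / 2)) := by
  have h0 : Tendsto (fun k : ℕ => b ^ 4 * (5 / 96) * (1 / (k : ℝ))) atTop (𝓝 0) := by
    have := (tendsto_one_div_atTop_nhds_zero_nat (𝕜 := ℝ)).const_mul (b ^ 4 * (5 / 96))
    simpa using this
  rw [tendsto_iff_dist_tendsto_zero]
  have hs : Tendsto (fun k : ℕ => (√(k : ℝ))⁻¹ * b) atTop (𝓝 0) := by
    rw [← zero_mul b]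
    exact .mul_const b (tendsto_inv_atTop_zero.comp <| Real.tendsto_sqrt_atTop.comp <|
      tendsto_natCast_atTop_atTop)
  refine squeeze_zero' (Eventually.of_forall fun _ => dist_nonneg) ?_ h0
  have h1 : ∀ᶠ k : ℕ in atTop, |(√(k : ℝ))⁻¹ * b| ≤ 1 := by
    have := (hs.abs).eventually (eventually_le_nhds (b := 1) (by simp))
    exact this
  filter_upwards [h1, eventually_gt_atTop 0] with k hk hk0
  have hkr : (0 : ℝ) < k := by exact_mod_cast hk0
  have hb := Real.cos_bound hk
  have e1 : ((√(k : ℝ))⁻¹ * b) ^ 2 = b ^ 2 / k := by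
    rw [mul_pow, inv_pow, Real.sq_sqrt hkr.le]; ring
  have e2 : |(√(k : ℝ))⁻¹ * b| ^ 4 = b ^ 4 / (k : ℝ) ^ 2 := by
    have : |(√(k : ℝ))⁻¹ * b| ^ 4 = (((√(k : ℝ))⁻¹ * b) ^ 2) ^ 2 := by
      rw [← sq_abs ((√(k : ℝ))⁻¹ * b)]; ring
    rw [this, e1]; ring
  rw [e1, e2] at hb
  rw [Real.dist_eq]
  have e3 : (k : ℝ) * (Real.cos ((√(k : ℝ))⁻¹ * b) - 1) - -b ^ 2 / 2 =
      k * (Real.cos ((√(k : ℝ))⁻¹ * b) - (1 - b ^ 2 / k / 2)) := by
    field_simp; ring
  rw [e3, abs_mul, abs_of_pos hkr]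
  calc (k : ℝ) * |Real.cos ((√(k : ℝ))⁻¹ * b) - (1 - b ^ 2 / k / 2)|
      ≤ k * (b ^ 4 / (k : ℝ) ^ 2 * (5 / 96)) := mul_le_mul_of_nonneg_left hb hkr.le
    _ = b ^ 4 * (5 / 96) * (1 / (k : ℝ)) := by field_simp

theorem cos_pow_lim (b c : ℝ) (hc : 0 ≤ c) :
    Tendsto (fun k : ℕ => (Real.cos ((√(k : ℝ))⁻¹ * b)) ^ ⌊c * k⌋₊) atTop
      (𝓝 (Real.exp (-(c * b ^ 2) / 2))) := by
  have h1 := Real.tendsto_nat_mul_log_one_add_of_tendsto (cos_lim b)
  have h2 : Tendsto (fun k : ℕ => (⌊c * (k : ℝ)⌋₊ : ℝ) / (k : ℝ)) atTop (𝓝 c) :=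
    (tendsto_nat_floor_mul_div_atTop hc).comp tendsto_natCast_atTop_atTop
  have h3 := (h2.mul h1).rexp
  have e : c * (-b ^ 2 / 2) = -(c * b ^ 2) / 2 := by ring
  rw [e] at h3
  refine h3.congr' ?_
  have hs : Tendsto (fun k : ℕ => (√(k : ℝ))⁻¹ * b) atTop (𝓝 0) := by
    rw [← zero_mul b]
    exact .mul_const b (tendsto_inv_atTop_zero.comp <| Real.tendsto_sqrt_atTop.comp <|
      tendsto_natCast_atTop_atTop)
  have h4 : ∀ᶠ k : ℕ in atTop, 0 < Real.cos ((√(k : ℝ))⁻¹ * b) := by
    have h5 : Tendsto (fun k : ℕ => Real.cos ((√(k : ℝ))⁻¹ * b)) atTop (𝓝 1) := by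
      have := (Real.continuous_cos.tendsto 0).comp hs
      rw [Real.cos_zero] at this
      exact this
    exact h5.eventually (lt_mem_nhds one_pos)
  filter_upwards [h4, eventually_gt_atTop 0] with k hk hk0
  have hkr : (0 : ℝ) < k := by exact_mod_cast hk0
  have e5 : 1 + (Real.cos ((√(k : ℝ))⁻¹ * b) - 1) = Real.cos ((√(k : ℝ))⁻¹ * b) := by ring
  rw [e5]
  have e6 : (⌊c * (k : ℝ)⌋₊ : ℝ) / (k : ℝ) * (k * Real.log (Real.cos ((√(k : ℝ))⁻¹ * b))) =
      (⌊c * (k : ℝ)⌋₊ : ℝ) * Real.log (Real.cos ((√(k : ℝ))⁻¹ * b)) := by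
    field_simp
  rw [e6, mul_comm, ← Real.rpow_def_of_pos hk, Real.rpow_natCast]

variable {n : ℕ}

/-- the list of steps -/
noncomputable def steps (P : E n →L[ℝ] E n) (k : ℕ) : List (E n) :=
  ((List.finRange n).map fun i =>
    List.replicate ⌊‖P (ei i)‖ ^ 2 * k⌋₊ (‖P (ei i)‖⁻¹ • P (ei i))).flatten

theorem steps_norm (P : E n →L[ℝ] E n) (k : ℕ) : ∀ e ∈ steps P k, ‖e‖ = 1 := by
  intro e he
  rw [steps, List.mem_flatten] at he
  obtain ⟨l, hl, hel⟩ := he
  rw [List.mem_map] at hl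
  obtain ⟨i, -, rfl⟩ := hl
  rw [List.mem_replicate] at hel
  obtain ⟨h1, rfl⟩ := hel
  have h2 : ‖P (ei i)‖ ≠ 0 := by
    intro h0
    rw [h0] at h1
    simp at h1
  rw [norm_smul, norm_inv, norm_norm, inv_mul_cancel₀ h2]

theorem steps_length (P : E n →L[ℝ] E n) (k : ℕ) :
    ((steps P k).length : ℝ) * ((√(k : ℝ))⁻¹) ^ 2 ≤ ∑ i, ‖P (ei i)‖ ^ 2 := by
  rcases Nat.eq_zero_or_pos k with rfl | hk
  · simp
    positivity
  have hkr : (0 : ℝ) < k := by exact_mod_cast hk
  rw [inv_pow, Real.sq_sqrt hkr.le, ← div_eq_mul_inv, div_le_iff₀ hkr, Finset.sum_mul]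
  rw [steps, List.length_flatten, List.map_map]
  have : (List.map (List.length ∘ fun i : Fin n =>
      List.replicate ⌊‖P (ei i)‖ ^ 2 * k⌋₊ (‖P (ei i)‖⁻¹ • P (ei i))) (List.finRange n)).sum =
      ∑ i : Fin n, ⌊‖P (ei i)‖ ^ 2 * k⌋₊ := by
    rw [Fin.sum_univ_def]
    congr 1
    refine List.map_congr_left fun i _ => ?_
    simp
  rw [this]
  push_cast
  refine Finset.sum_le_sum fun i _ => ?_
  exact Nat.floor_le (by positivity)

theorem charFun_steps (P : E n →L[ℝ] E n) (θ : E n) :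
    Tendsto (fun k : ℕ => charFun (nu ((√(k : ℝ))⁻¹) (steps P k)) θ) atTop
      (𝓝 ((Real.exp (-(∑ i, (inner ℝ (P (ei i)) θ : ℝ) ^ 2) / 2) : ℝ) : ℂ)) := by
  simp only [charFun_nu]
  refine (Complex.continuous_ofReal.tendsto _).comp ?_
  have h1 : ∀ k : ℕ, ((steps P k).map fun e => Real.cos ((√(k : ℝ))⁻¹ * inner ℝ e θ)).prod =
      ∏ i : Fin n, (Real.cos ((√(k : ℝ))⁻¹ * inner ℝ (‖P (ei i)‖⁻¹ • P (ei i)) θ)) ^
        ⌊‖P (ei i)‖ ^ 2 * k⌋₊ := by
    intro k
    rw [steps, List.map_flatten, List.prod_flatten, List.map_map, List.map_map, Fin.prod_univ_def]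
    congr 1
    refine List.map_congr_left fun i _ => ?_
    simp
  simp only [h1]
  have h2 : Real.exp (-(∑ i, (inner ℝ (P (ei i)) θ : ℝ) ^ 2) / 2) =
      ∏ i : Fin n, Real.exp (-(‖P (ei i)‖ ^ 2 *
        (inner ℝ (‖P (ei i)‖⁻¹ • P (ei i)) θ : ℝ) ^ 2) / 2) := by
    rw [← Real.exp_sum]
    congr 1
    rw [neg_div, Finset.sum_div, ← Finset.sum_neg_distrib]
    refine Finset.sum_congr rfl fun i _ => ?_
    rw [real_inner_smul_left, mul_pow, ← mul_assoc, neg_div]
    congr 2
    by_cases h0 : ‖P (ei i)‖ = 0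
    · have : P (ei i) = 0 := norm_eq_zero.1 h0
      simp [this]
    · rw [← mul_pow, mul_inv_cancel₀ h0]; ring
  rw [h2]
  refine tendsto_finsetProd _ fun i _ => ?_
  exact cos_pow_lim _ _ (by positivity)

/-! the Gaussian side -/

/-- Gaussian weight -/
noncomputable def gw (z : E n) : ℝ := Real.exp (-‖z‖ ^ 2 / 2)

theorem gw_int : Integrable (gw (n := n)) := by
  have := integrable_gauss (n := n) (a := 1 / 2) (by norm_num)
  refine this.congr (Eventually.of_forall fun z => ?_)
  simp only [gw]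
  congr 1
  ring

theorem gw_cont : Continuous (gw (n := n)) := by
  unfold gw
  fun_prop

theorem gw_pos (z : E n) : 0 < gw z := Real.exp_pos _

theorem gwZ_pos : 0 < ∫ z : E n, gw z :=
  integral_pos_of_integrable_nonneg_nonzero (x := (0 : E n)) gw_cont gw_int
    (fun z => (gw_pos z).le) (gw_pos 0).ne'

/-- standard Gaussian measure -/
noncomputable def gam (n : ℕ) : Measure (E n) :=
  volume.withDensity fun z => ENNReal.ofReal ((∫ z : E n, gw z)⁻¹ * gw z)

theorem gam_prob : IsProbabilityMeasure (gam n) := by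
  constructor
  rw [gam, withDensity_apply _ MeasurableSet.univ, Measure.restrict_univ,
    ← ofReal_integral_eq_lintegral_ofReal (gw_int.const_mul _)
      (Eventually.of_forall fun z => mul_nonneg (inv_nonneg.2 gwZ_pos.le) (gw_pos z).le),
    integral_const_mul, inv_mul_cancel₀ gwZ_pos.ne', ENNReal.ofReal_one]

theorem gam_integral {F : Type*} [NormedAddCommGroup F] [NormedSpace ℝ F] (f : E n → F) :
    ∫ z, f z ∂(gam n) = (∫ z : E n, gw z)⁻¹ • ∫ z : E n, gw z • f z := by
  rw [gam, integral_withDensity_eq_integral_toReal_smul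
    ((gw_cont.measurable.const_mul _).ennreal_ofReal) (by simp), ← integral_smul]
  refine integral_congr_ae (Eventually.of_forall fun z => ?_)
  simp only
  rw [ENNReal.toReal_ofReal (mul_nonneg (inv_nonneg.2 gwZ_pos.le) (gw_pos z).le), mul_smul]

theorem charFun_gam (P : E n →L[ℝ] E n) (θ : E n) :
    charFun ((gam n).map P) θ =
      ((Real.exp (-(∑ i, (inner ℝ (P (ei i)) θ : ℝ) ^ 2) / 2) : ℝ) : ℂ) := by
  have h0 : (∑ i, (inner ℝ (P (ei i)) θ : ℝ) ^ 2) = ‖ContinuousLinearMap.adjoint P θ‖ ^ 2 := by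
    rw [norm_sq_eq_sum]
    refine Finset.sum_congr rfl fun i _ => ?_
    congr 1
    have : (ContinuousLinearMap.adjoint P θ) i =
        inner ℝ (ei i) (ContinuousLinearMap.adjoint P θ) := by
      rw [ei, EuclideanSpace.inner_single_left]; simp
    rw [this, ContinuousLinearMap.adjoint_inner_right]
  rw [h0, charFun_apply, integral_map (by fun_prop) (Continuous.aestronglyMeasurable (by fun_prop)),
    gam_integral]
  have hb : (0 : ℝ) < (1 / 2 : ℂ).re := by norm_num
  have h1 := GaussianFourier.integral_cexp_neg_mul_sq_norm_add (V := E n) hb Complex.I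
    (ContinuousLinearMap.adjoint P θ)
  have h2 := GaussianFourier.integral_cexp_neg_mul_sq_norm (V := E n) hb
  have h3 : (∫ z : E n, gw z • Complex.exp ((inner ℝ (P z) θ : ℝ) * Complex.I)) =
      ∫ v : E n, Complex.exp (-(1 / 2 : ℂ) * ‖v‖ ^ 2 +
        Complex.I * (inner ℝ (ContinuousLinearMap.adjoint P θ) v : ℝ)) := by
    refine integral_congr_ae (Eventually.of_forall fun z => ?_)
    simp only
    rw [ContinuousLinearMap.adjoint_inner_left, real_inner_comm, Complex.exp_add, gw]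
    rw [Complex.real_smul, Complex.ofReal_exp]
    congr 2
    · push_cast; ring
    · rw [mul_comm]
  have h4 : (((∫ z : E n, gw z : ℝ)) : ℂ) = ∫ v : E n, Complex.exp (-(1 / 2 : ℂ) * ‖v‖ ^ 2) := by
    rw [← integral_complex_ofReal]
    refine integral_congr_ae (Eventually.of_forall fun z => ?_)
    simp only [gw]
    rw [Complex.ofReal_exp]
    congr 1
    push_cast; ring
  rw [h3, h1, ← h2, ← h4, Complex.real_smul, ← mul_assoc]
  have h5 : (((∫ z : E n, gw z : ℝ)) : ℂ) ≠ 0 := by
    exact_mod_cast gwZ_pos.ne'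
  rw [Complex.ofReal_inv, inv_mul_cancel₀ h5, one_mul, Complex.ofReal_exp, Complex.I_sq]
  congr 1
  push_cast; ring

/-- the Gaussian limit of the iterated averages -/
theorem AA_lim (P : E n →L[ℝ] E n) {f : E n → ℝ} (hf : Continuous f) {B : ℝ}
    (hB : ∀ x, |f x| ≤ B) (x : E n) :
    Tendsto (fun k : ℕ => AA ((√(k : ℝ))⁻¹) (steps P k) f x) atTop
      (𝓝 ((∫ z : E n, gw z)⁻¹ * ∫ z : E n, gw z * f (x + P z))) := by
  have hp1 : ∀ k : ℕ, IsProbabilityMeasure (nu ((√(k : ℝ))⁻¹) (steps P k)) := fun k => nu_prob _ _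
  have hp0 := gam_prob (n := n)
  have hp2 : IsProbabilityMeasure ((gam n).map P) := Measure.isProbabilityMeasure_map (by fun_prop)
  let μ : ℕ → ProbabilityMeasure (E n) := fun k => ⟨nu ((√(k : ℝ))⁻¹) (steps P k), hp1 k⟩
  let μ0 : ProbabilityMeasure (E n) := ⟨(gam n).map P, hp2⟩
  have h1 : Tendsto μ atTop (𝓝 μ0) := by
    refine ProbabilityMeasure.tendsto_of_tendsto_charFun fun θ => ?_
    have := charFun_steps P θ
    rw [← charFun_gam P θ] at this
    exact this
  rw [ProbabilityMeasure.tendsto_iff_forall_integral_tendsto] at h1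
  let g : BoundedContinuousFunction (E n) ℝ :=
    BoundedContinuousFunction.ofNormedAddCommGroup (fun z => f (x + z)) (by fun_prop) B
      (fun z => by rw [Real.norm_eq_abs]; exact hB _)
  have h2 := h1 g
  have e1 : ∀ k : ℕ, AA ((√(k : ℝ))⁻¹) (steps P k) f x = ∫ z, g z ∂(μ k : Measure (E n)) := by
    intro k
    rw [nu_int _ _ f hf ⟨B, hB⟩ x]
    rfl
  have e2 : (∫ z, g z ∂(μ0 : Measure (E n))) =
      (∫ z : E n, gw z)⁻¹ * ∫ z : E n, gw z * f (x + P z) := by
    have : (∫ z, g z ∂(μ0 : Measure (E n))) = ∫ z, f (x + z) ∂((gam n).map P) := rfl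
    rw [this, integral_map (by fun_prop) (Continuous.aestronglyMeasurable (by fun_prop)),
      gam_integral]
    simp [smul_eq_mul]
  rw [← e2]
  simpa only [e1] using h2

end Vale.Agent.P227.M.SC.F79
end

section

/-!
P227/M/SC, leaf L6 (helper84): a regular self-concordant potential satisfies the bounds `St`
carried along the two-point steps.
-/

open Set Filter Topology

namespace Vale.Agent.P227.M.SC.L6

section General

variable {F : Type*} [NormedAddCommGroup F] [NormedSpace ℝ F]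

theorem contDiff_dd {w : F → ℝ} (hw : ContDiff ℝ (⊤ : ℕ∞) w) (v : F) :
    ContDiff ℝ (⊤ : ℕ∞) (dd v w) := by
  have h : ContDiff ℝ (⊤ : ℕ∞) (fderiv ℝ w) := hw.fderiv_right (by exact_mod_cast le_top)
  exact h.clm_apply contDiff_const

/-- peeling off one derivative -/
theorem iteratedFDeriv_succ_eq_dd {w : F → ℝ} (hw : ContDiff ℝ (⊤ : ℕ∞) w) (k : ℕ)
    (m : Fin (k + 1) → F) (x : F) :
    iteratedFDeriv ℝ (k + 1) w x m =
      dd (m 0) (fun y => iteratedFDeriv ℝ k w y (Fin.tail m)) x := by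
  have hd : DifferentiableAt ℝ (iteratedFDeriv ℝ k w) x := by
    have : ContDiff ℝ (k + 1) w := hw.of_le (by exact_mod_cast le_top)
    exact (this.differentiable_iteratedFDeriv (by exact_mod_cast Nat.lt_succ_self k)) x
  rw [iteratedFDeriv_succ_apply_left, dd, fderiv_continuousMultilinear_apply_const hd]
  rfl

theorem iteratedFDeriv_one_eq_dd {w : F → ℝ} (hw : ContDiff ℝ (⊤ : ℕ∞) w) (v : F) (x : F) :
    iteratedFDeriv ℝ 1 w x ![v] = dd v w x := by
  rw [iteratedFDeriv_succ_eq_dd hw 0]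
  simp [dd]

theorem iteratedFDeriv_two_eq_dd {w : F → ℝ} (hw : ContDiff ℝ (⊤ : ℕ∞) w) (v₁ v₂ : F) (x : F) :
    iteratedFDeriv ℝ 2 w x ![v₂, v₁] = dd v₂ (dd v₁ w) x := by
  rw [iteratedFDeriv_succ_eq_dd hw 1]
  congr 1
  funext y
  exact iteratedFDeriv_one_eq_dd hw v₁ y

theorem iteratedFDeriv_three_eq_dd {w : F → ℝ} (hw : ContDiff ℝ (⊤ : ℕ∞) w) (v₁ v₂ v₃ : F)
    (x : F) : iteratedFDeriv ℝ 3 w x ![v₃, v₂, v₁] = dd v₃ (dd v₂ (dd v₁ w)) x := by
  rw [iteratedFDeriv_succ_eq_dd hw 2]
  congr 1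
  funext y
  exact iteratedFDeriv_two_eq_dd hw v₁ v₂ y

theorem iteratedFDeriv_four_eq_dd {w : F → ℝ} (hw : ContDiff ℝ (⊤ : ℕ∞) w) (v₁ v₂ v₃ v₄ : F)
    (x : F) : iteratedFDeriv ℝ 4 w x ![v₄, v₃, v₂, v₁] = dd v₄ (dd v₃ (dd v₂ (dd v₁ w))) x := by
  rw [iteratedFDeriv_succ_eq_dd hw 3]
  congr 1
  funext y
  exact iteratedFDeriv_three_eq_dd hw v₁ v₂ v₃ y

/-- derivative along a line -/
theorem hasDerivAt_line {g : F → ℝ} (hg : Differentiable ℝ g) (x v : F) (t : ℝ) :
    HasDerivAt (fun t : ℝ => g (x + t • v)) (dd v g (x + t • v)) t := by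
  have h1 : HasDerivAt (fun t : ℝ => x + t • v) v t := by
    simpa using ((hasDerivAt_id t).smul_const v).const_add x
  exact (hg (x + t • v)).hasFDerivAt.comp_hasDerivAt t h1

theorem differentiable_of_smooth {g : F → ℝ} (hg : ContDiff ℝ (⊤ : ℕ∞) g) :
    Differentiable ℝ g := hg.differentiable (by simp)

theorem deriv_line {g : F → ℝ} (hg : ContDiff ℝ (⊤ : ℕ∞) g) (x v : F) :
    deriv (fun t : ℝ => g (x + t • v)) = fun t => dd v g (x + t • v) :=
  funext fun t => (hasDerivAt_line (differentiable_of_smooth hg) x v t).deriv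

theorem iteratedDeriv_two_line {w : F → ℝ} (hw : ContDiff ℝ (⊤ : ℕ∞) w) (x v : F) (t : ℝ) :
    iteratedDeriv 2 (fun t : ℝ => w (x + t • v)) t = dd v (dd v w) (x + t • v) := by
  rw [iteratedDeriv_succ, iteratedDeriv_one, deriv_line hw, deriv_line (contDiff_dd hw v)]

theorem iteratedDeriv_three_line {w : F → ℝ} (hw : ContDiff ℝ (⊤ : ℕ∞) w) (x v : F) (t : ℝ) :
    iteratedDeriv 3 (fun t : ℝ => w (x + t • v)) t = dd v (dd v (dd v w)) (x + t • v) := by
  rw [iteratedDeriv_succ, iteratedDeriv_succ, iteratedDeriv_one, deriv_line hw,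
    deriv_line (contDiff_dd hw v), deriv_line (contDiff_dd (contDiff_dd hw v) v)]

/-- the second directional derivative is the bilinear second derivative -/
theorem dd_dd {w : F → ℝ} (hw : ContDiff ℝ (⊤ : ℕ∞) w) (u v x : F) :
    dd u (dd v w) x = fderiv ℝ (fderiv ℝ w) x u v := by
  have hd : DifferentiableAt ℝ (fderiv ℝ w) x := by
    have h : ContDiff ℝ (⊤ : ℕ∞) (fderiv ℝ w) := hw.fderiv_right (by exact_mod_cast le_top)
    exact (h.differentiable (by simp)) x
  have h1 : HasFDerivAt (fun y => fderiv ℝ w y v)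
      ((ContinuousLinearMap.apply ℝ ℝ v).comp (fderiv ℝ (fderiv ℝ w) x)) x :=
    (ContinuousLinearMap.apply ℝ ℝ v).hasFDerivAt.comp x hd.hasFDerivAt
  show fderiv ℝ (fun y => fderiv ℝ w y v) x u = _
  rw [h1.fderiv]
  rfl

end General

/-- the quadratic form of the Hessian matrix -/
theorem qf_hess_eq_dd {n : ℕ} {w : E n → ℝ} (hw : ContDiff ℝ (⊤ : ℕ∞) w) (x v : E n) :
    qf (hess w x) v = dd v (dd v w) x := by
  have hv : v = ∑ i, v i • ei i := by
    ext j
    simp [ei, Pi.single_apply]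
  have hh : ∀ i j, hess w x i j = fderiv ℝ (fderiv ℝ w) x (ei i) (ei j) := by
    intro i j
    exact dd_dd hw (ei i) (ei j) x
  rw [dd_dd hw v v x]
  conv_rhs => rw [hv]
  simp only [qf, hh, map_sum, map_smul, _root_.sum_apply,
    _root_.smul_apply, smul_eq_mul, Finset.mul_sum]
  rw [Finset.sum_comm]
  refine Finset.sum_congr rfl fun i _ => Finset.sum_congr rfl fun j _ => ?_
  ring

/-- **L6** -/
theorem _root_.Vale.Agent.P227.M.SC.st_of_reg {n : ℕ} {W : E n → ℝ} {c C κ : ℝ} (hR : Reg W c C) (hS : SelfConc κ W) :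
    ∃ C3 C4, 0 ≤ C3 ∧ 0 ≤ C4 ∧ St c C C3 C4 κ 0 W := by
  obtain ⟨B3, hB3⟩ := hR.bdd 3 (by norm_num)
  obtain ⟨B4, hB4⟩ := hR.bdd 4 (by norm_num)
  have hB3' : 0 ≤ B3 := (norm_nonneg _).trans (hB3 0)
  have hB4' : 0 ≤ B4 := (norm_nonneg _).trans (hB4 0)
  have hw := hR.smooth
  refine ⟨B3, B4, hB3', hB4', hw, ?_, ?_, ?_, ?_, ?_⟩
  · intro x v
    rw [← qf_hess_eq_dd hw]
    exact hR.lower x v
  · intro x v
    rw [← qf_hess_eq_dd hw]
    exact hR.upper x v
  · intro x v₁ v₂ v₃
    rw [← iteratedFDeriv_three_eq_dd hw, ← Real.norm_eq_abs]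
    refine ((iteratedFDeriv ℝ 3 W x).le_opNorm _).trans ?_
    rw [Fin.prod_univ_three]
    simp only [Matrix.cons_val_zero, Matrix.cons_val_one, Matrix.cons_val_two]
    calc ‖iteratedFDeriv ℝ 3 W x‖ * (‖v₃‖ * ‖v₂‖ * ‖v₁‖)
        ≤ B3 * (‖v₃‖ * ‖v₂‖ * ‖v₁‖) := mul_le_mul_of_nonneg_right (hB3 x) (by positivity)
      _ = B3 * (‖v₁‖ * ‖v₂‖ * ‖v₃‖) := by ring
  · intro x v₁ v₂ v₃ v₄
    rw [← iteratedFDeriv_four_eq_dd hw, ← Real.norm_eq_abs]
    refine ((iteratedFDeriv ℝ 4 W x).le_opNorm _).trans ?_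
    rw [Fin.prod_univ_four]
    simp only [Matrix.cons_val_zero, Matrix.cons_val_one, Matrix.cons_val_two, Matrix.cons_val]
    calc ‖iteratedFDeriv ℝ 4 W x‖ * (‖v₄‖ * ‖v₃‖ * ‖v₂‖ * ‖v₁‖)
        ≤ B4 * (‖v₄‖ * ‖v₃‖ * ‖v₂‖ * ‖v₁‖) := mul_le_mul_of_nonneg_right (hB4 x) (by positivity)
      _ = B4 * (‖v₁‖ * ‖v₂‖ * ‖v₃‖ * ‖v₄‖) := by ring
  · intro x v
    have h := hS x v
    rw [iteratedDeriv_two_line hw, iteratedDeriv_three_line hw, zero_smul, add_zero] at h
    linarith [le_abs_self (dd v (dd v (dd v W)) x)]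

end Vale.Agent.P227.M.SC.L6
end

section

/-! # Mollification on a Euclidean space: `mo ρ f = ρ * f`, derivatives, `L²` bounds and convergence -/

open MeasureTheory Filter Topology
open scoped ContDiff

namespace Vale.Agent.P227.Moll

variable {E : Type*} [NormedAddCommGroup E] [InnerProductSpace ℝ E] [FiniteDimensional ℝ E]
  [MeasurableSpace E] [BorelSpace E]

section nsq

variable {F : Type*} [NormedAddCommGroup F]

/-- square of the `L²` norm -/
noncomputable def nsq (f : E → F) : ℝ := ∫ x, ‖f x‖ ^ 2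

lemma nsq_nonneg (f : E → F) : 0 ≤ nsq f := integral_nonneg fun _ => by positivity

lemma memLp_norm_sq_int {f : E → F} (hf : MemLp f 2 (volume : Measure E)) :
    Integrable (fun x => ‖f x‖ ^ 2) := hf.integrable_norm_pow (by norm_num)

lemma nsq_add_le {f g : E → F} (hf : MemLp f 2 (volume : Measure E))
    (hg : MemLp g 2 (volume : Measure E)) :
    nsq (fun x => f x + g x) ≤ 2 * nsq f + 2 * nsq g := by
  have i1 := (memLp_norm_sq_int hf).const_mul 2
  have i2 := (memLp_norm_sq_int hg).const_mul 2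
  rw [nsq, nsq, nsq, ← integral_const_mul, ← integral_const_mul, ← integral_add i1 i2]
  refine integral_mono_of_nonneg (Eventually.of_forall fun x => by positivity) (i1.add i2)
    (Eventually.of_forall fun x => ?_)
  have h := norm_add_le (f x) (g x)
  have h2 := pow_le_pow_left₀ (norm_nonneg _) h 2
  nlinarith [sq_nonneg (‖f x‖ - ‖g x‖)]

lemma nsq_le_of_eLpNorm {f : E → F} (hf : MemLp f 2 (volume : Measure E)) {s : ℝ} (hs : 0 ≤ s)
    (h : eLpNorm f 2 (volume : Measure E) ≤ ENNReal.ofReal s) : nsq f ≤ s ^ 2 := by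
  have h1 : eLpNorm f 2 (volume : Measure E) ^ 2 = ∫⁻ x, ‖f x‖ₑ ^ 2 := by
    rw [eLpNorm_eq_lintegral_rpow_enorm_toReal (by norm_num) (by norm_num)]
    simp only [ENNReal.toReal_ofNat, ENNReal.rpow_ofNat, one_div]
    rw [← ENNReal.rpow_natCast, ← ENNReal.rpow_mul]
    norm_num
  have h2 : ENNReal.ofReal (nsq f) = ∫⁻ x, ‖f x‖ₑ ^ 2 := by
    rw [nsq, ofReal_integral_eq_lintegral_ofReal (memLp_norm_sq_int hf)
      (Eventually.of_forall fun x => by positivity)]
    refine lintegral_congr fun x => ?_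
    rw [ENNReal.ofReal_pow (norm_nonneg _), ofReal_norm]
  have h3 : ENNReal.ofReal (nsq f) ≤ ENNReal.ofReal (s ^ 2) := by
    rw [h2, ← h1, ENNReal.ofReal_pow hs]
    gcongr
  exact (ENNReal.ofReal_le_ofReal_iff (by positivity)).1 h3

end nsq

section general

variable {G : Type*} [NormedAddCommGroup G] [NormedSpace ℝ G]

/-- mollification -/
noncomputable def mo (ρ : E → ℝ) (f : E → G) (x : E) : G := ∫ y, ρ (x - y) • f y

lemma mo_eq_conv (ρ : E → ℝ) (f : E → G) :
    mo ρ f = convolution f ρ (ContinuousLinearMap.lsmul ℝ ℝ).flip volume := rfl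

lemma mo_eq_conv' (ρ : E → ℝ) (f : E → G) :
    mo ρ f = convolution ρ f (ContinuousLinearMap.lsmul ℝ ℝ) volume := by
  rw [mo_eq_conv, convolution_flip]

lemma integrable_mo {ρ : E → ℝ} (hρ : Continuous ρ) (hc : HasCompactSupport ρ) {f : E → G}
    (hf : LocallyIntegrable f volume) (x : E) : Integrable (fun y => ρ (x - y) • f y) := by
  have h := HasCompactSupport.convolutionExists_right
    ((ContinuousLinearMap.lsmul ℝ ℝ : ℝ →L[ℝ] G →L[ℝ] G).flip) hc hf hρ x
  exact h

lemma contDiff_mo {ρ : E → ℝ} (hρ : ContDiff ℝ ∞ ρ) (hc : HasCompactSupport ρ) {f : E → G}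
    (hf : LocallyIntegrable f volume) : ContDiff ℝ ∞ (mo ρ f) := by
  rw [mo_eq_conv]
  exact hc.contDiff_convolution_right _ hf hρ

lemma fderiv_mo {ρ : E → ℝ} (hρ : ContDiff ℝ ∞ ρ) (hc : HasCompactSupport ρ) {f : E → G}
    (hf : LocallyIntegrable f volume) (x e : E) :
    fderiv ℝ (mo ρ f) x e = mo (fun z => fderiv ℝ ρ z e) f x := by
  have h1 := hc.hasFDerivAt_convolution_right
    ((ContinuousLinearMap.lsmul ℝ ℝ : ℝ →L[ℝ] G →L[ℝ] G).flip) hf (hρ.of_le (by simp)) x
  have h2 : fderiv ℝ (mo ρ f) x = _ := h1.fderiv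
  rw [h2, convolution_precompR_apply _ hf (hc.fderiv ℝ) (hρ.continuous_fderiv (by simp))]
  rfl

lemma mo_sub {ρ : E → ℝ} (hρ : Continuous ρ) (hc : HasCompactSupport ρ) {f g : E → G}
    (hf : LocallyIntegrable f volume) (hg : LocallyIntegrable g volume) (x : E) :
    mo ρ (fun y => f y - g y) x = mo ρ f x - mo ρ g x := by
  unfold mo
  rw [← integral_sub (integrable_mo hρ hc hf x) (integrable_mo hρ hc hg x)]
  simp only [smul_sub]

end general

/-- mollifiers of radius `ε` -/
structure IsMol (ε : ℝ) (ρ : E → ℝ) : Prop where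
  contDiff : ContDiff ℝ ∞ ρ
  hcs : HasCompactSupport ρ
  nonneg : ∀ x, 0 ≤ ρ x
  supp : ∀ x, ε ≤ ‖x‖ → ρ x = 0
  one : ∫ x, ρ x = 1

section jensen

variable {G : Type*} [NormedAddCommGroup G] [NormedSpace ℝ G] {ε : ℝ} {ρ : E → ℝ}

lemma norm_mo_le' {ρ : E → ℝ} (h0 : ∀ x, 0 ≤ ρ x) (f : E → G) (x : E) :
    ‖mo ρ f x‖ ≤ mo ρ (fun y => ‖f y‖) x := by
  unfold mo
  refine (norm_integral_le_integral_norm _).trans (le_of_eq ?_)
  refine integral_congr_ae (Eventually.of_forall fun y => ?_)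
  simp only [norm_smul, Real.norm_of_nonneg (h0 _), smul_eq_mul]

lemma norm_mo_le (h : IsMol ε ρ) (f : E → G) (x : E) :
    ‖mo ρ f x‖ ≤ mo ρ (fun y => ‖f y‖) x := norm_mo_le' h.nonneg f x

end jensen

section L2

variable {F : Type*} [NormedAddCommGroup F] {ε : ℝ} {ρ : E → ℝ}

lemma locInt {f : E → F} (hf : MemLp f 2 (volume : Measure E)) :
    LocallyIntegrable f volume := hf.locallyIntegrable (by norm_num)

lemma locInt_sq {f : E → F} (hf : MemLp f 2 (volume : Measure E)) :
    LocallyIntegrable (fun y => ‖f y‖ ^ 2) volume := (memLp_norm_sq_int hf).locallyIntegrable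

/-- Cauchy-Schwarz for a nonnegative kernel of mass `m` -/
lemma sq_mo_le {ρ : E → ℝ} (hρ : Continuous ρ) (hc : HasCompactSupport ρ) (h0 : ∀ x, 0 ≤ ρ x)
    {f : E → F} (hf : LocallyIntegrable f volume)
    (hf2 : LocallyIntegrable (fun y => ‖f y‖ ^ 2) volume) (x : E) :
    (mo ρ (fun y => ‖f y‖) x) ^ 2 ≤ (∫ x, ρ x) * mo ρ (fun y => ‖f y‖ ^ 2) x := by
  have i1 : Integrable (fun y => ρ (x - y) • ‖f y‖) :=
    integrable_mo hρ hc (fun z => (hf z).norm) x
  have i2 : Integrable (fun y => ρ (x - y) • ‖f y‖ ^ 2) :=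
    integrable_mo hρ hc hf2 x
  have i3 : Integrable (fun y => ρ (x - y)) :=
    (hρ.integrable_of_hasCompactSupport hc).comp_sub_left x
  have hm : ∫ y, ρ (x - y) = ∫ x, ρ x := integral_sub_left_eq_self ρ volume x
  have hm0 : 0 ≤ ∫ x, ρ x := integral_nonneg h0
  set A := mo ρ (fun y => ‖f y‖) x with hA
  set B := mo ρ (fun y => ‖f y‖ ^ 2) x with hB
  set M := ∫ x, ρ x with hM
  have h2 : ∀ t : ℝ, 0 ≤ M * t ^ 2 - 2 * t * A + B := by
    intro t
    have h1 : 0 ≤ ∫ y, ρ (x - y) * (t - ‖f y‖) ^ 2 :=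
      integral_nonneg fun y => mul_nonneg (h0 _) (sq_nonneg _)
    have h2 : ∫ y, ρ (x - y) * (t - ‖f y‖) ^ 2 = B - 2 * t * A + t ^ 2 * M := by
      have i4 : Integrable (fun y => ρ (x - y) • ‖f y‖ ^ 2 - 2 * t * (ρ (x - y) • ‖f y‖)) :=
        i2.sub (i1.const_mul _)
      rw [hA, hB, ← hm]
      unfold mo
      rw [← integral_const_mul, ← integral_const_mul, ← integral_sub i2 (i1.const_mul _),
        ← integral_add i4 (i3.const_mul _)]
      refine integral_congr_ae (Eventually.of_forall fun y => ?_)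
      simp only [smul_eq_mul]
      ring
    rw [h2] at h1
    nlinarith
  have h3 := discrim_le_zero (a := M) (b := -2 * A) (c := B) (fun t => by have := h2 t; nlinarith)
  unfold discrim at h3
  nlinarith

lemma integral_mo_sq {ρ : E → ℝ} (hρ : Continuous ρ) (hc : HasCompactSupport ρ)
    {f : E → F} (hf : MemLp f 2 (volume : Measure E)) :
    Integrable (mo ρ (fun y => ‖f y‖ ^ 2)) ∧
      ∫ x, mo ρ (fun y => ‖f y‖ ^ 2) x = (∫ x, ρ x) * nsq f := by
  have i1 := memLp_norm_sq_int hf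
  have i2 : Integrable ρ := hρ.integrable_of_hasCompactSupport hc
  rw [mo_eq_conv]
  refine ⟨i1.integrable_convolution _ i2, ?_⟩
  rw [integral_convolution _ i1 i2]
  simp [nsq]

/-- bound for functions dominated by `ρ * |f|`, for a nonnegative kernel `ρ` -/
lemma nsq_le_mo {ρ : E → ℝ} (hρ : Continuous ρ) (hc : HasCompactSupport ρ) (h0 : ∀ x, 0 ≤ ρ x)
    {f : E → F} (hf : MemLp f 2 (volume : Measure E))
    {F' : Type*} [NormedAddCommGroup F'] {w : E → F'} (hm : AEStronglyMeasurable w volume)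
    (hw : ∀ x, ‖w x‖ ≤ mo ρ (fun y => ‖f y‖) x) :
    MemLp w 2 (volume : Measure E) ∧ nsq w ≤ (∫ x, ρ x) ^ 2 * nsq f := by
  obtain ⟨i1, i2⟩ := integral_mo_sq hρ hc hf
  have hb : ∀ x, ‖w x‖ ^ 2 ≤ (∫ x, ρ x) * mo ρ (fun y => ‖f y‖ ^ 2) x := by
    intro x
    calc ‖w x‖ ^ 2 ≤ (mo ρ (fun y => ‖f y‖) x) ^ 2 :=
          pow_le_pow_left₀ (norm_nonneg _) (hw x) 2
      _ ≤ _ := sq_mo_le hρ hc h0 (locInt hf) (locInt_sq hf) x
  constructor
  · refine (memLp_two_iff_integrable_sq_norm hm).mpr ?_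
    refine (i1.const_mul (∫ x, ρ x)).mono' (hm.norm.pow 2) (Eventually.of_forall fun x => ?_)
    rw [Real.norm_of_nonneg (by positivity)]
    exact hb x
  · have e : (∫ x, ρ x) ^ 2 * nsq f = ∫ x, (∫ x, ρ x) * mo ρ (fun y => ‖f y‖ ^ 2) x := by
      rw [integral_const_mul, i2]; ring
    rw [e]
    exact integral_mono_of_nonneg (Eventually.of_forall fun x => by positivity)
      (i1.const_mul _) (Eventually.of_forall hb)

variable [NormedSpace ℝ F]

lemma nsq_mo_le (h : IsMol ε ρ) {f : E → F} (hf : MemLp f 2 (volume : Measure E)) :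
    MemLp (mo ρ f) 2 (volume : Measure E) ∧ nsq (mo ρ f) ≤ nsq f := by
  have h1 := nsq_le_mo h.contDiff.continuous h.hcs h.nonneg hf
    (contDiff_mo h.contDiff h.hcs (locInt hf)).continuous.aestronglyMeasurable
    (fun x => norm_mo_le h f x)
  rw [h.one] at h1
  simpa using h1

/-- mollification of a continuous compactly supported function -/
lemma mo_approx_cont [CompleteSpace F] {g : E → F} (hg : Continuous g) (hgc : HasCompactSupport g)
    {δ : ℝ} (hδ : 0 < δ) : ∃ ε₀ > 0, ∀ ε, ε ≤ ε₀ → ∀ ρ, IsMol ε ρ →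
      nsq (fun x => mo ρ g x - g x) ≤ δ := by
  obtain ⟨r, hr⟩ := hgc.isCompact.isBounded.subset_closedBall (0 : E)
  have hg0 : ∀ x, r < ‖x‖ → g x = 0 := by
    intro x hx
    by_contra hne
    have h1 := hr (subset_tsupport _ hne)
    rw [Metric.mem_closedBall, dist_zero_right] at h1
    linarith
  obtain ⟨v, hv⟩ : ∃ v : ℝ, v = (volume (Metric.closedBall (0 : E) (r + 1))).toReal := ⟨_, rfl⟩
  have hv0 : 0 ≤ v := hv ▸ ENNReal.toReal_nonneg
  obtain ⟨η, hη⟩ : ∃ η : ℝ, η = Real.sqrt (δ / (v + 1)) := ⟨_, rfl⟩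
  have hη0 : 0 < η := hη ▸ Real.sqrt_pos.2 (by positivity)
  have huc : UniformContinuous g := hgc.uniformContinuous_of_continuous hg
  obtain ⟨ε₁, hε₁, h1⟩ := Metric.uniformContinuous_iff.1 huc η hη0
  refine ⟨min ε₁ 1, lt_min hε₁ one_pos, fun ε hε ρ hρ => ?_⟩
  have hsupp : Function.support ρ ⊆ Metric.ball (0 : E) ε := by
    intro z hz
    rw [Metric.mem_ball, dist_zero_right]
    by_contra hcon
    exact hz (hρ.supp z (not_lt.1 hcon))
  have hbd : ∀ x, ‖mo ρ g x - g x‖ ^ 2 ≤
      (Metric.closedBall (0 : E) (r + 1)).indicator (fun _ => η ^ 2) x := by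
    intro x
    by_cases hx : x ∈ Metric.closedBall (0 : E) (r + 1)
    · rw [Set.indicator_of_mem hx]
      refine pow_le_pow_left₀ (norm_nonneg _) ?_ 2
      rw [← dist_eq_norm, mo_eq_conv']
      refine dist_convolution_le hη0.le hsupp hρ.nonneg hρ.one hg.aestronglyMeasurable ?_
      intro y hy
      exact (h1 (lt_of_lt_of_le hy (hε.trans (min_le_left _ _)))).le
    · rw [Set.indicator_of_notMem hx]
      have hx' : r + 1 < ‖x‖ := by
        rw [Metric.mem_closedBall, dist_zero_right, not_le] at hx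
        exact hx
      have h2 : ‖mo ρ g x - g x‖ ≤ 0 := by
        rw [← dist_eq_norm, mo_eq_conv']
        refine dist_convolution_le le_rfl hsupp hρ.nonneg hρ.one hg.aestronglyMeasurable ?_
        intro y hy
        have hy1 : dist y x < 1 := lt_of_lt_of_le hy (hε.trans (min_le_right _ _))
        have hy2 : r < ‖y‖ := by
          have h3 : ‖x‖ ≤ ‖y‖ + dist y x := by
            have := norm_sub_norm_le x y
            rw [dist_comm, dist_eq_norm]
            linarith
          linarith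
        rw [hg0 y hy2, hg0 x (by linarith), dist_self]
      have h3 : ‖mo ρ g x - g x‖ = 0 := le_antisymm h2 (norm_nonneg _)
      rw [h3]
      norm_num
  have hfin : volume (Metric.closedBall (0 : E) (r + 1)) ≠ ⊤ :=
    (isCompact_closedBall (0 : E) (r + 1)).measure_lt_top.ne
  calc nsq (fun x => mo ρ g x - g x)
      ≤ ∫ x, (Metric.closedBall (0 : E) (r + 1)).indicator (fun _ => η ^ 2) x := by
        refine integral_mono_of_nonneg (Eventually.of_forall fun x => by positivity) ?_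
          (Eventually.of_forall hbd)
        exact (integrable_indicator_iff Metric.isClosed_closedBall.measurableSet).2
          (integrableOn_const hfin)
    _ = v * η ^ 2 := by
        rw [integral_indicator Metric.isClosed_closedBall.measurableSet, setIntegral_const,
          smul_eq_mul, hv]
        rfl
    _ ≤ δ := by
        rw [hη, Real.sq_sqrt (by positivity), mul_div_assoc']
        rw [div_le_iff₀ (by positivity)]
        nlinarith

/-- mollification converges in `L²` -/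
lemma mo_approx [CompleteSpace F] {f : E → F} (hf : MemLp f 2 (volume : Measure E)) {δ : ℝ}
    (hδ : 0 < δ) :
    ∃ ε₀ > 0, ∀ ε, ε ≤ ε₀ → ∀ ρ, IsMol ε ρ → nsq (fun x => mo ρ f x - f x) ≤ δ := by
  obtain ⟨s, hs⟩ : ∃ s : ℝ, s = Real.sqrt (δ / 12) := ⟨_, rfl⟩
  have hs0 : 0 < s := hs ▸ Real.sqrt_pos.2 (by positivity)
  obtain ⟨g, hgc, hfg, hg, hgm⟩ := hf.exists_hasCompactSupport_eLpNorm_sub_le (by norm_num)
    (ε := ENNReal.ofReal s) (by simpa using hs0)
  have hd : MemLp (fun x => f x - g x) 2 (volume : Measure E) := hf.sub hgm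
  have h1 : nsq (fun x => f x - g x) ≤ δ / 12 := by
    have e1 := nsq_le_of_eLpNorm hd hs0.le hfg
    rwa [hs, Real.sq_sqrt (by positivity)] at e1
  obtain ⟨ε₀, hε₀, h2⟩ := mo_approx_cont hg hgc (show 0 < δ / 12 by positivity)
  refine ⟨ε₀, hε₀, fun ε hε ρ hρ => ?_⟩
  have h3 := h2 ε hε ρ hρ
  have h4 := nsq_mo_le hρ hd
  have m1 : MemLp (mo ρ (fun x => f x - g x)) 2 (volume : Measure E) := h4.1
  have m2 : MemLp (fun x => mo ρ g x - g x) 2 (volume : Measure E) :=
    (nsq_mo_le hρ hgm).1.sub hgm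
  have m3 : MemLp (fun x => g x - f x) 2 (volume : Measure E) := hgm.sub hf
  have e : (fun x => mo ρ f x - f x) = fun x =>
      mo ρ (fun x => f x - g x) x + ((mo ρ g x - g x) + (g x - f x)) := by
    funext x
    rw [mo_sub hρ.contDiff.continuous hρ.hcs (locInt hf) (locInt hgm)]
    abel
  have e3 : nsq (fun x => g x - f x) = nsq (fun x => f x - g x) := by
    unfold nsq
    refine integral_congr_ae (Eventually.of_forall fun x => ?_)
    simp only [norm_sub_rev]
  rw [e]
  have b1 := nsq_add_le m1 (m2.add m3)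
  have b2 := nsq_add_le m2 m3
  have b3 : nsq (fun x => mo ρ (fun x => f x - g x) x + ((mo ρ g x - g x) + (g x - f x))) ≤
    2 * nsq (mo ρ (fun x => f x - g x)) + 2 * nsq (fun x => (mo ρ g x - g x) + (g x - f x)) := b1
  rw [e3] at b2
  linarith [h4.2]

end L2

end Vale.Agent.P227.Moll
end

section

/-! # Standard mollifiers `stdM ε`, swap, integration by parts, `L²` sequences -/

open MeasureTheory Filter Topology
open scoped ContDiff

namespace Vale.Agent.P227.Moll

variable {E : Type*} [NormedAddCommGroup E] [InnerProductSpace ℝ E] [FiniteDimensional ℝ E]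
  [MeasurableSpace E] [BorelSpace E]

/-- derivative of a mollification of a `C¹` function -/
lemma fderiv_mo' {G : Type*} [NormedAddCommGroup G] [NormedSpace ℝ G] {ρ : E → ℝ}
    (hρ : LocallyIntegrable ρ volume) {g : E → G}
    (hg : ContDiff ℝ 1 g) (hc : HasCompactSupport g) (x e : E) :
    fderiv ℝ (mo ρ g) x e = mo ρ (fun y => fderiv ℝ g y e) x := by
  have h1 := hc.hasFDerivAt_convolution_right
    ((ContinuousLinearMap.lsmul ℝ ℝ : ℝ →L[ℝ] G →L[ℝ] G)) hρ hg x
  have h2 := h1.fderiv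
  rw [← mo_eq_conv'] at h2
  rw [h2, convolution_precompR_apply _ hρ (hc.fderiv ℝ) (hg.continuous_fderiv (by simp)),
    mo_eq_conv']

/-- moving an even mollifier to the other side -/
lemma mo_swap {ρ : E → ℝ} (hρ : Continuous ρ) (hc : HasCompactSupport ρ) (he : ∀ x, ρ (-x) = ρ x)
    {p G : E → ℝ} (hp : Integrable p) (hG : Continuous G) (hGc : HasCompactSupport G) :
    ∫ x, p x * mo ρ G x = ∫ x, mo ρ p x * G x := by
  have hρi : Integrable ρ := hρ.integrable_of_hasCompactSupport hc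
  have h1 := hp.convolution_integrand (ContinuousLinearMap.mul ℝ ℝ) hρi (μ := volume) (ν := volume)
  obtain ⟨B, hB⟩ := hGc.exists_bound_of_continuous hG
  have h2 : Integrable (fun z : E × E => (p z.2 * ρ (z.1 - z.2)) * G z.1)
      ((volume : Measure E).prod volume) := by
    refine Integrable.mul_bdd (c := B) h1 ?_ (Eventually.of_forall fun z => hB z.1)
    exact (hG.comp continuous_fst).aestronglyMeasurable
  have h3 := integral_integral_swap (f := fun x y : E => (p y * ρ (x - y)) * G x) h2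
  have e1 : ∫ x, ∫ y, (p y * ρ (x - y)) * G x = ∫ x, mo ρ p x * G x := by
    refine integral_congr_ae (Eventually.of_forall fun x => ?_)
    simp only [mo, smul_eq_mul]
    rw [integral_mul_const]
    congr 1
    refine integral_congr_ae (Eventually.of_forall fun y => ?_)
    simp only []
    ring
  have e2 : ∫ y, ∫ x, (p y * ρ (x - y)) * G x = ∫ y, p y * mo ρ G y := by
    refine integral_congr_ae (Eventually.of_forall fun y => ?_)
    simp only [mo, smul_eq_mul]
    rw [← integral_const_mul]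
    refine integral_congr_ae (Eventually.of_forall fun x => ?_)
    simp only []
    rw [show y - x = -(x - y) by abel, he]
    ring
  rw [← e1, ← e2, h3]

/-- integration by parts -/
lemma ibp {u g : E → ℝ} (hu : ContDiff ℝ 1 u) (hg : ContDiff ℝ 1 g) (hc : HasCompactSupport g)
    (e : E) : ∫ x, u x * fderiv ℝ g x e = - ∫ x, fderiv ℝ u x e * g x := by
  have hu' : Continuous (fun x => fderiv ℝ u x e) :=
    (hu.continuous_fderiv (by simp)).clm_apply continuous_const
  have hg' : Continuous (fun x => fderiv ℝ g x e) :=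
    (hg.continuous_fderiv (by simp)).clm_apply continuous_const
  have hc' : HasCompactSupport (fun x => fderiv ℝ g x e) :=
    (hc.fderiv ℝ).comp_left (g := fun L : E →L[ℝ] ℝ => L e) (by simp)
  refine integral_mul_fderiv_eq_neg_fderiv_mul_of_integrable ?_ ?_ ?_
    (fun x _ => hu.differentiable (by simp) x) (fun x _ => hg.differentiable (by simp) x)
  · exact (hu'.mul hg.continuous).integrable_of_hasCompactSupport hc.mul_left
  · exact (hu.continuous.mul hg').integrable_of_hasCompactSupport hc'.mul_left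
  · exact (hu.continuous.mul hg.continuous).integrable_of_hasCompactSupport hc.mul_left

section std

variable (E)

/-- the reference bump -/
noncomputable def bmp : ContDiffBump (0 : E) := ⟨1 / 2, 1, by norm_num, by norm_num⟩

/-- the reference mollifier -/
noncomputable def eta : E → ℝ := (bmp E).normed volume

variable {E}

/-- the standard mollifier of radius `ε` -/
noncomputable def stdM (ε : ℝ) (x : E) : ℝ := ε⁻¹ ^ (Module.finrank ℝ E) * eta E (ε⁻¹ • x)

lemma eta_contDiff : ContDiff ℝ ∞ (eta E) := (bmp E).contDiff_normed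

lemma eta_hcs : HasCompactSupport (eta E) := (bmp E).hasCompactSupport_normed

lemma eta_nonneg (x : E) : 0 ≤ eta E x := (bmp E).nonneg_normed x

lemma eta_zero {x : E} (h : 1 ≤ ‖x‖) : eta E x = 0 := by
  have h1 : x ∉ Function.support (eta E) := by
    unfold eta
    rw [(bmp E).support_normed_eq]
    simpa [bmp] using h
  simpa using h1

lemma eta_int : ∫ x, eta E x = 1 := (bmp E).integral_normed

lemma eta_neg (x : E) : eta E (-x) = eta E x := (bmp E).normed_neg x

lemma stdM_even (ε : ℝ) (x : E) : stdM ε (-x) = stdM ε x := by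
  unfold stdM
  rw [smul_neg, eta_neg]

lemma stdM_isMol {ε : ℝ} (hε : 0 < ε) : IsMol ε (stdM ε : E → ℝ) where
  contDiff := contDiff_const.mul (eta_contDiff.comp (contDiff_const_smul _))
  hcs := by
    have h1 : HasCompactSupport (fun x : E => eta E (ε⁻¹ • x)) :=
      eta_hcs.comp_homeomorph (Homeomorph.smulOfNeZero ε⁻¹ (inv_ne_zero hε.ne'))
    exact h1.mul_left
  nonneg x := mul_nonneg (by positivity) (eta_nonneg _)
  supp x hx := by
    unfold stdM
    rw [eta_zero, mul_zero]
    rw [norm_smul, norm_inv, Real.norm_of_nonneg hε.le, inv_mul_eq_div, le_div_iff₀ hε]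
    linarith
  one := by
    unfold stdM
    rw [integral_const_mul, Measure.integral_comp_smul_of_nonneg _ _ _ (hR := by positivity), eta_int]
    rw [smul_eq_mul, mul_one]
    exact mul_inv_cancel₀ (by positivity)

/-- the kernel `‖D η_ε‖ ‖z‖` -/
noncomputable def kerM (ε : ℝ) (z : E) : ℝ := ‖fderiv ℝ (stdM ε : E → ℝ) z‖ * ‖z‖

lemma kerM_eq {ε : ℝ} (hε : 0 < ε) (z : E) :
    kerM ε z = ε⁻¹ ^ (Module.finrank ℝ E) * kerM 1 (ε⁻¹ • z) := by
  have h0 : (stdM 1 : E → ℝ) = eta E := by
    funext x; simp [stdM]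
  have h1 : fderiv ℝ (stdM ε : E → ℝ) z =
      (ε⁻¹ ^ (Module.finrank ℝ E)) • (ε⁻¹ • fderiv ℝ (eta E) (ε⁻¹ • z)) := by
    have h2 : HasFDerivAt (fun x : E => ε⁻¹ • x) (ε⁻¹ • ContinuousLinearMap.id ℝ E) z :=
      (hasFDerivAt_id z).const_smul ε⁻¹
    have h3 : HasFDerivAt (eta E) (fderiv ℝ (eta E) (ε⁻¹ • z)) (ε⁻¹ • z) :=
      ((eta_contDiff.differentiable (by simp)) _).hasFDerivAt
    have h4 := (h3.comp z h2).const_mul (ε⁻¹ ^ (Module.finrank ℝ E))
    have h5 : fderiv ℝ (stdM ε : E → ℝ) z = _ := h4.fderiv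
    rw [h5]
    ext v
    simp
  unfold kerM
  rw [h1, h0, norm_smul, norm_smul, norm_smul]
  rw [Real.norm_of_nonneg (show (0 : ℝ) ≤ ε⁻¹ ^ (Module.finrank ℝ E) by positivity),
    Real.norm_of_nonneg (show (0 : ℝ) ≤ ε⁻¹ by positivity)]
  ring

lemma kerM_cont {ε : ℝ} (hε : 0 < ε) : Continuous (kerM ε : E → ℝ) :=
  (((stdM_isMol hε).contDiff.continuous_fderiv (by simp)).norm).mul continuous_norm

lemma kerM_hcs {ε : ℝ} (hε : 0 < ε) : HasCompactSupport (kerM ε : E → ℝ) := by
  have h1 : HasCompactSupport (fderiv ℝ (stdM ε : E → ℝ)) := (stdM_isMol hε).hcs.fderiv ℝ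
  refine HasCompactSupport.mono' h1 (fun z hz => subset_tsupport _ ?_)
  intro h0
  apply hz
  unfold kerM
  rw [h0, norm_zero, zero_mul]

lemma kerM_nonneg (ε : ℝ) (z : E) : 0 ≤ kerM ε z := by unfold kerM; positivity

lemma kerM_int {ε : ℝ} (hε : 0 < ε) : ∫ z : E, kerM ε z = ∫ z : E, kerM 1 z := by
  simp only [kerM_eq hε]
  rw [integral_const_mul, Measure.integral_comp_smul_of_nonneg _ _ _ (hR := by positivity)]
  rw [smul_eq_mul, ← mul_assoc, mul_inv_cancel₀ (by positivity), one_mul]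

end std

/-- `L²` convergence -/
structure L2t (f : ℕ → E → ℝ) (g : E → ℝ) : Prop where
  mem : ∀ n, MemLp (f n) 2 (volume : Measure E)
  mem' : MemLp g 2 (volume : Measure E)
  lim : Tendsto (fun n => nsq (fun x => f n x - g x)) atTop (𝓝 0)

lemma norm_toLp {f : E → ℝ} (hf : MemLp f 2 (volume : Measure E)) :
    ‖hf.toLp f‖ ^ 2 = nsq f := by
  rw [← real_inner_self_eq_norm_sq, MeasureTheory.L2.inner_def]
  refine integral_congr_ae ?_
  filter_upwards [hf.coeFn_toLp] with x hx
  rw [hx, real_inner_self_eq_norm_sq]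

namespace L2t

variable {f f' : ℕ → E → ℝ} {g g' : E → ℝ}

lemma lim_toLp (h : L2t f g) :
    Tendsto (fun n => (h.mem n).toLp (f n)) atTop (𝓝 (h.mem'.toLp g)) := by
  rw [tendsto_iff_norm_sub_tendsto_zero]
  have h1 : ∀ n, ‖(h.mem n).toLp (f n) - h.mem'.toLp g‖ =
      Real.sqrt (nsq (fun x => f n x - g x)) := by
    intro n
    rw [← MemLp.toLp_sub, ← Real.sqrt_sq (norm_nonneg (MemLp.toLp _ _)), norm_toLp]
    rfl
  simp only [h1]
  have := (Real.continuous_sqrt.tendsto 0).comp h.lim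
  rw [Real.sqrt_zero] at this
  exact this

lemma lim_mul (h : L2t f g) (h' : L2t f' g') :
    Tendsto (fun n => ∫ x, f n x * f' n x) atTop (𝓝 (∫ x, g x * g' x)) := by
  have h1 : ∀ {a b : E → ℝ} (ha : MemLp a 2 (volume : Measure E))
      (hb : MemLp b 2 (volume : Measure E)),
      ∫ x, a x * b x = inner ℝ (ha.toLp a) (hb.toLp b) := by
    intro a b ha hb
    rw [MeasureTheory.L2.inner_def]
    refine integral_congr_ae ?_
    filter_upwards [ha.coeFn_toLp, hb.coeFn_toLp] with x hx hy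
    rw [hx, hy]
    simp [mul_comm]
  have h2 := h.lim_toLp.inner h'.lim_toLp (𝕜 := ℝ)
  rw [h1 h.mem' h'.mem']
  refine h2.congr fun n => ?_
  rw [← h1]

/-- multiplication by a bounded function -/
lemma bmul (h : L2t f g) {w : E → ℝ} (hw : AEStronglyMeasurable w (volume : Measure E)) {B : ℝ}
    (hB : ∀ x, |w x| ≤ B) : L2t (fun n x => w x * f n x) (fun x => w x * g x) := by
  have hm : ∀ {a : E → ℝ}, MemLp a 2 (volume : Measure E) →
      MemLp (fun x => w x * a x) 2 (volume : Measure E) := by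
    intro a ha
    refine MemLp.of_le_mul (c := B) ha (hw.mul ha.1) (Eventually.of_forall fun x => ?_)
    rw [norm_mul]
    exact mul_le_mul_of_nonneg_right (hB x) (norm_nonneg _)
  refine ⟨fun n => hm (h.mem n), hm h.mem', ?_⟩
  have h1 : ∀ n, nsq (fun x => w x * f n x - w x * g x) ≤ B ^ 2 * nsq (fun x => f n x - g x) := by
    intro n
    have i1 := memLp_norm_sq_int ((h.mem n).sub h.mem')
    rw [nsq, nsq, ← integral_const_mul]
    refine integral_mono_of_nonneg (Eventually.of_forall fun x => by positivity)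
      (i1.const_mul _) (Eventually.of_forall fun x => ?_)
    have h2 : ‖w x * f n x - w x * g x‖ ≤ B * ‖f n x - g x‖ := by
      rw [← mul_sub, norm_mul]
      exact mul_le_mul_of_nonneg_right (hB x) (norm_nonneg _)
    have := pow_le_pow_left₀ (norm_nonneg _) h2 2
    simpa [mul_pow] using this
  refine squeeze_zero (fun n => nsq_nonneg _) h1 ?_
  simpa using h.lim.const_mul (B ^ 2)

lemma add (h : L2t f g) (h' : L2t f' g') :
    L2t (fun n x => f n x + f' n x) (fun x => g x + g' x) := by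
  refine ⟨fun n => (h.mem n).add (h'.mem n), h.mem'.add h'.mem', ?_⟩
  have h1 : ∀ n, nsq (fun x => f n x + f' n x - (g x + g' x)) ≤
      2 * nsq (fun x => f n x - g x) + 2 * nsq (fun x => f' n x - g' x) := by
    intro n
    have := nsq_add_le ((h.mem n).sub h.mem') ((h'.mem n).sub h'.mem')
    refine le_trans (le_of_eq ?_) this
    congr 1
    funext x
    simp only [Pi.sub_apply]
    ring
  refine squeeze_zero (fun n => nsq_nonneg _) h1 ?_
  simpa using (h.lim.const_mul 2).add (h'.lim.const_mul 2)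

lemma const {g : E → ℝ} (hg : MemLp g 2 (volume : Measure E)) : L2t (fun _ => g) g :=
  ⟨fun _ => hg, hg, by simp [nsq]⟩

lemma neg (h : L2t f g) : L2t (fun n x => - f n x) (fun x => - g x) := by
  have := h.bmul (w := fun _ => (-1 : ℝ)) aestronglyMeasurable_const (B := 1) (by simp)
  simpa using this

lemma sub (h : L2t f g) (h' : L2t f' g') :
    L2t (fun n x => f n x - f' n x) (fun x => g x - g' x) := by
  have := h.add h'.neg
  simpa [sub_eq_add_neg] using this

lemma sum {ι : Type*} {s : Finset ι} {f : ι → ℕ → E → ℝ} {g : ι → E → ℝ}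
    (h : ∀ i ∈ s, L2t (f i) (g i)) :
    L2t (fun n x => ∑ i ∈ s, f i n x) (fun x => ∑ i ∈ s, g i x) := by
  classical
  induction s using Finset.induction_on with
  | empty => simpa using L2t.const (MemLp.zero' (p := 2) (μ := (volume : Measure E)) (ε := ℝ))
  | insert a s ha ih =>
    simp only [Finset.sum_insert ha]
    exact (h a (Finset.mem_insert_self _ _)).add
      (ih fun i hi => h i (Finset.mem_insert_of_mem hi))

end L2t

/-- the mollifier sequence -/
noncomputable def seqM (k : ℕ) : E → ℝ := stdM (1 / ((k : ℝ) + 1))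

lemma seqM_isMol (k : ℕ) : IsMol (1 / ((k : ℝ) + 1)) (seqM k : E → ℝ) := stdM_isMol (by positivity)

/-- mollification converges -/
lemma L2t.moll {f : E → ℝ} (hf : MemLp f 2 (volume : Measure E)) :
    L2t (fun k => mo (seqM k) f) f := by
  refine ⟨fun k => (nsq_mo_le (seqM_isMol k) hf).1, hf, ?_⟩
  rw [Metric.tendsto_atTop]
  intro δ hδ
  obtain ⟨ε₀, hε₀, h⟩ := mo_approx hf (show 0 < δ / 2 by positivity)
  obtain ⟨N, hN⟩ := exists_nat_one_div_lt hε₀
  refine ⟨N, fun k hk => ?_⟩
  have h1 : 1 / ((k : ℝ) + 1) ≤ ε₀ := by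
    refine le_trans ?_ hN.le
    gcongr
  have h2 := h _ h1 (seqM k) (seqM_isMol k)
  rw [Real.dist_eq, sub_zero, abs_of_nonneg (nsq_nonneg _)]
  linarith

end Vale.Agent.P227.Moll
end

section

/-! # Essential self-adjointness, part 1: the commutator `err` and its `L²` convergence -/

open MeasureTheory Filter Topology
open scoped ContDiff

namespace Vale.Agent.P227.M.LIN.E456

open Vale.Agent.P227.M Vale.Agent.P227.Moll

variable {n : ℕ}

/-- coefficient data: `r = e^{-V}`, `A = e^{-V} τ` -/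
structure Dat (r : E n → ℝ) (A : E n → Fin n → Fin n → ℝ) : Prop where
  rcont : Continuous r
  acont : ∀ i j, Continuous (fun x => A x i j)
  symm : ∀ x i j, A x i j = A x j i
  lip : ∀ R : ℝ, ∃ K : ℝ, 0 ≤ K ∧ ∀ x ∈ Metric.closedBall (0 : E n) R,
    ∀ y ∈ Metric.closedBall (0 : E n) R, ∀ i j, |A x i j - A y i j| ≤ K * ‖x - y‖
  div : ∀ f : E n → ℝ, Test f → ∀ j, ∫ x, ∑ i, A x i j * pd i f x = ∫ x, f x * (r x * x j)

lemma norm_ei (i : Fin n) : ‖(ei i : E n)‖ = 1 := by simp [ei]

lemma cont_coord (j : Fin n) : Continuous (fun x : E n => x j) := by fun_prop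

lemma loc_mul {u w : E n → ℝ} (hu : LocallyIntegrable u volume) (hw : Continuous w) :
    LocallyIntegrable (fun x => u x * w x) volume := LocallyIntegrable.mul_continuous hw hu

/-- `L²` function vanishing outside a ball times a continuous function -/
lemma memLp_mul {u w : E n → ℝ} (hu : MemLp u 2 (volume : Measure (E n))) {R : ℝ}
    (h0 : ∀ x, x ∉ Metric.closedBall (0 : E n) R → u x = 0) (hw : Continuous w) :
    MemLp (fun x => u x * w x) 2 (volume : Measure (E n)) := by
  obtain ⟨B, hB⟩ := (isCompact_closedBall (0 : E n) R).exists_bound_of_continuousOn hw.continuousOn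
  refine MemLp.of_le_mul (c := B) hu (hu.1.mul hw.aestronglyMeasurable)
    (Eventually.of_forall fun x => ?_)
  by_cases hx : x ∈ Metric.closedBall (0 : E n) R
  · rw [norm_mul, mul_comm]
    exact mul_le_mul_of_nonneg_right (hB x hx) (norm_nonneg _)
  · rw [h0 x hx]; simp

lemma integrable_of_ball {u : E n → ℝ} (hu : MemLp u 2 (volume : Measure (E n))) {R : ℝ}
    (h0 : ∀ x, x ∉ Metric.closedBall (0 : E n) R → u x = 0) : Integrable u := by
  have h1 : IntegrableOn u (Metric.closedBall (0 : E n) R) volume :=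
    (locInt hu).integrableOn_isCompact (isCompact_closedBall _ _)
  exact (integrableOn_iff_integrable_of_support_subset (fun x hx => by
    by_contra hc; exact hx (h0 x hc))).1 h1

/-- the commutator -/
noncomputable def err (r : E n → ℝ) (A : E n → Fin n → Fin n → ℝ) (η u : E n → ℝ) (j : Fin n)
    (x : E n) : ℝ :=
  (∑ i, (pd i (Vale.Agent.P227.Moll.mo η (fun y => u y * A y i j)) x - A x i j * pd i (Vale.Agent.P227.Moll.mo η u) x))
    + Vale.Agent.P227.Moll.mo η (fun y => u y * (r y * y j)) x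

variable {r : E n → ℝ} {A : E n → Fin n → Fin n → ℝ}

lemma err_sub (D : Dat r A) {ε : ℝ} {η : E n → ℝ} (hη : IsMol ε η) {u v : E n → ℝ}
    (hu : LocallyIntegrable u volume) (hv : LocallyIntegrable v volume) (j : Fin n) (x : E n) :
    err r A η (fun y => u y - v y) j x = err r A η u j x - err r A η v j x := by
  have hw : ∀ (w : E n → ℝ), Continuous w → ∀ (ρ : E n → ℝ), Continuous ρ → HasCompactSupport ρ →
      Vale.Agent.P227.Moll.mo ρ (fun y => (u y - v y) * w y) x = Vale.Agent.P227.Moll.mo ρ (fun y => u y * w y) x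
        - Vale.Agent.P227.Moll.mo ρ (fun y => v y * w y) x := by
    intro w hw ρ hρ hρc
    rw [← Vale.Agent.P227.Moll.mo_sub hρ hρc (loc_mul hu hw) (loc_mul hv hw)]
    congr 1
    funext y
    ring
  have hs : ∀ i : Fin n, Continuous (fun z => fderiv ℝ η z (ei i)) := fun i =>
    (hη.contDiff.continuous_fderiv (by simp)).clm_apply continuous_const
  have hsc : ∀ i : Fin n, HasCompactSupport (fun z => fderiv ℝ η z (ei i)) := fun i =>
    (hη.hcs.fderiv ℝ).comp_left (g := fun L : E n →L[ℝ] ℝ => L (ei i)) (by simp)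
  have hrc : Continuous (fun y : E n => r y * y j) := D.rcont.mul (cont_coord j)
  have huv : LocallyIntegrable (fun y => u y - v y) volume := hu.sub hv
  unfold err pd
  rw [hw _ hrc η hη.contDiff.continuous hη.hcs]
  have h1 : ∀ i, fderiv ℝ (Vale.Agent.P227.Moll.mo η fun y => (u y - v y) * A y i j) x (ei i) =
      fderiv ℝ (Vale.Agent.P227.Moll.mo η fun y => u y * A y i j) x (ei i)
        - fderiv ℝ (Vale.Agent.P227.Moll.mo η fun y => v y * A y i j) x (ei i) := by
    intro i
    rw [fderiv_mo hη.contDiff hη.hcs (loc_mul huv (D.acont i j)),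
      fderiv_mo hη.contDiff hη.hcs (loc_mul hu (D.acont i j)),
      fderiv_mo hη.contDiff hη.hcs (loc_mul hv (D.acont i j)),
      hw _ (D.acont i j) _ (hs i) (hsc i)]
  have h2 : ∀ i, fderiv ℝ (Vale.Agent.P227.Moll.mo η fun y => u y - v y) x (ei i) =
      fderiv ℝ (Vale.Agent.P227.Moll.mo η u) x (ei i) - fderiv ℝ (Vale.Agent.P227.Moll.mo η v) x (ei i) := by
    intro i
    rw [fderiv_mo hη.contDiff hη.hcs huv, fderiv_mo hη.contDiff hη.hcs hu,
      fderiv_mo hη.contDiff hη.hcs hv, Vale.Agent.P227.Moll.mo_sub (hs i) (hsc i) hu hv]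
  simp only [h1, h2]
  have h3 : (∑ i, (fderiv ℝ (Vale.Agent.P227.Moll.mo η fun y => u y * A y i j) x (ei i)
        - fderiv ℝ (Vale.Agent.P227.Moll.mo η fun y => v y * A y i j) x (ei i)
        - A x i j * (fderiv ℝ (Vale.Agent.P227.Moll.mo η u) x (ei i) - fderiv ℝ (Vale.Agent.P227.Moll.mo η v) x (ei i)))) =
      (∑ i, (fderiv ℝ (Vale.Agent.P227.Moll.mo η fun y => u y * A y i j) x (ei i) - A x i j * fderiv ℝ (Vale.Agent.P227.Moll.mo η u) x (ei i)))
      - ∑ i, (fderiv ℝ (Vale.Agent.P227.Moll.mo η fun y => v y * A y i j) x (ei i)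
          - A x i j * fderiv ℝ (Vale.Agent.P227.Moll.mo η v) x (ei i)) := by
    rw [← Finset.sum_sub_distrib]
    refine Finset.sum_congr rfl fun i _ => ?_
    ring
  rw [h3]
  ring

lemma err_cont (D : Dat r A) {ε : ℝ} {η : E n → ℝ} (hη : IsMol ε η) {u : E n → ℝ}
    (hu : LocallyIntegrable u volume) (j : Fin n) : Continuous (err r A η u j) := by
  have hrc : Continuous (fun y : E n => r y * y j) := D.rcont.mul (cont_coord j)
  have h1 : ∀ w : E n → ℝ, LocallyIntegrable w volume → ∀ i, Continuous (pd i (Vale.Agent.P227.Moll.mo η w)) := by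
    intro w hw i
    exact ((contDiff_mo hη.contDiff hη.hcs hw).continuous_fderiv (by simp)).clm_apply
      continuous_const
  unfold err
  refine Continuous.add (continuous_finsetSum _ fun i _ => ?_) ?_
  · exact (h1 _ (loc_mul hu (D.acont i j)) i).sub ((D.acont i j).mul (h1 _ hu i))
  · exact (contDiff_mo hη.contDiff hη.hcs (loc_mul hu hrc)).continuous

lemma fderiv_mol_zero {ε : ℝ} {η : E n → ℝ} (hη : IsMol ε η) {z : E n} (hz : ε ≤ ‖z‖) :
    fderiv ℝ η z = 0 := by
  refine IsLocalMin.fderiv_eq_zero ?_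
  refine Eventually.of_forall fun y => ?_
  rw [hη.supp z hz]
  exact hη.nonneg y

/-- pointwise bound of the commutator -/
lemma err_bound (D : Dat r A) {R ε : ℝ} (hε : 0 < ε) (hε1 : ε ≤ 1) {K S : ℝ} (hK : 0 ≤ K)
    (hS : 0 ≤ S)
    (hlip : ∀ x ∈ Metric.closedBall (0 : E n) (R + 1), ∀ y ∈ Metric.closedBall (0 : E n) (R + 1),
      ∀ i j, |A x i j - A y i j| ≤ K * ‖x - y‖)
    (hr : ∀ y ∈ Metric.closedBall (0 : E n) (R + 1), ∀ j, |r y * y j| ≤ S)
    {u : E n → ℝ} (hu : LocallyIntegrable u volume) (j : Fin n) {x : E n}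
    (hx : x ∈ Metric.closedBall (0 : E n) R) :
    |err r A (stdM ε) u j x| ≤
      Vale.Agent.P227.Moll.mo (fun z => n * K * kerM ε z + S * stdM ε z) (fun y => ‖u y‖) x := by
  have hη : IsMol ε (stdM ε : E n → ℝ) := stdM_isMol hε
  have hxR : ‖x‖ ≤ R := by simpa using hx
  have hx1 : x ∈ Metric.closedBall (0 : E n) (R + 1) := by
    simp only [Metric.mem_closedBall, dist_zero_right]; linarith
  have hy1 : ∀ y : E n, ‖x - y‖ < ε → y ∈ Metric.closedBall (0 : E n) (R + 1) := by
    intro y hy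
    simp only [Metric.mem_closedBall, dist_zero_right]
    have := norm_sub_norm_le y x
    rw [norm_sub_rev] at this
    linarith
  have hs : ∀ i : Fin n, Continuous (fun z => fderiv ℝ (stdM ε : E n → ℝ) z (ei i)) := fun i =>
    (hη.contDiff.continuous_fderiv (by simp)).clm_apply continuous_const
  have hsc : ∀ i : Fin n, HasCompactSupport (fun z => fderiv ℝ (stdM ε : E n → ℝ) z (ei i)) :=
    fun i => (hη.hcs.fderiv ℝ).comp_left (g := fun L : E n →L[ℝ] ℝ => L (ei i)) (by simp)
  have hrc : Continuous (fun y : E n => r y * y j) := D.rcont.mul (cont_coord j)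
  have hun : LocallyIntegrable (fun y => ‖u y‖) volume := fun z => (hu z).norm
  have ik : Integrable (fun y => kerM ε (x - y) • ‖u y‖) :=
    integrable_mo (kerM_cont hε) (kerM_hcs hε) hun x
  have is : Integrable (fun y => stdM ε (x - y) • ‖u y‖) :=
    integrable_mo hη.contDiff.continuous hη.hcs hun x
  have hterm : ∀ i : Fin n, |pd i (Vale.Agent.P227.Moll.mo (stdM ε) (fun y => u y * A y i j)) x
      - A x i j * pd i (Vale.Agent.P227.Moll.mo (stdM ε) u) x| ≤ K * Vale.Agent.P227.Moll.mo (kerM ε) (fun y => ‖u y‖) x := by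
    intro i
    unfold pd
    rw [fderiv_mo hη.contDiff hη.hcs (loc_mul hu (D.acont i j)),
      fderiv_mo hη.contDiff hη.hcs hu]
    have i1 := integrable_mo (hs i) (hsc i) (loc_mul hu (D.acont i j)) x
    have i2 := integrable_mo (hs i) (hsc i) hu x
    have e1 : Vale.Agent.P227.Moll.mo (fun z => fderiv ℝ (stdM ε : E n → ℝ) z (ei i)) (fun y => u y * A y i j) x
        - A x i j * Vale.Agent.P227.Moll.mo (fun z => fderiv ℝ (stdM ε : E n → ℝ) z (ei i)) u x =
        ∫ y, fderiv ℝ (stdM ε : E n → ℝ) (x - y) (ei i) * (A y i j - A x i j) * u y := by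
      unfold Vale.Agent.P227.Moll.mo
      rw [← integral_const_mul, ← integral_sub i1 (i2.const_mul _)]
      refine integral_congr_ae (Eventually.of_forall fun y => ?_)
      simp only [smul_eq_mul]
      ring
    rw [e1]
    unfold Vale.Agent.P227.Moll.mo
    rw [← integral_const_mul]
    rw [← Real.norm_eq_abs]
    refine norm_integral_le_of_norm_le (ik.const_mul K) (Eventually.of_forall fun y => ?_)
    simp only [smul_eq_mul, norm_mul, Real.norm_eq_abs]
    by_cases hxy : ‖x - y‖ < ε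
    · have h1 := hlip y (hy1 y hxy) x hx1 i j
      have h2 : |fderiv ℝ (stdM ε : E n → ℝ) (x - y) (ei i)| ≤
          ‖fderiv ℝ (stdM ε : E n → ℝ) (x - y)‖ := by
        have := (fderiv ℝ (stdM ε : E n → ℝ) (x - y)).le_opNorm (ei i)
        rwa [norm_ei, mul_one] at this
      rw [norm_sub_rev] at h1
      calc _ ≤ ‖fderiv ℝ (stdM ε : E n → ℝ) (x - y)‖ * (K * ‖x - y‖) * |u y| := by
            refine mul_le_mul_of_nonneg_right ?_ (abs_nonneg _)
            exact mul_le_mul h2 h1 (abs_nonneg _) (norm_nonneg _)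
        _ = _ := by unfold kerM; ring
    · rw [fderiv_mol_zero hη (not_lt.1 hxy)]
      simp only [_root_.zero_apply, abs_zero, zero_mul]
      have := kerM_nonneg ε (x - y)
      positivity
  have hlast : |Vale.Agent.P227.Moll.mo (stdM ε) (fun y => u y * (r y * y j)) x| ≤
      S * Vale.Agent.P227.Moll.mo (stdM ε) (fun y => ‖u y‖) x := by
    unfold Vale.Agent.P227.Moll.mo
    rw [← integral_const_mul]
    rw [← Real.norm_eq_abs]
    refine norm_integral_le_of_norm_le (is.const_mul S) (Eventually.of_forall fun y => ?_)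
    simp only [smul_eq_mul, norm_mul, Real.norm_eq_abs]
    by_cases hxy : ‖x - y‖ < ε
    · have h1 := hr y (hy1 y hxy) j
      rw [abs_mul] at h1
      rw [abs_of_nonneg (hη.nonneg _)]
      have h2 := hη.nonneg (x - y)
      calc stdM ε (x - y) * (|u y| * (|r y| * |y j|)) ≤ stdM ε (x - y) * (|u y| * S) := by
            gcongr
        _ = _ := by ring
    · rw [hη.supp _ (not_lt.1 hxy)]
      simp
  have e2 : Vale.Agent.P227.Moll.mo (fun z => n * K * kerM ε z + S * stdM ε z) (fun y => ‖u y‖) x =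
      n * (K * Vale.Agent.P227.Moll.mo (kerM ε) (fun y => ‖u y‖) x) + S * Vale.Agent.P227.Moll.mo (stdM ε) (fun y => ‖u y‖) x := by
    unfold Vale.Agent.P227.Moll.mo
    rw [← integral_const_mul, ← integral_const_mul, ← integral_const_mul,
      ← integral_add ((ik.const_mul _).const_mul _) (is.const_mul _)]
    refine integral_congr_ae (Eventually.of_forall fun y => ?_)
    simp only [smul_eq_mul]
    ring
  rw [e2]
  unfold err
  refine (abs_add_le _ _).trans (add_le_add ?_ hlast)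
  refine (Finset.abs_sum_le_sum_abs _ _).trans ?_
  refine (Finset.sum_le_sum fun i _ => hterm i).trans ?_
  simp

/-- `L²` bound of the commutator -/
lemma err_nsq (D : Dat r A) (R : ℝ) : ∃ Cb : ℝ, 0 ≤ Cb ∧ ∀ ε : ℝ, 0 < ε → ε ≤ 1 →
    ∀ u : E n → ℝ, MemLp u 2 (volume : Measure (E n)) → ∀ j,
      MemLp ((Metric.closedBall (0 : E n) R).indicator (err r A (stdM ε) u j)) 2
        (volume : Measure (E n)) ∧
      nsq ((Metric.closedBall (0 : E n) R).indicator (err r A (stdM ε) u j)) ≤ Cb * nsq u := by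
  obtain ⟨K, hK, hlip⟩ := D.lip (R + 1)
  have hS : ∃ S : ℝ, 0 ≤ S ∧ ∀ y ∈ Metric.closedBall (0 : E n) (R + 1), ∀ j, |r y * y j| ≤ S := by
    have h1 : ∀ j : Fin n, ∃ S : ℝ, ∀ y ∈ Metric.closedBall (0 : E n) (R + 1), ‖r y * y j‖ ≤ S :=
      fun j => (isCompact_closedBall (0 : E n) (R + 1)).exists_bound_of_continuousOn
        (D.rcont.mul (cont_coord j)).continuousOn
    choose S hS using h1
    refine ⟨∑ j, |S j|, Finset.sum_nonneg fun j _ => abs_nonneg _, fun y hy j => ?_⟩
    refine (hS j y hy).trans ((le_abs_self _).trans ?_)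
    exact Finset.single_le_sum (f := fun j => |S j|) (fun j _ => abs_nonneg _) (Finset.mem_univ j)
  obtain ⟨S, hS0, hr⟩ := hS
  set D1 : ℝ := ∫ z : E n, kerM 1 z with hD1
  have hD1' : 0 ≤ D1 := integral_nonneg fun z => kerM_nonneg 1 z
  refine ⟨(n * K * D1 + S) ^ 2, by positivity, fun ε hε hε1 u hu j => ?_⟩
  have hη : IsMol ε (stdM ε : E n → ℝ) := stdM_isMol hε
  have hκ : Continuous (fun z : E n => n * K * kerM ε z + S * stdM ε z) :=
    (continuous_const.mul (kerM_cont hε)).add (continuous_const.mul hη.contDiff.continuous)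
  have hκc : HasCompactSupport (fun z : E n => n * K * kerM ε z + S * stdM ε z) :=
    ((kerM_hcs hε).mul_left).add (hη.hcs.mul_left)
  have hκ0 : ∀ z : E n, 0 ≤ n * K * kerM ε z + S * stdM ε z := fun z => by
    have h1 := kerM_nonneg ε z
    have h2 := hη.nonneg z
    positivity
  have hm : AEStronglyMeasurable
      ((Metric.closedBall (0 : E n) R).indicator (err r A (stdM ε) u j)) volume :=
    ((err_cont D hη (locInt hu) j).aestronglyMeasurable).indicator
      Metric.isClosed_closedBall.measurableSet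
  have hmass : ∫ z : E n, (n * K * kerM ε z + S * stdM ε z) = n * K * D1 + S := by
    rw [integral_add (((kerM_cont hε).integrable_of_hasCompactSupport (kerM_hcs hε)).const_mul _)
      ((hη.contDiff.continuous.integrable_of_hasCompactSupport hη.hcs).const_mul _),
      integral_const_mul, integral_const_mul, hη.one, kerM_int hε, mul_one]
  have h := nsq_le_mo hκ hκc hκ0 hu (w := (Metric.closedBall (0 : E n) R).indicator
    (err r A (stdM ε) u j)) hm ?_
  · rw [hmass] at h
    exact h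
  · intro x
    by_cases hx : x ∈ Metric.closedBall (0 : E n) R
    · rw [Set.indicator_of_mem hx]
      exact err_bound D hε hε1 hK hS0 hlip hr (locInt hu) j hx
    · rw [Set.indicator_of_notMem hx, norm_zero]
      unfold Vale.Agent.P227.Moll.mo
      exact integral_nonneg fun y => smul_nonneg (hκ0 _) (norm_nonneg _)

end Vale.Agent.P227.M.LIN.E456
end

section

/-! # Essential self-adjointness, part 2: convergence of the commutator -/

open MeasureTheory Filter Topology
open scoped ContDiff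

namespace Vale.Agent.P227.M.LIN.E456

open Vale.Agent.P227.M Vale.Agent.P227.Moll

variable {n : ℕ} {r : E n → ℝ} {A : E n → Fin n → Fin n → ℝ}

lemma test_pd {g : E n → ℝ} (hg : Test g) (i : Fin n) : Test (pd i g) := by
  constructor
  · exact ContDiff.clm_apply (hg.1.fderiv_right (m := (⊤ : ℕ∞)) (by simp)) contDiff_const
  · exact (hg.2.fderiv ℝ).comp_left (g := fun L : E n →L[ℝ] ℝ => L (ei i)) (by simp)

lemma test_loc {g : E n → ℝ} (hg : Test g) : LocallyIntegrable g volume :=
  hg.1.continuous.locallyIntegrable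

lemma test_memLp {g : E n → ℝ} (hg : Test g) : MemLp g 2 (volume : Measure (E n)) :=
  hg.1.continuous.memLp_of_hasCompactSupport hg.2

/-- the commutator on smooth functions -/
lemma err_smooth (D : Dat r A) {ε : ℝ} {η : E n → ℝ} (hη : IsMol ε η) {g : E n → ℝ} (hg : Test g)
    (j : Fin n) (x : E n) :
    err r A η g j x =
      ∑ i, (Vale.Agent.P227.Moll.mo η (fun y => A y i j * pd i g y) x - A x i j * Vale.Agent.P227.Moll.mo η (pd i g) x) := by
  have hf : Test (fun y => η (x - y) * g y) := by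
    constructor
    · exact (hη.contDiff.comp (contDiff_const.sub contDiff_id)).mul hg.1
    · exact hg.2.mul_left
  have hs : ∀ i : Fin n, Continuous (fun z => fderiv ℝ η z (ei i)) := fun i =>
    (hη.contDiff.continuous_fderiv (by simp)).clm_apply continuous_const
  have hsc : ∀ i : Fin n, HasCompactSupport (fun z => fderiv ℝ η z (ei i)) := fun i =>
    (hη.hcs.fderiv ℝ).comp_left (g := fun L : E n →L[ℝ] ℝ => L (ei i)) (by simp)
  have hd : ∀ i y, pd i (fun y => η (x - y) * g y) y =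
      η (x - y) * pd i g y - fderiv ℝ η (x - y) (ei i) * g y := by
    intro i y
    have h1 : HasFDerivAt (fun y => η (x - y)) (-(fderiv ℝ η (x - y))) y := by
      have h2 : HasFDerivAt (fun y : E n => x - y) (-(ContinuousLinearMap.id ℝ (E n))) y :=
        (hasFDerivAt_id y).const_sub x
      have h3 := ((hη.contDiff.differentiable (by simp)) (x - y)).hasFDerivAt.comp y h2
      refine h3.congr_fderiv ?_
      ext v; simp
    have h4 : HasFDerivAt g (fderiv ℝ g y) y :=
      ((hg.1.differentiable (by simp)) y).hasFDerivAt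
    have h5 := (h1.mul h4).fderiv
    unfold pd
    have h6 : fderiv ℝ (fun y => η (x - y) * g y) y = _ := h5
    rw [h6]
    simp
    ring
  have hl : ∀ i, LocallyIntegrable (fun y => g y * A y i j) volume := fun i =>
    loc_mul (test_loc hg) (D.acont i j)
  have hl2 : ∀ i, LocallyIntegrable (fun y => A y i j * pd i g y) volume := fun i =>
    ((D.acont i j).mul (test_pd hg i).1.continuous).locallyIntegrable
  have i1 : ∀ i, Integrable (fun y => fderiv ℝ η (x - y) (ei i) • (g y * A y i j)) := fun i =>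
    integrable_mo (hs i) (hsc i) (hl i) x
  have i2 : ∀ i, Integrable (fun y => η (x - y) • (A y i j * pd i g y)) := fun i =>
    integrable_mo hη.contDiff.continuous hη.hcs (hl2 i) x
  have key : Vale.Agent.P227.Moll.mo η (fun y => g y * (r y * y j)) x =
      ∑ i, (Vale.Agent.P227.Moll.mo η (fun y => A y i j * pd i g y) x
        - Vale.Agent.P227.Moll.mo (fun z => fderiv ℝ η z (ei i)) (fun y => g y * A y i j) x) := by
    have e1 := D.div _ hf j
    have e2 : Vale.Agent.P227.Moll.mo η (fun y => g y * (r y * y j)) x = ∫ y, (η (x - y) * g y) * (r y * y j) := by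
      unfold Vale.Agent.P227.Moll.mo
      refine integral_congr_ae (Eventually.of_forall fun y => ?_)
      simp only [smul_eq_mul]; ring
    rw [e2, ← e1]
    have e3 : ∀ i, Vale.Agent.P227.Moll.mo η (fun y => A y i j * pd i g y) x
        - Vale.Agent.P227.Moll.mo (fun z => fderiv ℝ η z (ei i)) (fun y => g y * A y i j) x =
        ∫ y, (η (x - y) • (A y i j * pd i g y) - fderiv ℝ η (x - y) (ei i) • (g y * A y i j)) := by
      intro i
      unfold Vale.Agent.P227.Moll.mo
      rw [← integral_sub (i2 i) (i1 i)]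
    simp only [e3]
    rw [← integral_finsetSum Finset.univ (f := fun i y => η (x - y) • (A y i j * pd i g y)
      - fderiv ℝ η (x - y) (ei i) • (g y * A y i j)) (fun i _ => (i2 i).sub (i1 i))]
    refine integral_congr_ae (Eventually.of_forall fun y => ?_)
    simp only [hd, smul_eq_mul]
    refine Finset.sum_congr rfl fun i _ => ?_
    ring
  unfold err
  rw [key, ← Finset.sum_add_distrib]
  refine Finset.sum_congr rfl fun i _ => ?_
  have e4 : pd i (Vale.Agent.P227.Moll.mo η fun y => g y * A y i j) x =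
      Vale.Agent.P227.Moll.mo (fun z => fderiv ℝ η z (ei i)) (fun y => g y * A y i j) x := by
    unfold pd
    rw [fderiv_mo hη.contDiff hη.hcs (hl i)]
  have e5 : pd i (Vale.Agent.P227.Moll.mo η g) x = Vale.Agent.P227.Moll.mo η (pd i g) x := by
    unfold pd
    rw [fderiv_mo' hη.contDiff.continuous.locallyIntegrable (hg.1.of_le (by simp)) hg.2]
  rw [e4, e5]
  ring

/-- convergence on smooth functions -/
lemma err_lim_smooth (D : Dat r A) (R : ℝ) {g : E n → ℝ} (hg : Test g) (j : Fin n) :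
    L2t (fun k => (Metric.closedBall (0 : E n) R).indicator (err r A (seqM k) g j)) (fun _ => 0) := by
  have hB : MeasurableSet (Metric.closedBall (0 : E n) R) := Metric.isClosed_closedBall.measurableSet
  have h1 : ∀ i ∈ (Finset.univ : Finset (Fin n)), L2t (fun k x =>
      (Metric.closedBall (0 : E n) R).indicator (fun _ => (1 : ℝ)) x *
        Vale.Agent.P227.Moll.mo (seqM k) (fun y => A y i j * pd i g y) x -
      (Metric.closedBall (0 : E n) R).indicator (fun x => A x i j) x * Vale.Agent.P227.Moll.mo (seqM k) (pd i g) x)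
      (fun _ => 0) := by
    intro i _
    have m1 : MemLp (fun y => A y i j * pd i g y) 2 (volume : Measure (E n)) :=
      ((D.acont i j).mul (test_pd hg i).1.continuous).memLp_of_hasCompactSupport
        (test_pd hg i).2.mul_left
    have h2 := (L2t.moll m1).bmul (w := (Metric.closedBall (0 : E n) R).indicator (fun _ => (1 : ℝ)))
      (aestronglyMeasurable_const.indicator hB) (B := 1) (fun x => by
        by_cases hx : x ∈ Metric.closedBall (0 : E n) R
        · rw [Set.indicator_of_mem hx]; simp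
        · rw [Set.indicator_of_notMem hx]; simp)
    obtain ⟨S, hS⟩ := (isCompact_closedBall (0 : E n) R).exists_bound_of_continuousOn
      (D.acont i j).continuousOn
    have h3 := (L2t.moll (test_memLp (test_pd hg i))).bmul
      (w := (Metric.closedBall (0 : E n) R).indicator (fun x => A x i j))
      ((D.acont i j).aestronglyMeasurable.indicator hB) (B := |S|) (fun x => by
        by_cases hx : x ∈ Metric.closedBall (0 : E n) R
        · rw [Set.indicator_of_mem hx]; exact (hS x hx).trans (le_abs_self S)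
        · rw [Set.indicator_of_notMem hx]; simp)
    have h4 := h2.sub h3
    have e : (fun x => (Metric.closedBall (0 : E n) R).indicator (fun _ => (1 : ℝ)) x *
        (A x i j * pd i g x) - (Metric.closedBall (0 : E n) R).indicator (fun x => A x i j) x *
          pd i g x) = fun _ => (0 : ℝ) := by
      funext x
      by_cases hx : x ∈ Metric.closedBall (0 : E n) R
      · rw [Set.indicator_of_mem hx, Set.indicator_of_mem hx]; ring
      · rw [Set.indicator_of_notMem hx, Set.indicator_of_notMem hx]; ring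
    rw [e] at h4
    exact h4
  have h5 := L2t.sum h1
  have e1 : (fun (k : ℕ) (x : E n) => ∑ i, ((Metric.closedBall (0 : E n) R).indicator
      (fun _ => (1 : ℝ)) x * Vale.Agent.P227.Moll.mo (seqM k) (fun y => A y i j * pd i g y) x -
      (Metric.closedBall (0 : E n) R).indicator (fun x => A x i j) x * Vale.Agent.P227.Moll.mo (seqM k) (pd i g) x)) =
      fun k => (Metric.closedBall (0 : E n) R).indicator (err r A (seqM k) g j) := by
    funext k x
    by_cases hx : x ∈ Metric.closedBall (0 : E n) R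
    · simp only [Set.indicator_of_mem hx]
      rw [err_smooth D (seqM_isMol k) hg]
      refine Finset.sum_congr rfl fun i _ => ?_
      ring
    · simp only [Set.indicator_of_notMem hx]
      simp
  rw [e1] at h5
  simpa using h5

/-- a mollified compactly supported `L²` function is a test function -/
lemma test_mo {ε : ℝ} {η : E n → ℝ} (hη : IsMol ε η) {f : E n → ℝ} (hf : LocallyIntegrable f volume)
    (hc : HasCompactSupport f) : Test (Vale.Agent.P227.Moll.mo η f) := by
  refine ⟨contDiff_mo hη.contDiff hη.hcs hf, ?_⟩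
  rw [Vale.Agent.P227.Moll.mo_eq_conv]
  exact hc.convolution _ hη.hcs

/-- convergence of the commutator on compactly supported `L²` functions -/
lemma err_lim (D : Dat r A) (R : ℝ) {f : E n → ℝ} (hf : MemLp f 2 (volume : Measure (E n)))
    {R' : ℝ} (h0 : ∀ x, x ∉ Metric.closedBall (0 : E n) R' → f x = 0) (j : Fin n) :
    L2t (fun k => (Metric.closedBall (0 : E n) R).indicator (err r A (seqM k) f j)) (fun _ => 0) := by
  obtain ⟨Cb, hCb, hb⟩ := err_nsq D R
  have hk1 : ∀ k : ℕ, 1 / ((k : ℝ) + 1) ≤ 1 := by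
    intro k
    rw [div_le_one (by positivity)]
    have := Nat.cast_nonneg (α := ℝ) k
    linarith
  have hk0 : ∀ k : ℕ, 0 < 1 / ((k : ℝ) + 1) := fun k => by positivity
  have hmem : ∀ k, MemLp ((Metric.closedBall (0 : E n) R).indicator (err r A (seqM k) f j)) 2
      (volume : Measure (E n)) := fun k => (hb _ (hk0 k) (hk1 k) f hf j).1
  refine ⟨hmem, MemLp.zero', ?_⟩
  rw [Metric.tendsto_atTop]
  intro δ hδ
  have hmoll := (L2t.moll hf).lim
  rw [Metric.tendsto_atTop] at hmoll
  obtain ⟨m, hm⟩ := hmoll (δ / (4 * (Cb + 1))) (by positivity)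
  have hm' := hm m le_rfl
  rw [Real.dist_eq, sub_zero, abs_of_nonneg (nsq_nonneg _)] at hm'
  have hfc : HasCompactSupport f := HasCompactSupport.intro (isCompact_closedBall 0 R') h0
  have hg : Test (Vale.Agent.P227.Moll.mo (seqM m) f) := test_mo (seqM_isMol m) (locInt hf) hfc
  have hs := (err_lim_smooth D R hg j).lim
  rw [Metric.tendsto_atTop] at hs
  obtain ⟨N, hN⟩ := hs (δ / 4) (by positivity)
  refine ⟨N, fun k hk => ?_⟩
  have h1 := hN k hk
  rw [Real.dist_eq, sub_zero, abs_of_nonneg (nsq_nonneg _)] at h1 ⊢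
  simp only [sub_zero] at h1 ⊢
  have hgm := test_memLp hg
  have hd : MemLp (fun y => f y - Vale.Agent.P227.Moll.mo (seqM m) f y) 2 (volume : Measure (E n)) := hf.sub hgm
  have h2 := hb _ (hk0 k) (hk1 k) _ hd j
  have h3 := nsq_add_le h2.1 (hb _ (hk0 k) (hk1 k) _ hgm j).1
  have e : (fun x => (Metric.closedBall (0 : E n) R).indicator
        (err r A (stdM (1 / ((k : ℝ) + 1))) (fun y => f y - Vale.Agent.P227.Moll.mo (seqM m) f y) j) x
      + (Metric.closedBall (0 : E n) R).indicator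
        (err r A (stdM (1 / ((k : ℝ) + 1))) (Vale.Agent.P227.Moll.mo (seqM m) f) j) x) =
      fun x => (Metric.closedBall (0 : E n) R).indicator (err r A (seqM k) f j) x := by
    funext x
    by_cases hx : x ∈ Metric.closedBall (0 : E n) R
    · simp only [Set.indicator_of_mem hx]
      rw [err_sub D (stdM_isMol (hk0 k)) (locInt hf) (locInt hgm)]
      unfold seqM
      ring
    · simp only [Set.indicator_of_notMem hx]
      simp
  rw [e] at h3
  have h4 : nsq (fun y => f y - Vale.Agent.P227.Moll.mo (seqM m) f y) = nsq (fun y => Vale.Agent.P227.Moll.mo (seqM m) f y - f y) := by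
    unfold nsq
    refine integral_congr_ae (Eventually.of_forall fun x => ?_)
    simp only [norm_sub_rev]
  have h5 : Cb * nsq (fun y => f y - Vale.Agent.P227.Moll.mo (seqM m) f y) ≤ δ / 4 := by
    rw [h4]
    have h6 : nsq (fun y => Vale.Agent.P227.Moll.mo (seqM m) f y - f y) ≤ δ / (4 * (Cb + 1)) := hm'.le
    calc Cb * nsq (fun y => Vale.Agent.P227.Moll.mo (seqM m) f y - f y) ≤ (Cb + 1) * (δ / (4 * (Cb + 1))) :=
          mul_le_mul (by linarith) h6 (nsq_nonneg _) (by linarith)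
      _ = δ / 4 := by field_simp
  have h7 : nsq (Set.indicator (Metric.closedBall (0 : E n) R)
      (err r A (stdM (1 / ((k : ℝ) + 1))) (Vale.Agent.P227.Moll.mo (seqM m) f) j)) < δ / 4 := h1
  have h8 := h2.2
  linarith

end Vale.Agent.P227.M.LIN.E456
end

section

/-! # P227/M/LIN: definitions for `StmtH1` (second Friedrichs step). -/

open MeasureTheory Filter Metric Set
open scoped Topology

namespace Vale.Agent.P227.M.LIN

/-- radius `δ_m = 1/(m+1)` -/
noncomputable def dl (m : ℕ) : ℝ := 1 / ((m : ℝ) + 1)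

lemma dl_pos (m : ℕ) : 0 < dl m := by unfold dl; positivity

lemma dl_le_one (m : ℕ) : dl m ≤ 1 := by
  unfold dl
  rw [div_le_one (by positivity)]
  have : (0 : ℝ) ≤ m := Nat.cast_nonneg m
  linarith

lemma dl_tendsto : Tendsto dl atTop (𝓝 0) := tendsto_one_div_add_atTop_nhds_zero_nat

/-- the bump with radii `δ/2, δ` -/
noncomputable def bp (n m : ℕ) : ContDiffBump (0 : E n) :=
  ⟨dl m / 2, dl m, by have := dl_pos m; linarith, by have := dl_pos m; linarith⟩

/-- mollifier kernel -/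
noncomputable def rk {n : ℕ} (m : ℕ) (x : E n) : ℝ := (bp n m).normed volume x

/-- mollification -/
noncomputable def mo {n : ℕ} (m : ℕ) (g : E n → ℝ) (x : E n) : ℝ := ∫ t, rk m t * g (x - t)

/-- average over the ball of radius `2 δ_m` -/
noncomputable def av {n : ℕ} (m : ℕ) (g : E n → ℝ) (x : E n) : ℝ :=
  (dl m ^ n)⁻¹ * ∫ t in ball (0 : E n) (2 * dl m), g (x - t)

/-- local Lipschitz bound in direction `b` -/
def LocB {n : ℕ} (b : Fin n) (g : E n → ℝ) (x : E n) (K : ℝ) : Prop :=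
  ∀ ε > 0, ∀ᶠ t in 𝓝 (0 : ℝ), |g (x + t • ei b) - g x| ≤ (K + ε) * |t|

/-- Lipschitz, in terms of `|·|` -/
def Lp {n : ℕ} (g : E n → ℝ) (K : ℝ) : Prop := ∀ x y, |g x - g y| ≤ K * ‖x - y‖

/-- commutator of multiplication by `a` and mollification -/
noncomputable def cm {n : ℕ} (m : ℕ) (a G : E n → ℝ) (x : E n) : ℝ :=
  a x * mo m G x - mo m (fun y => a y * G y) x

end Vale.Agent.P227.M.LIN
end

section

/-! # P227/M/LIN: bundled constants for the pointwise bound (helper479). -/

open MeasureTheory Filter Metric Set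
open scoped Topology

namespace Vale.Agent.P227.M.LIN

/-- cut-off with constant `A` -/
structure Cuto {n : ℕ} (A R : ℝ) (χ : E n → ℝ) : Prop where
  test : Test χ
  le1 : ∀ x, |χ x| ≤ 1
  one : ∀ x, ‖x‖ < R → χ x = 1
  zero : ∀ x, 2 * R < ‖x‖ → χ x = 0
  d1 : ∀ x a, |pd a χ x| ≤ A
  d1x : ∀ x a, ‖x‖ * |pd a χ x| ≤ A
  d2 : ∀ x a b, |pd a (pd b χ) x| ≤ A
  d2x : ∀ x a b, ‖x‖ * |pd a (pd b χ) x| ≤ A
  d3 : ∀ x a b d, |pd a (pd b (pd d χ)) x| ≤ A

/-- `τ` bounded and Lipschitz with constant `A` -/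
structure TauC {n : ℕ} (A : ℝ) (ψ : E n → ℝ) : Prop where
  bdd : ∀ x i j, |tau ψ x i j| ≤ A
  lip : ∀ i j, Lp (fun x => tau ψ x i j) A

/-- kernel constants -/
structure KerC (n : ℕ) (A : ℝ) : Prop where
  mo_b : ∀ (m : ℕ) (g : E n → ℝ), Continuous g → ∀ x, |mo m g x| ≤ A * av m (fun y => |g y|) x
  mo_l : ∀ (m : ℕ) (g : E n → ℝ), Continuous g → ∀ x b,
    LocB b (mo m g) x (A * (dl m)⁻¹ * av m (fun y => |g y|) x)
  cm_b : ∀ (m : ℕ) (a G : E n → ℝ) (K : ℝ), 0 ≤ K → Lp a K → Continuous a → Continuous G → ∀ x,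
    |cm m a G x| ≤ A * K * av m (fun y => |G y|) x
  cm_l : ∀ (m : ℕ) (a G : E n → ℝ) (K : ℝ), 0 ≤ K → Lp a K → Continuous a → Continuous G → ∀ x b,
    LocB b (cm m a G) x (A * K * av m (fun y => |G y|) x)

end Vale.Agent.P227.M.LIN
end
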