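import Mathlib
import Vale.Agent.P227.Bd3.B1

set_option linter.all false

section

/-! # P227/M, block LK: the invariant class of the level `k` map, including self-concordance.

`phiK k c y = (1/k) log ∫ exp (k⟨x,y⟩ - k c x) dx`, `QK k φ x = log ∫ exp (k⟨x,y⟩ - (k+1) φ y) dy`,
`TK V k c = (V + QK k (phiK k c)) / k`. -/

open MeasureTheory
open scoped Topology

namespace Vale.Agent.P227.M.LK.B136

variable {n : ℕ}

/-- second derivative along the line `x + t v` at `0` -/
noncomputable def l2 (U : E n → ℝ) (x v : E n) : ℝ :=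
  iteratedDeriv 2 (fun t : ℝ => U (x + t • v)) 0

/-- third derivative along the line `x + t v` at `0` -/
noncomputable def l3 (U : E n → ℝ) (x v : E n) : ℝ :=
  iteratedDeriv 3 (fun t : ℝ => U (x + t • v)) 0

theorem sum_ei (v : E n) : v = ∑ i, v i • ei i := by
  ext j
  simp [ei, Finset.sum_apply, Pi.single_apply]

theorem fd_eq (U : E n → ℝ) (z v : E n) : fderiv ℝ U z v = ∑ j, v j * pd j U z := by
  conv_lhs => rw [sum_ei v]
  simp [map_sum, pd]

theorem line_contDiff {U : E n → ℝ} {m : WithTop ℕ∞} (hU : ContDiff ℝ m U) (x v : E n) :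
    ContDiff ℝ m (fun t : ℝ => U (x + t • v)) :=
  hU.comp (contDiff_const.add (contDiff_id.smul contDiff_const))

theorem line_deriv {U : E n → ℝ} (hU : Differentiable ℝ U) (x v : E n) :
    deriv (fun t : ℝ => U (x + t • v)) = fun t => fderiv ℝ U (x + t • v) v := by
  funext t
  have h1 : HasDerivAt (fun t : ℝ => x + t • v) v t := by
    simpa using ((hasDerivAt_id t).smul_const v).const_add x
  exact ((hU (x + t • v)).hasFDerivAt.comp_hasDerivAt t h1).deriv

theorem l2_eq {U : E n → ℝ} (hU : ContDiff ℝ 2 U) (x v : E n) : l2 U x v = qf (hess U x) v := by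
  have hd : Differentiable ℝ U := hU.differentiable (by norm_num)
  have h1 : ContDiff ℝ 1 (fderiv ℝ U) := hU.fderiv_right (by norm_num)
  have hpd : ∀ j, Differentiable ℝ (pd j U) := fun j =>
    (h1.differentiable (by norm_num)).clm_apply (differentiable_const _)
  have e1 : (fun t : ℝ => fderiv ℝ U (x + t • v) v) =
      fun t : ℝ => (fun z => ∑ j, v j * pd j U z) (x + t • v) := by
    funext t
    exact fd_eq U _ v
  have hs : Differentiable ℝ (fun z => ∑ j, v j * pd j U z) :=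
    Differentiable.fun_sum fun j _ => (hpd j).const_mul _
  unfold l2
  rw [iteratedDeriv_succ, iteratedDeriv_one, line_deriv hd, e1, line_deriv hs]
  simp only [zero_smul, add_zero]
  rw [fd_eq]
  unfold qf hess
  refine Finset.sum_congr rfl fun i _ => ?_
  have h2 : pd i (fun z => ∑ j, v j * pd j U z) x = ∑ j, v j * pd i (pd j U) x := by
    have h4 : HasFDerivAt (fun z => ∑ j, v j * pd j U z)
        (∑ j, v j • fderiv ℝ (pd j U) x) x :=
      HasFDerivAt.fun_sum fun j _ => ((hpd j) x).hasFDerivAt.const_mul (v j)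
    have h5 : pd i (fun z => ∑ j, v j * pd j U z) x
        = fderiv ℝ (fun z => ∑ j, v j * pd j U z) x (ei i) := rfl
    rw [h5, h4.fderiv]
    simp [pd]
  rw [h2, Finset.mul_sum]
  refine Finset.sum_congr rfl fun j _ => ?_
  ring

/-- scaling -/
theorem line_scale (lam mu : ℝ) (U : E n → ℝ) (x v : E n) (i : ℕ) :
    iteratedDeriv i (fun t : ℝ => lam * U (mu • (x + t • v))) 0
      = lam * iteratedDeriv i (fun t : ℝ => U (mu • x + t • (mu • v))) 0 := by
  have e : (fun t : ℝ => lam * U (mu • (x + t • v)))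
      = fun t : ℝ => lam * (fun t : ℝ => U (mu • x + t • (mu • v))) t := by
    funext t
    simp only [smul_add, smul_comm mu t v]
  rw [e, iteratedDeriv_const_mul_field]

theorem l2_scale (lam mu : ℝ) (U : E n → ℝ) (x v : E n) :
    l2 (fun x => lam * U (mu • x)) x v = lam * l2 U (mu • x) (mu • v) := line_scale lam mu U x v 2

theorem l3_scale (lam mu : ℝ) (U : E n → ℝ) (x v : E n) :
    l3 (fun x => lam * U (mu • x)) x v = lam * l3 U (mu • x) (mu • v) := line_scale lam mu U x v 3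

theorem l2_add {U W : E n → ℝ} (hU : ContDiff ℝ 2 U) (hW : ContDiff ℝ 2 W) (x v : E n) :
    l2 (fun x => U x + W x) x v = l2 U x v + l2 W x v :=
  iteratedDeriv_fun_add (line_contDiff hU x v).contDiffAt (line_contDiff hW x v).contDiffAt

theorem l3_add {U W : E n → ℝ} (hU : ContDiff ℝ 3 U) (hW : ContDiff ℝ 3 W) (x v : E n) :
    l3 (fun x => U x + W x) x v = l3 U x v + l3 W x v :=
  iteratedDeriv_fun_add (line_contDiff hU x v).contDiffAt (line_contDiff hW x v).contDiffAt

theorem smooth_two {U : E n → ℝ} (h : ContDiff ℝ (⊤ : ℕ∞) U) : ContDiff ℝ 2 U := by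
  exact_mod_cast contDiff_infty.1 h 2

theorem smooth_three {U : E n → ℝ} (h : ContDiff ℝ (⊤ : ℕ∞) U) : ContDiff ℝ 3 U := by
  exact_mod_cast contDiff_infty.1 h 3

theorem Reg.l2_lower {U : E n → ℝ} {a b : ℝ} (h : Reg U a b) (x v : E n) :
    a * ‖v‖ ^ 2 ≤ l2 U x v := by
  rw [l2_eq (smooth_two h.smooth)]; exact h.lower x v

theorem Reg.l2_upper {U : E n → ℝ} {a b : ℝ} (h : Reg U a b) (x v : E n) :
    l2 U x v ≤ b * ‖v‖ ^ 2 := by
  rw [l2_eq (smooth_two h.smooth)]; exact h.upper x v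

theorem Reg.l2_nonneg {U : E n → ℝ} {a b : ℝ} (h : Reg U a b) (x v : E n) : 0 ≤ l2 U x v :=
  le_trans (mul_nonneg h.c_pos.le (by positivity)) (Reg.l2_lower h x v)

theorem smooth_scale {U : E n → ℝ} (hU : ContDiff ℝ (⊤ : ℕ∞) U) (lam mu : ℝ) :
    ContDiff ℝ (⊤ : ℕ∞) (fun x => lam * U (mu • x)) :=
  contDiff_const.mul (hU.comp (contDiff_id.const_smul mu))

theorem reg_scale {U : E n → ℝ} {a b : ℝ} (h : Reg U a b) {lam mu : ℝ} (hl : 0 < lam)
    (hm : 0 < mu) : Reg (fun x => lam * U (mu • x)) (lam * mu ^ 2 * a) (lam * mu ^ 2 * b) where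
  c_pos := mul_pos (mul_pos hl (by positivity)) h.c_pos
  smooth := smooth_scale h.smooth lam mu
  lower := fun x v => by
    rw [← l2_eq (smooth_two (smooth_scale h.smooth lam mu)), l2_scale]
    have h1 := Reg.l2_lower h (mu • x) (mu • v)
    rw [norm_smul, Real.norm_of_nonneg hm.le] at h1
    calc lam * mu ^ 2 * a * ‖v‖ ^ 2 = lam * (a * (mu * ‖v‖) ^ 2) := by ring
      _ ≤ _ := mul_le_mul_of_nonneg_left h1 hl.le
  upper := fun x v => by
    rw [← l2_eq (smooth_two (smooth_scale h.smooth lam mu)), l2_scale]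
    have h1 := Reg.l2_upper h (mu • x) (mu • v)
    rw [norm_smul, Real.norm_of_nonneg hm.le] at h1
    calc _ ≤ lam * (b * (mu * ‖v‖) ^ 2) := mul_le_mul_of_nonneg_left h1 hl.le
      _ = _ := by ring
  bdd := fun k hk => by
    obtain ⟨B, hB⟩ := h.bdd k hk
    refine ⟨lam * (B * ‖(mu • ContinuousLinearMap.id ℝ (E n))‖ ^ k), fun x => ?_⟩
    have hU : ContDiff ℝ k U := h.smooth.of_le (by exact_mod_cast le_top)
    have e : (fun x => lam * U (mu • x)) =
        lam • (U ∘ (mu • ContinuousLinearMap.id ℝ (E n))) := by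
      funext x
      simp
    have hc : ContDiff ℝ k (U ∘ (mu • ContinuousLinearMap.id ℝ (E n))) :=
      hU.comp (ContinuousLinearMap.contDiff _)
    rw [e, iteratedFDeriv_const_smul_apply hc.contDiffAt, norm_smul, Real.norm_of_nonneg hl.le]
    refine mul_le_mul_of_nonneg_left ?_ hl.le
    rw [ContinuousLinearMap.iteratedFDeriv_comp_right _ hU _ (le_refl _)]
    refine (ContinuousMultilinearMap.norm_compContinuousLinearMap_le _ _).trans ?_
    rw [Finset.prod_const, Finset.card_univ, Fintype.card_fin]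
    exact mul_le_mul_of_nonneg_right (hB _) (by positivity)

theorem reg_add {U W : E n → ℝ} {a b a' b' : ℝ} (h : Reg U a b) (h' : Reg W a' b') :
    Reg (fun x => U x + W x) (a + a') (b + b') where
  c_pos := add_pos h.c_pos h'.c_pos
  smooth := h.smooth.add h'.smooth
  lower := fun x v => by
    rw [← l2_eq (smooth_two (h.smooth.add h'.smooth)),
      l2_add (smooth_two h.smooth) (smooth_two h'.smooth)]
    have h1 := Reg.l2_lower h x v
    have h2 := Reg.l2_lower h' x v
    nlinarith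
  upper := fun x v => by
    rw [← l2_eq (smooth_two (h.smooth.add h'.smooth)),
      l2_add (smooth_two h.smooth) (smooth_two h'.smooth)]
    have h1 := Reg.l2_upper h x v
    have h2 := Reg.l2_upper h' x v
    nlinarith
  bdd := fun k hk => by
    obtain ⟨B, hB⟩ := h.bdd k hk
    obtain ⟨B', hB'⟩ := h'.bdd k hk
    refine ⟨B + B', fun x => ?_⟩
    have hU : ContDiff ℝ k U := h.smooth.of_le (by exact_mod_cast le_top)
    have hW : ContDiff ℝ k W := h'.smooth.of_le (by exact_mod_cast le_top)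
    have e : (fun x => U x + W x) = U + W := rfl
    rw [e, iteratedFDeriv_add_apply hU.contDiffAt hW.contDiffAt]
    exact (norm_add_le _ _).trans (add_le_add (hB x) (hB' x))

/-- self-concordance under scaling of the function and of the variable -/
theorem selfConc_scale {U : E n → ℝ} {a b κ : ℝ} (h : Reg U a b)
    (hs : SelfConc κ U) {lam : ℝ} (hl : 0 < lam) (mu : ℝ) :
    SelfConc (κ / Real.sqrt lam) (fun x => lam * U (mu • x)) := by
  intro x v
  have e3 := l3_scale lam mu U x v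
  have e2 := l2_scale lam mu U x v
  unfold l3 at e3
  unfold l2 at e2
  rw [e3, e2]
  have h1 := hs (mu • x) (mu • v)
  have h0 := Reg.l2_nonneg h (mu • x) (mu • v)
  unfold l2 at h0
  set A := iteratedDeriv 2 (fun t : ℝ => U (mu • x + t • (mu • v))) 0
  set B := iteratedDeriv 3 (fun t : ℝ => U (mu • x + t • (mu • v))) 0
  rw [abs_mul, abs_of_pos hl, Real.mul_rpow hl.le h0]
  have e4 : lam ^ ((3 : ℝ) / 2) = lam * Real.sqrt lam := by
    rw [Real.sqrt_eq_rpow, ← Real.rpow_one_add' hl.le (by norm_num)]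
    norm_num
  rw [e4]
  have hsq : 0 < Real.sqrt lam := Real.sqrt_pos.2 hl
  have e5 : 2 * (κ / Real.sqrt lam) * (lam * Real.sqrt lam * A ^ ((3 : ℝ) / 2))
      = lam * (2 * κ * A ^ ((3 : ℝ) / 2)) := by
    field_simp
  rw [e5]
  exact mul_le_mul_of_nonneg_left h1 hl.le

theorem selfConc_mono {U : E n → ℝ} {a b κ κ' : ℝ} (h : Reg U a b) (hs : SelfConc κ U)
    (hk : κ ≤ κ') : SelfConc κ' U := by
  intro x v
  have h0 := Reg.l2_nonneg h x v
  unfold l2 at h0
  refine (hs x v).trans ?_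
  have := Real.rpow_nonneg h0 ((3 : ℝ) / 2)
  nlinarith

/-- third derivative on lines is bounded -/
theorem l3_bdd {U : E n → ℝ} {a b : ℝ} (h : Reg U a b) :
    ∃ B : ℝ, 0 ≤ B ∧ ∀ x v : E n, |l3 U x v| ≤ B * ‖v‖ ^ 3 := by
  obtain ⟨B, hB⟩ := h.bdd 3 (by norm_num)
  refine ⟨max B 0, le_max_right _ _, fun x v => ?_⟩
  have hU : ContDiff ℝ 3 U := smooth_three h.smooth
  have hg : ContDiff ℝ 3 (fun z => U (x + z)) := hU.comp (contDiff_const.add contDiff_id)
  have e : (fun t : ℝ => U (x + t • v)) =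
      (fun z => U (x + z)) ∘ (ContinuousLinearMap.toSpanSingleton ℝ v) := by
    funext t
    simp [ContinuousLinearMap.toSpanSingleton_apply]
  unfold l3
  rw [← Real.norm_eq_abs, ← norm_iteratedFDeriv_eq_norm_iteratedDeriv, e]
  have h3 : ((3 : ℕ) : WithTop ℕ∞) ≤ 3 := by norm_num
  rw [ContinuousLinearMap.iteratedFDeriv_comp_right _ hg _ h3]
  refine (ContinuousMultilinearMap.norm_compContinuousLinearMap_le _ _).trans ?_
  rw [Finset.prod_const, Finset.card_univ, Fintype.card_fin,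
    ContinuousLinearMap.norm_toSpanSingleton]
  refine mul_le_mul_of_nonneg_right ?_ (by positivity)
  have e2 := iteratedFDeriv_comp_add_left (𝕜 := ℝ) (f := U) 3 x
    ((ContinuousLinearMap.toSpanSingleton ℝ v) 0)
  rw [e2]
  exact (hB _).trans (le_max_left _ _)

theorem selfConc_of_reg {U : E n → ℝ} {a b : ℝ} (h : Reg U a b) :
    ∃ κ : ℝ, 0 ≤ κ ∧ SelfConc κ U := by
  obtain ⟨B, hB0, hB⟩ := l3_bdd h
  have ha := h.c_pos
  refine ⟨B / (2 * a ^ ((3 : ℝ) / 2)), by positivity, fun x v => ?_⟩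
  have h1 := hB x v
  have h2 := Reg.l2_lower h x v
  unfold l3 at h1
  unfold l2 at h2
  set A := iteratedDeriv 2 (fun t : ℝ => U (x + t • v)) 0
  have hpos : 0 < a ^ ((3 : ℝ) / 2) := by positivity
  have h3 : a ^ ((3 : ℝ) / 2) * ‖v‖ ^ 3 ≤ A ^ ((3 : ℝ) / 2) := by
    have h4 : (a * ‖v‖ ^ 2) ^ ((3 : ℝ) / 2) ≤ A ^ ((3 : ℝ) / 2) :=
      Real.rpow_le_rpow (by positivity) h2 (by norm_num)
    have h5 : (a * ‖v‖ ^ 2) ^ ((3 : ℝ) / 2) = a ^ ((3 : ℝ) / 2) * ‖v‖ ^ 3 := by
      rw [Real.mul_rpow ha.le (by positivity)]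
      congr 1
      rw [← Real.rpow_natCast ‖v‖ 2, ← Real.rpow_mul (norm_nonneg v)]
      norm_num
    rwa [h5] at h4
  refine h1.trans ?_
  calc B * ‖v‖ ^ 3 = 2 * (B / (2 * a ^ ((3 : ℝ) / 2))) * (a ^ ((3 : ℝ) / 2) * ‖v‖ ^ 3) := by
        field_simp
    _ ≤ _ := mul_le_mul_of_nonneg_left h3 (by positivity)

theorem reg_mono {U : E n → ℝ} {a b a' b' : ℝ} (h : Reg U a b) (h0 : 0 < a') (ha : a' ≤ a)
    (hb : b ≤ b') : Reg U a' b' where
  c_pos := h0
  smooth := h.smooth
  lower := fun x v => (mul_le_mul_of_nonneg_right ha (by positivity)).trans (h.lower x v)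
  upper := fun x v => (h.upper x v).trans (mul_le_mul_of_nonneg_right hb (by positivity))
  bdd := h.bdd

theorem reg_mul {U : E n → ℝ} {a b : ℝ} (h : Reg U a b) {lam : ℝ} (hl : 0 < lam) :
    Reg (fun x => lam * U x) (lam * a) (lam * b) := by
  simpa using reg_scale h hl one_pos

theorem selfConc_mul {U : E n → ℝ} {a b κ : ℝ} (h : Reg U a b)
    (hs : SelfConc κ U) {lam : ℝ} (hl : 0 < lam) :
    SelfConc (κ / Real.sqrt lam) (fun x => lam * U x) := by
  simpa using selfConc_scale h hs hl 1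

theorem rpow_th {A : ℝ} (h : 0 ≤ A) : A ^ ((3 : ℝ) / 2) = Real.sqrt A ^ 3 := by
  rw [Real.sqrt_eq_rpow, ← Real.rpow_natCast, ← Real.rpow_mul h]
  norm_num

/-- real inequality behind the sum rule -/
theorem sum_ineq {M m a b s p q ν t r : ℝ} (hM : 0 ≤ M) (hm : 0 ≤ m) (hb : 0 ≤ b)
    (hs : 0 ≤ s) (hr : 0 < r) (hν : 0 ≤ ν) (hs2 : s ^ 2 = a ^ 2 + b ^ 2)
    (h1 : a ≤ q * ν) (h2 : r * p * ν ≤ b) (h3 : 2 * M * q ≤ 3 * m * p) (ht : t ≤ m / r) :
    M * a ^ 3 + t * b ^ 3 ≤ m / r * s ^ 3 := by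
  have hbs : b ≤ s := by
    refine le_of_sq_le_sq ?_ hs
    nlinarith [sq_nonneg a]
  have e1 : b ^ 3 + 3 / 2 * a ^ 2 * b ≤ s ^ 3 := by
    have e2 : s ^ 3 - (b ^ 3 + 3 / 2 * a ^ 2 * b) = (s - b) ^ 2 * (s + b / 2) := by
      have : a ^ 2 = s ^ 2 - b ^ 2 := by linarith
      rw [this]; ring
    have e3 : 0 ≤ (s - b) ^ 2 * (s + b / 2) := by positivity
    linarith
  have e4 : M * a ≤ 3 / 2 * (m / r) * b := by
    have i1 : M * a ≤ M * (q * ν) := mul_le_mul_of_nonneg_left h1 hM
    have i2 : 2 * (M * (q * ν)) ≤ 3 * m * p * ν := by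
      have := mul_le_mul_of_nonneg_right h3 hν
      linarith
    have i3 : m / r * (r * p * ν) ≤ m / r * b := mul_le_mul_of_nonneg_left h2 (by positivity)
    have i4 : m / r * (r * p * ν) = m * p * ν := by field_simp
    rw [i4] at i3
    linarith
  have e5 : M * a ^ 3 ≤ 3 / 2 * (m / r) * b * a ^ 2 := by
    have := mul_le_mul_of_nonneg_right e4 (sq_nonneg a)
    calc M * a ^ 3 = M * a * a ^ 2 := by ring
      _ ≤ _ := this
  have e6 : t * b ^ 3 ≤ m / r * b ^ 3 := mul_le_mul_of_nonneg_right ht (by positivity)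
  have e7 : m / r * (b ^ 3 + 3 / 2 * a ^ 2 * b) ≤ m / r * s ^ 3 :=
    mul_le_mul_of_nonneg_left e1 (by positivity)
  nlinarith

/-- sum rule (874 10615 (2)) -/
theorem selfConc_sum {V U : E n → ℝ} {c0 C0 M m k : ℝ} (hV : Reg V c0 C0) (hM : 0 ≤ M)
    (hVs : SelfConc M V) (hk : 0 < k) (hm : 0 ≤ m) (hmM : 2 * M * Real.sqrt C0 ≤ 3 * m * Real.sqrt c0)
    (hC0 : 0 ≤ C0) (hU : Reg U (k * c0) (k * C0)) (hUs : SelfConc (m / Real.sqrt (k + 1)) U) :
    SelfConc (m / Real.sqrt k) (fun x => V x + U x) := by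
  intro x v
  have e3 := l3_add (smooth_three hV.smooth) (smooth_three hU.smooth) x v
  have e2 := l2_add (smooth_two hV.smooth) (smooth_two hU.smooth) x v
  have i1 := hVs x v
  have i2 := hUs x v
  have hA0 := Reg.l2_nonneg hV x v
  have hB0 := Reg.l2_nonneg hU x v
  have hA1 := Reg.l2_upper hV x v
  have hB1 := Reg.l2_lower hU x v
  unfold l3 at e3
  unfold l2 at e2 hA0 hB0 hA1 hB1
  rw [e3, e2]
  set A := iteratedDeriv 2 (fun t : ℝ => V (x + t • v)) 0
  set B := iteratedDeriv 2 (fun t : ℝ => U (x + t • v)) 0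
  rw [rpow_th hA0] at i1
  rw [rpow_th hB0] at i2
  rw [rpow_th (add_nonneg hA0 hB0)]
  have hc0 := hV.c_pos
  have key := sum_ineq (M := M) (m := m) (a := Real.sqrt A) (b := Real.sqrt B)
    (s := Real.sqrt (A + B)) (p := Real.sqrt c0) (q := Real.sqrt C0) (ν := ‖v‖)
    (t := m / Real.sqrt (k + 1)) (r := Real.sqrt k) hM hm
    (Real.sqrt_nonneg _) (Real.sqrt_nonneg _) (Real.sqrt_pos.2 hk) (norm_nonneg _)
    (by rw [Real.sq_sqrt hA0, Real.sq_sqrt hB0, Real.sq_sqrt (add_nonneg hA0 hB0)])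
    (by
      refine Real.sqrt_le_iff.2 ⟨by positivity, ?_⟩
      rw [mul_pow, Real.sq_sqrt hC0]; exact hA1)
    (by
      refine Real.le_sqrt_of_sq_le ?_
      rw [mul_pow, mul_pow, Real.sq_sqrt hk.le, Real.sq_sqrt hc0.le]; exact hB1)
    hmM
    (div_le_div_of_nonneg_left hm (Real.sqrt_pos.2 hk) (Real.sqrt_le_sqrt (by linarith)))
  calc _ ≤ _ := abs_add_le _ _
    _ ≤ _ := add_le_add i1 i2
    _ = 2 * (M * Real.sqrt A ^ 3 + m / Real.sqrt (k + 1) * Real.sqrt B ^ 3) := by ring
    _ ≤ 2 * (m / Real.sqrt k * Real.sqrt (A + B) ^ 3) := mul_le_mul_of_nonneg_left key (by norm_num)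
    _ = _ := by ring

/-! ### the level `k` map -/

/-- the level-`k` potential -/
noncomputable def phiK (k : ℝ) (c : E n → ℝ) (y : E n) : ℝ :=
  (1 / k) * logLap (fun x => k * c x) (k • y)

/-- the second log-Laplace transform -/
noncomputable def QK (k : ℝ) (p : E n → ℝ) (x : E n) : ℝ :=
  logLap (fun y => (k + 1) * p y) (k • x)

/-- the level-`k` map -/
noncomputable def TK (V : E n → ℝ) (k : ℝ) (c : E n → ℝ) (x : E n) : ℝ :=
  (V x + QK k (phiK k c) x) / k

theorem logLap_even {W : E n → ℝ} (h : ∀ x, W (-x) = W x) (y : E n) :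
    logLap W (-y) = logLap W y := by
  unfold logLap
  congr 1
  rw [← integral_neg_eq_self]
  refine integral_congr_ae (Filter.Eventually.of_forall fun x => ?_)
  simp only [h, inner_neg_neg]

theorem phiK_even {k : ℝ} {c : E n → ℝ} (h : ∀ x, c (-x) = c x) (y : E n) :
    phiK k c (-y) = phiK k c y := by
  unfold phiK
  rw [smul_neg, logLap_even]
  intro x; rw [h]

theorem QK_even {k : ℝ} {p : E n → ℝ} (h : ∀ x, p (-x) = p x) (x : E n) :
    QK k p (-x) = QK k p x := by
  unfold QK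
  rw [smul_neg, logLap_even]
  intro x; rw [h]

/-- the invariant class -/
structure Cls (c0 C0 m k : ℝ) (c : E n → ℝ) : Prop where
  reg : Reg c (c0 * (k + 1) / k) (C0 * (k + 1) / k)
  even : ∀ x, c (-x) = c x
  sc : SelfConc (m / Real.sqrt k) (fun x => k * c x)

/-- block LL (`reg_logLap`) -/
def LogLapReg : Prop := ∀ (n : ℕ) (W : E n → ℝ) (c C : ℝ), 0 < C → Reg W c C →
  Reg (logLap W) C⁻¹ c⁻¹

section step

variable {c0 C0 m k : ℝ} {c V : E n → ℝ}

theorem Cls.reg' (hk : 0 < k) (h : Cls c0 C0 m k c) :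
    Reg (fun x => k * c x) (c0 * (k + 1)) (C0 * (k + 1)) := by
  have h1 := reg_mul h.reg hk
  have e1 : k * (c0 * (k + 1) / k) = c0 * (k + 1) := by field_simp
  have e2 : k * (C0 * (k + 1) / k) = C0 * (k + 1) := by field_simp
  rwa [e1, e2] at h1

theorem div_sqrt_le_one (hk : 0 < k) (hmk : m ^ 2 ≤ k) : m / Real.sqrt k ≤ 1 := by
  rw [div_le_one (Real.sqrt_pos.2 hk)]
  exact Real.le_sqrt_of_sq_le hmk

theorem Cls.phi_reg (hR : LogLapReg) (hC0 : 0 < C0) (hk : 0 < k)
    (h : Cls c0 C0 m k c) : Reg (phiK k c) (k / ((k + 1) * C0)) (k / ((k + 1) * c0)) := by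
  have h1 := hR n _ _ _ (by positivity) (h.reg' hk)
  have hc0 : 0 < c0 * (k + 1) := (h.reg' hk).c_pos
  have h2 := reg_scale h1 (lam := 1 / k) (mu := k) (by positivity) hk
  have hc0' : c0 ≠ 0 := by
    rintro rfl
    simp at hc0
  have e1 : 1 / k * k ^ 2 * (C0 * (k + 1))⁻¹ = k / ((k + 1) * C0) := by field_simp
  have e2 : 1 / k * k ^ 2 * (c0 * (k + 1))⁻¹ = k / ((k + 1) * c0) := by field_simp
  rw [e1, e2] at h2
  exact h2

theorem Cls.phi_sc (hSC : StmtSC) (hR : LogLapReg) (hC0 : 0 < C0) (hk : 0 < k) (hm : 0 ≤ m)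
    (hmk : m ^ 2 ≤ k) (h : Cls c0 C0 m k c) : SelfConc m (phiK k c) := by
  have h1 := hR n _ _ _ (by positivity) (h.reg' hk)
  have h2 := hSC n _ _ _ _ (h.reg' hk) (by positivity) (div_sqrt_le_one hk hmk) h.sc
  have h3 := selfConc_scale h1 h2 (lam := 1 / k) (by positivity) k
  have e : m / Real.sqrt k / Real.sqrt (1 / k) = m := by
    rw [one_div, Real.sqrt_inv]
    have := Real.sqrt_pos.2 hk
    field_simp
  rw [e] at h3
  exact h3

theorem Cls.phi_even (h : Cls c0 C0 m k c) (y : E n) : phiK k c (-y) = phiK k c y :=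
  phiK_even h.even y

theorem Cls.c0_pos (hk : 0 < k) (h : Cls c0 C0 m k c) : 0 < c0 := by
  have := (h.reg' hk).c_pos
  exact pos_of_mul_pos_left this (by linarith)

theorem Cls.q_reg (hR : LogLapReg) (hC0 : 0 < C0) (hk : 0 < k)
    (h : Cls c0 C0 m k c) : Reg (QK k (phiK k c)) (k * c0) (k * C0) := by
  have hc0 := h.c0_pos hk
  have h1 := reg_mul (h.phi_reg hR hC0 hk) (lam := k + 1) (by linarith)
  have h2 := hR n _ _ _ (by positivity) h1
  have h3 := reg_scale h2 (lam := 1) (mu := k) one_pos hk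
  have e1 : 1 * k ^ 2 * ((k + 1) * (k / ((k + 1) * C0)))⁻¹ = k * C0 := by field_simp
  have e2 : 1 * k ^ 2 * ((k + 1) * (k / ((k + 1) * c0)))⁻¹ = k * c0 := by field_simp
  rw [e1, e2] at h3
  have e3 : (fun x => 1 * logLap (fun y => (k + 1) * phiK k c y) (k • x)) = QK k (phiK k c) := by
    funext x
    simp [QK]
  exact e3 ▸ h3

theorem Cls.q_sc (hSC : StmtSC) (hR : LogLapReg) (hC0 : 0 < C0) (hk : 0 < k) (hm : 0 ≤ m)
    (hmk : m ^ 2 ≤ k) (h : Cls c0 C0 m k c) :
    SelfConc (m / Real.sqrt (k + 1)) (QK k (phiK k c)) := by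
  have hc0 := h.c0_pos hk
  have hk1 : 0 < k + 1 := by linarith
  have h1 := reg_mul (h.phi_reg hR hC0 hk) hk1
  have h2 := selfConc_mul (h.phi_reg hR hC0 hk) (h.phi_sc hSC hR hC0 hk hm hmk) hk1
  have h3 := hSC n _ _ _ _ h1 (by positivity) (div_sqrt_le_one hk1 (by linarith)) h2
  have h4 := hR n _ _ _ (by positivity) h1
  have h5 := selfConc_scale h4 h3 (lam := 1) one_pos k
  have e3 : (fun x => 1 * logLap (fun y => (k + 1) * phiK k c y) (k • x)) = QK k (phiK k c) := by
    funext x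
    simp [QK]
  rw [e3, Real.sqrt_one, div_one] at h5
  exact h5

/-- **invariance** -/
theorem Cls.step (hSC : StmtSC) (hR : LogLapReg) {M : ℝ} (hV : Nice V c0 C0) (hC0 : 0 < C0)
    (hM : 0 ≤ M) (hVs : SelfConc M V) (hk : 0 < k) (hm : 0 ≤ m) (hmk : m ^ 2 ≤ k)
    (hmM : 2 * M * Real.sqrt C0 ≤ 3 * m * Real.sqrt c0) (h : Cls c0 C0 m k c) :
    Cls c0 C0 m k (TK V k c) := by
  have hc0 := hV.c_pos
  have h1 := h.q_reg hR hC0 hk
  have h2 := h.q_sc hSC hR hC0 hk hm hmk
  have h3 := selfConc_sum hV.toReg hM hVs hk hm hmM hC0.le h1 h2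
  have h4 := reg_add hV.toReg h1
  have h5 := reg_mul h4 (lam := 1 / k) (by positivity)
  have e1 : 1 / k * (c0 + k * c0) = c0 * (k + 1) / k := by field_simp; ring
  have e2 : 1 / k * (C0 + k * C0) = C0 * (k + 1) / k := by field_simp; ring
  rw [e1, e2] at h5
  have e3 : (fun x => 1 / k * (V x + QK k (phiK k c) x)) = TK V k c := by
    funext x
    unfold TK
    ring
  have e4 : (fun x => k * TK V k c x) = fun x => V x + QK k (phiK k c) x := by
    funext x
    unfold TK
    field_simp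
  refine ⟨e3 ▸ h5, fun x => ?_, ?_⟩
  · unfold TK
    rw [hV.even, QK_even (phiK_even h.even)]
  · rw [e4]; exact h3

/-- the start -/
theorem Cls.start {M : ℝ} (hV : Nice V c0 C0) (hVs : SelfConc M V) (hk : 0 < k)
    (hm : 0 ≤ m) (hMm : M ≤ m) : Cls c0 C0 m k (fun x => (k + 1) / k * V x) := by
  have hk1 : 0 < k + 1 := by linarith
  have h1 := reg_mul hV.toReg (lam := (k + 1) / k) (by positivity)
  have e1 : (k + 1) / k * c0 = c0 * (k + 1) / k := by ring
  have e2 : (k + 1) / k * C0 = C0 * (k + 1) / k := by ring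
  rw [e1, e2] at h1
  refine ⟨h1, fun x => by rw [hV.even], ?_⟩
  have e3 : (fun x => k * ((k + 1) / k * V x)) = fun x => (k + 1) * V x := by
    funext x
    field_simp
  rw [e3]
  have h2 := selfConc_mul hV.toReg hVs hk1
  refine selfConc_mono (reg_mul hV.toReg hk1) h2 ?_
  calc M / Real.sqrt (k + 1) ≤ m / Real.sqrt (k + 1) :=
        div_le_div_of_nonneg_right hMm (Real.sqrt_nonneg _)
    _ ≤ _ := div_le_div_of_nonneg_left hm (Real.sqrt_pos.2 hk) (Real.sqrt_le_sqrt (by linarith))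

/-- the uniform third-derivative bound of the level-`k` potentials -/
theorem Cls.phi_l3 (hSC : StmtSC) (hR : LogLapReg) (hC0 : 0 < C0) (hk : 0 < k) (hm : 0 ≤ m)
    (hmk : m ^ 2 ≤ k) (h : Cls c0 C0 m k c) (x v : E n) :
    |l3 (phiK k c) x v| ≤ 2 * m * (Real.sqrt c0⁻¹) ^ 3 * ‖v‖ ^ 3 := by
  have hc0 := h.c0_pos hk
  have h1 := h.phi_reg hR hC0 hk
  have h2 := h.phi_sc hSC hR hC0 hk hm hmk x v
  have h3 := Reg.l2_upper h1 x v
  have h4 := Reg.l2_nonneg h1 x v
  unfold l2 at h3 h4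
  rw [rpow_th h4] at h2
  unfold l3
  refine h2.trans ?_
  have h5 : k / ((k + 1) * c0) ≤ c0⁻¹ := by
    rw [div_le_iff₀ (by positivity)]
    field_simp
    linarith
  have h6 : Real.sqrt (iteratedDeriv 2 (fun t : ℝ => phiK k c (x + t • v)) 0)
      ≤ Real.sqrt c0⁻¹ * ‖v‖ := by
    refine Real.sqrt_le_iff.2 ⟨by positivity, ?_⟩
    rw [mul_pow, Real.sq_sqrt (by positivity)]
    exact h3.trans (mul_le_mul_of_nonneg_right h5 (by positivity))
  calc _ ≤ 2 * m * (Real.sqrt c0⁻¹ * ‖v‖) ^ 3 :=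
        mul_le_mul_of_nonneg_left (pow_le_pow_left₀ (Real.sqrt_nonneg _) h6 3) (by positivity)
    _ = _ := by ring

end step

/-- **LK1**: the invariant class of the level-`k` map -/
theorem exists_cls (hSC : StmtSC) (hR : LogLapReg) {V : E n → ℝ} {c0 C0 : ℝ} (hV : Nice V c0 C0)
    (hC0 : 0 < C0) : ∃ m : ℝ, 0 ≤ m ∧ ∀ k : ℝ, 0 < k → m ^ 2 ≤ k →
      Cls c0 C0 m k (fun x => (k + 1) / k * V x) ∧
      (∀ c : E n → ℝ, Cls c0 C0 m k c → Cls c0 C0 m k (TK V k c)) ∧
      ∀ c : E n → ℝ, Cls c0 C0 m k c →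
        Reg (phiK k c) (k / ((k + 1) * C0)) (k / ((k + 1) * c0)) ∧
        (∀ y, phiK k c (-y) = phiK k c y) ∧ SelfConc m (phiK k c) ∧
        ∀ x v, |l3 (phiK k c) x v| ≤ 2 * m * (Real.sqrt c0⁻¹) ^ 3 * ‖v‖ ^ 3 := by
  obtain ⟨M, hM, hVs⟩ := selfConc_of_reg hV.toReg
  have hc0 := hV.c_pos
  have hs0 : 0 < Real.sqrt c0 := Real.sqrt_pos.2 hc0
  refine ⟨M * (1 + Real.sqrt C0 / Real.sqrt c0), by positivity, fun k hk hmk => ?_⟩
  have hm : 0 ≤ M * (1 + Real.sqrt C0 / Real.sqrt c0) := by positivity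
  have hMm : M ≤ M * (1 + Real.sqrt C0 / Real.sqrt c0) := by
    have : 0 ≤ M * (Real.sqrt C0 / Real.sqrt c0) := by positivity
    linarith
  have hmM : 2 * M * Real.sqrt C0 ≤ 3 * (M * (1 + Real.sqrt C0 / Real.sqrt c0)) * Real.sqrt c0 := by
    have e : 3 * (M * (1 + Real.sqrt C0 / Real.sqrt c0)) * Real.sqrt c0
        = 3 * M * Real.sqrt c0 + 3 * (M * Real.sqrt C0) := by
      field_simp
    rw [e]
    have : 0 ≤ M * Real.sqrt C0 := by positivity
    have : 0 ≤ 3 * M * Real.sqrt c0 := by positivity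
    linarith
  refine ⟨Cls.start hV hVs hk hm hMm, fun c h => Cls.step hSC hR hV hC0 hM hVs hk hm hmk hmM h,
    fun c h => ⟨h.phi_reg hR hC0 hk, h.phi_even, h.phi_sc hSC hR hC0 hk hm hmk,
      h.phi_l3 hSC hR hC0 hk hm hmk⟩⟩

end Vale.Agent.P227.M.LK.B136
end

section

/-! # P227/M, block LK: the class `Cls` satisfies the hypotheses of the descent (`LK/Desc.lean`). -/

open MeasureTheory
open scoped Topology

namespace Vale.Agent.P227.M.LK.B136

variable {n : ℕ}

theorem phiK_eq_phi (k : ℝ) (c : E n → ℝ) : phiK k c = phi k c := by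
  funext y
  unfold phiK phi logLap
  simp only [real_inner_smul_right]

theorem QK_eq_Q (k : ℝ) (p : E n → ℝ) : QK k p = Q k p := by
  funext x
  unfold QK Q logLap
  simp only [real_inner_smul_right, real_inner_comm]

theorem TK_eq_T (V : E n → ℝ) (k : ℝ) (c : E n → ℝ) : TK V k c = T V k c := by
  funext x
  unfold TK T
  rw [QK_eq_Q, phiK_eq_phi]

theorem fderiv_zero_of_even {f : E n → ℝ} (hf : Differentiable ℝ f) (he : ∀ x, f (-x) = f x) :
    fderiv ℝ f 0 = 0 := by
  have h1 : HasFDerivAt (fun x : E n => f (-x)) (-(fderiv ℝ f 0)) 0 := by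
    have h2 : HasFDerivAt f (fderiv ℝ f 0) (-(0 : E n)) := by
      rw [neg_zero]
      exact (hf 0).hasFDerivAt
    have h3 := h2.comp (0 : E n) (hasFDerivAt_id (𝕜 := ℝ) (0 : E n)).neg
    refine h3.congr_fderiv ?_
    ext v
    simp
  have h4 : (fun x : E n => f (-x)) = f := funext he
  rw [h4] at h1
  have h5 : -(fderiv ℝ f 0) = fderiv ℝ f 0 := h1.unique (hf 0).hasFDerivAt
  ext v
  have h6 : (-(fderiv ℝ f 0)) v = fderiv ℝ f 0 v := by rw [h5]
  simp only [neg_apply] at h6
  simp only [zero_apply]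
  linarith

theorem Reg.quad_lo {U : E n → ℝ} {a b : ℝ} (h : Reg U a b) (he : ∀ x, U (-x) = U x) (x : E n) :
    U 0 + a / 2 * ‖x‖ ^ 2 ≤ U x := by
  have h1 := lower_quad (smooth_two h.smooth) h.lower x
  rw [fderiv_zero_of_even ((smooth_two h.smooth).differentiable (by norm_num)) he] at h1
  simpa using h1

theorem Reg.quad_hi {U : E n → ℝ} {a b : ℝ} (h : Reg U a b) (he : ∀ x, U (-x) = U x) (x : E n) :
    U x ≤ U 0 + b / 2 * ‖x‖ ^ 2 := by
  have hs : ContDiff ℝ (⊤ : ℕ∞) (fun x => -U x) := h.smooth.neg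
  have h2 : ∀ x v, -b * ‖v‖ ^ 2 ≤ qf (hess (fun x => -U x) x) v := by
    intro x v
    rw [← l2_eq (smooth_two hs)]
    have e : l2 (fun x => -U x) x v = - l2 U x v := by
      unfold l2
      exact iteratedDeriv_fun_neg 2 (fun t : ℝ => U (x + t • v)) 0
    rw [e]
    have := Reg.l2_upper h x v
    linarith
  have h1 := lower_quad (smooth_two hs) h2 x
  rw [fderiv_zero_of_even ((smooth_two hs).differentiable (by norm_num))
    (fun x => by rw [he])] at h1
  simp at h1
  linarith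

section

variable {c0 C0 m k : ℝ} {c V : E n → ℝ}

theorem Cls.good (hR : LogLapReg) (hC0 : 0 < C0) (hk : 0 < k) (h : Cls c0 C0 m k c) :
    Good k (c0 * (k + 1) / k) (C0 * (k + 1) / k) (k / ((k + 1) * C0)) c where
  meas := h.reg.smooth.continuous.measurable
  lo := Reg.quad_lo h.reg h.even
  hi := Reg.quad_hi h.reg h.even
  plo := by
    have h1 := Reg.quad_lo (h.phi_reg hR hC0 hk) h.phi_even
    rw [phiK_eq_phi] at h1
    exact h1

end

end Vale.Agent.P227.M.LK.B136
end

section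

/-! # P227/M/ID: `τ` is continuous, bounded, Lipschitz; `StmtStein`, `StmtIBP` (helper294) -/

open MeasureTheory
open scoped Topology

namespace Vale.Agent.P227.M.B294

variable {n : ℕ} {ψ V : E n → ℝ} {c C M : ℝ}

lemma norm_Top_le (h : MM ψ V c C M) (x v : E n) : ‖Top ψ x v‖ ≤ c⁻¹ * ‖v‖ := by
  have h1 := (gmap h).le_norm_A_apply x (Top ψ x v)
  rw [Aop_Top h] at h1
  rw [inv_mul_eq_div, le_div_iff₀ h.c_pos, mul_comm]
  exact h1

lemma abs_tau_le (h : MM ψ V c C M) (x : E n) (i j : Fin n) : |tau ψ x i j| ≤ c⁻¹ := by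
  have h1 := norm_Top_le h x (ei j)
  rw [norm_ei, mul_one] at h1
  rw [← Top_ei]
  exact (abs_coord_le _ _).trans h1

lemma continuous_hessM (h : MM ψ V c C M) : Continuous (fun x => hess ψ x) :=
  continuous_matrix fun i j => continuous_hess h.C2 i j

lemma continuous_tau (h : MM ψ V c C M) (i j : Fin n) : Continuous (fun x => tau ψ x i j) := by
  have h1 : Continuous (fun x => (hess ψ x).det⁻¹) :=
    (continuous_hessM h).matrix_det.inv₀ fun x => (det_hess_pos h x).ne'
  have h2 : Continuous (fun x => (hess ψ x).adjugate) := (continuous_hessM h).matrix_adjugate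
  have e : (fun x => tau ψ x i j) = fun x => (hess ψ x).det⁻¹ * (hess ψ x).adjugate i j := by
    funext x
    unfold tau
    rw [Matrix.inv_def, Ring.inverse_eq_inv']
    rfl
  rw [e]
  exact h1.mul (h2.matrix_elem i j)

lemma gr_tau (h : MM ψ V c C M) (i j : Fin n) : Gr (fun x => tau ψ x i j) :=
  Gr.of_bound (continuous_tau h i j) (fun x => abs_tau_le h x i j)

lemma tau_sub (h : MM ψ V c C M) (x y : E n) :
    tau ψ x - tau ψ y = tau ψ x * (hess ψ y - hess ψ x) * tau ψ y := by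
  rw [mul_sub, sub_mul, tau_mul_hess h x, mul_assoc, hess_mul_tau h y]
  simp

/-- `τ` is Lipschitz -/
lemma tau_lip (h : MM ψ V c C M) (i j : Fin n) (x y : E n) :
    |tau ψ x i j - tau ψ y i j| ≤ (n * (n * (c⁻¹ * M * c⁻¹))) * ‖x - y‖ := by
  have e : tau ψ x i j - tau ψ y i j
      = ∑ k, ∑ l, tau ψ x i k * (hess ψ y k l - hess ψ x k l) * tau ψ y l j := by
    have := congrFun (congrFun (tau_sub h x y) i) j
    rw [Matrix.sub_apply] at this
    rw [this, Matrix.mul_apply]
    simp only [Matrix.mul_apply, Matrix.sub_apply, Finset.sum_mul]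
    rw [Finset.sum_comm]
  rw [e]
  have hc : 0 ≤ c⁻¹ := inv_nonneg.2 h.c_pos.le
  have hM : ∀ k l, |hess ψ y k l - hess ψ x k l| ≤ M * ‖x - y‖ := fun k l => by
    have := h.lip k l y x
    rwa [norm_sub_rev] at this
  calc |∑ k, ∑ l, tau ψ x i k * (hess ψ y k l - hess ψ x k l) * tau ψ y l j|
      ≤ ∑ k : Fin n, ∑ l : Fin n, c⁻¹ * (M * ‖x - y‖) * c⁻¹ := by
        refine (Finset.abs_sum_le_sum_abs _ _).trans (Finset.sum_le_sum fun k _ => ?_)
        refine (Finset.abs_sum_le_sum_abs _ _).trans (Finset.sum_le_sum fun l _ => ?_)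
        rw [abs_mul, abs_mul]
        refine mul_le_mul ?_ (abs_tau_le h y l j) (abs_nonneg _) ?_
        · exact mul_le_mul (abs_tau_le h x i k) (hM k l) (abs_nonneg _) hc
        · exact mul_nonneg hc ((abs_nonneg _).trans (hM k l))
    _ = (n * (n * (c⁻¹ * M * c⁻¹))) * ‖x - y‖ := by
        simp only [Finset.sum_const, Finset.card_univ, Fintype.card_fin, nsmul_eq_mul]
        ring

/-- CORE for `C¹` functions of polynomial growth -/
theorem core_gr (hV : Nice V c C) (h : MM ψ V c C M) (a : Fin n) (G : E n → ℝ)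
    (hG : Differentiable ℝ G) (hG0 : Gr G) (hG1 : ∀ b, Gr (pd b G)) :
    ∫ x, (∑ b, tau ψ x a b * pd b G x) * Real.exp (-(V x))
      = ∫ x, (x a * G x) * Real.exp (-(V x)) := by
  refine core_c1 h a G hG ?_ ?_ ?_
  · exact hV.toReg.integrable_gr (Gr.sum _ fun b _ => (gr_tau h a b).mul (hG1 b))
  · exact hV.toReg.integrable_gr ((Gr.coord a).mul hG0)
  · exact hV.toReg.integrable_gr hG0

theorem stmtStein : StmtStein := by
  intro n ψ V c C M hV h W hW
  unfold Ex
  congr 1
  have hW2 : ContDiff ℝ 2 W := hW.C2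
  have hcore : ∀ a, ∫ x, (∑ b, tau ψ x a b * pd b (pd a W) x) * Real.exp (-(V x))
      = ∫ x, (x a * pd a W x) * Real.exp (-(V x)) := by
    intro a
    refine core_gr hV h a (pd a W) (differentiable_pd hW2 a) (hW.gr_pd a) fun b => ?_
    exact hW.gr_hess b a
  have e1 : ∀ x, (hess W x * tau ψ x).trace * Real.exp (-(V x))
      = ∑ a, (∑ b, tau ψ x a b * pd b (pd a W) x) * Real.exp (-(V x)) := by
    intro x
    rw [← Finset.sum_mul]
    congr 1
    rw [Matrix.trace]
    simp only [Matrix.diag_apply, Matrix.mul_apply]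
    rw [Finset.sum_comm]
    refine Finset.sum_congr rfl fun a _ => Finset.sum_congr rfl fun b _ => ?_
    rw [mul_comm]
    rfl
  have e2 : ∀ x, (∑ i, x i * pd i W x) * Real.exp (-(V x))
      = ∑ a, (x a * pd a W x) * Real.exp (-(V x)) := by
    intro x
    rw [← Finset.sum_mul]
  simp only [e1, e2]
  rw [integral_finsetSum, integral_finsetSum]
  · exact Finset.sum_congr rfl fun a _ => hcore a
  · intro a _
    exact hV.toReg.integrable_gr ((Gr.coord a).mul (hW.gr_pd a))
  · intro a _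
    exact hV.toReg.integrable_gr (Gr.sum _ fun b _ => (gr_tau h a b).mul (hW.gr_hess b a))

lemma pd_compact {f : E n → ℝ} (hf : HasCompactSupport f) (i : Fin n) :
    HasCompactSupport (pd i f) := by
  unfold pd
  exact (hf.fderiv ℝ).comp_left (g := fun L : E n →L[ℝ] ℝ => L (ei i)) (by simp)

lemma test_pd {f : E n → ℝ} (hf : Test f) (i : Fin n) : Test (pd i f) :=
  ⟨contDiff_pd_top hf.1 i, pd_compact hf.2 i⟩

lemma tGr {f : E n → ℝ} (hf : Test f) : Gr f := Gr.of_test hf.1.continuous hf.2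

lemma tDiff {f : E n → ℝ} (hf : Test f) : Differentiable ℝ f :=
  hf.1.differentiable (by norm_num)

theorem stmtIBP : StmtIBP := by
  intro n ψ V c C M hV h u f hu hf
  unfold Ex
  congr 1
  have hfd : Differentiable ℝ f := hf.differentiable (by norm_num)
  -- the test function `f ∂_a u`
  have hT : ∀ a, Test (fun x => f x * pd a u x) := fun a =>
    ⟨hf.mul (test_pd hu a).1, (test_pd hu a).2.mul_left⟩
  have hcore : ∀ a, ∫ x, (∑ b, tau ψ x a b * pd b (fun z => f z * pd a u z) x) * Real.exp (-(V x))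
      = ∫ x, (x a * (f x * pd a u x)) * Real.exp (-(V x)) := by
    intro a
    refine core_gr hV h a _ (tDiff (hT a)) (tGr (hT a)) fun b => tGr (test_pd (hT a) b)
  have hi1 : ∀ a, Integrable (fun x =>
      (∑ b, tau ψ x a b * pd b (fun z => f z * pd a u z) x) * Real.exp (-(V x))) := fun a =>
    hV.toReg.integrable_gr (Gr.sum _ fun b _ => (gr_tau h a b).mul (tGr (test_pd (hT a) b)))
  have hi2 : ∀ a, Integrable (fun x => (x a * (f x * pd a u x)) * Real.exp (-(V x))) := fun a =>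
    hV.toReg.integrable_gr ((Gr.coord a).mul (tGr (hT a)))
  have hfu : ∀ a b, Test (fun x => pd b f x * pd a u x) := fun a b =>
    ⟨(contDiff_pd_top hf b).mul (test_pd hu a).1, (test_pd hu a).2.mul_left⟩
  have hi3 : Integrable (fun x => (∑ b, pd b f x * fld ψ u b x) * Real.exp (-(V x))) := by
    have : (fun x => (∑ b, pd b f x * fld ψ u b x)) =
        fun x => ∑ b, ∑ a, tau ψ x b a * (pd b f x * pd a u x) := by
      funext x
      refine Finset.sum_congr rfl fun b _ => ?_
      unfold fld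
      rw [Finset.mul_sum]
      exact Finset.sum_congr rfl fun a _ => by ring
    have h5 : Gr (fun x => ∑ b, pd b f x * fld ψ u b x) := by
      rw [this]
      exact Gr.sum _ fun b _ => Gr.sum _ fun a _ => (gr_tau h b a).mul (tGr (hfu a b))
    exact hV.toReg.integrable_gr h5
  have key : ∀ x, (-(Lop ψ u x) * f x) * Real.exp (-(V x))
      = (∑ b, pd b f x * fld ψ u b x) * Real.exp (-(V x))
        - ((∑ a, (∑ b, tau ψ x a b * pd b (fun z => f z * pd a u z) x) * Real.exp (-(V x)))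
          - ∑ a, (x a * (f x * pd a u x)) * Real.exp (-(V x))) := by
    intro x
    have e1 : ∀ a b, pd b (fun z => f z * pd a u z) x
        = f x * hess u x b a + pd b f x * pd a u x := fun a b => by
      rw [B294.pd_mul b (hfd x) (tDiff (test_pd hu a) x)]
      rfl
    simp only [e1, ← Finset.sum_mul]
    rw [← sub_mul, ← sub_mul]
    congr 1
    unfold Lop fld
    simp only [mul_add, Finset.sum_add_distrib]
    have e2 : ∑ a, ∑ b, tau ψ x a b * (f x * hess u x b a)
        = f x * ∑ i, ∑ j, tau ψ x i j * hess u x i j := by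
      rw [Finset.mul_sum]
      refine Finset.sum_congr rfl fun a _ => ?_
      rw [Finset.mul_sum]
      refine Finset.sum_congr rfl fun b _ => ?_
      rw [hess_symm (hu.1.of_le (by norm_cast)) x b a]
      ring
    have e3 : ∑ a, ∑ b, tau ψ x a b * (pd b f x * pd a u x)
        = ∑ b, pd b f x * ∑ a, tau ψ x b a * pd a u x := by
      rw [Finset.sum_comm]
      refine Finset.sum_congr rfl fun b _ => ?_
      rw [Finset.mul_sum]
      refine Finset.sum_congr rfl fun a _ => ?_
      rw [tau_symm h x a b]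
      ring
    have e4 : ∑ a, x a * (f x * pd a u x) = f x * ∑ i, x i * pd i u x := by
      rw [Finset.mul_sum]
      exact Finset.sum_congr rfl fun a _ => by ring
    rw [e2, e3, e4]
    ring
  have hs1 : Integrable (fun x => ∑ a,
      (∑ b, tau ψ x a b * pd b (fun z => f z * pd a u z) x) * Real.exp (-(V x))) :=
    integrable_finsetSum _ fun a _ => hi1 a
  have hs2 : Integrable (fun x => ∑ a, (x a * (f x * pd a u x)) * Real.exp (-(V x))) :=
    integrable_finsetSum _ fun a _ => hi2 a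
  have hz : ∫ x, ((∑ a, (∑ b, tau ψ x a b * pd b (fun z => f z * pd a u z) x) * Real.exp (-(V x)))
      - ∑ a, (x a * (f x * pd a u x)) * Real.exp (-(V x))) = 0 := by
    rw [integral_sub hs1 hs2, integral_finsetSum _ fun a _ => hi1 a,
      integral_finsetSum _ fun a _ => hi2 a, Finset.sum_congr rfl fun a _ => hcore a, sub_self]
  have hs3 : Integrable (fun x =>
      ((∑ a, (∑ b, tau ψ x a b * pd b (fun z => f z * pd a u z) x) * Real.exp (-(V x)))
      - ∑ a, (x a * (f x * pd a u x)) * Real.exp (-(V x)))) := hs1.sub hs2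
  simp only [key]
  rw [integral_sub hi3 hs3, hz, sub_zero]

end Vale.Agent.P227.M.B294
end

section

/-! P227/M, block ID (helper590): first order calculus for locally Lipschitz functions on `E n`:
a.e. product rules, integration by parts (also weighted by `e^{-V}`), and the weak symmetry of second
derivatives `∫ (∂ᵢW)(∂ⱼY) = ∫ (∂ⱼW)(∂ᵢY)`. -/

open MeasureTheory Set Metric Filter
open scoped Topology NNReal

namespace Vale.Agent.P227.M.X

variable {n : ℕ}

/-- Lipschitz on every ball -/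
def LL (f : E n → ℝ) : Prop :=
  ∀ R : ℝ, ∃ C : ℝ, ∀ x y, ‖x‖ ≤ R → ‖y‖ ≤ R → |f x - f y| ≤ C * ‖x - y‖

/-- vanishes outside a ball -/
def CS (f : E n → ℝ) : Prop := ∃ R : ℝ, ∀ x, R < ‖x‖ → f x = 0

/-- measurable and bounded on balls -/
def LB (f : E n → ℝ) : Prop := Measurable f ∧ ∀ R : ℝ, ∃ B : ℝ, ∀ x, ‖x‖ ≤ R → |f x| ≤ B

/-! ### locally Lipschitz functions -/

theorem LL.lipOn {f : E n → ℝ} (h : LL f) (R : ℝ) :
    ∃ K : ℝ≥0, LipschitzOnWith K f (closedBall (0 : E n) R) := by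
  obtain ⟨C, hC⟩ := h R
  refine ⟨C.toNNReal, LipschitzOnWith.of_dist_le_mul fun x hx y hy => ?_⟩
  rw [mem_closedBall_zero_iff] at hx hy
  rw [Real.dist_eq, dist_eq_norm]
  exact (hC x y hx hy).trans (mul_le_mul_of_nonneg_right (Real.le_coe_toNNReal C) (norm_nonneg _))

theorem ball_nhds (x : E n) {R : ℝ} (h : ‖x‖ < R) : closedBall (0 : E n) R ∈ 𝓝 x :=
  mem_of_superset (isOpen_ball.mem_nhds (by simpa using h)) ball_subset_closedBall

theorem LL.continuous {f : E n → ℝ} (h : LL f) : Continuous f := by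
  rw [continuous_iff_continuousAt]
  intro x
  obtain ⟨K, hK⟩ := h.lipOn (‖x‖ + 1)
  exact (hK.continuousOn).continuousAt (ball_nhds x (by linarith))

theorem LL.bdd {f : E n → ℝ} (h : LL f) (R : ℝ) : ∃ B : ℝ, 0 ≤ B ∧ ∀ x, ‖x‖ ≤ R → |f x| ≤ B := by
  obtain ⟨B, hB⟩ := (isCompact_closedBall (0 : E n) R).exists_bound_of_continuousOn h.continuous.continuousOn
  refine ⟨max B 0, le_max_right _ _, fun x hx => ?_⟩
  exact (hB x (by simpa using hx)).trans (le_max_left _ _)

theorem LL.const (c : ℝ) : LL (fun _ : E n => c) := by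
  intro R
  exact ⟨0, fun x y _ _ => by simp⟩

theorem LL.add {f g : E n → ℝ} (hf : LL f) (hg : LL g) : LL (fun x => f x + g x) := by
  intro R
  obtain ⟨A, hA⟩ := hf R
  obtain ⟨B, hB⟩ := hg R
  refine ⟨A + B, fun x y hx hy => ?_⟩
  have e : f x + g x - (f y + g y) = (f x - f y) + (g x - g y) := by ring
  rw [e, add_mul]
  exact (abs_add_le _ _).trans (add_le_add (hA x y hx hy) (hB x y hx hy))

theorem LL.neg {f : E n → ℝ} (hf : LL f) : LL (fun x => -f x) := by
  intro R
  obtain ⟨A, hA⟩ := hf R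
  refine ⟨A, fun x y hx hy => ?_⟩
  have e : -f x - -f y = -(f x - f y) := by ring
  rw [e, abs_neg]
  exact hA x y hx hy

theorem LL.sub {f g : E n → ℝ} (hf : LL f) (hg : LL g) : LL (fun x => f x - g x) := by
  simpa [sub_eq_add_neg] using hf.add hg.neg

theorem LL.mul {f g : E n → ℝ} (hf : LL f) (hg : LL g) : LL (fun x => f x * g x) := by
  intro R
  obtain ⟨A, hA⟩ := hf R
  obtain ⟨B, hB⟩ := hg R
  obtain ⟨P, hP0, hP⟩ := hf.bdd R
  obtain ⟨Q, hQ0, hQ⟩ := hg.bdd R
  refine ⟨P * B + A * Q, fun x y hx hy => ?_⟩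
  have e : f x * g x - f y * g y = f x * (g x - g y) + (f x - f y) * g y := by ring
  rw [e, add_mul]
  refine (abs_add_le _ _).trans (add_le_add ?_ ?_)
  · rw [abs_mul, mul_assoc]
    exact mul_le_mul (hP x hx) (hB x y hx hy) (abs_nonneg _) hP0
  · rw [abs_mul]
    calc |f x - f y| * |g y| ≤ (A * ‖x - y‖) * Q :=
          mul_le_mul (hA x y hx hy) (hQ y hy) (abs_nonneg _) ((abs_nonneg _).trans (hA x y hx hy))
      _ = A * Q * ‖x - y‖ := by ring

theorem LL.sum {ι : Type*} {s : Finset ι} {f : ι → E n → ℝ} (hf : ∀ i ∈ s, LL (f i)) :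
    LL (fun x => ∑ i ∈ s, f i x) := by
  classical
  induction s using Finset.induction_on with
  | empty => simpa using LL.const (n := n) 0
  | insert a s ha ih =>
    have h1 := (hf a (Finset.mem_insert_self a s)).add
      (ih fun i hi => hf i (Finset.mem_insert_of_mem hi))
    simpa [Finset.sum_insert ha] using h1

theorem LL.of_lip {f : E n → ℝ} {C : ℝ} (h : ∀ x y, |f x - f y| ≤ C * ‖x - y‖) : LL f :=
  fun _ => ⟨C, fun x y _ _ => h x y⟩

theorem LL.of_contDiff {f : E n → ℝ} (h : ContDiff ℝ 1 f) : LL f := by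
  intro R
  have hc : Continuous (fderiv ℝ f) := h.continuous_fderiv one_ne_zero
  obtain ⟨B, hB⟩ := (isCompact_closedBall (0 : E n) R).exists_bound_of_continuousOn hc.continuousOn
  refine ⟨B, fun x y hx hy => ?_⟩
  have := (convex_closedBall (0 : E n) R).norm_image_sub_le_of_norm_fderiv_le (𝕜 := ℝ) (f := f) (C := B)
    (fun z _ => (h.differentiable one_ne_zero) z) (fun z hz => hB z hz)
    (show y ∈ closedBall (0 : E n) R by simpa using hy) (show x ∈ closedBall (0 : E n) R by simpa using hx)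
  simpa [Real.norm_eq_abs] using this

/-- local extension to a Lipschitz function -/
theorem LL.ext {f : E n → ℝ} (h : LL f) (R : ℝ) :
    ∃ g : E n → ℝ, ∃ K : ℝ≥0, LipschitzWith K g ∧ ∀ x, ‖x‖ ≤ R → f x = g x := by
  obtain ⟨K, hK⟩ := h.lipOn R
  obtain ⟨g, hg, hfg⟩ := hK.extend_real
  exact ⟨g, K, hg, fun x hx => hfg (by simpa using hx)⟩

theorem eventually_eq_of_ball {f g : E n → ℝ} {R : ℝ} (h : ∀ x, ‖x‖ ≤ R → f x = g x) {x : E n} (hx : ‖x‖ < R) :
    f =ᶠ[𝓝 x] g := by
  filter_upwards [ball_nhds x hx] with y hy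
  exact h y (by simpa using hy)

theorem LL.ae_diff {f : E n → ℝ} (h : LL f) : ∀ᵐ x, DifferentiableAt ℝ f x := by
  have h1 : ∀ k : ℕ, ∀ᵐ x : E n, ‖x‖ < k → DifferentiableAt ℝ f x := by
    intro k
    obtain ⟨g, K, hg, hfg⟩ := h.ext k
    filter_upwards [hg.ae_differentiableAt] with x hx hxk
    exact hx.congr_of_eventuallyEq (eventually_eq_of_ball hfg hxk)
  filter_upwards [ae_all_iff.2 h1] with x hx
  obtain ⟨k, hk⟩ := exists_nat_gt ‖x‖
  exact hx k hk

/-! ### locally bounded functions -/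

theorem LL.lb {f : E n → ℝ} (h : LL f) : LB f :=
  ⟨h.continuous.measurable, fun R => by obtain ⟨B, _, hB⟩ := h.bdd R; exact ⟨B, hB⟩⟩

theorem LB.pd {f : E n → ℝ} (h : LL f) (i : Fin n) : LB (pd i f) := by
  refine ⟨measurable_fderiv_apply_const ℝ f _, fun R => ?_⟩
  obtain ⟨K, hK⟩ := h.lipOn (R + 1)
  refine ⟨K, fun x hx => ?_⟩
  have h1 := norm_fderiv_le_of_lipschitzOn ℝ (ball_nhds x (by linarith : ‖x‖ < R + 1)) hK
  have h2 : ‖fderiv ℝ f x (ei i)‖ ≤ ‖fderiv ℝ f x‖ * ‖(ei i : E n)‖ := ContinuousLinearMap.le_opNorm _ _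
  have h3 : ‖(ei i : E n)‖ = 1 := by simp [ei]
  rw [h3, mul_one] at h2
  exact h2.trans h1

theorem LB.add {f g : E n → ℝ} (hf : LB f) (hg : LB g) : LB (fun x => f x + g x) := by
  refine ⟨hf.1.add hg.1, fun R => ?_⟩
  obtain ⟨A, hA⟩ := hf.2 R
  obtain ⟨B, hB⟩ := hg.2 R
  exact ⟨A + B, fun x hx => (abs_add_le _ _).trans (add_le_add (hA x hx) (hB x hx))⟩

theorem LB.neg {f : E n → ℝ} (hf : LB f) : LB (fun x => -f x) := by
  refine ⟨hf.1.neg, fun R => ?_⟩
  obtain ⟨A, hA⟩ := hf.2 R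
  exact ⟨A, fun x hx => by rw [abs_neg]; exact hA x hx⟩

theorem LB.sub {f g : E n → ℝ} (hf : LB f) (hg : LB g) : LB (fun x => f x - g x) := by
  simpa [sub_eq_add_neg] using hf.add hg.neg

theorem LB.mul {f g : E n → ℝ} (hf : LB f) (hg : LB g) : LB (fun x => f x * g x) := by
  refine ⟨hf.1.mul hg.1, fun R => ?_⟩
  obtain ⟨A, hA⟩ := hf.2 R
  obtain ⟨B, hB⟩ := hg.2 R
  refine ⟨max A 0 * max B 0, fun x hx => ?_⟩
  rw [abs_mul]
  exact mul_le_mul ((hA x hx).trans (le_max_left _ _)) ((hB x hx).trans (le_max_left _ _)) (abs_nonneg _)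
    (le_max_right _ _)

theorem LB.const (c : ℝ) : LB (fun _ : E n => c) := (LL.const c).lb

theorem LB.sum {ι : Type*} {s : Finset ι} {f : ι → E n → ℝ} (hf : ∀ i ∈ s, LB (f i)) :
    LB (fun x => ∑ i ∈ s, f i x) := by
  classical
  induction s using Finset.induction_on with
  | empty => simpa using LB.const (n := n) 0
  | insert a s ha ih =>
    have h1 := (hf a (Finset.mem_insert_self a s)).add
      (ih fun i hi => hf i (Finset.mem_insert_of_mem hi))
    simpa [Finset.sum_insert ha] using h1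

/-! ### compact supports -/

theorem CS.mul_left {f : E n → ℝ} (hf : CS f) (g : E n → ℝ) : CS (fun x => g x * f x) := by
  obtain ⟨R, hR⟩ := hf
  exact ⟨R, fun x hx => by simp only [hR x hx, mul_zero]⟩

theorem CS.mul_right {f : E n → ℝ} (hf : CS f) (g : E n → ℝ) : CS (fun x => f x * g x) := by
  obtain ⟨R, hR⟩ := hf
  exact ⟨R, fun x hx => by simp only [hR x hx, zero_mul]⟩

theorem CS.add {f g : E n → ℝ} (hf : CS f) (hg : CS g) : CS (fun x => f x + g x) := by
  obtain ⟨R, hR⟩ := hf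
  obtain ⟨S, hS⟩ := hg
  refine ⟨max R S, fun x hx => ?_⟩
  simp only [hR x ((le_max_left _ _).trans_lt hx), hS x ((le_max_right _ _).trans_lt hx), add_zero]

theorem CS.neg {f : E n → ℝ} (hf : CS f) : CS (fun x => -f x) := by
  obtain ⟨R, hR⟩ := hf
  exact ⟨R, fun x hx => by simp only [hR x hx, neg_zero]⟩

theorem CS.sub {f g : E n → ℝ} (hf : CS f) (hg : CS g) : CS (fun x => f x - g x) := by
  simpa [sub_eq_add_neg] using hf.add hg.neg

theorem CS.sum {ι : Type*} {s : Finset ι} {f : ι → E n → ℝ} (hf : ∀ i ∈ s, CS (f i)) :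
    CS (fun x => ∑ i ∈ s, f i x) := by
  classical
  induction s using Finset.induction_on with
  | empty => exact ⟨0, fun x _ => by simp⟩
  | insert a s ha ih =>
    have h1 := (hf a (Finset.mem_insert_self a s)).add
      (ih fun i hi => hf i (Finset.mem_insert_of_mem hi))
    simpa [Finset.sum_insert ha] using h1

theorem CS.pd {f : E n → ℝ} (hf : CS f) (i : Fin n) : CS (pd i f) := by
  obtain ⟨R, hR⟩ := hf
  refine ⟨R, fun x hx => ?_⟩
  have h1 : f =ᶠ[𝓝 x] fun _ => (0 : ℝ) := by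
    have : {y : E n | R < ‖y‖} ∈ 𝓝 x := (isOpen_lt continuous_const continuous_norm).mem_nhds hx
    filter_upwards [this] with y hy
    exact hR y hy
  unfold M.pd
  rw [h1.fderiv_eq]
  simp

theorem CS.of_hasCompactSupport {f : E n → ℝ} (h : HasCompactSupport f) : CS f := by
  obtain ⟨R, hR⟩ := h.isCompact.isBounded.subset_closedBall (0 : E n)
  refine ⟨R, fun x hx => ?_⟩
  by_contra h0
  have := hR (subset_tsupport f h0)
  rw [mem_closedBall_zero_iff] at this
  linarith

theorem CS.hasCompactSupport {f : E n → ℝ} (h : CS f) : HasCompactSupport f := by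
  obtain ⟨R, hR⟩ := h
  refine HasCompactSupport.intro (isCompact_closedBall (0 : E n) R) fun x hx => hR x ?_
  rw [mem_closedBall_zero_iff, not_le] at hx
  exact hx

theorem LB.integrable {f : E n → ℝ} (h : LB f) (hc : CS f) : Integrable f := by
  obtain ⟨R, hR⟩ := hc
  obtain ⟨B, hB⟩ := h.2 R
  have h1 : IntegrableOn f (closedBall (0 : E n) R) := by
    refine Measure.integrableOn_of_bounded (M := B) (measure_closedBall_lt_top).ne
      h.1.aestronglyMeasurable ?_
    exact (ae_restrict_iff' measurableSet_closedBall).2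
      (Eventually.of_forall fun x hx => hB x (by simpa using hx))
  refine (integrableOn_iff_integrable_of_support_subset ?_).1 h1
  intro x hx
  by_contra h0
  rw [mem_closedBall_zero_iff, not_le] at h0
  exact hx (hR x h0)

/-! ### pointwise rules -/

section rules
variable {f g : E n → ℝ} {x : E n}

theorem pd_add (i : Fin n) (hf : DifferentiableAt ℝ f x) (hg : DifferentiableAt ℝ g x) :
    pd i (fun z => f z + g z) x = pd i f x + pd i g x := by
  unfold M.pd
  rw [fderiv_fun_add hf hg]; rfl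

theorem pd_sub (i : Fin n) (hf : DifferentiableAt ℝ f x) (hg : DifferentiableAt ℝ g x) :
    pd i (fun z => f z - g z) x = pd i f x - pd i g x := by
  unfold M.pd
  rw [fderiv_fun_sub hf hg]; rfl

theorem pd_neg (i : Fin n) : pd i (fun z => - f z) x = - pd i f x := by
  unfold M.pd
  rw [fderiv_fun_neg]; rfl

theorem pd_mul (i : Fin n) (hf : DifferentiableAt ℝ f x) (hg : DifferentiableAt ℝ g x) :
    pd i (fun z => f z * g z) x = pd i f x * g x + f x * pd i g x := by
  unfold M.pd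
  rw [fderiv_fun_mul hf hg]
  simp [mul_comm]
  ring

theorem pd_sum {ι : Type*} (s : Finset ι) {F : ι → E n → ℝ} (i : Fin n)
    (hF : ∀ j ∈ s, DifferentiableAt ℝ (F j) x) :
    pd i (fun z => ∑ j ∈ s, F j z) x = ∑ j ∈ s, pd i (F j) x := by
  unfold M.pd
  rw [fderiv_fun_sum hF]
  simp

theorem pd_exp_neg (i : Fin n) {V : E n → ℝ} (hV : DifferentiableAt ℝ V x) :
    pd i (fun z => Real.exp (- V z)) x = - pd i V x * Real.exp (-V x) := by
  unfold M.pd
  rw [fderiv_exp hV.fun_neg, fderiv_fun_neg]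
  simp [mul_comm]

end rules

/-! ### integration by parts -/

theorem LL.lipschitz {g : E n → ℝ} (h : LL g) (hc : CS g) : ∃ K : ℝ≥0, LipschitzWith K g := by
  obtain ⟨R0, hR0⟩ := hc
  set R := max R0 0 with hRdef
  have hR : ∀ x, R < ‖x‖ → g x = 0 := fun x hx => hR0 x ((le_max_left _ _).trans_lt hx)
  obtain ⟨C, hC⟩ := h (R + 1)
  have key : ∀ x y : E n, ‖x‖ ≤ R + 1 → R + 1 < ‖y‖ → |g x - g y| ≤ max C 0 * ‖x - y‖ := by
    intro x y hx hy
    rw [hR y (by linarith), sub_zero]
    have hcont : ContinuousOn (fun t : ℝ => ‖x + t • (y - x)‖) (Icc 0 1) := by fun_prop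
    have hmem : R + 1 ∈ Icc (‖x + (0 : ℝ) • (y - x)‖) (‖x + (1 : ℝ) • (y - x)‖) := by
      simp only [zero_smul, add_zero, one_smul, add_sub_cancel]
      exact ⟨hx, hy.le⟩
    obtain ⟨t, ht, hz⟩ := intermediate_value_Icc (zero_le_one' ℝ) hcont hmem
    set z := x + t • (y - x) with hzdef
    have hz' : ‖z‖ = R + 1 := hz
    have hgz : g z = 0 := hR z (by rw [hz']; linarith)
    have h1 := hC x z hx hz'.le
    rw [hgz, sub_zero] at h1
    have h2 : ‖x - z‖ ≤ ‖x - y‖ := by
      have : x - z = t • (x - y) := by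
        rw [hzdef]; simp only [smul_sub]; abel
      rw [this, norm_smul, Real.norm_eq_abs, abs_of_nonneg ht.1]
      exact mul_le_of_le_one_left (norm_nonneg _) ht.2
    calc |g x| ≤ C * ‖x - z‖ := h1
      _ ≤ max C 0 * ‖x - z‖ := mul_le_mul_of_nonneg_right (le_max_left _ _) (norm_nonneg _)
      _ ≤ max C 0 * ‖x - y‖ := mul_le_mul_of_nonneg_left h2 (le_max_right _ _)
  refine ⟨(max C 0).toNNReal, LipschitzWith.of_dist_le_mul fun x y => ?_⟩
  rw [Real.dist_eq, dist_eq_norm, Real.coe_toNNReal _ (le_max_right _ _)]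
  by_cases hx : ‖x‖ ≤ R + 1
  · by_cases hy : ‖y‖ ≤ R + 1
    · exact (hC x y hx hy).trans (mul_le_mul_of_nonneg_right (le_max_left _ _) (norm_nonneg _))
    · exact key x y hx (not_le.1 hy)
  · by_cases hy : ‖y‖ ≤ R + 1
    · rw [abs_sub_comm, norm_sub_rev]
      exact key y x hy (not_le.1 hx)
    · rw [hR x (by linarith [not_le.1 hx]), hR y (by linarith [not_le.1 hy]), sub_zero, abs_zero]
      exact mul_nonneg (le_max_right _ _) (norm_nonneg _)

theorem ibp {f g : E n → ℝ} (hf : LL f) (hg : LL g) (hc : CS g) (i : Fin n) :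
    ∫ x, pd i f x * g x = - ∫ x, f x * pd i g x := by
  obtain ⟨Kg, hKg⟩ := hg.lipschitz hc
  obtain ⟨R, hR⟩ := hc
  obtain ⟨f', Kf, hf', hff'⟩ := hf.ext (R + 1)
  have hcs : HasCompactSupport g := CS.hasCompactSupport ⟨R, hR⟩
  have h1 := hf'.integral_lineDeriv_mul_eq (μ := volume) hKg hcs (ei i)
  have hgR : ∀ x, R < ‖x‖ → pd i g x = 0 := by
    intro x hx
    have h1 : g =ᶠ[𝓝 x] fun _ => (0 : ℝ) := by
      have : {y : E n | R < ‖y‖} ∈ 𝓝 x := (isOpen_lt continuous_const continuous_norm).mem_nhds hx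
      filter_upwards [this] with y hy
      exact hR y hy
    unfold M.pd
    rw [h1.fderiv_eq]
    simp
  have e1 : ∫ x, pd i f x * g x = ∫ x, lineDeriv ℝ f' x (ei i) * g x := by
    refine integral_congr_ae ?_
    filter_upwards [hf.ae_diff, hf'.ae_differentiableAt] with x hx hx'
    by_cases hxR : R < ‖x‖
    · simp only [hR x hxR, mul_zero]
    · have h3 : f =ᶠ[𝓝 x] f' := eventually_eq_of_ball hff' (by linarith [not_lt.1 hxR])
      rw [hx'.lineDeriv_eq_fderiv, ← h3.fderiv_eq]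
      rfl
  have e2 : ∫ x, f x * pd i g x = - ∫ x, lineDeriv ℝ g x (-ei i) * f' x := by
    rw [← integral_neg]
    refine integral_congr_ae ?_
    filter_upwards [hKg.ae_differentiableAt] with x hx
    rw [hx.lineDeriv_eq_fderiv, map_neg]
    by_cases hxR : R < ‖x‖
    · have h4 := hgR x hxR
      unfold M.pd at h4 ⊢
      simp only [h4]
      ring
    · rw [← hff' x (by linarith [not_lt.1 hxR])]
      unfold M.pd
      ring
  rw [e1, h1, e2, neg_neg]

theorem ibp' {f g : E n → ℝ} (hf : LL f) (hg : LL g) (hc : CS f) (i : Fin n) :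
    ∫ x, pd i f x * g x = - ∫ x, f x * pd i g x := by
  have h := ibp hg hf hc i
  have e1 : ∫ x, pd i f x * g x = ∫ x, g x * pd i f x := by
    refine integral_congr_ae (Eventually.of_forall fun x => ?_); exact mul_comm _ _
  have e2 : ∫ x, f x * pd i g x = ∫ x, pd i g x * f x := by
    refine integral_congr_ae (Eventually.of_forall fun x => ?_); exact mul_comm _ _
  rw [e1, e2, h, neg_neg]

/-- weak symmetry of second derivatives -/
theorem xx {W Y : E n → ℝ} (hW : LL W) (hWc : CS W) (hY : LL Y) (hYc : CS Y) (i j : Fin n) :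
    ∫ x, pd i W x * pd j Y x = ∫ x, pd j W x * pd i Y x := by
  obtain ⟨KW, hKW⟩ := hW.lipschitz hWc
  obtain ⟨KY, hKY⟩ := hY.lipschitz hYc
  have hiY : Integrable (pd j Y) := (LB.pd hY j).integrable (hYc.pd j)
  have hiW : Integrable (pd j W) := (LB.pd hW j).integrable (hWc.pd j)
  have A1 := hKW.integral_inv_smul_sub_mul_tendsto_integral_lineDeriv_mul hiY (ei i)
  have A2 := hKY.integral_inv_smul_sub_mul_tendsto_integral_lineDeriv_mul hiW (-ei i)
  have hshift : ∀ (F : E n → ℝ) (hF : LL F) (v : E n), LL (fun x => F (x + v)) := by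
    intro F hF v R
    obtain ⟨C, hC⟩ := hF (R + ‖v‖)
    refine ⟨C, fun x y hx hy => ?_⟩
    have := hC (x + v) (y + v) ((norm_add_le _ _).trans (by linarith)) ((norm_add_le _ _).trans (by linarith))
    simpa using this
  have hkey : ∀ t : ℝ, 0 < t → ∫ x, (t⁻¹ • (W (x + t • ei i) - W x)) * pd j Y x =
      - ∫ x, (t⁻¹ • (Y (x + t • -ei i) - Y x)) * pd j W x := by
    intro t ht
    have hLt : LL (fun x => t⁻¹ * (W (x + t • ei i) - W x)) :=
      (LL.const t⁻¹).mul ((hshift W hW (t • ei i)).sub hW)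
    have h1 := ibp hLt hY hYc j
    have hd : ∀ᵐ x, pd j (fun x => t⁻¹ * (W (x + t • ei i) - W x)) x =
        t⁻¹ * (pd j W (x + t • ei i) - pd j W x) := by
      have hm : ∀ᵐ x : E n, DifferentiableAt ℝ W (x + t • ei i) :=
        (measurePreserving_add_right volume (t • ei i : E n)).quasiMeasurePreserving.ae hW.ae_diff
      filter_upwards [hW.ae_diff, hm] with x h1 h2
      have h3 : HasFDerivAt (fun x => W (x + t • ei i)) (fderiv ℝ W (x + t • ei i)) x :=
        h2.hasFDerivAt.comp x ((hasFDerivAt_id x).add_const (t • ei i))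
      have h4 : HasFDerivAt (fun x => t⁻¹ * (W (x + t • ei i) - W x))
          (t⁻¹ • (fderiv ℝ W (x + t • ei i) - fderiv ℝ W x)) x :=
        (h3.sub h1.hasFDerivAt).const_mul t⁻¹
      unfold M.pd
      rw [h4.fderiv]
      simp
    have h2 : ∫ x, pd j (fun x => t⁻¹ * (W (x + t • ei i) - W x)) x * Y x =
        ∫ x, t⁻¹ * (pd j W (x + t • ei i) - pd j W x) * Y x :=
      integral_congr_ae (by filter_upwards [hd] with x hx; rw [hx])
    rw [h2] at h1
    have h3 : ∫ x, t⁻¹ * (pd j W (x + t • ei i) - pd j W x) * Y x =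
        ∫ x, (t⁻¹ • (Y (x + t • -ei i) - Y x)) * pd j W x := by
      have hbW := LB.pd hW j
      have hYb := hY.lb
      have i1 : Integrable fun x => pd j W x * Y x :=
        (hbW.mul hYb).integrable (hYc.mul_left _)
      have i2 : Integrable fun x => pd j W x * Y (x + t • -ei i) :=
        (hbW.mul (hshift Y hY _).lb).integrable ((hWc.pd j).mul_right _)
      have i3 : Integrable fun x => pd j W (x + t • ei i) * Y x := by
        have := i2.comp_add_right (t • ei i : E n)
        refine this.congr (Eventually.of_forall fun x => ?_)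
        simp [add_assoc]
      have e1 : ∫ x, pd j W (x + t • ei i) * Y x = ∫ x, pd j W x * Y (x + t • -ei i) := by
        rw [← integral_add_right_eq_self (fun x => pd j W x * Y (x + t • -ei i)) (t • ei i : E n)]
        refine integral_congr_ae (Eventually.of_forall fun x => ?_)
        simp [add_assoc]
      calc ∫ x, t⁻¹ * (pd j W (x + t • ei i) - pd j W x) * Y x
          = ∫ x, t⁻¹ * (pd j W (x + t • ei i) * Y x - pd j W x * Y x) := by
            refine integral_congr_ae (Eventually.of_forall fun x => ?_)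
            simp only; ring
        _ = t⁻¹ * ((∫ x, pd j W (x + t • ei i) * Y x) - ∫ x, pd j W x * Y x) := by
            rw [integral_const_mul, integral_sub i3 i1]
        _ = t⁻¹ * ((∫ x, pd j W x * Y (x + t • -ei i)) - ∫ x, pd j W x * Y x) := by rw [e1]
        _ = ∫ x, t⁻¹ * (pd j W x * Y (x + t • -ei i) - pd j W x * Y x) := by
            rw [integral_const_mul, integral_sub i2 i1]
        _ = ∫ x, (t⁻¹ • (Y (x + t • -ei i) - Y x)) * pd j W x := by
            refine integral_congr_ae (Eventually.of_forall fun x => ?_)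
            simp only [smul_eq_mul]; ring
    rw [h3] at h1
    simp only [smul_eq_mul] at h1 ⊢
    linarith
  have A3 : Tendsto (fun t : ℝ => ∫ x, (t⁻¹ • (W (x + t • ei i) - W x)) * pd j Y x) (𝓝[>] 0)
      (𝓝 (- ∫ x, lineDeriv ℝ Y x (-ei i) * pd j W x)) := by
    refine A2.neg.congr' ?_
    filter_upwards [self_mem_nhdsWithin] with t ht
    exact (hkey t ht).symm
  have h5 := tendsto_nhds_unique A1 A3
  have e1 : ∫ x, lineDeriv ℝ W x (ei i) * pd j Y x = ∫ x, pd i W x * pd j Y x := by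
    refine integral_congr_ae ?_
    filter_upwards [hW.ae_diff] with x hx
    rw [hx.lineDeriv_eq_fderiv]; rfl
  have e2 : - ∫ x, lineDeriv ℝ Y x (-ei i) * pd j W x = ∫ x, pd j W x * pd i Y x := by
    rw [← integral_neg]
    refine integral_congr_ae ?_
    filter_upwards [hY.ae_diff] with x hx
    rw [hx.lineDeriv_eq_fderiv, map_neg]
    unfold M.pd
    ring
  rw [← e1, ← e2, h5]

/-! ### weighted versions -/

theorem LL.exp_neg {V : E n → ℝ} (hV : ContDiff ℝ 1 V) : LL (fun x => Real.exp (-V x)) :=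
  LL.of_contDiff (hV.neg.exp)

theorem ibpw {V : E n → ℝ} (hV : ContDiff ℝ 1 V) {f g : E n → ℝ} (hf : LL f) (hg : LL g)
    (hc : CS f ∨ CS g) (i : Fin n) :
    ∫ x, pd i f x * g x * Real.exp (-V x) =
      ∫ x, f x * (pd i V x * g x - pd i g x) * Real.exp (-V x) := by
  have hρ := LL.exp_neg hV
  have hgρ : LL (fun x => g x * Real.exp (-V x)) := hg.mul hρ
  have h1 : ∫ x, pd i f x * (g x * Real.exp (-V x)) = - ∫ x, f x * pd i (fun x => g x * Real.exp (-V x)) x := by
    rcases hc with hc | hc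
    · exact ibp' hf hgρ hc i
    · exact ibp hf hgρ (hc.mul_right _) i
  calc ∫ x, pd i f x * g x * Real.exp (-V x) = ∫ x, pd i f x * (g x * Real.exp (-V x)) := by
        refine integral_congr_ae (Eventually.of_forall fun x => ?_); simp only; ring
    _ = - ∫ x, f x * pd i (fun x => g x * Real.exp (-V x)) x := h1
    _ = ∫ x, f x * (pd i V x * g x - pd i g x) * Real.exp (-V x) := by
        rw [← integral_neg]
        refine integral_congr_ae ?_
        filter_upwards [hg.ae_diff] with x hx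
        have hVd : DifferentiableAt ℝ V x := (hV.differentiable one_ne_zero) x
        rw [pd_mul i hx (by fun_prop), pd_exp_neg i hVd]
        ring

theorem xxw {V : E n → ℝ} (hV : ContDiff ℝ 1 V) {W Z : E n → ℝ} (hW : LL W) (hWc : CS W)
    (hZ : LL Z) (hZc : CS Z) (i j : Fin n) :
    ∫ x, pd i W x * (pd j V x * Z x - pd j Z x) * Real.exp (-V x) =
      ∫ x, pd j W x * (pd i V x * Z x - pd i Z x) * Real.exp (-V x) := by
  have hρ := LL.exp_neg hV
  have hY : LL (fun x => Z x * Real.exp (-V x)) := hZ.mul hρ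
  have h := xx hW hWc hY (hZc.mul_right _) i j
  have e : ∀ a b : Fin n, ∫ x, pd a W x * (pd b V x * Z x - pd b Z x) * Real.exp (-V x) =
      - ∫ x, pd a W x * pd b (fun x => Z x * Real.exp (-V x)) x := by
    intro a b
    rw [← integral_neg]
    refine integral_congr_ae ?_
    filter_upwards [hZ.ae_diff] with x hx
    have hVd : DifferentiableAt ℝ V x := (hV.differentiable one_ne_zero) x
    rw [pd_mul b hx (by fun_prop), pd_exp_neg b hVd]
    ring
  rw [e i j, e j i, h]

end Vale.Agent.P227.M.X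
end

section

/-! P227/M, block ID (helper590): the operators `D_a = ∑_e τ_ae ∂_e`, `D*_a = x_a - D_a` and the
integrated identities (A), (X), (B), (X3) for Lipschitz `τ`. -/

open MeasureTheory Set Metric Filter
open scoped Topology NNReal

namespace Vale.Agent.P227.M.X

variable {n : ℕ}

/-- data: `τ` locally Lipschitz, symmetric, with the Hessian structure (SY) and the Stein identity (ST) -/
structure TD (t : Fin n → Fin n → E n → ℝ) (V : E n → ℝ) : Prop where
  V_smooth : ContDiff ℝ (⊤ : ℕ∞) V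
  ll : ∀ a b, LL (t a b)
  symm : ∀ a b, t a b = t b a
  SY : ∀ᵐ x, ∀ a b d, ∑ e, t a e x * pd e (t b d) x = ∑ e, t b e x * pd e (t a d) x
  ST : ∀ᵐ x : E n, ∀ a, ∑ b, (pd b V x * t a b x - pd b (t a b) x) = x a

/-- `D_a f` -/
noncomputable def D (t : Fin n → Fin n → E n → ℝ) (a : Fin n) (f : E n → ℝ) (x : E n) : ℝ :=
  ∑ e, t a e x * pd e f x

/-- `D*_a f` -/
noncomputable def Ds (t : Fin n → Fin n → E n → ℝ) (a : Fin n) (f : E n → ℝ) (x : E n) : ℝ :=
  x a * f x - D t a f x

/-- weighted integral -/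
noncomputable def I (V f : E n → ℝ) : ℝ := ∫ x, f x * Real.exp (-V x)

/-- locally bounded with compact support -/
def BC (f : E n → ℝ) : Prop := LB f ∧ CS f

theorem BC.add {f g : E n → ℝ} (hf : BC f) (hg : BC g) : BC (fun x => f x + g x) :=
  ⟨hf.1.add hg.1, hf.2.add hg.2⟩
theorem BC.sub {f g : E n → ℝ} (hf : BC f) (hg : BC g) : BC (fun x => f x - g x) :=
  ⟨hf.1.sub hg.1, hf.2.sub hg.2⟩
theorem BC.neg {f : E n → ℝ} (hf : BC f) : BC (fun x => - f x) := ⟨hf.1.neg, hf.2.neg⟩
theorem BC.mul_left {f g : E n → ℝ} (hf : BC f) (hg : LB g) : BC (fun x => g x * f x) :=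
  ⟨hg.mul hf.1, hf.2.mul_left g⟩
theorem BC.mul_right {f g : E n → ℝ} (hf : BC f) (hg : LB g) : BC (fun x => f x * g x) :=
  ⟨hf.1.mul hg, hf.2.mul_right g⟩
theorem BC.mul {f g : E n → ℝ} (hf : BC f) (hg : BC g) : BC (fun x => f x * g x) := hf.mul_right hg.1
theorem BC.sum {ι : Type*} {s : Finset ι} {f : ι → E n → ℝ} (hf : ∀ i ∈ s, BC (f i)) :
    BC (fun x => ∑ i ∈ s, f i x) := ⟨LB.sum fun i hi => (hf i hi).1, CS.sum fun i hi => (hf i hi).2⟩

section
variable {V : E n → ℝ} (hV : ContDiff ℝ (⊤ : ℕ∞) V)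
include hV

theorem V_one : ContDiff ℝ 1 V := hV.of_le (by exact_mod_cast le_top)

theorem BC.int {f : E n → ℝ} (hf : BC f) : Integrable fun x => f x * Real.exp (-V x) :=
  LB.integrable (hf.1.mul (LL.exp_neg (V_one hV)).lb) (hf.2.mul_right _)

theorem I_add {f g : E n → ℝ} (hf : BC f) (hg : BC g) :
    I V (fun x => f x + g x) = I V f + I V g := by
  unfold I
  rw [← integral_add (hf.int hV) (hg.int hV)]
  exact integral_congr_ae (Eventually.of_forall fun x => by simp only; ring)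

theorem I_sub {f g : E n → ℝ} (hf : BC f) (hg : BC g) :
    I V (fun x => f x - g x) = I V f - I V g := by
  unfold I
  rw [← integral_sub (hf.int hV) (hg.int hV)]
  exact integral_congr_ae (Eventually.of_forall fun x => by simp only; ring)

theorem I_sum {ι : Type*} {s : Finset ι} {f : ι → E n → ℝ} (hf : ∀ i ∈ s, BC (f i)) :
    I V (fun x => ∑ i ∈ s, f i x) = ∑ i ∈ s, I V (f i) := by
  unfold I
  rw [← integral_finsetSum s fun i hi => (hf i hi).int hV]
  exact integral_congr_ae (Eventually.of_forall fun x => by simp only [Finset.sum_mul])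

theorem I_mono {f g : E n → ℝ} (hf : BC f) (hg : BC g) (h : ∀ᵐ x, f x ≤ g x) : I V f ≤ I V g := by
  unfold I
  refine integral_mono_ae (hf.int hV) (hg.int hV) ?_
  filter_upwards [h] with x hx
  exact mul_le_mul_of_nonneg_right hx (Real.exp_pos _).le

omit hV in
theorem I_congr {f g : E n → ℝ} (h : ∀ᵐ x, f x = g x) : I V f = I V g := by
  unfold I
  refine integral_congr_ae ?_
  filter_upwards [h] with x hx
  rw [hx]

omit hV in
theorem I_congr' {f g : E n → ℝ} (h : ∀ x, f x = g x) : I V f = I V g :=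
  I_congr (Eventually.of_forall h)

theorem ll_pdV (a : Fin n) : LL (pd a V) := by
  refine LL.of_contDiff ?_
  have h2 : ContDiff ℝ (⊤ : ℕ∞) (fun x => fderiv ℝ V x (ei a)) :=
    (hV.fderiv_right (m := (⊤ : ℕ∞)) (by exact_mod_cast le_top)).clm_apply contDiff_const
  exact h2.of_le (by exact_mod_cast le_top)

end

theorem coord_ll (a : Fin n) : LL (fun x : E n => x a) := by
  refine LL.of_lip (C := 1) fun x y => ?_
  have h2 : |(x - y) a| ≤ ‖x - y‖ := PiLp.norm_apply_le (x - y) a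
  simpa using h2

theorem coord_diff (a : Fin n) (x : E n) : DifferentiableAt ℝ (fun x : E n => x a) x := by
  fun_prop

theorem pd_coord (i j : Fin n) (x : E n) : pd i (fun z : E n => z j) x = if j = i then 1 else 0 := by
  have h1 : (fun z : E n => z j) = (EuclideanSpace.proj j : E n →L[ℝ] ℝ) := rfl
  unfold M.pd
  rw [h1, ContinuousLinearMap.fderiv]
  simp [ei, eq_comm]

section ops
variable {t : Fin n → Fin n → E n → ℝ} {V : E n → ℝ} (h : TD t V)
include h

theorem lb_D {f : E n → ℝ} (hf : LL f) (a : Fin n) : LB (D t a f) :=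
  LB.sum fun e _ => (h.ll a e).lb.mul (LB.pd hf e)

omit h in
theorem cs_D {f : E n → ℝ} (hf : CS f) (a : Fin n) : CS (D t a f) :=
  CS.sum fun e _ => (hf.pd e).mul_left _

theorem bc_D {f : E n → ℝ} (hf : LL f) (hc : CS f) (a : Fin n) : BC (D t a f) := ⟨lb_D h hf a, cs_D hc a⟩

theorem lb_Ds {f : E n → ℝ} (hf : LL f) (a : Fin n) : LB (Ds t a f) :=
  ((coord_ll a).lb.mul hf.lb).sub (lb_D h hf a)

omit h in
theorem cs_Ds {f : E n → ℝ} (hf : CS f) (a : Fin n) : CS (Ds t a f) :=
  (hf.mul_left _).sub (cs_D hf a)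

theorem bc_Ds {f : E n → ℝ} (hf : LL f) (hc : CS f) (a : Fin n) : BC (Ds t a f) := ⟨lb_Ds h hf a, cs_Ds hc a⟩

theorem ll_D {f : E n → ℝ} (hf : ∀ e, LL (pd e f)) (a : Fin n) : LL (D t a f) :=
  LL.sum fun e _ => (h.ll a e).mul (hf e)

theorem ae_t : ∀ᵐ x, ∀ a b, DifferentiableAt ℝ (t a b) x := by
  rw [ae_all_iff]; intro a
  rw [ae_all_iff]; intro b
  exact (h.ll a b).ae_diff

omit h in
theorem D_mul {f g : E n → ℝ} {x : E n} (a : Fin n) (hf : DifferentiableAt ℝ f x) (hg : DifferentiableAt ℝ g x) :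
    D t a (fun z => f z * g z) x = D t a f x * g x + f x * D t a g x := by
  unfold D
  rw [Finset.sum_mul, Finset.mul_sum, ← Finset.sum_add_distrib]
  refine Finset.sum_congr rfl fun e _ => ?_
  rw [pd_mul e hf hg]; ring

omit h in
theorem D_add {f g : E n → ℝ} {x : E n} (a : Fin n) (hf : DifferentiableAt ℝ f x) (hg : DifferentiableAt ℝ g x) :
    D t a (fun z => f z + g z) x = D t a f x + D t a g x := by
  unfold D
  rw [← Finset.sum_add_distrib]
  refine Finset.sum_congr rfl fun e _ => ?_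
  rw [pd_add e hf hg]; ring

omit h in
theorem D_sub {f g : E n → ℝ} {x : E n} (a : Fin n) (hf : DifferentiableAt ℝ f x) (hg : DifferentiableAt ℝ g x) :
    D t a (fun z => f z - g z) x = D t a f x - D t a g x := by
  unfold D
  rw [← Finset.sum_sub_distrib]
  refine Finset.sum_congr rfl fun e _ => ?_
  rw [pd_sub e hf hg]; ring

omit h in
theorem D_sum {ι : Type*} (s : Finset ι) {F : ι → E n → ℝ} {x : E n} (a : Fin n)
    (hF : ∀ j ∈ s, DifferentiableAt ℝ (F j) x) :
    D t a (fun z => ∑ j ∈ s, F j z) x = ∑ j ∈ s, D t a (F j) x := by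
  unfold D
  rw [Finset.sum_comm]
  refine Finset.sum_congr rfl fun e _ => ?_
  rw [pd_sum s e hF, Finset.mul_sum]

omit h in
theorem D_coord {x : E n} (a b : Fin n) : D t a (fun z : E n => z b) x = t a b x := by
  unfold D
  simp [pd_coord]

/-- integration by parts for `D` -/
theorem ibpD {f g : E n → ℝ} (hf : LL f) (hg : LL g) (hc : CS f ∨ CS g) (a : Fin n) :
    I V (fun x => f x * D t a g x) = I V (fun x => Ds t a f x * g x) := by
  have hV := h.V_smooth
  have hfg : CS (fun x => f x * g x) := by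
    rcases hc with hc | hc
    · exact hc.mul_right g
    · exact hc.mul_left f
  have hcs : ∀ e, CS (fun x => f x * t a e x) ∨ CS g := by
    intro e
    rcases hc with hc | hc
    · exact Or.inl (hc.mul_right _)
    · exact Or.inr hc
  have hB1 : ∀ e ∈ (Finset.univ : Finset (Fin n)), BC (fun x => pd e g x * (f x * t a e x)) := by
    intro e _
    refine ⟨(LB.pd hg e).mul (hf.lb.mul (h.ll a e).lb), ?_⟩
    rcases hc with hc | hc
    · exact (hc.mul_right _).mul_left _
    · exact (hc.pd e).mul_right _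
  have hB2 : ∀ e ∈ (Finset.univ : Finset (Fin n)),
      BC (fun x => g x * (pd e V x * (f x * t a e x) - pd e (fun x => f x * t a e x) x)) := by
    intro e _
    refine ⟨hg.lb.mul (((ll_pdV hV e).lb.mul (hf.lb.mul (h.ll a e).lb)).sub (LB.pd (hf.mul (h.ll a e)) e)), ?_⟩
    rcases hc with hc | hc
    · exact (((hc.mul_right _).mul_left _).sub ((hc.mul_right _).pd e)).mul_left _
    · exact hc.mul_right _
  have e1 : I V (fun x => f x * D t a g x) = ∑ e, I V (fun x => pd e g x * (f x * t a e x)) := by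
    rw [← I_sum hV hB1]
    refine I_congr' fun x => ?_
    unfold D
    rw [Finset.mul_sum]
    exact Finset.sum_congr rfl fun e _ => by ring
  have e2 : ∀ e, I V (fun x => pd e g x * (f x * t a e x)) =
      I V (fun x => g x * (pd e V x * (f x * t a e x) - pd e (fun x => f x * t a e x) x)) := by
    intro e
    exact ibpw (V_one hV) hg (hf.mul (h.ll a e)) ((hcs e).symm) e
  rw [e1, Finset.sum_congr rfl fun e _ => e2 e, ← I_sum hV hB2]
  refine I_congr ?_
  filter_upwards [hf.ae_diff, ae_t h, h.ST] with x hfx htx hST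
  have e3 : ∀ e, g x * (pd e V x * (f x * t a e x) - pd e (fun x => f x * t a e x) x) =
      g x * f x * (pd e V x * t a e x - pd e (t a e) x) - g x * (t a e x * pd e f x) := by
    intro e
    have := pd_mul e hfx (htx a e)
    rw [this]; ring
  rw [Finset.sum_congr rfl fun e _ => e3 e, Finset.sum_sub_distrib, ← Finset.mul_sum, hST a, ← Finset.mul_sum]
  unfold Ds D
  ring

/-- commutation `D_a D_b p = D_b D_a p` a.e. for `p` in `C²` -/
theorem comm {p : E n → ℝ} (hp : ContDiff ℝ (⊤ : ℕ∞) p) :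
    ∀ᵐ x, ∀ a b, D t a (D t b p) x = D t b (D t a p) x := by
  have hd1 : ∀ e, Differentiable ℝ (pd e p) := fun e =>
    ((hp.fderiv_right (m := (⊤ : ℕ∞)) (by exact_mod_cast le_top)).clm_apply contDiff_const).differentiable
      (by simp)
  have hs : ∀ x e f, pd e (pd f p) x = pd f (pd e p) x := by
    intro x e f
    have h2 : ContDiff ℝ 2 p := by exact_mod_cast (contDiff_infty.1 hp 2)
    have hsym := (h2.contDiffAt (x := x)).isSymmSndFDerivAt (by simp)
    have hdf : Differentiable ℝ (fderiv ℝ p) :=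
      (hp.fderiv_right (m := (⊤ : ℕ∞)) (by exact_mod_cast le_top)).differentiable (by simp)
    have e1 : ∀ u v : E n, fderiv ℝ (fun y => fderiv ℝ p y u) x v = fderiv ℝ (fderiv ℝ p) x v u := by
      intro u v
      rw [fderiv_clm_apply (hdf x) (differentiableAt_const _)]
      simp
    unfold M.pd
    rw [e1, e1]
    exact hsym.eq _ _
  filter_upwards [ae_t h, h.SY] with x htx hSY
  have e1 : ∀ a b, D t a (D t b p) x =
      ∑ f, (∑ e, t a e x * pd e (t b f) x) * pd f p x + ∑ e, ∑ f, t a e x * t b f x * pd e (pd f p) x := by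
    intro a b
    have e2 : ∀ e, pd e (D t b p) x = ∑ f, (pd e (t b f) x * pd f p x + t b f x * pd e (pd f p) x) := by
      intro e
      unfold D
      rw [pd_sum Finset.univ e (F := fun f z => t b f z * pd f p z)
        (fun f _ => (htx b f).mul (hd1 f x))]
      exact Finset.sum_congr rfl fun f _ => pd_mul e (htx b f) (hd1 f x)
    have e3 : D t a (D t b p) x = ∑ e, t a e x * pd e (D t b p) x := rfl
    rw [e3]
    simp only [e2, Finset.mul_sum, mul_add, Finset.sum_add_distrib, Finset.sum_mul]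
    congr 1
    · rw [Finset.sum_comm]
      exact Finset.sum_congr rfl fun f _ => Finset.sum_congr rfl fun e _ => by ring
    · exact Finset.sum_congr rfl fun f _ => Finset.sum_congr rfl fun e _ => by ring
  intro a b
  rw [e1 a b, e1 b a]
  congr 1
  · exact Finset.sum_congr rfl fun f _ => by rw [hSY a b f]
  · rw [Finset.sum_comm]
    exact Finset.sum_congr rfl fun f _ => Finset.sum_congr rfl fun e _ => by rw [hs x e f]; ring

end ops

end Vale.Agent.P227.M.X
end

section

/-! P227/M, block ID (helper590): identities (A), (X), (B), (X3) for Lipschitz `τ`. -/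

open MeasureTheory Set Metric Filter
open scoped Topology NNReal

namespace Vale.Agent.P227.M.X

variable {n : ℕ}

theorem smooth_pd {f : E n → ℝ} (hf : ContDiff ℝ (⊤ : ℕ∞) f) (a : Fin n) : ContDiff ℝ (⊤ : ℕ∞) (pd a f) :=
  (hf.fderiv_right (m := (⊤ : ℕ∞)) (by exact_mod_cast le_top)).clm_apply contDiff_const

theorem smooth_ll {f : E n → ℝ} (hf : ContDiff ℝ (⊤ : ℕ∞) f) : LL f :=
  LL.of_contDiff (hf.of_le (by exact_mod_cast le_top))

theorem smooth_diff {f : E n → ℝ} (hf : ContDiff ℝ (⊤ : ℕ∞) f) (x : E n) : DifferentiableAt ℝ f x :=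
  (hf.differentiable (by simp)) x

theorem pd_pd_comm {p : E n → ℝ} (hp : ContDiff ℝ (⊤ : ℕ∞) p) (x : E n) (e f : Fin n) :
    pd e (pd f p) x = pd f (pd e p) x := by
  have h2 : ContDiff ℝ 2 p := by exact_mod_cast (contDiff_infty.1 hp 2)
  have hsym := (h2.contDiffAt (x := x)).isSymmSndFDerivAt (by simp)
  have hdf : Differentiable ℝ (fderiv ℝ p) :=
    (hp.fderiv_right (m := (⊤ : ℕ∞)) (by exact_mod_cast le_top)).differentiable (by simp)
  have e1 : ∀ u v : E n, fderiv ℝ (fun y => fderiv ℝ p y u) x v = fderiv ℝ (fderiv ℝ p) x v u := by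
    intro u v
    rw [fderiv_clm_apply (hdf x) (differentiableAt_const _)]
    simp
  unfold M.pd
  rw [e1, e1]
  exact hsym.eq _ _

section
variable {t : Fin n → Fin n → E n → ℝ} {V : E n → ℝ} (h : TD t V)
include h

/-- `-L g = ∑ D*_a ∂_a g` -/
noncomputable def nL (t : Fin n → Fin n → E n → ℝ) (g : E n → ℝ) (x : E n) : ℝ := ∑ a, Ds t a (pd a g) x

theorem ll_Ds {f : E n → ℝ} (hf : LL f) (hf' : ∀ e, LL (pd e f)) (a : Fin n) : LL (Ds t a f) :=
  ((coord_ll a).mul hf).sub (ll_D h hf' a)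

theorem ll_nL {g : E n → ℝ} (hg : ContDiff ℝ (⊤ : ℕ∞) g) : LL (nL t g) :=
  LL.sum fun a _ => ll_Ds h (smooth_ll (smooth_pd hg a)) (fun e => smooth_ll (smooth_pd (smooth_pd hg a) e)) a

omit h in
theorem cs_nL {g : E n → ℝ} (hg : CS g) : CS (nL t g) := CS.sum fun a _ => cs_Ds (hg.pd a) a

/-- (LD) -/
theorem D_nL {g : E n → ℝ} (hg : ContDiff ℝ (⊤ : ℕ∞) g) :
    ∀ᵐ x, ∀ d, D t d (nL t g) x = D t d g x + ∑ a, Ds t a (D t d (pd a g)) x := by
  have h1 : ∀ᵐ x, ∀ a, ∀ c d, D t c (D t d (pd a g)) x = D t d (D t c (pd a g)) x := by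
    rw [ae_all_iff]; intro a
    exact comm h (smooth_pd hg a)
  have h2 : ∀ᵐ x, ∀ a, DifferentiableAt ℝ (D t a (pd a g)) x := by
    rw [ae_all_iff]; intro a
    exact (ll_D h (fun e => smooth_ll (smooth_pd (smooth_pd hg a) e)) a).ae_diff
  filter_upwards [h1, h2] with x h1x h2x
  intro d
  have e0 : nL t g = fun z => ∑ a, (z a * pd a g z - D t a (pd a g) z) := rfl
  rw [e0, D_sum Finset.univ d (F := fun a z => z a * pd a g z - D t a (pd a g) z)
    (fun a _ => ((coord_diff a x).mul (smooth_diff (smooth_pd hg a) x)).sub (h2x a))]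
  have e1 : ∀ a, D t d (fun z : E n => z a * pd a g z - D t a (pd a g) z) x =
      t d a x * pd a g x + Ds t a (D t d (pd a g)) x := by
    intro a
    rw [D_sub (f := fun z : E n => z a * pd a g z) d
      ((coord_diff a x).mul (smooth_diff (smooth_pd hg a) x)) (h2x a),
      D_mul d (coord_diff a x) (smooth_diff (smooth_pd hg a) x), D_coord]
    unfold Ds
    rw [h1x a a d]; ring
  rw [Finset.sum_congr rfl fun a _ => e1 a, Finset.sum_add_distrib]
  rfl

/-- (L2) : `-L g = ∑ (V_a D_a g - ∂_a (D_a g))` -/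
theorem nL_div {g : E n → ℝ} (hg : ContDiff ℝ (⊤ : ℕ∞) g) :
    ∀ᵐ x, nL t g x = ∑ a, (pd a V x * D t a g x - pd a (D t a g) x) := by
  filter_upwards [ae_t h, h.ST] with x htx hST
  have e1 : ∀ a, pd a (D t a g) x = ∑ e, (pd a (t a e) x * pd e g x + t a e x * pd a (pd e g) x) := by
    intro a
    unfold D
    rw [pd_sum Finset.univ a (F := fun e z => t a e z * pd e g z)
      (fun e _ => (htx a e).mul (smooth_diff (smooth_pd hg e) x))]
    exact Finset.sum_congr rfl fun e _ => pd_mul a (htx a e) (smooth_diff (smooth_pd hg e) x)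
  have e2 : ∑ a, (pd a V x * D t a g x - pd a (D t a g) x) =
      ∑ e, (∑ a, (pd a V x * t e a x - pd a (t e a) x)) * pd e g x - ∑ a, ∑ e, t a e x * pd a (pd e g) x := by
    simp only [e1, D, Finset.mul_sum, Finset.sum_mul, Finset.sum_add_distrib, Finset.sum_sub_distrib, sub_mul]
    rw [Finset.sum_comm (f := fun e a => pd a V x * t e a x * pd e g x),
      Finset.sum_comm (f := fun e a => pd a (t e a) x * pd e g x)]
    have e3 : ∑ a, ∑ e, pd a V x * (t a e x * pd e g x) = ∑ a, ∑ e, pd a V x * t e a x * pd e g x :=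
      Finset.sum_congr rfl fun a _ => Finset.sum_congr rfl fun e _ => by rw [h.symm a e]; ring
    have e4 : ∑ a, ∑ e, pd a (t a e) x * pd e g x = ∑ a, ∑ e, pd a (t e a) x * pd e g x :=
      Finset.sum_congr rfl fun a _ => Finset.sum_congr rfl fun e _ => by rw [h.symm a e]
    rw [e3, e4]; ring
  rw [e2, Finset.sum_congr rfl fun e _ => by rw [hST e]]
  unfold nL Ds D
  rw [Finset.sum_sub_distrib]
  congr 1
  exact Finset.sum_congr rfl fun a _ => Finset.sum_congr rfl fun e _ => by rw [pd_pd_comm hg x e a]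

/-- (A) for one pair `b, d` : `U = D_b ∂_d F`, `ℓ = -L ∂_b F` -/
theorem idA {F : E n → ℝ} (hF : ContDiff ℝ (⊤ : ℕ∞) F) (hc : CS F) (b d : Fin n) :
    I V (fun x => Ds t d (D t b (pd d F)) x * nL t (pd b F) x) =
      I V (fun x => D t b (pd d F) x * D t d (pd b F) x) +
        ∑ a, I V (fun x => D t a (D t b (pd d F)) x * D t d (pd a (pd b F)) x) := by
  have hV := h.V_smooth
  have hb := smooth_pd hF b
  have hd := smooth_pd hF d
  have hU : LL (D t b (pd d F)) := ll_D h (fun e => smooth_ll (smooth_pd hd e)) b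
  have hUc : CS (D t b (pd d F)) := cs_D (hc.pd d) b
  have hG : ∀ a, LL (D t d (pd a (pd b F))) := fun a =>
    ll_D h (fun e => smooth_ll (smooth_pd (smooth_pd hb a) e)) d
  have hGc : ∀ a, CS (D t d (pd a (pd b F))) := fun a => cs_D ((hc.pd b).pd a) d
  rw [← ibpD h hU (ll_nL h hb) (Or.inl hUc) d]
  have e1 : I V (fun x => D t b (pd d F) x * D t d (nL t (pd b F)) x) =
      I V (fun x => D t b (pd d F) x * D t d (pd b F) x +
        ∑ a, D t b (pd d F) x * Ds t a (D t d (pd a (pd b F))) x) := by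
    refine I_congr ?_
    filter_upwards [D_nL h hb] with x hx
    rw [hx d, mul_add, Finset.mul_sum]
  have hbc1 : BC (fun x => D t b (pd d F) x * D t d (pd b F) x) :=
    BC.mul ⟨hU.lb, hUc⟩ (bc_D h (smooth_ll hb) (hc.pd b) d)
  have hbc2 : ∀ a ∈ (Finset.univ : Finset (Fin n)),
      BC (fun x => D t b (pd d F) x * Ds t a (D t d (pd a (pd b F))) x) := fun a _ =>
    BC.mul ⟨hU.lb, hUc⟩ (bc_Ds h (hG a) (hGc a) a)
  rw [e1, I_add hV hbc1 (BC.sum hbc2), I_sum hV hbc2]
  congr 1
  refine Finset.sum_congr rfl fun a _ => ?_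
  have e2 := ibpD h (hG a) hU (Or.inl (hGc a)) a
  rw [I_congr' (g := fun x => Ds t a (D t d (pd a (pd b F))) x * D t b (pd d F) x) (fun x => mul_comm _ _), ← e2]
  exact I_congr' fun x => mul_comm _ _

/-- (X) -/
theorem idX {W Z : E n → ℝ} (hW : LL W) (hWc : CS W) (hZ : LL Z) (hZc : CS Z) (a d : Fin n) :
    I V (fun x => pd a W x * Ds t d Z x) =
      I V (fun x => pd a V x * D t d W x * Z x) - I V (fun x => D t d W x * pd a Z x)
        - I V (fun x => ∑ e, pd a (t d e) x * pd e W x * Z x) := by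
  have hV := h.V_smooth
  have htZ : ∀ e, LL (fun x => t d e x * Z x) := fun e => (h.ll d e).mul hZ
  have htZc : ∀ e, CS (fun x => t d e x * Z x) := fun e => hZc.mul_left _
  have e1 : I V (fun x => pd a W x * Ds t d Z x) =
      I V (fun x => ∑ e, pd a W x * (pd e V x * (t d e x * Z x) - pd e (fun x => t d e x * Z x) x)) := by
    refine I_congr ?_
    filter_upwards [hZ.ae_diff, ae_t h, h.ST] with x hZx htx hST
    rw [← Finset.mul_sum]
    congr 1
    have e2 : ∀ e, pd e V x * (t d e x * Z x) - pd e (fun x => t d e x * Z x) x =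
        (pd e V x * t d e x - pd e (t d e) x) * Z x - t d e x * pd e Z x := by
      intro e
      rw [pd_mul e (htx d e) hZx]; ring
    rw [Finset.sum_congr rfl fun e _ => e2 e, Finset.sum_sub_distrib, ← Finset.sum_mul, hST d]
    rfl
  have hbc : ∀ (i j : Fin n) (e : Fin n),
      BC (fun x => pd i W x * (pd j V x * (t d e x * Z x) - pd j (fun x => t d e x * Z x) x)) := by
    intro i j e
    refine BC.mul ⟨LB.pd hW i, hWc.pd i⟩ (BC.sub ?_ ⟨LB.pd (htZ e) j, (htZc e).pd j⟩)
    exact BC.mul_left ⟨(htZ e).lb, htZc e⟩ (ll_pdV hV j).lb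
  rw [e1, I_sum hV fun e _ => hbc a e e]
  have e3 : ∀ e, I V (fun x => pd a W x * (pd e V x * (t d e x * Z x) - pd e (fun x => t d e x * Z x) x)) =
      I V (fun x => pd e W x * (pd a V x * (t d e x * Z x) - pd a (fun x => t d e x * Z x) x)) :=
    fun e => xxw (V_one hV) hW hWc (htZ e) (htZc e) a e
  rw [Finset.sum_congr rfl fun e _ => e3 e, ← I_sum hV fun e _ => hbc e a e]
  have hb1 : BC (fun x => pd a V x * D t d W x * Z x) :=
    BC.mul_left ⟨hZ.lb, hZc⟩ ((ll_pdV hV a).lb.mul (lb_D h hW d))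
  have hb2 : BC (fun x => D t d W x * pd a Z x) := BC.mul_left ⟨LB.pd hZ a, hZc.pd a⟩ (lb_D h hW d)
  have hb3 : BC (fun x => ∑ e, pd a (t d e) x * pd e W x * Z x) :=
    BC.sum fun e _ => BC.mul_left ⟨hZ.lb, hZc⟩ ((LB.pd (h.ll d e) a).mul (LB.pd hW e))
  rw [← I_sub hV hb1 hb2, ← I_sub hV (hb1.sub hb2) hb3]
  refine I_congr ?_
  filter_upwards [hZ.ae_diff, ae_t h] with x hZx htx
  unfold D
  rw [Finset.mul_sum, Finset.sum_mul, Finset.sum_mul, ← Finset.sum_sub_distrib, ← Finset.sum_sub_distrib]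
  refine Finset.sum_congr rfl fun e _ => ?_
  rw [pd_mul a (htx d e) hZx]; ring

/-- (B) for one pair `b, d` -/
theorem idB {F : E n → ℝ} (hF : ContDiff ℝ (⊤ : ℕ∞) F) (hc : CS F) (b d : Fin n) :
    ∑ a, I V (fun x => D t d (pd a V) x * (D t a (pd b F) x * D t b (pd d F) x)) =
      I V (fun x => Ds t d (D t b (pd d F)) x * nL t (pd b F) x)
        - ∑ a, I V (fun x => D t d (D t a (pd b F)) x * pd a (D t b (pd d F)) x)
        - ∑ a, I V (fun x => ∑ e, pd a (t d e) x * pd e (D t a (pd b F)) x * D t b (pd d F) x) := by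
  have hV := h.V_smooth
  have hb := smooth_pd hF b
  have hd := smooth_pd hF d
  have hU : LL (D t b (pd d F)) := ll_D h (fun e => smooth_ll (smooth_pd hd e)) b
  have hUc : CS (D t b (pd d F)) := cs_D (hc.pd d) b
  have hW : ∀ a, LL (D t a (pd b F)) := fun a => ll_D h (fun e => smooth_ll (smooth_pd hb e)) a
  have hWc : ∀ a, CS (D t a (pd b F)) := fun a => cs_D (hc.pd b) a
  have hVa : ∀ a, LL (pd a V) := fun a => ll_pdV hV a
  have hbc1 : ∀ a, BC (fun x => pd a V x * D t a (pd b F) x * Ds t d (D t b (pd d F)) x) := fun a =>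
    BC.mul_left (bc_Ds h hU hUc d) ((hVa a).lb.mul (hW a).lb)
  have hbc2 : ∀ a, BC (fun x => pd a V x * D t d (D t a (pd b F)) x * D t b (pd d F) x) := fun a =>
    BC.mul_left ⟨hU.lb, hUc⟩ ((hVa a).lb.mul (lb_D h (hW a) d))
  have hbc3 : ∀ a, BC (fun x => pd a (D t a (pd b F)) x * Ds t d (D t b (pd d F)) x) := fun a =>
    BC.mul ⟨LB.pd (hW a) a, (hWc a).pd a⟩ (bc_Ds h hU hUc d)
  have e1 : ∀ a, I V (fun x => D t d (pd a V) x * (D t a (pd b F) x * D t b (pd d F) x)) =
      I V (fun x => pd a V x * D t a (pd b F) x * Ds t d (D t b (pd d F)) x) -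
        I V (fun x => pd a V x * D t d (D t a (pd b F)) x * D t b (pd d F) x) := by
    intro a
    have hWU : LL (fun x => D t a (pd b F) x * D t b (pd d F) x) := (hW a).mul hU
    have e2 := ibpD h hWU (hVa a) (Or.inl (hUc.mul_left _)) d
    rw [I_congr' (g := fun x => D t a (pd b F) x * D t b (pd d F) x * D t d (pd a V) x) (fun x => mul_comm _ _),
      e2, ← I_sub hV (hbc1 a) (hbc2 a)]
    refine I_congr ?_
    filter_upwards [(hW a).ae_diff, hU.ae_diff] with x h1 h2
    unfold Ds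
    rw [D_mul d h1 h2]; ring
  have e3 : ∀ a, I V (fun x => pd a V x * D t d (D t a (pd b F)) x * D t b (pd d F) x) =
      I V (fun x => pd a (D t a (pd b F)) x * Ds t d (D t b (pd d F)) x) +
        I V (fun x => D t d (D t a (pd b F)) x * pd a (D t b (pd d F)) x) +
        I V (fun x => ∑ e, pd a (t d e) x * pd e (D t a (pd b F)) x * D t b (pd d F) x) := by
    intro a
    have := idX h (hW a) (hWc a) hU hUc a d
    linarith
  have e4 : ∑ a, (I V (fun x => pd a V x * D t a (pd b F) x * Ds t d (D t b (pd d F)) x) -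
      I V (fun x => pd a (D t a (pd b F)) x * Ds t d (D t b (pd d F)) x)) =
      I V (fun x => Ds t d (D t b (pd d F)) x * nL t (pd b F) x) := by
    rw [Finset.sum_congr rfl fun a _ => (I_sub hV (hbc1 a) (hbc3 a)).symm,
      ← I_sum hV fun a _ => (hbc1 a).sub (hbc3 a)]
    refine I_congr ?_
    filter_upwards [nL_div h hb] with x hx
    rw [hx, Finset.mul_sum]
    exact Finset.sum_congr rfl fun a _ => by ring
  rw [← e4, Finset.sum_congr rfl fun a _ => e1 a]
  simp only [e3, Finset.sum_sub_distrib, Finset.sum_add_distrib]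
  ring

/-- (X3), flat Bochner for a locally Lipschitz field with compact support -/
theorem idX3 {s : Fin n → E n → ℝ} (hs : ∀ a, LL (s a)) (hc : ∀ a, CS (s a)) (a b : Fin n) :
    I V (fun x => (pd a V x * s a x - pd a (s a) x) * (pd b V x * s b x - pd b (s b) x)) =
      I V (fun x => pd b (pd a V) x * s a x * s b x + pd b (s a) x * pd a (s b) x) := by
  have hV := h.V_smooth
  have hVa : ∀ a, LL (pd a V) := fun a => ll_pdV hV a
  have hb0 : ∀ i j, BC (fun x => pd i V x * s j x - pd i (s j) x) := fun i j =>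
    (BC.mul_left ⟨(hs j).lb, hc j⟩ (hVa i).lb).sub ⟨LB.pd (hs j) i, (hc j).pd i⟩
  have hb1 : BC (fun x => pd a V x * s a x * (pd b V x * s b x - pd b (s b) x)) :=
    BC.mul_left (hb0 b b) ((hVa a).lb.mul (hs a).lb)
  have hb2 : BC (fun x => pd a (s a) x * (pd b V x * s b x - pd b (s b) x)) :=
    BC.mul_left (hb0 b b) (LB.pd (hs a) a)
  have hb3 : BC (fun x => pd b (s a) x * (pd a V x * s b x - pd a (s b) x)) :=
    BC.mul_left (hb0 a b) (LB.pd (hs a) b)
  have hb4 : BC (fun x => pd b (fun x => pd a V x * s a x) x * s b x) :=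
    BC.mul_left ⟨(hs b).lb, hc b⟩ (LB.pd ((hVa a).mul (hs a)) b)
  have e1 : I V (fun x => (pd a V x * s a x - pd a (s a) x) * (pd b V x * s b x - pd b (s b) x)) =
      I V (fun x => pd a V x * s a x * (pd b V x * s b x - pd b (s b) x)) -
        I V (fun x => pd a (s a) x * (pd b V x * s b x - pd b (s b) x)) := by
    rw [← I_sub hV hb1 hb2]
    exact I_congr' fun x => by ring
  have e2 : I V (fun x => pd a V x * s a x * (pd b V x * s b x - pd b (s b) x)) =
      I V (fun x => pd b (fun x => pd a V x * s a x) x * s b x) :=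
    (ibpw (V_one hV) ((hVa a).mul (hs a)) (hs b) (Or.inr (hc b)) b).symm
  have e3 : I V (fun x => pd a (s a) x * (pd b V x * s b x - pd b (s b) x)) =
      I V (fun x => pd b (s a) x * (pd a V x * s b x - pd a (s b) x)) :=
    xxw (V_one hV) (hs a) (hc a) (hs b) (hc b) a b
  rw [e1, e2, e3, ← I_sub hV hb4 hb3]
  refine I_congr ?_
  filter_upwards [(hs a).ae_diff] with x hx
  rw [pd_mul b (smooth_diff (smooth_pd hV a) x) hx]; ring

end

end Vale.Agent.P227.M.X
end

section

/-! Pointwise algebra for the key inequality of P227 (for helper590). Mathlib only. -/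

open Matrix Finset
open scoped MatrixOrder

namespace P227M.XAlg

variable {n : ℕ}

lemma sum_rev3 (f : Fin n → Fin n → Fin n → ℝ) :
    ∑ a, ∑ b, ∑ c, f a b c = ∑ c, ∑ b, ∑ a, f a b c := by
  calc ∑ a, ∑ b, ∑ c, f a b c = ∑ b, ∑ a, ∑ c, f a b c := Finset.sum_comm
    _ = ∑ b, ∑ c, ∑ a, f a b c := Finset.sum_congr rfl fun b _ => Finset.sum_comm
    _ = ∑ c, ∑ b, ∑ a, f a b c := Finset.sum_comm

lemma sum_rev4 (f : Fin n → Fin n → Fin n → Fin n → ℝ) :
    ∑ a, ∑ b, ∑ c, ∑ d, f a b c d = ∑ d, ∑ c, ∑ b, ∑ a, f a b c d := by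
  calc ∑ a, ∑ b, ∑ c, ∑ d, f a b c d = ∑ a, ∑ d, ∑ c, ∑ b, f a b c d :=
        Finset.sum_congr rfl fun a _ => sum_rev3 _
    _ = ∑ d, ∑ a, ∑ c, ∑ b, f a b c d := Finset.sum_comm
    _ = ∑ d, ∑ c, ∑ a, ∑ b, f a b c d := Finset.sum_congr rfl fun d _ => Finset.sum_comm
    _ = ∑ d, ∑ c, ∑ b, ∑ a, f a b c d :=
        Finset.sum_congr rfl fun d _ => Finset.sum_congr rfl fun c _ => Finset.sum_comm

lemma trace_self_transpose_add (K : Matrix (Fin n) (Fin n) ℝ) :
    0 ≤ (K * Kᵀ).trace + (K * K).trace := by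
  have h1 : (K * Kᵀ).trace = ∑ i, ∑ j, K i j * K i j := by
    simp [Matrix.trace, Matrix.mul_apply]
  have h2 : (K * K).trace = ∑ i, ∑ j, K i j * K j i := by
    simp [Matrix.trace, Matrix.mul_apply]
  have h3 : ∑ i, ∑ j, K i j * K i j = ∑ i, ∑ j, K j i * K j i := Finset.sum_comm
  have h4 : (K * Kᵀ).trace + (K * K).trace = (1 / 2) * ∑ i, ∑ j, (K i j + K j i) ^ 2 := by
    have : ∑ i, ∑ j, (K i j + K j i) ^ 2
        = ∑ i, ∑ j, K i j * K i j + ∑ i, ∑ j, K j i * K j i + 2 * ∑ i, ∑ j, K i j * K j i := by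
      rw [Finset.mul_sum, ← Finset.sum_add_distrib, ← Finset.sum_add_distrib]
      refine Finset.sum_congr rfl fun i _ => ?_
      rw [Finset.mul_sum, ← Finset.sum_add_distrib, ← Finset.sum_add_distrib]
      refine Finset.sum_congr rfl fun j _ => ?_
      ring
    rw [h1, h2, this, ← h3]
    ring
  rw [h4]
  positivity

lemma exists_factor (t : Matrix (Fin n) (Fin n) ℝ) (ht : t.PosDef) :
    ∃ S R : Matrix (Fin n) (Fin n) ℝ, t = S * Sᵀ ∧ S * R = 1 ∧ R * S = 1 := by
  obtain ⟨B, hB⟩ := CStarAlgebra.nonneg_iff_eq_star_mul_self.mp ht.posSemidef.nonneg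
  have hB' : t = Bᵀ * B := by
    rw [hB, Matrix.star_eq_conjTranspose, Matrix.conjTranspose_eq_transpose_of_trivial]
  have hdet : t.det ≠ 0 := ht.det_pos.ne'
  have hdB : B.det ≠ 0 := by
    intro h
    apply hdet
    rw [hB', Matrix.det_mul, h, mul_zero]
  have hu : IsUnit (Bᵀ).det := by
    rw [Matrix.det_transpose]
    exact hdB.isUnit
  refine ⟨Bᵀ, (Bᵀ)⁻¹, ?_, Matrix.mul_nonsing_inv _ hu, Matrix.nonsing_inv_mul _ hu⟩
  rw [Matrix.transpose_transpose]
  exact hB'

lemma quad_nonneg (S R X : Matrix (Fin n) (Fin n) ℝ) (hSR : S * R = 1) :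
    0 ≤ (Rᵀ * R * X * (S * Sᵀ) * Xᵀ).trace + (X * X).trace := by
  have h := trace_self_transpose_add (R * X * S)
  have e1 : ((R * X * S) * (R * X * S)ᵀ).trace = (Rᵀ * R * X * (S * Sᵀ) * Xᵀ).trace := by
    have : (R * X * S) * (R * X * S)ᵀ = (R * X * (S * Sᵀ) * Xᵀ) * Rᵀ := by
      rw [Matrix.transpose_mul, Matrix.transpose_mul]
      simp only [Matrix.mul_assoc]
    rw [this, Matrix.trace_mul_comm]
    simp only [Matrix.mul_assoc]
  have e2 : ((R * X * S) * (R * X * S)).trace = (X * X).trace := by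
    have : (R * X * S) * (R * X * S) = R * (X * X * S) := by
      calc (R * X * S) * (R * X * S) = R * X * (S * R) * X * S := by
            simp only [Matrix.mul_assoc]
        _ = R * (X * X * S) := by
            rw [hSR]; simp only [Matrix.mul_one, Matrix.mul_assoc]
    rw [this, Matrix.trace_mul_comm, Matrix.mul_assoc, hSR, Matrix.mul_one]
  rw [e1, e2] at h
  exact h

/-- `tr (B^2) ≥ 0` when `t B` is symmetric, `t` positive definite. -/
theorem tr_sq_nonneg (t B : Matrix (Fin n) (Fin n) ℝ) (ht : t.PosDef)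
    (hB : (t * B).IsSymm) : 0 ≤ (B * B).trace := by
  obtain ⟨S, R, hS, hSR, hRS⟩ := exists_factor t ht
  have hRS' : Sᵀ * Rᵀ = 1 := by rw [← Matrix.transpose_mul, hRS, Matrix.transpose_one]
  have hSR' : Rᵀ * Sᵀ = 1 := by rw [← Matrix.transpose_mul, hSR, Matrix.transpose_one]
  set K := Sᵀ * B * Rᵀ with hK
  have hK1 : K = R * (t * B) * Rᵀ := by
    rw [hK, hS]
    calc Sᵀ * B * Rᵀ = (R * S) * Sᵀ * B * Rᵀ := by rw [hRS, Matrix.one_mul]
      _ = R * (S * Sᵀ * B) * Rᵀ := by simp only [Matrix.mul_assoc]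
  have hKs : Kᵀ = K := by
    rw [hK1, Matrix.transpose_mul, Matrix.transpose_mul, hB.eq, Matrix.transpose_transpose]
    simp only [Matrix.mul_assoc]
  have e : (K * K).trace = (B * B).trace := by
    have : K * K = Sᵀ * (B * B * Rᵀ) := by
      calc K * K = Sᵀ * B * (Rᵀ * Sᵀ) * B * Rᵀ := by rw [hK]; simp only [Matrix.mul_assoc]
        _ = Sᵀ * (B * B * Rᵀ) := by rw [hSR']; simp only [Matrix.mul_one, Matrix.mul_assoc]
    rw [this, Matrix.trace_mul_comm, Matrix.mul_assoc, hSR', Matrix.mul_one]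
  have h := trace_self_transpose_add K
  rw [hKs, e] at h
  linarith

/-- quadratic form of a PSD matrix with values in a nonnegative form -/
lemma sum_form_nonneg (S R : Matrix (Fin n) (Fin n) ℝ) (hSR : S * R = 1)
    (G : Fin n → Matrix (Fin n) (Fin n) ℝ) :
    0 ≤ ∑ k, ∑ f, (S * Sᵀ) k f *
      ((Rᵀ * R * G k * (S * Sᵀ) * (G f)ᵀ).trace + (G k * G f).trace) := by
  set H : Fin n → Matrix (Fin n) (Fin n) ℝ := fun i => ∑ k, S k i • G k with hH
  have e : ∑ k, ∑ f, (S * Sᵀ) k f *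
      ((Rᵀ * R * G k * (S * Sᵀ) * (G f)ᵀ).trace + (G k * G f).trace)
      = ∑ i, ((Rᵀ * R * H i * (S * Sᵀ) * (H i)ᵀ).trace + (H i * H i).trace) := by
    have e1 : ∀ i, (Rᵀ * R * H i * (S * Sᵀ) * (H i)ᵀ).trace + (H i * H i).trace
        = ∑ k, ∑ f, S k i * S f i *
          ((Rᵀ * R * G k * (S * Sᵀ) * (G f)ᵀ).trace + (G k * G f).trace) := by
      intro i
      have a1 : (Rᵀ * R * H i * (S * Sᵀ) * (H i)ᵀ).trace
          = ∑ k, ∑ f, S k i * S f i * (Rᵀ * R * G k * (S * Sᵀ) * (G f)ᵀ).trace := by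
        simp only [hH, Matrix.transpose_sum, Matrix.transpose_smul, Matrix.mul_sum,
          Matrix.sum_mul, Matrix.mul_smul, Matrix.smul_mul, Matrix.trace_sum, Matrix.trace_smul,
          smul_eq_mul]
        rw [Finset.sum_comm]
        refine Finset.sum_congr rfl fun k _ => ?_
        rw [Finset.mul_sum]
        refine Finset.sum_congr rfl fun f _ => ?_
        ring
      have a2 : (H i * H i).trace
          = ∑ k, ∑ f, S k i * S f i * (G k * G f).trace := by
        simp only [hH, Matrix.mul_sum,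
          Matrix.sum_mul, Matrix.mul_smul, Matrix.smul_mul, Matrix.trace_sum, Matrix.trace_smul,
          smul_eq_mul]
        rw [Finset.sum_comm]
        refine Finset.sum_congr rfl fun k _ => ?_
        rw [Finset.mul_sum]
        refine Finset.sum_congr rfl fun f _ => ?_
        ring
      rw [a1, a2, ← Finset.sum_add_distrib]
      refine Finset.sum_congr rfl fun k _ => ?_
      rw [← Finset.sum_add_distrib]
      refine Finset.sum_congr rfl fun f _ => ?_
      ring
    simp_rw [e1]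
    symm
    rw [Finset.sum_comm]
    refine Finset.sum_congr rfl fun k _ => ?_
    rw [Finset.sum_comm]
    refine Finset.sum_congr rfl fun f _ => ?_
    rw [← Finset.sum_mul]
    congr 1
  rw [e]
  exact Finset.sum_nonneg fun i _ => quad_nonneg S R (H i) hSR

/-- The pointwise inequality (flexible form: `U`, `DU` given with defining equations). -/
theorem key_alg' (t : Matrix (Fin n) (Fin n) ℝ) (ht : t.PosDef)
    (N : Matrix (Fin n) (Fin n) ℝ) (hN : ∀ i j, N i j = N j i)
    (F3 p : Fin n → Fin n → Fin n → ℝ)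
    (hF1 : ∀ a b c, F3 a b c = F3 b a c) (hF2 : ∀ a b c, F3 a b c = F3 a c b)
    (hp : ∀ a b c, p a b c = p a c b)
    (hSY : ∀ a b c, ∑ e, t a e * p e b c = ∑ e, t b e * p e a c)
    (U : Fin n → Fin n → ℝ) (hU : ∀ b d, U b d = ∑ e, t b e * N e d)
    (DU : Fin n → Fin n → Fin n → ℝ)
    (hDU : ∀ a b d, DU a b d = (∑ e, p a b e * N e d) + ∑ e, t b e * F3 a e d) :
    0 ≤ (∑ a, ∑ b, ∑ d, (∑ f, t d f * DU f a b) * DU a b d)
      + (∑ a, ∑ b, ∑ d, ∑ e, p a d e * DU e a b * U b d)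
      + (∑ a, ∑ b, ∑ d, (∑ f, t a f * DU f b d) * (∑ f, t d f * F3 f a b)) := by
  obtain ⟨S, R, hS, hSR, hRS⟩ := exists_factor t ht
  have hts : ∀ i j, t i j = t j i := by
    intro i j
    have := ht.isHermitian.apply i j
    simpa using this.symm
  have htT : tᵀ = t := by
    ext i j
    rw [Matrix.transpose_apply, hts]
  set s : Matrix (Fin n) (Fin n) ℝ := Rᵀ * R with hs
  have hst : s * t = 1 := by
    rw [hs, hS]
    calc Rᵀ * R * (S * Sᵀ) = Rᵀ * (R * S) * Sᵀ := by simp only [Matrix.mul_assoc]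
      _ = Rᵀ * Sᵀ := by rw [hRS, Matrix.mul_one]
      _ = 1 := by rw [← Matrix.transpose_mul, hSR, Matrix.transpose_one]
  have hts1 : t * s = 1 := by
    rw [hs, hS]
    calc (S * Sᵀ) * (Rᵀ * R) = S * (Sᵀ * Rᵀ) * R := by simp only [Matrix.mul_assoc]
      _ = S * R := by rw [← Matrix.transpose_mul, hRS, Matrix.transpose_one, Matrix.mul_one]
      _ = 1 := hSR
  -- matrices
  set P : Fin n → Matrix (Fin n) (Fin n) ℝ := fun a => Matrix.of (p a) with hP
  set F : Fin n → Matrix (Fin n) (Fin n) ℝ := fun a => Matrix.of (F3 a) with hF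
  set G : Fin n → Matrix (Fin n) (Fin n) ℝ := fun a => P a * N + t * F a with hG
  set Q : Fin n → Matrix (Fin n) (Fin n) ℝ := fun k => ∑ f, t k f • P f with hQ
  set Φ : Fin n → Matrix (Fin n) (Fin n) ℝ := fun k => ∑ f, t k f • F f with hΦ
  have hGa : ∀ a b d, DU a b d = G a b d := by
    intro a b d
    rw [hDU]
    simp only [hG, hP, hF, Matrix.add_apply, Matrix.mul_apply, Matrix.of_apply]
  have hQa : ∀ k b c, Q k b c = ∑ f, t k f * p f b c := by
    intro k b c
    simp only [hQ, hP, Matrix.sum_apply, Matrix.smul_apply, Matrix.of_apply, smul_eq_mul]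
  have hΦa : ∀ k b c, Φ k b c = ∑ f, t k f * F3 f b c := by
    intro k b c
    simp only [hΦ, hF, Matrix.sum_apply, Matrix.smul_apply, Matrix.of_apply, smul_eq_mul]
  have hQ1 : ∀ a b c, Q a b c = Q a c b := by
    intro a b c
    rw [hQa, hQa]
    exact Finset.sum_congr rfl fun f _ => by rw [hp]
  have hQ2 : ∀ a b c, Q a b c = Q b a c := by
    intro a b c
    rw [hQa, hQa]
    exact hSY a b c
  have hQT : ∀ k, (Q k)ᵀ = Q k := by
    intro k
    ext b c
    rw [Matrix.transpose_apply, hQ1]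
  have hΦT : ∀ k, (Φ k)ᵀ = Φ k := by
    intro k
    ext b c
    rw [Matrix.transpose_apply, hΦa, hΦa]
    exact Finset.sum_congr rfl fun f _ => by rw [hF2]
  have hNT : Nᵀ = N := by
    ext b c
    rw [Matrix.transpose_apply, hN]
  set M : Fin n → Matrix (Fin n) (Fin n) ℝ := fun k => ∑ f, t k f • G f with hM
  have hMa : ∀ k b c, M k b c = ∑ f, t k f * DU f b c := by
    intro k b c
    simp only [hM, Matrix.sum_apply, Matrix.smul_apply, smul_eq_mul, hGa]
  have hMQ : ∀ k, M k = Q k * N + t * Φ k := by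
    intro k
    simp only [hM, hG, hQ, hΦ, smul_add, Finset.sum_add_distrib, Matrix.sum_mul, Matrix.mul_sum,
      Matrix.smul_mul, Matrix.mul_smul]
  have hMs : ∀ k b c, M k b c = M b k c := by
    intro k b c
    rw [hMQ, hMQ, Matrix.add_apply, Matrix.add_apply, Matrix.mul_apply, Matrix.mul_apply,
      Matrix.mul_apply, Matrix.mul_apply]
    congr 1
    · exact Finset.sum_congr rfl fun e _ => by rw [hQ2]
    · simp only [hΦa, Finset.mul_sum]
      rw [Finset.sum_comm]
      refine Finset.sum_congr rfl fun f _ => Finset.sum_congr rfl fun e _ => ?_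
      rw [hF1 e f c]
      ring
  -- first term
  have T1 : (∑ a, ∑ b, ∑ d, (∑ f, t d f * DU f a b) * DU a b d)
      = ∑ k, ∑ f, t k f * (G k * G f).trace := by
    have e1 : (∑ a, ∑ b, ∑ d, (∑ f, t d f * DU f a b) * DU a b d)
        = ∑ a, (G a * M a).trace := by
      refine Finset.sum_congr rfl fun a _ => ?_
      simp only [Matrix.trace, Matrix.diag_apply, Matrix.mul_apply]
      refine Finset.sum_congr rfl fun b _ => Finset.sum_congr rfl fun d _ => ?_
      rw [← hMa, hMs d a b, hGa]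
      ring
    rw [e1]
    refine Finset.sum_congr rfl fun k _ => ?_
    simp only [hM, Matrix.mul_sum, Matrix.mul_smul, Matrix.trace_sum, Matrix.trace_smul,
      smul_eq_mul]
  -- second term
  have hPs : ∀ a, ∀ d e, p a d e = ∑ c, s a c * Q c d e := by
    intro a d e
    simp only [hQa, Finset.mul_sum]
    rw [Finset.sum_comm]
    have : ∀ f, ∑ c, s a c * (t c f * p f d e) = (s * t) a f * p f d e := by
      intro f
      rw [Matrix.mul_apply, Finset.sum_mul]
      exact Finset.sum_congr rfl fun c _ => by ring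
    simp_rw [this, hst, Matrix.one_apply]
    simp
  have hsT : ∀ i j, s i j = s j i := by
    intro i j
    simp only [hs, Matrix.mul_apply, Matrix.transpose_apply]
    exact Finset.sum_congr rfl fun c _ => by ring
  have T2 : (∑ a, ∑ b, ∑ d, ∑ e, p a d e * DU e a b * U b d)
      = ∑ e, (s * G e * (t * N) * Q e).trace := by
    have e0 : (∑ a, ∑ b, ∑ d, ∑ e, p a d e * DU e a b * U b d)
        = ∑ e, ∑ a, ∑ b, ∑ d, p a d e * DU e a b * U b d := by
      calc (∑ a, ∑ b, ∑ d, ∑ e, p a d e * DU e a b * U b d)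
          = ∑ a, ∑ b, ∑ e, ∑ d, p a d e * DU e a b * U b d :=
            Finset.sum_congr rfl fun a _ => Finset.sum_congr rfl fun b _ => Finset.sum_comm
        _ = ∑ a, ∑ e, ∑ b, ∑ d, p a d e * DU e a b * U b d :=
            Finset.sum_congr rfl fun a _ => Finset.sum_comm
        _ = _ := Finset.sum_comm
    rw [e0]
    refine Finset.sum_congr rfl fun e _ => ?_
    have e1 : (∑ a, ∑ b, ∑ d, p a d e * DU e a b * U b d)
        = ∑ a, ∑ b, ∑ d, ∑ c, s a c * Q c d e * (DU e a b * U b d) := by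
      refine Finset.sum_congr rfl fun a _ => Finset.sum_congr rfl fun b _ =>
        Finset.sum_congr rfl fun d _ => ?_
      rw [← Finset.sum_mul, ← hPs]
      ring
    have e2 : (s * G e * (t * N) * Q e).trace
        = ∑ c, ∑ d, ∑ b, ∑ a, s a c * Q c d e * (DU e a b * U b d) := by
      simp only [Matrix.trace, Matrix.diag_apply]
      refine Finset.sum_congr rfl fun c _ => ?_
      rw [Matrix.mul_apply]
      refine Finset.sum_congr rfl fun d _ => ?_
      rw [Matrix.mul_apply, Finset.sum_mul]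
      refine Finset.sum_congr rfl fun b _ => ?_
      rw [Matrix.mul_apply, Finset.sum_mul, Finset.sum_mul]
      refine Finset.sum_congr rfl fun a _ => ?_
      have q : Q e d c = Q c d e := by rw [hQ1 e d c, hQ2 e c d, hQ1 c e d]
      have u : (t * N) b d = U b d := by rw [hU, Matrix.mul_apply]
      rw [q, u, hsT c a, ← hGa]
      ring
    rw [e1, e2]
    exact sum_rev4 _
  have hsw : ∀ d f b, ∑ a, t f a * Φ d a b = ∑ g, t d g * Φ f g b := by
    intro d f b
    simp only [hΦa, Finset.mul_sum]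
    rw [Finset.sum_comm]
    refine Finset.sum_congr rfl fun g _ => Finset.sum_congr rfl fun a _ => ?_
    rw [hF1 g a b]
    ring
  have T3 : (∑ a, ∑ b, ∑ d, (∑ f, t a f * DU f b d) * (∑ f, t d f * F3 f a b))
      = ∑ k, (G k * t * Φ k).trace := by
    have e1 : (∑ a, ∑ b, ∑ d, (∑ f, t a f * DU f b d) * (∑ f, t d f * F3 f a b))
        = ∑ a, ∑ b, ∑ d, ∑ f, t f a * Φ d a b * DU f b d := by
      refine Finset.sum_congr rfl fun a _ => Finset.sum_congr rfl fun b _ =>
        Finset.sum_congr rfl fun d _ => ?_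
      rw [← hΦa, Finset.sum_mul]
      refine Finset.sum_congr rfl fun f _ => ?_
      rw [hts a f]
      ring
    have e2 : ∑ k, (G k * t * Φ k).trace
        = ∑ f, ∑ d, ∑ b, ∑ a, t f a * Φ d a b * DU f b d := by
      refine Finset.sum_congr rfl fun f _ => ?_
      have : ∑ d, ∑ b, ∑ a, t f a * Φ d a b * DU f b d
          = ∑ d, ∑ b, DU f b d * ∑ g, t d g * Φ f g b := by
        refine Finset.sum_congr rfl fun d _ => Finset.sum_congr rfl fun b _ => ?_
        rw [← hsw, Finset.mul_sum]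
        exact Finset.sum_congr rfl fun a _ => by ring
      rw [this, Finset.sum_comm]
      simp only [Matrix.trace, Matrix.diag_apply]
      refine Finset.sum_congr rfl fun b _ => ?_
      rw [Matrix.mul_assoc, Matrix.mul_apply]
      refine Finset.sum_congr rfl fun d _ => ?_
      rw [Matrix.mul_apply, ← hGa]
    rw [e1, e2]
    exact sum_rev4 _
  have T23 : ∑ e, (s * G e * (t * N) * Q e).trace + ∑ k, (G k * t * Φ k).trace
      = ∑ k, ∑ f, t k f * (s * G k * t * (G f)ᵀ).trace := by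
    rw [← Finset.sum_add_distrib]
    refine Finset.sum_congr rfl fun k _ => ?_
    have e1 : ∑ f, t k f * (s * G k * t * (G f)ᵀ).trace = (s * G k * t * (M k)ᵀ).trace := by
      simp only [hM, Matrix.transpose_sum, Matrix.transpose_smul, Matrix.mul_sum,
        Matrix.mul_smul, Matrix.trace_sum, Matrix.trace_smul, smul_eq_mul]
    rw [e1, hMQ, Matrix.transpose_add, Matrix.transpose_mul, Matrix.transpose_mul, hNT, hQT, htT,
      hΦT]
    generalize G k = X
    rw [Matrix.mul_add, Matrix.trace_add]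
    congr 1
    · simp only [Matrix.mul_assoc]
    · have : s * X * t * (Φ k * t) = s * (X * t * Φ k * t) := by
        simp only [Matrix.mul_assoc]
      rw [this, Matrix.trace_mul_comm s, Matrix.mul_assoc (X * t * Φ k) t s, hts1,
        Matrix.mul_one]
  rw [T1, T2, T3, add_assoc, T23, ← Finset.sum_add_distrib]
  have := sum_form_nonneg S R hSR G
  rw [← hS, ← hs] at this
  refine this.trans (le_of_eq ?_)
  refine Finset.sum_congr rfl fun k _ => ?_
  rw [← Finset.sum_add_distrib]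
  refine Finset.sum_congr rfl fun f _ => ?_
  ring

end P227M.XAlg
end

section

/-! P227/M, block ID (helper590): `StmtKey` directly for `ψ ∈ C^{2,1}`. -/

open MeasureTheory Set Metric Filter
open scoped Topology NNReal

namespace Vale.Agent.P227.M.X

variable {n : ℕ}

theorem sum3 (X : Fin n → Fin n → Fin n → ℝ) :
    ∑ b, ∑ d, ∑ a, X a b d = ∑ a, ∑ b, ∑ d, X a b d := by
  have h1 : ∀ b, ∑ d, ∑ a, X a b d = ∑ a, ∑ d, X a b d := fun b => Finset.sum_comm
  rw [Finset.sum_congr rfl fun b _ => h1 b, Finset.sum_comm]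

section
variable {t : Fin n → Fin n → E n → ℝ} {V : E n → ℝ} (h : TD t V)
include h

theorem rest_nonneg (hpd : ∀ x, (Matrix.of fun a b => t a b x).PosDef) {F : E n → ℝ}
    (hF : ContDiff ℝ (⊤ : ℕ∞) F) :
    ∀ᵐ x, 0 ≤ ∑ b, ∑ d, ∑ a, (D t a (D t b (pd d F)) x * D t d (pd a (pd b F)) x
      + D t d (D t a (pd b F)) x * pd a (D t b (pd d F)) x
      + ∑ e, pd a (t d e) x * pd e (D t a (pd b F)) x * D t b (pd d F) x) := by
  filter_upwards [ae_t h, h.SY] with x htx hSY
  have hDU : ∀ a b d, pd a (D t b (pd d F)) x =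
      (∑ e, pd a (t b e) x * pd e (pd d F) x) + ∑ e, t b e x * pd a (pd e (pd d F)) x := by
    intro a b d
    unfold D
    rw [pd_sum Finset.univ a (F := fun e z => t b e z * pd e (pd d F) z)
      (fun e _ => (htx b e).mul (smooth_diff (smooth_pd (smooth_pd hF d) e) x)), ← Finset.sum_add_distrib]
    exact Finset.sum_congr rfl fun e _ => pd_mul a (htx b e) (smooth_diff (smooth_pd (smooth_pd hF d) e) x)
  have key := P227M.XAlg.key_alg' (Matrix.of fun a b => t a b x) (hpd x) (fun e d => pd e (pd d F) x)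
    (fun e d => pd_pd_comm hF x e d) (fun a b c => pd a (pd b (pd c F)) x) (fun a b c => pd a (t b c) x)
    (fun a b c => pd_pd_comm (smooth_pd hF c) x a b)
    (fun a b c => by
      have : pd b (pd c F) = pd c (pd b F) := funext fun z => pd_pd_comm hF z b c
      rw [this])
    (fun a b c => by rw [h.symm b c])
    (fun a b c => hSY a b c)
    (fun b d => D t b (pd d F) x) (fun b d => rfl)
    (fun a b d => pd a (D t b (pd d F)) x) hDU
  rw [sum3]
  have e1 : ∑ a, ∑ b, ∑ d, (D t a (D t b (pd d F)) x * D t d (pd a (pd b F)) x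
      + D t d (D t a (pd b F)) x * pd a (D t b (pd d F)) x
      + ∑ e, pd a (t d e) x * pd e (D t a (pd b F)) x * D t b (pd d F) x) =
      (∑ a, ∑ b, ∑ d, (∑ f, t d f x * pd f (D t a (pd b F)) x) * pd a (D t b (pd d F)) x)
      + (∑ a, ∑ b, ∑ d, ∑ e, pd a (t d e) x * pd e (D t a (pd b F)) x * D t b (pd d F) x)
      + (∑ a, ∑ b, ∑ d, (∑ f, t a f x * pd f (D t b (pd d F)) x) * (∑ f, t d f x * pd f (pd a (pd b F)) x)) := by
    simp only [← Finset.sum_add_distrib]
    refine Finset.sum_congr rfl fun a _ => Finset.sum_congr rfl fun b _ => Finset.sum_congr rfl fun d _ => ?_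
    simp only [D]
    ring
  rw [e1]
  exact key

theorem trace_le (hpd : ∀ x, (Matrix.of fun a b => t a b x).PosDef) {F u : E n → ℝ}
    (hF : ContDiff ℝ (⊤ : ℕ∞) F) (hu : ContDiff ℝ (⊤ : ℕ∞) u) :
    ∀ᵐ x, 2 * (∑ b, ∑ a, pd a (D t b u) x * D t a (pd b F) x) - ∑ b, ∑ d, D t b (pd d F) x * D t d (pd b F) x
      ≤ ∑ a, ∑ b, pd b (D t a u) x * pd a (D t b u) x := by
  filter_upwards [comm h hu] with x hcomm
  set B : Matrix (Fin n) (Fin n) ℝ := fun a b => pd a (D t b u) x - D t b (pd a F) x with hB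
  have hsym : ((Matrix.of fun a b => t a b x) * B).IsSymm := by
    have e1 : ∀ a b, ((Matrix.of fun a b => t a b x) * B) a b =
        D t a (D t b u) x - ∑ c, ∑ e, t a c x * t b e x * pd e (pd c F) x := by
      intro a b
      rw [Matrix.mul_apply]
      simp only [hB, Matrix.of_apply, mul_sub, Finset.sum_sub_distrib]
      congr 1
      refine Finset.sum_congr rfl fun c _ => ?_
      simp only [D, Finset.mul_sum]
      exact Finset.sum_congr rfl fun e _ => by ring
    refine Matrix.IsSymm.ext fun a b => ?_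
    rw [e1, e1, hcomm b a]
    congr 1
    rw [Finset.sum_comm]
    exact Finset.sum_congr rfl fun c _ => Finset.sum_congr rfl fun e _ => by
      rw [pd_pd_comm hF x e c]; ring
  have h1 := P227M.XAlg.tr_sq_nonneg _ B (hpd x) hsym
  have e2 : (B * B).trace = (∑ a, ∑ b, pd b (D t a u) x * pd a (D t b u) x)
      - 2 * (∑ b, ∑ a, pd a (D t b u) x * D t a (pd b F) x) + ∑ b, ∑ d, D t b (pd d F) x * D t d (pd b F) x := by
    have e3 : (B * B).trace = ∑ a, ∑ b, (pd b (D t a u) x * pd a (D t b u) x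
        - pd a (D t b u) x * D t a (pd b F) x - pd b (D t a u) x * D t b (pd a F) x
        + D t b (pd a F) x * D t a (pd b F) x) := by
      simp only [Matrix.trace, Matrix.diag_apply]
      refine Finset.sum_congr rfl fun a _ => ?_
      rw [Matrix.mul_apply]
      refine Finset.sum_congr rfl fun b _ => ?_
      simp only [hB]; ring
    rw [e3]
    simp only [Finset.sum_add_distrib, Finset.sum_sub_distrib]
    have e4 : ∑ a, ∑ b, pd a (D t b u) x * D t a (pd b F) x = ∑ b, ∑ a, pd a (D t b u) x * D t a (pd b F) x :=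
      Finset.sum_comm
    have e5 : ∑ a, ∑ b, pd b (D t a u) x * D t b (pd a F) x = ∑ b, ∑ a, pd a (D t b u) x * D t a (pd b F) x := rfl
    have e6 : ∑ a, ∑ b, D t b (pd a F) x * D t a (pd b F) x = ∑ b, ∑ d, D t b (pd d F) x * D t d (pd b F) x := by
      exact Finset.sum_congr rfl fun a _ => Finset.sum_congr rfl fun b _ => mul_comm _ _
    rw [e4, e5, e6]; ring
  rw [e2] at h1
  linarith

/-- the key inequality, abstract form -/
theorem key_abs (hpd : ∀ x, (Matrix.of fun a b => t a b x).PosDef) {F u : E n → ℝ}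
    (hF : ContDiff ℝ (⊤ : ℕ∞) F) (hFc : CS F) (hu : ContDiff ℝ (⊤ : ℕ∞) u) (huc : CS u) :
    I V (fun x => ∑ b, ∑ d, ∑ a, D t d (pd a V) x * (D t a (pd b F) x * D t b (pd d F) x))
      + I V (fun x => ∑ a, ∑ b, pd b (pd a V) x * D t a u x * D t b u x)
    ≤ I V (fun x => (nL t u x) ^ 2)
      + 2 * I V (fun x => ∑ b, D t b (fun z => - nL t F z + F z + u z) x * (- nL t (pd b F) x)) := by
  have hV := h.V_smooth
  have hVa : ∀ a, LL (pd a V) := fun a => ll_pdV hV a
  have hp := fun b => smooth_pd hF b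
  -- U
  have hU : ∀ b d, LL (D t b (pd d F)) := fun b d => ll_D h (fun e => smooth_ll (smooth_pd (hp d) e)) b
  have hUc : ∀ b d, CS (D t b (pd d F)) := fun b d => cs_D (hFc.pd d) b
  have hUbc : ∀ b d, BC (D t b (pd d F)) := fun b d => ⟨(hU b d).lb, hUc b d⟩
  have hs : ∀ b, LL (D t b u) := fun b => ll_D h (fun e => smooth_ll (smooth_pd hu e)) b
  have hsc : ∀ b, CS (D t b u) := fun b => cs_D huc b
  have hsbc : ∀ b, BC (D t b u) := fun b => ⟨(hs b).lb, hsc b⟩
  have hpsbc : ∀ a b, BC (pd a (D t b u)) := fun a b => ⟨LB.pd (hs b) a, (hsc b).pd a⟩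
  have hnb : ∀ b, BC (nL t (pd b F)) := fun b => ⟨(ll_nL h (hp b)).lb, cs_nL (hFc.pd b)⟩
  have hDsbc : ∀ b d, BC (Ds t d (D t b (pd d F))) := fun b d => bc_Ds h (hU b d) (hUc b d) d
  -- sums
  have bS : ∀ b d, BC (fun x => Ds t d (D t b (pd d F)) x * nL t (pd b F) x) := fun b d => (hDsbc b d).mul (hnb b)
  have bC : ∀ b d a, BC (fun x => D t d (pd a V) x * (D t a (pd b F) x * D t b (pd d F) x)) := fun b d a =>
    BC.mul_left ((hUbc a b).mul (hUbc b d)) (lb_D h (hVa a) d)
  have bT : ∀ b d, BC (fun x => D t b (pd d F) x * D t d (pd b F) x) := fun b d => (hUbc b d).mul (hUbc d b)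
  have bR3 : ∀ b d a, BC (fun x => D t a (D t b (pd d F)) x * D t d (pd a (pd b F)) x) := fun b d a =>
    BC.mul_left (bc_D h (smooth_ll (smooth_pd (hp b) a)) ((hFc.pd b).pd a) d) (lb_D h (hU b d) a)
  have bR1 : ∀ b d a, BC (fun x => D t d (D t a (pd b F)) x * pd a (D t b (pd d F)) x) := fun b d a =>
    BC.mul_left ⟨LB.pd (hU b d) a, (hUc b d).pd a⟩ (lb_D h (hU a b) d)
  have bR2 : ∀ b d a, BC (fun x => ∑ e, pd a (t d e) x * pd e (D t a (pd b F)) x * D t b (pd d F) x) := fun b d a =>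
    BC.sum fun e _ => BC.mul_left (hUbc b d) ((LB.pd (h.ll d e) a).mul (LB.pd (hU a b) e))
  -- values
  set S := ∑ b, ∑ d, I V (fun x => Ds t d (D t b (pd d F)) x * nL t (pd b F) x) with hS
  set TU := ∑ b, ∑ d, I V (fun x => D t b (pd d F) x * D t d (pd b F) x) with hTU
  set R3 := ∑ b, ∑ d, ∑ a, I V (fun x => D t a (D t b (pd d F)) x * D t d (pd a (pd b F)) x) with hR3
  set R1 := ∑ b, ∑ d, ∑ a, I V (fun x => D t d (D t a (pd b F)) x * pd a (D t b (pd d F)) x) with hR1
  set R2 := ∑ b, ∑ d, ∑ a, I V (fun x => ∑ e, pd a (t d e) x * pd e (D t a (pd b F)) x * D t b (pd d F) x) with hR2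
  have eA : S = TU + R3 := by
    rw [hS, hTU, hR3, ← Finset.sum_add_distrib]
    refine Finset.sum_congr rfl fun b _ => ?_
    rw [← Finset.sum_add_distrib]
    exact Finset.sum_congr rfl fun d _ => idA h hF hFc b d
  have eC : I V (fun x => ∑ b, ∑ d, ∑ a, D t d (pd a V) x * (D t a (pd b F) x * D t b (pd d F) x)) = S - R1 - R2 := by
    rw [I_sum hV fun b _ => BC.sum fun d _ => BC.sum fun a _ => bC b d a, hS, hR1, hR2,
      ← Finset.sum_sub_distrib, ← Finset.sum_sub_distrib]
    refine Finset.sum_congr rfl fun b _ => ?_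
    rw [I_sum hV fun d _ => BC.sum fun a _ => bC b d a, ← Finset.sum_sub_distrib, ← Finset.sum_sub_distrib]
    refine Finset.sum_congr rfl fun d _ => ?_
    rw [I_sum hV fun a _ => bC b d a]
    exact idB h hF hFc b d
  have eR : 0 ≤ R3 + R1 + R2 := by
    have e1 : R3 + R1 + R2 = I V (fun x => ∑ b, ∑ d, ∑ a, (D t a (D t b (pd d F)) x * D t d (pd a (pd b F)) x
      + D t d (D t a (pd b F)) x * pd a (D t b (pd d F)) x
      + ∑ e, pd a (t d e) x * pd e (D t a (pd b F)) x * D t b (pd d F) x)) := by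
      have b3 : ∀ b d a, BC (fun x => D t a (D t b (pd d F)) x * D t d (pd a (pd b F)) x
        + D t d (D t a (pd b F)) x * pd a (D t b (pd d F)) x
        + ∑ e, pd a (t d e) x * pd e (D t a (pd b F)) x * D t b (pd d F) x) := fun b d a =>
        ((bR3 b d a).add (bR1 b d a)).add (bR2 b d a)
      rw [I_sum hV fun b _ => BC.sum fun d _ => BC.sum fun a _ => b3 b d a, hR3, hR1, hR2,
        ← Finset.sum_add_distrib, ← Finset.sum_add_distrib]
      refine Finset.sum_congr rfl fun b _ => ?_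
      rw [I_sum hV fun d _ => BC.sum fun a _ => b3 b d a, ← Finset.sum_add_distrib, ← Finset.sum_add_distrib]
      refine Finset.sum_congr rfl fun d _ => ?_
      rw [I_sum hV fun a _ => b3 b d a, ← Finset.sum_add_distrib, ← Finset.sum_add_distrib]
      refine Finset.sum_congr rfl fun a _ => ?_
      rw [I_add hV ((bR3 b d a).add (bR1 b d a)) (bR2 b d a), I_add hV (bR3 b d a) (bR1 b d a)]
    rw [e1]
    unfold I
    refine integral_nonneg_of_ae ?_
    filter_upwards [rest_nonneg h hpd hF] with x hx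
    exact mul_nonneg hx (Real.exp_pos _).le
  -- S through u and h
  set hh : E n → ℝ := fun z => - nL t F z + F z + u z with hhh
  have hhll : LL hh := ((ll_nL h hF).neg.add (smooth_ll hF)).add (smooth_ll hu)
  have hhcs : CS hh := ((cs_nL hFc).neg.add hFc).add huc
  have bH : ∀ b, BC (fun x => D t b hh x * (- nL t (pd b F) x)) := fun b =>
    (bc_D h hhll hhcs b).mul (hnb b).neg
  have bJ0 : ∀ b, BC (fun x => D t b u x * nL t (pd b F) x) := fun b => (hsbc b).mul (hnb b)
  have eDh : ∀ᵐ x, ∀ b, D t b hh x = D t b u x - ∑ d, Ds t d (D t b (pd d F)) x := by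
    filter_upwards [D_nL h hF, (ll_nL h hF).ae_diff] with x hx hdx
    intro b
    have e1 : D t b hh x = D t b (fun z => - nL t F z + F z) x + D t b u x := by
      rw [hhh]
      exact D_add (f := fun z => - nL t F z + F z) b (hdx.neg.add (smooth_diff hF x)) (smooth_diff hu x)
    have e2 : D t b (fun z => - nL t F z + F z) x = D t b (fun z => - nL t F z) x + D t b F x :=
      D_add (f := fun z => - nL t F z) b hdx.neg (smooth_diff hF x)
    have e3 : D t b (fun z => - nL t F z) x = - D t b (nL t F) x := by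
      unfold D
      rw [← Finset.sum_neg_distrib]
      exact Finset.sum_congr rfl fun e _ => by rw [pd_neg]; ring
    rw [e1, e2, e3, hx b]; ring
  have eS : S = (∑ b, I V (fun x => D t b u x * nL t (pd b F) x))
      + I V (fun x => ∑ b, D t b hh x * (- nL t (pd b F) x)) := by
    rw [I_sum hV fun b _ => bH b, hS, ← Finset.sum_add_distrib]
    refine Finset.sum_congr rfl fun b _ => ?_
    rw [← I_sum hV fun d _ => bS b d, ← I_add hV (bJ0 b) (bH b)]
    refine I_congr ?_
    filter_upwards [eDh] with x hx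
    rw [hx b, ← Finset.sum_mul]; ring
  -- J
  have bJ : ∀ b a, BC (fun x => pd a (D t b u) x * D t a (pd b F) x) := fun b a => (hpsbc a b).mul (hUbc a b)
  have bJ' : ∀ b a, BC (fun x => D t b u x * (pd a V x * D t a (pd b F) x - pd a (D t a (pd b F)) x)) := fun b a =>
    (hsbc b).mul ((BC.mul_left (hUbc a b) (hVa a).lb).sub ⟨LB.pd (hU a b) a, (hUc a b).pd a⟩)
  have eJ : ∑ b, I V (fun x => D t b u x * nL t (pd b F) x) =
      ∑ b, ∑ a, I V (fun x => pd a (D t b u) x * D t a (pd b F) x) := by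
    refine Finset.sum_congr rfl fun b _ => ?_
    have e1 : I V (fun x => D t b u x * nL t (pd b F) x) =
        I V (fun x => ∑ a, D t b u x * (pd a V x * D t a (pd b F) x - pd a (D t a (pd b F)) x)) := by
      refine I_congr ?_
      filter_upwards [nL_div h (hp b)] with x hx
      rw [hx, Finset.mul_sum]
    rw [e1, I_sum hV fun a _ => bJ' b a]
    exact Finset.sum_congr rfl fun a _ => (ibpw (V_one hV) (hs b) (hU a b) (Or.inl (hsc b)) a).symm
  -- X3
  have bV : ∀ a b, BC (fun x => pd b (pd a V) x * D t a u x * D t b u x) := fun a b =>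
    BC.mul_left (hsbc b) ((smooth_ll (smooth_pd (smooth_pd hV a) b)).lb.mul (hs a).lb)
  have bP : ∀ a b, BC (fun x => pd b (D t a u) x * pd a (D t b u) x) := fun a b => (hpsbc b a).mul (hpsbc a b)
  have eX : I V (fun x => (nL t u x) ^ 2) =
      I V (fun x => ∑ a, ∑ b, pd b (pd a V) x * D t a u x * D t b u x)
        + ∑ a, ∑ b, I V (fun x => pd b (D t a u) x * pd a (D t b u) x) := by
    have b0 : ∀ a, BC (fun x => pd a V x * D t a u x - pd a (D t a u) x) := fun a =>
      (BC.mul_left (hsbc a) (hVa a).lb).sub (hpsbc a a)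
    have e1 : I V (fun x => (nL t u x) ^ 2) = I V (fun x => ∑ a, ∑ b,
        (pd a V x * D t a u x - pd a (D t a u) x) * (pd b V x * D t b u x - pd b (D t b u) x)) := by
      refine I_congr ?_
      filter_upwards [nL_div h hu] with x hx
      rw [hx, sq, Finset.sum_mul_sum]
    rw [e1, I_sum hV fun a _ => BC.sum fun b _ => (b0 a).mul (b0 b), I_sum hV fun a _ => BC.sum fun b _ => bV a b,
      ← Finset.sum_add_distrib]
    refine Finset.sum_congr rfl fun a _ => ?_
    rw [I_sum hV fun b _ => (b0 a).mul (b0 b), I_sum hV fun b _ => bV a b, ← Finset.sum_add_distrib]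
    refine Finset.sum_congr rfl fun b _ => ?_
    rw [idX3 h hs hsc a b, I_add hV (bV a b) (bP a b)]
  -- trace inequality
  have eT : 2 * (∑ b, ∑ a, I V (fun x => pd a (D t b u) x * D t a (pd b F) x)) - TU ≤
      ∑ a, ∑ b, I V (fun x => pd b (D t a u) x * pd a (D t b u) x) := by
    have e1 : 2 * (∑ b, ∑ a, I V (fun x => pd a (D t b u) x * D t a (pd b F) x)) - TU =
        I V (fun x => 2 * (∑ b, ∑ a, pd a (D t b u) x * D t a (pd b F) x)
          - ∑ b, ∑ d, D t b (pd d F) x * D t d (pd b F) x) := by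
      have b1 : BC (fun x => ∑ b, ∑ a, pd a (D t b u) x * D t a (pd b F) x) :=
        BC.sum fun b _ => BC.sum fun a _ => bJ b a
      have b2 : BC (fun x => ∑ b, ∑ d, D t b (pd d F) x * D t d (pd b F) x) :=
        BC.sum fun b _ => BC.sum fun d _ => bT b d
      have e3 : I V (fun x => 2 * (∑ b, ∑ a, pd a (D t b u) x * D t a (pd b F) x)) =
          2 * I V (fun x => ∑ b, ∑ a, pd a (D t b u) x * D t a (pd b F) x) := by
        unfold I
        rw [← integral_const_mul]
        exact integral_congr_ae (Eventually.of_forall fun x => by simp only; ring)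
      rw [I_sub hV (b1.mul_left (LB.const 2)) b2, e3, I_sum hV fun b _ => BC.sum fun a _ => bJ b a,
        I_sum hV fun b _ => BC.sum fun d _ => bT b d, hTU]
      congr 1
      · congr 1
        exact Finset.sum_congr rfl fun b _ => (I_sum hV fun a _ => bJ b a).symm
      · exact Finset.sum_congr rfl fun b _ => (I_sum hV fun d _ => bT b d).symm
    have e2 : ∑ a, ∑ b, I V (fun x => pd b (D t a u) x * pd a (D t b u) x) =
        I V (fun x => ∑ a, ∑ b, pd b (D t a u) x * pd a (D t b u) x) := by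
      rw [I_sum hV fun a _ => BC.sum fun b _ => bP a b]
      exact Finset.sum_congr rfl fun a _ => (I_sum hV fun b _ => bP a b).symm
    rw [e1, e2]
    refine I_mono hV ?_ (BC.sum fun a _ => BC.sum fun b _ => bP a b) (trace_le h hpd hF hu)
    exact (BC.mul_left (BC.sum fun b _ => BC.sum fun a _ => bJ b a) (LB.const 2)).sub
      (BC.sum fun b _ => BC.sum fun d _ => bT b d)
  rw [eC, eX]
  rw [eJ] at eS
  linarith

end

/-! ### `StmtKey` -/

section final
variable {ψ V : E n → ℝ} {c C M : ℝ}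

theorem td_of_MM (hV : ContDiff ℝ (⊤ : ℕ∞) V) (h : MM ψ V c C M) : TD (fun a b x => tau ψ x a b) V where
  V_smooth := hV
  ll := fun a b => by
    obtain ⟨K, _, hK⟩ := XS.tau_lip h
    exact LL.of_lip (hK a b)
  symm := fun a b => funext fun x => XS.tau_symm h x a b
  SY := XS.SY h
  ST := by
    filter_upwards [XS.ST hV h] with x hx a
    rw [Finset.sum_sub_distrib]
    exact hx a

theorem qf_toLp (A : Matrix (Fin n) (Fin n) ℝ) (x : Fin n → ℝ) :
    qf A (WithLp.toLp 2 x) = dotProduct (star x) (A.mulVec x) := by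
  simp only [qf, dotProduct, Matrix.mulVec, Finset.mul_sum, star_trivial]
  exact Finset.sum_congr rfl fun i _ => Finset.sum_congr rfl fun j _ => by ring

theorem tau_pd (h : MM ψ V c C M) (x : E n) : (tau ψ x).PosDef := by
  have h1 : (hess ψ x).PosDef := by
    refine Matrix.PosDef.of_dotProduct_mulVec_pos ?_ ?_
    · ext i j
      have h2 : hess ψ x j i = hess ψ x i j := by
        have hsym := (h.C2.contDiffAt (x := x)).isSymmSndFDerivAt (by simp)
        have hdf : Differentiable ℝ (fderiv ℝ ψ) :=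
          (h.C2.fderiv_right (m := 1) (by norm_num)).differentiable (by simp)
        have e1 : ∀ u v : E n, fderiv ℝ (fun y => fderiv ℝ ψ y u) x v = fderiv ℝ (fderiv ℝ ψ) x v u := by
          intro u v
          rw [fderiv_clm_apply (hdf x) (differentiableAt_const _)]
          simp
        unfold hess Vale.Agent.P227.M.pd
        rw [e1, e1]
        exact hsym.eq _ _
      simp [h2]
    · intro y hy
      have h3 := h.lower x (WithLp.toLp 2 y)
      have h2 : (WithLp.toLp 2 y : E n) ≠ 0 := by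
        intro h0
        exact hy (by simpa using congrArg WithLp.ofLp h0)
      have h4 : 0 < c * ‖(WithLp.toLp 2 y : E n)‖ ^ 2 := by have := h.c_pos; positivity
      rw [← qf_toLp]
      exact h4.trans_le h3
  exact h1.inv

theorem nL_eq {g : E n → ℝ} (hg : ContDiff ℝ (⊤ : ℕ∞) g) (x : E n) :
    nL (fun a b x => tau ψ x a b) g x = - Lop ψ g x := by
  unfold nL Ds D Lop
  rw [Finset.sum_sub_distrib]
  have : ∑ a, ∑ e, tau ψ x a e * pd e (pd a g) x = ∑ i, ∑ j, tau ψ x i j * hess g x i j :=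
    Finset.sum_congr rfl fun a _ => Finset.sum_congr rfl fun e _ => by
      rw [pd_pd_comm hg x e a]; rfl
  rw [this]; ring

theorem trace_eq (x : E n) (F : E n → ℝ) (V : E n → ℝ) :
    (hess V x * tau ψ x * hess F x * tau ψ x * hess F x * tau ψ x).trace =
      ∑ b, ∑ d, ∑ a, D (fun a b x => tau ψ x a b) d (pd a V) x *
        (D (fun a b x => tau ψ x a b) a (pd b F) x * D (fun a b x => tau ψ x a b) b (pd d F) x) := by
  rw [Matrix.trace_mul_comm]
  have e1 : tau ψ x * (hess V x * tau ψ x * hess F x * tau ψ x * hess F x) =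
      (tau ψ x * hess V x) * (tau ψ x * hess F x) * (tau ψ x * hess F x) := by
    simp only [Matrix.mul_assoc]
  have e2 : ∀ (G : E n → ℝ) (a b : Fin n), (tau ψ x * hess G x) a b = D (fun a b x => tau ψ x a b) a (pd b G) x :=
    fun G a b => rfl
  rw [e1]
  simp only [Matrix.trace, Matrix.diag_apply]
  have e3 : ∀ d, ((tau ψ x * hess V x) * (tau ψ x * hess F x) * (tau ψ x * hess F x)) d d =
      ∑ b, ∑ a, D (fun a b x => tau ψ x a b) d (pd a V) x *
        (D (fun a b x => tau ψ x a b) a (pd b F) x * D (fun a b x => tau ψ x a b) b (pd d F) x) := by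
    intro d
    rw [Matrix.mul_apply]
    refine Finset.sum_congr rfl fun b _ => ?_
    rw [Matrix.mul_apply, Finset.sum_mul]
    refine Finset.sum_congr rfl fun a _ => ?_
    rw [e2, e2, e2]; ring
  rw [Finset.sum_congr rfl fun d _ => e3 d, Finset.sum_comm]

end final

/-- **block ID: the key inequality** -/
theorem stmtKey : StmtKey := by
  intro n ψ V c C M hN h F u hF hu
  have hV := hN.smooth
  have td := td_of_MM hV h
  have key := key_abs td (fun x => tau_pd h x) hF.1 (CS.of_hasCompactSupport hF.2) hu.1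
    (CS.of_hasCompactSupport hu.2)
  have e1 : I V (fun x => ∑ b, ∑ d, ∑ a, D (fun a b x => tau ψ x a b) d (pd a V) x *
        (D (fun a b x => tau ψ x a b) a (pd b F) x * D (fun a b x => tau ψ x a b) b (pd d F) x)) =
      ∫ x, (hess V x * tau ψ x * hess F x * tau ψ x * hess F x * tau ψ x).trace * Real.exp (-V x) :=
    I_congr' fun x => (trace_eq x F V).symm
  have e2 : I V (fun x => ∑ a, ∑ b, pd b (pd a V) x * D (fun a b x => tau ψ x a b) a u x *
        D (fun a b x => tau ψ x a b) b u x) =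
      ∫ x, (∑ a, ∑ b, hess V x a b * fld ψ u a x * fld ψ u b x) * Real.exp (-V x) := by
    refine I_congr' fun x => ?_
    exact Finset.sum_congr rfl fun a _ => Finset.sum_congr rfl fun b _ => by
      rw [pd_pd_comm hV x b a]; rfl
  have e3 : I V (fun x => (nL (fun a b x => tau ψ x a b) u x) ^ 2) =
      ∫ x, (Lop ψ u x) ^ 2 * Real.exp (-V x) := by
    refine I_congr' fun x => ?_
    rw [nL_eq hu.1]; ring
  have e4 : I V (fun x => ∑ b, D (fun a b x => tau ψ x a b) b
        (fun z => - nL (fun a b x => tau ψ x a b) F z + F z + u z) x *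
          (- nL (fun a b x => tau ψ x a b) (pd b F) x)) =
      ∫ x, (∑ b, fld ψ (fun z => Lop ψ F z + F z + u z) b x * Lop ψ (pd b F) x) * Real.exp (-V x) := by
    refine I_congr' fun x => ?_
    have e5 : (fun z => - nL (fun a b x => tau ψ x a b) F z + F z + u z) = fun z => Lop ψ F z + F z + u z :=
      funext fun z => by rw [nL_eq hF.1]; ring
    rw [e5]
    exact Finset.sum_congr rfl fun b _ => by rw [nL_eq (smooth_pd hF.1 b), neg_neg]; rfl
  rw [e1, e2, e3, e4] at key
  have hZ : 0 ≤ ∫ x, Real.exp (-V x) := integral_nonneg fun x => (Real.exp_pos _).le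
  have := div_le_div_of_nonneg_right key hZ
  unfold Ex
  rw [add_div, add_div, mul_div_assoc] at this
  exact this

end Vale.Agent.P227.M.X
end

section

/-! # P227/M/SC2: target of the flow part of block SC (helper204, on 981's recommendation).

`heat W P x = - log ∫ exp (-W (x + P z) - ‖z‖² / 2) dz` (unnormalised Gaussian average, covariance `P Pᵀ`;
`√s` is inside `P`). `StmtHeat` + the one-dimensional third moment lemma give `StmtSC` (`SC2/MargN.lean`). -/

open MeasureTheory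

namespace Vale.Agent.P227.M

/-- unnormalised Gaussian average of `e^{-W}` in the directions of `range P` -/
noncomputable def heat {n : ℕ} (W : E n → ℝ) (P : E n →L[ℝ] E n) (x : E n) : ℝ :=
  -Real.log (∫ z : E n, Real.exp (-W (x + P z) - ‖z‖ ^ 2 / 2))

/-- the flow keeps the self-concordance constant -/
def StmtHeat : Prop := ∀ (n : ℕ) (W : E n → ℝ) (c C κ : ℝ), Reg W c C → 0 ≤ κ → κ ≤ 1 →
  SelfConc κ W → ∀ P : E n →L[ℝ] E n, SelfConc κ (heat W P)

end Vale.Agent.P227.M
end

section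

/-! # P227/M/SC2: `heat U P` is three times differentiable along lines (helper204). -/

open MeasureTheory Filter Topology

namespace Vale.Agent.P227.M.HL

variable {n : ℕ}

/-- line derivative of order `i` -/
noncomputable def g (U : E n → ℝ) (v : E n) (i : ℕ) (x : E n) : ℝ :=
  iteratedFDeriv ℝ i U x (fun _ => v)

theorem hasDerivAt_g {U : E n → ℝ} (hU : ContDiff ℝ (⊤ : ℕ∞) U) (v : E n) (i : ℕ) (x : E n) (s : ℝ) :
    HasDerivAt (fun t : ℝ => g U v i (x + t • v)) (g U v (i + 1) (x + s • v)) s := by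
  have h1 : (fun t : ℝ => g U v i (x + t • v)) = iteratedDeriv i (fun t : ℝ => U (x + t • v)) := by
    funext t; rw [LK.iteratedDeriv_line hU]; rfl
  have hl : ContDiff ℝ (⊤ : ℕ∞) (fun t : ℝ => U (x + t • v)) :=
    hU.comp (contDiff_const.add (contDiff_id.smul contDiff_const))
  have h2 : Differentiable ℝ (iteratedDeriv i (fun t : ℝ => U (x + t • v))) :=
    hl.differentiable_iteratedDeriv i (by exact_mod_cast (WithTop.coe_lt_top i))
  rw [h1]
  have h3 := (h2 s).hasDerivAt
  rwa [← iteratedDeriv_succ, LK.iteratedDeriv_line hU] at h3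

theorem g_zero (U : E n → ℝ) (v : E n) : g U v 0 = U := by
  funext x; simp [g]

theorem cont_g {U : E n → ℝ} (hU : ContDiff ℝ (⊤ : ℕ∞) U) (v : E n) (i : ℕ) : Continuous (g U v i) := by
  have h1 : Continuous (iteratedFDeriv ℝ i U) :=
    hU.continuous_iteratedFDeriv (by exact_mod_cast le_top)
  exact (ContinuousMultilinearMap.apply ℝ (fun _ : Fin i => E n) ℝ (fun _ => v)).continuous.comp h1

theorem gr_g {U : E n → ℝ} {c C : ℝ} (h : Reg U c C) (v : E n) (i : ℕ) (hi : 1 ≤ i) :
    Gr (g U v i) := by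
  rcases Nat.lt_or_ge i 2 with h2 | h2
  · have hi1 : i = 1 := by omega
    subst hi1
    obtain ⟨B, hB⟩ := h.bdd 2 le_rfl
    have hB0 : 0 ≤ B := (norm_nonneg _).trans (hB 0)
    refine ⟨cont_g h.smooth v 1, (‖fderiv ℝ U 0‖ + B) * ‖v‖, 1, by positivity, fun x => ?_⟩
    have h3 := norm_fderiv_le h.C2 hB x
    have h4 : |g U v 1 x| ≤ ‖fderiv ℝ U x‖ * ‖v‖ := by
      unfold g
      rw [iteratedFDeriv_one_apply]
      exact (fderiv ℝ U x).le_opNorm v
    have h5 := norm_nonneg x
    have h6 := norm_nonneg (fderiv ℝ U 0)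
    have h7 : ‖fderiv ℝ U x‖ ≤ (‖fderiv ℝ U 0‖ + B) * (1 + ‖x‖) := by nlinarith
    calc |g U v 1 x| ≤ ‖fderiv ℝ U x‖ * ‖v‖ := h4
      _ ≤ ((‖fderiv ℝ U 0‖ + B) * (1 + ‖x‖)) * ‖v‖ := by gcongr
      _ = _ := by ring
  · obtain ⟨B, hB⟩ := h.bdd i h2
    refine Gr.of_bound (cont_g h.smooth v i) (B := B * ‖v‖ ^ i) fun x => ?_
    have h3 := (iteratedFDeriv ℝ i U x).le_opNorm (fun _ => v)
    simp only [Finset.prod_const, Finset.card_univ, Fintype.card_fin] at h3
    exact h3.trans (mul_le_mul_of_nonneg_right (hB x) (by positivity))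

/-- the four weights -/
noncomputable def q (U : E n → ℝ) (v : E n) : ℕ → E n → ℝ
  | 0 => fun _ => 1
  | 1 => fun x => -(g U v 1 x)
  | 2 => fun x => (g U v 1 x) ^ 2 - g U v 2 x
  | 3 => fun x => -(g U v 1 x) ^ 3 + 3 * (g U v 1 x * g U v 2 x) - g U v 3 x
  | _ => fun _ => 0

theorem q_zero (U : E n → ℝ) (v x : E n) : q U v 0 x = 1 := rfl
theorem q_one (U : E n → ℝ) (v x : E n) : q U v 1 x = -(g U v 1 x) := rfl
theorem q_two (U : E n → ℝ) (v x : E n) : q U v 2 x = (g U v 1 x) ^ 2 - g U v 2 x := rfl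
theorem q_three (U : E n → ℝ) (v x : E n) :
    q U v 3 x = -(g U v 1 x) ^ 3 + 3 * (g U v 1 x * g U v 2 x) - g U v 3 x := rfl

theorem gr_q {U : E n → ℝ} {c C : ℝ} (h : Reg U c C) (v : E n) (i : ℕ) : Gr (q U v i) := by
  have h1 := gr_g h v 1 le_rfl
  have h2 := gr_g h v 2 (by norm_num)
  have h3 := gr_g h v 3 (by norm_num)
  match i with
  | 0 => exact Gr.const 1
  | 1 => exact h1.neg
  | 2 => exact (h1.pow 2).sub h2
  | 3 => exact (((h1.pow 3).neg).add ((h1.mul h2).const_mul 3)).sub h3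
  | (k + 4) => exact Gr.const 0

/-- the weighted function -/
noncomputable def f (U : E n → ℝ) (v : E n) (i : ℕ) (x : E n) : ℝ := q U v i x * Real.exp (-U x)

theorem hasDerivAt_f {U : E n → ℝ} (hU : ContDiff ℝ (⊤ : ℕ∞) U) (v : E n) (i : ℕ) (hi : i < 3)
    (x : E n) (s : ℝ) :
    HasDerivAt (fun t : ℝ => f U v i (x + t • v)) (f U v (i + 1) (x + s • v)) s := by
  have d0 := hasDerivAt_g hU v 0 x s
  rw [g_zero] at d0
  have d1 := hasDerivAt_g hU v 1 x s
  have d2 := hasDerivAt_g hU v 2 x s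
  simp only [zero_add, Nat.reduceAdd] at d0 d1 d2
  have de : HasDerivAt (fun t : ℝ => Real.exp (-U (x + t • v)))
      (Real.exp (-U (x + s • v)) * (-(g U v 1 (x + s • v)))) s := d0.neg.exp
  interval_cases i
  · refine HasDerivAt.congr_deriv (f := fun t : ℝ => f U v 0 (x + t • v)) ?_ (?_ :
      Real.exp (-U (x + s • v)) * (-(g U v 1 (x + s • v))) = _)
    · simpa only [f, q_zero, one_mul] using de
    · simp only [f, zero_add, q_one]; ring
  · have h1 := (d1.neg).mul de
    refine HasDerivAt.congr_deriv (f := fun t : ℝ => f U v 1 (x + t • v)) h1 ?_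
    simp only [f, Nat.reduceAdd, q_two, Pi.neg_apply]; ring
  · have h1 := ((d1.pow 2).sub d2).mul de
    refine HasDerivAt.congr_deriv (f := fun t : ℝ => f U v 2 (x + t • v)) h1 ?_
    simp only [f, Nat.reduceAdd, q_three]
    norm_num
    ring

theorem cont_f {U : E n → ℝ} {c C : ℝ} (h : Reg U c C) (v : E n) (i : ℕ) : Continuous (f U v i) :=
  (gr_q h v i).cont.mul (Real.continuous_exp.comp h.cont.neg)

theorem bdd_mul_exp {U : E n → ℝ} {c C : ℝ} (h : Reg U c C) {p : E n → ℝ} (hp : Gr p) :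
    ∃ K : ℝ, 0 ≤ K ∧ ∀ x, |p x * Real.exp (-U x)| ≤ K := by
  obtain ⟨-, B, k, hB, hb⟩ := hp
  obtain ⟨A, hA⟩ := h.quad_lower
  have hc := h.c_pos
  obtain ⟨D, hD, hd⟩ := growth_le_exp (a := c / 4) (by positivity) k
  refine ⟨B * D * Real.exp A, by positivity, fun x => ?_⟩
  rw [abs_mul, Real.abs_exp]
  have h3 : Real.exp (-U x) ≤ Real.exp A * Real.exp (-(c / 4) * ‖x‖ ^ 2) := by
    rw [← Real.exp_add]
    exact Real.exp_le_exp.2 (by have := hA x; linarith)
  calc |p x| * Real.exp (-U x)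
      ≤ (B * (D * Real.exp (c / 4 * ‖x‖ ^ 2))) * (Real.exp A * Real.exp (-(c / 4) * ‖x‖ ^ 2)) :=
        mul_le_mul ((hb x).trans (mul_le_mul_of_nonneg_left (hd ‖x‖ (norm_nonneg x)) hB)) h3
          (Real.exp_pos _).le (by positivity)
    _ = B * D * Real.exp A * (Real.exp (c / 4 * ‖x‖ ^ 2) * Real.exp (-(c / 4) * ‖x‖ ^ 2)) := by ring
    _ = B * D * Real.exp A := by
        rw [← Real.exp_add, show c / 4 * ‖x‖ ^ 2 + -(c / 4) * ‖x‖ ^ 2 = 0 by ring, Real.exp_zero,
          mul_one]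

/-- Gaussian weight -/
theorem integrable_gw : Integrable (fun z : E n => Real.exp (-‖z‖ ^ 2 / 2)) := by
  have := integrable_gauss (n := n) (a := 1 / 2) (by norm_num)
  refine this.congr (Eventually.of_forall fun z => ?_)
  simp only
  congr 1
  ring

/-- smoothed functions -/
noncomputable def H (U : E n → ℝ) (v : E n) (P : E n →L[ℝ] E n) (i : ℕ) (x : E n) : ℝ :=
  ∫ z : E n, f U v i (x + P z) * Real.exp (-‖z‖ ^ 2 / 2)

theorem integrable_H {U : E n → ℝ} {c C : ℝ} (h : Reg U c C) (v : E n) (P : E n →L[ℝ] E n) (i : ℕ)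
    (x : E n) : Integrable (fun z : E n => f U v i (x + P z) * Real.exp (-‖z‖ ^ 2 / 2)) := by
  obtain ⟨K, hK, hb⟩ := bdd_mul_exp h (gr_q h v i)
  have hc := cont_f h v i
  refine (integrable_gw.const_mul K).mono' ?_ (Eventually.of_forall fun z => ?_)
  · have : Continuous (fun z : E n => f U v i (x + P z) * Real.exp (-‖z‖ ^ 2 / 2)) := by fun_prop
    exact this.aestronglyMeasurable
  · rw [norm_mul, Real.norm_eq_abs, Real.norm_eq_abs, Real.abs_exp]
    exact mul_le_mul_of_nonneg_right (hb _) (Real.exp_pos _).le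

theorem hasDerivAt_H {U : E n → ℝ} {c C : ℝ} (h : Reg U c C) (v : E n) (P : E n →L[ℝ] E n) (i : ℕ)
    (hi : i < 3) (x : E n) (s : ℝ) :
    HasDerivAt (fun t : ℝ => H U v P i (x + t • v)) (H U v P (i + 1) (x + s • v)) s := by
  obtain ⟨K, hK, hb⟩ := bdd_mul_exp h (gr_q h v (i + 1))
  have hcc := cont_f h v i
  have key := hasDerivAt_integral_of_dominated_loc_of_deriv_le (μ := (volume : Measure (E n)))
    (F := fun (t : ℝ) (z : E n) => f U v i (x + t • v + P z) * Real.exp (-‖z‖ ^ 2 / 2))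
    (F' := fun (t : ℝ) (z : E n) => f U v (i + 1) (x + t • v + P z) * Real.exp (-‖z‖ ^ 2 / 2))
    (x₀ := s) (s := Set.univ) (bound := fun z => K * Real.exp (-‖z‖ ^ 2 / 2)) Filter.univ_mem
    (Eventually.of_forall fun t => (integrable_H h v P i (x + t • v)).aestronglyMeasurable)
    (integrable_H h v P i (x + s • v))
    (integrable_H h v P (i + 1) (x + s • v)).aestronglyMeasurable
    (Eventually.of_forall fun z t _ => by
      rw [norm_mul, Real.norm_eq_abs, Real.norm_eq_abs, Real.abs_exp]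
      exact mul_le_mul_of_nonneg_right (hb _) (Real.exp_pos _).le)
    (integrable_gw.const_mul K)
    (Eventually.of_forall fun z t _ => by
      have h1 := (hasDerivAt_f h.smooth v i hi (x + P z) t).mul_const (Real.exp (-‖z‖ ^ 2 / 2))
      have e : ∀ t : ℝ, x + P z + t • v = x + t • v + P z := fun t => by abel
      simpa only [e] using h1)
  exact key.2

theorem H_zero_pos {U : E n → ℝ} {c C : ℝ} (h : Reg U c C) (v : E n) (P : E n →L[ℝ] E n) (x : E n) :
    0 < H U v P 0 x := by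
  have hi := integrable_H h v P 0 x
  unfold H
  rw [integral_pos_iff_support_of_nonneg (fun z => by
    simp only [f, q_zero, one_mul]; positivity) hi]
  have : Function.support (fun z : E n => f U v 0 (x + P z) * Real.exp (-‖z‖ ^ 2 / 2)) = Set.univ := by
    ext z
    simp [f, q_zero, Real.exp_ne_zero]
  rw [this]
  exact isOpen_univ.measure_pos volume ⟨0, trivial⟩

theorem exp_neg_heat (U : E n → ℝ) (v : E n) (P : E n →L[ℝ] E n) (x : E n) :
    (∫ z : E n, Real.exp (-U (x + P z) - ‖z‖ ^ 2 / 2)) = H U v P 0 x := by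
  unfold H
  refine integral_congr_ae (Eventually.of_forall fun z => ?_)
  simp only [f, q_zero, one_mul]
  rw [← Real.exp_add]
  congr 1
  ring

theorem heat_eq (U : E n → ℝ) (v : E n) (P : E n →L[ℝ] E n) (x : E n) :
    heat U P x = -Real.log (H U v P 0 x) := by
  rw [heat, exp_neg_heat U v P x]

/-- normalised -/
noncomputable def r (U : E n → ℝ) (v : E n) (P : E n →L[ℝ] E n) (i : ℕ) (x : E n) : ℝ :=
  H U v P i x / H U v P 0 x

theorem hasDerivAt_r {U : E n → ℝ} {c C : ℝ} (h : Reg U c C) (v : E n) (P : E n →L[ℝ] E n) (i : ℕ)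
    (hi : i < 3) (x : E n) (s : ℝ) :
    HasDerivAt (fun t : ℝ => r U v P i (x + t • v))
      (r U v P (i + 1) (x + s • v) - r U v P i (x + s • v) * r U v P 1 (x + s • v)) s := by
  have h0 := (H_zero_pos h v P (x + s • v)).ne'
  have := (hasDerivAt_H h v P i hi x s).div (hasDerivAt_H h v P 0 (by norm_num) x s) h0
  refine HasDerivAt.congr_deriv (f := fun t : ℝ => r U v P i (x + t • v)) this ?_
  unfold r
  simp only [zero_add]
  field_simp

/-- first, second, third line derivative of `heat` -/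
noncomputable def w1 (U : E n → ℝ) (v : E n) (P : E n →L[ℝ] E n) (x : E n) : ℝ := -r U v P 1 x

noncomputable def w2 (U : E n → ℝ) (v : E n) (P : E n →L[ℝ] E n) (x : E n) : ℝ :=
  -r U v P 2 x + r U v P 1 x ^ 2

noncomputable def w3 (U : E n → ℝ) (v : E n) (P : E n →L[ℝ] E n) (x : E n) : ℝ :=
  -r U v P 3 x + 3 * (r U v P 1 x * r U v P 2 x) - 2 * r U v P 1 x ^ 3

theorem hasDerivAt_heat {U : E n → ℝ} {c C : ℝ} (h : Reg U c C) (v : E n) (P : E n →L[ℝ] E n)
    (x : E n) (s : ℝ) :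
    HasDerivAt (fun t : ℝ => heat U P (x + t • v)) (w1 U v P (x + s • v)) s := by
  have h1 := ((hasDerivAt_H h v P 0 (by norm_num) x s).log (H_zero_pos h v P (x + s • v)).ne').neg
  simp only [heat_eq U v P]
  exact h1

theorem hasDerivAt_w1 {U : E n → ℝ} {c C : ℝ} (h : Reg U c C) (v : E n) (P : E n →L[ℝ] E n)
    (x : E n) (s : ℝ) :
    HasDerivAt (fun t : ℝ => w1 U v P (x + t • v)) (w2 U v P (x + s • v)) s := by
  refine HasDerivAt.congr_deriv (f := fun t : ℝ => w1 U v P (x + t • v))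
    (hasDerivAt_r h v P 1 (by norm_num) x s).neg ?_
  unfold w2
  ring

theorem hasDerivAt_w2 {U : E n → ℝ} {c C : ℝ} (h : Reg U c C) (v : E n) (P : E n →L[ℝ] E n)
    (x : E n) (s : ℝ) :
    HasDerivAt (fun t : ℝ => w2 U v P (x + t • v)) (w3 U v P (x + s • v)) s := by
  refine HasDerivAt.congr_deriv (f := fun t : ℝ => w2 U v P (x + t • v))
    ((hasDerivAt_r h v P 2 (by norm_num) x s).neg.add
      ((hasDerivAt_r h v P 1 (by norm_num) x s).pow 2)) ?_
  unfold w3
  simp only [Nat.reduceAdd, Nat.add_one_sub_one, Nat.cast_ofNat, pow_one]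
  ring

theorem iteratedDeriv_two_heat {U : E n → ℝ} {c C : ℝ} (h : Reg U c C) (v : E n) (P : E n →L[ℝ] E n)
    (x : E n) : iteratedDeriv 2 (fun t : ℝ => heat U P (x + t • v)) 0 = w2 U v P x := by
  rw [iteratedDeriv_succ', show deriv (fun t : ℝ => heat U P (x + t • v)) =
    fun t : ℝ => w1 U v P (x + t • v) from funext fun t => (hasDerivAt_heat h v P x t).deriv,
    iteratedDeriv_one, (hasDerivAt_w1 h v P x 0).deriv]
  simp

theorem iteratedDeriv_three_heat {U : E n → ℝ} {c C : ℝ} (h : Reg U c C) (v : E n)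
    (P : E n →L[ℝ] E n) (x : E n) :
    iteratedDeriv 3 (fun t : ℝ => heat U P (x + t • v)) 0 = w3 U v P x := by
  rw [iteratedDeriv_succ', show deriv (fun t : ℝ => heat U P (x + t • v)) =
    fun t : ℝ => w1 U v P (x + t • v) from funext fun t => (hasDerivAt_heat h v P x t).deriv,
    iteratedDeriv_succ', show deriv (fun t : ℝ => w1 U v P (x + t • v)) =
    fun t : ℝ => w2 U v P (x + t • v) from funext fun t => (hasDerivAt_w1 h v P x t).deriv,
    iteratedDeriv_one, (hasDerivAt_w2 h v P x 0).deriv]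
  simp

end Vale.Agent.P227.M.HL
end

section

/-! # P227/M/SC2: the law of `⟨v, x⟩` and the heat potential on a line, by one linear change of variables
on `E × ℝ` (helper204). -/

open MeasureTheory Filter Topology

namespace Vale.Agent.P227.M.HL

variable {n : ℕ}

/-- dual direction, `⟨v, uu v⟩ = 1` -/
noncomputable def uu (v : E n) : E n := (‖v‖ ^ 2)⁻¹ • v

/-- projection on `v^⊥` -/
noncomputable def pr (v : E n) : E n →L[ℝ] E n :=
  ContinuousLinearMap.id ℝ (E n) - (innerSL ℝ v).smulRight (uu v)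

theorem pr_apply (v z : E n) : pr v z = z - inner ℝ v z • uu v := by
  simp [pr]

theorem inner_uu {v : E n} (hv : v ≠ 0) : inner ℝ v (uu v) = 1 := by
  have h : ‖v‖ ≠ 0 := norm_ne_zero_iff.2 hv
  rw [uu, inner_smul_right, real_inner_self_eq_norm_sq]
  field_simp

theorem inner_pr {v : E n} (hv : v ≠ 0) (z : E n) : inner ℝ v (pr v z) = 0 := by
  rw [pr_apply, inner_sub_right, inner_smul_right, inner_uu hv]; ring

theorem inner_uu_pr {v : E n} (hv : v ≠ 0) (z : E n) : inner ℝ (uu v) (pr v z) = 0 := by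
  rw [uu, inner_smul_left, inner_pr hv]; simp

theorem pr_uu {v : E n} (hv : v ≠ 0) : pr v (uu v) = 0 := by
  rw [pr_apply, inner_uu hv]; simp

theorem pr_pr {v : E n} (hv : v ≠ 0) (z : E n) : pr v (pr v z) = pr v z := by
  rw [pr_apply v (pr v z), inner_pr hv]; simp

theorem pr_add (v z : E n) : pr v z + inner ℝ v z • uu v = z := by
  rw [pr_apply]; abel

/-- the linear map `(z, t) ↦ (t u + σ pr z, ⟨v, z⟩)` -/
noncomputable def Phi (v : E n) (σ : ℝ) : (E n × ℝ) →ₗ[ℝ] (E n × ℝ) where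
  toFun p := (p.2 • uu v + σ • pr v p.1, inner ℝ v p.1)
  map_add' p q := by
    refine Prod.ext ?_ ?_
    · simp only [Prod.snd_add, Prod.fst_add, add_smul, map_add, smul_add]; abel
    · simp only [Prod.fst_add, Prod.snd_add, inner_add_right]
  map_smul' a p := by
    refine Prod.ext ?_ ?_
    · simp only [Prod.smul_snd, Prod.smul_fst, map_smul, smul_add, smul_smul, smul_eq_mul,
        RingHom.id_apply]
      rw [mul_comm σ a]
    · simp only [Prod.smul_fst, inner_smul_right, Prod.smul_snd, smul_eq_mul, RingHom.id_apply]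

theorem Phi_apply (v : E n) (σ : ℝ) (p : E n × ℝ) :
    Phi v σ p = (p.2 • uu v + σ • pr v p.1, inner ℝ v p.1) := rfl

/-- its inverse -/
noncomputable def Psi (v : E n) (σ : ℝ) : (E n × ℝ) →ₗ[ℝ] (E n × ℝ) where
  toFun p := (σ⁻¹ • pr v p.1 + p.2 • uu v, inner ℝ v p.1)
  map_add' p q := by
    refine Prod.ext ?_ ?_
    · simp only [Prod.snd_add, Prod.fst_add, add_smul, map_add, smul_add]; abel
    · simp only [Prod.fst_add, Prod.snd_add, inner_add_right]
  map_smul' a p := by
    refine Prod.ext ?_ ?_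
    · simp only [Prod.smul_snd, Prod.smul_fst, map_smul, smul_add, smul_smul, smul_eq_mul,
        RingHom.id_apply]
      rw [mul_comm σ⁻¹ a]
    · simp only [Prod.smul_fst, inner_smul_right, Prod.smul_snd, smul_eq_mul, RingHom.id_apply]

theorem Psi_apply (v : E n) (σ : ℝ) (p : E n × ℝ) :
    Psi v σ p = (σ⁻¹ • pr v p.1 + p.2 • uu v, inner ℝ v p.1) := rfl

theorem Psi_Phi {v : E n} (hv : v ≠ 0) {σ : ℝ} (hσ : σ ≠ 0) (p : E n × ℝ) :
    Psi v σ (Phi v σ p) = p := by
  rw [Psi_apply, Phi_apply]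
  refine Prod.ext ?_ ?_
  · simp only [map_add, map_smul, pr_uu hv, pr_pr hv, smul_zero, zero_add, smul_smul,
      inv_mul_cancel₀ hσ, one_smul]
    exact pr_add v p.1
  · simp only [inner_add_right, inner_smul_right, inner_uu hv, inner_pr hv]
    ring

theorem Phi_Psi {v : E n} (hv : v ≠ 0) {σ : ℝ} (hσ : σ ≠ 0) (p : E n × ℝ) :
    Phi v σ (Psi v σ p) = p := by
  rw [Psi_apply, Phi_apply]
  refine Prod.ext ?_ ?_
  · simp only [map_add, map_smul, pr_uu hv, pr_pr hv, smul_zero, add_zero, smul_smul,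
      mul_inv_cancel₀ hσ, one_smul]
    rw [add_comm]
    exact pr_add v p.1
  · simp only [inner_add_right, inner_smul_right, inner_uu hv, inner_pr hv]
    ring

theorem det_Phi_ne {v : E n} (hv : v ≠ 0) {σ : ℝ} (hσ : σ ≠ 0) : LinearMap.det (Phi v σ) ≠ 0 := by
  have h : LinearMap.det (Phi v σ) * LinearMap.det (Psi v σ) = 1 := by
    rw [← LinearMap.det_comp]
    have : (Phi v σ) ∘ₗ (Psi v σ) = LinearMap.id := LinearMap.ext fun p => Phi_Psi hv hσ p
    rw [this, LinearMap.det_id]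
  exact left_ne_zero_of_mul_eq_one h

theorem emb_Phi {v : E n} (hv : v ≠ 0) {σ : ℝ} (hσ : σ ≠ 0) : MeasurableEmbedding (Phi v σ) := by
  have hc : Continuous (Phi v σ) := LinearMap.continuous_of_finiteDimensional _
  exact hc.measurableEmbedding (Function.LeftInverse.injective (Psi_Phi hv hσ))

theorem cv_aux {v : E n} (hv : v ≠ 0) {σ : ℝ} (hσ : σ ≠ 0) (G : E n × ℝ → ℝ) :
    (∫ p, G (Phi v σ p)) = |(LinearMap.det (Phi v σ))⁻¹| * ∫ q, G q ∧
      (Integrable G → Integrable (fun p => G (Phi v σ p))) := by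
  have : (volume : Measure (E n × ℝ)).IsAddHaarMeasure := by
    rw [Measure.volume_eq_prod]; infer_instance
  have hm := Measure.map_linearMap_addHaar_eq_smul_addHaar (volume : Measure (E n × ℝ))
    (det_Phi_ne hv hσ)
  have he := emb_Phi hv hσ
  constructor
  · rw [← he.integral_map, hm, integral_smul_measure, ENNReal.toReal_ofReal (abs_nonneg _),
      smul_eq_mul]
  · intro hG
    have h2 : Integrable G (Measure.map (Phi v σ) volume) := by
      rw [hm]
      exact hG.smul_measure ENNReal.ofReal_ne_top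
    exact (he.integrable_map_iff).1 h2

theorem norm_sq_split {v : E n} (hv : v ≠ 0) {σ : ℝ} (hσ : σ ≠ 0) (z : E n) (t : ℝ) :
    ‖z‖ ^ 2 = ‖pr v (t • uu v + σ • pr v z)‖ ^ 2 / σ ^ 2 + (inner ℝ v z) ^ 2 * ‖uu v‖ ^ 2 := by
  have h1 : pr v (t • uu v + σ • pr v z) = σ • pr v z := by
    rw [map_add, map_smul, map_smul, pr_uu hv, pr_pr hv]; simp
  rw [h1, norm_smul, mul_pow, Real.norm_eq_abs, sq_abs]
  conv_lhs => rw [← pr_add v z]
  rw [norm_add_sq_real, inner_smul_right, real_inner_comm (uu v) (pr v z), inner_uu_pr hv, norm_smul,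
    mul_pow,
    Real.norm_eq_abs, sq_abs]
  field_simp
  ring

/-- **change of variables** -/
theorem cv {U : E n → ℝ} {c C : ℝ} (h : Reg U c C) {v : E n} (hv : v ≠ 0) {σ : ℝ} (hσ : 0 < σ) :
    ∃ κ : ℝ, 0 < κ ∧ ∀ φ : ℝ → ℝ,
      Integrable (fun x : E n => φ (inner ℝ v x) * Real.exp (-U x - ‖pr v x‖ ^ 2 / (2 * σ ^ 2))) →
      (∫ t : ℝ, φ t * Real.exp (-heat U (σ • pr v) (t • uu v)))
        = κ * ∫ x : E n, φ (inner ℝ v x) * Real.exp (-U x - ‖pr v x‖ ^ 2 / (2 * σ ^ 2)) := by
  have hu : uu v ≠ 0 := by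
    intro h0
    have := inner_uu hv
    rw [h0, inner_zero_right] at this
    exact zero_ne_one this
  have hun : 0 < ‖uu v‖ ^ 2 := by have := norm_pos_iff.2 hu; positivity
  have hg : Integrable (fun ζ : ℝ => Real.exp (-(‖uu v‖ ^ 2 / 2) * ζ ^ 2)) :=
    integrable_exp_neg_mul_sq (by positivity)
  have hgp : 0 < ∫ ζ : ℝ, Real.exp (-(‖uu v‖ ^ 2 / 2) * ζ ^ 2) := by
    rw [integral_gaussian]
    positivity
  have hdet : 0 < |(LinearMap.det (Phi v σ))⁻¹| := abs_pos.2 (inv_ne_zero (det_Phi_ne hv hσ.ne'))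
  refine ⟨|(LinearMap.det (Phi v σ))⁻¹| * ∫ ζ : ℝ, Real.exp (-(‖uu v‖ ^ 2 / 2) * ζ ^ 2),
    mul_pos hdet hgp, fun φ hφ => ?_⟩
  set G : E n × ℝ → ℝ := fun q => (φ (inner ℝ v q.1) *
    Real.exp (-U q.1 - ‖pr v q.1‖ ^ 2 / (2 * σ ^ 2))) * Real.exp (-(‖uu v‖ ^ 2 / 2) * q.2 ^ 2) with hG
  have hGi : Integrable G := hφ.mul_prod hg
  have hGv : ∫ q, G q = (∫ x : E n, φ (inner ℝ v x) *
      Real.exp (-U x - ‖pr v x‖ ^ 2 / (2 * σ ^ 2))) * ∫ ζ : ℝ, Real.exp (-(‖uu v‖ ^ 2 / 2) * ζ ^ 2) :=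
    integral_prod_mul (fun x : E n => φ (inner ℝ v x) *
      Real.exp (-U x - ‖pr v x‖ ^ 2 / (2 * σ ^ 2))) (fun ζ : ℝ => Real.exp (-(‖uu v‖ ^ 2 / 2) * ζ ^ 2))
  obtain ⟨h1, h2⟩ := cv_aux hv hσ.ne' G
  have h3 := h2 hGi
  have hpt : ∀ (z : E n) (t : ℝ), G (Phi v σ (z, t))
      = φ t * (f U (uu v) 0 (t • uu v + (σ • pr v) z) * Real.exp (-‖z‖ ^ 2 / 2)) := by
    intro z t
    rw [hG, Phi_apply]
    simp only [f, q_zero, one_mul, smul_apply]
    have e1 : inner ℝ v (t • uu v + σ • pr v z) = t := by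
      rw [inner_add_right, inner_smul_right, inner_smul_right, inner_uu hv, inner_pr hv]; ring
    rw [e1, mul_assoc, ← Real.exp_add, ← Real.exp_add]
    congr 2
    rw [norm_sq_split hv hσ.ne' z t]
    have := hσ.ne'
    field_simp
    ring
  have h4 : (∫ p, G (Phi v σ p)) = ∫ t : ℝ, φ t * Real.exp (-heat U (σ • pr v) (t • uu v)) := by
    rw [Measure.volume_eq_prod, integral_prod_symm _ (by rw [← Measure.volume_eq_prod]; exact h3)]
    refine integral_congr_ae (Eventually.of_forall fun t => ?_)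
    simp only [hpt]
    rw [integral_const_mul, heat_eq U (uu v), neg_neg, Real.exp_log (H_zero_pos h _ _ _)]
    rfl
  rw [← h4, h1, hGv]
  ring

end Vale.Agent.P227.M.HL
end

section

/-! # P227/M/SC: the discrete step gives the heat flow statement. -/

open MeasureTheory Filter Topology

namespace Vale.Agent.P227.M.SC.F79

section
variable {E : Type*} [NormedAddCommGroup E] [NormedSpace ℝ E]

theorem AA_line (δ : ℝ) (v : E) : ∀ (l : List E) (f f' : E → ℝ),
    (∀ x s, HasDerivAt (fun t : ℝ => f (x + t • v)) (f' (x + s • v)) s) →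
    ∀ x s, HasDerivAt (fun t : ℝ => AA δ l f (x + t • v)) (AA δ l f' (x + s • v)) s := by
  intro l
  induction l with
  | nil => intro f f' h x s; exact h x s
  | cons e l ih =>
    intro f f' h x s
    rw [AA, AA]
    refine ih (fun x => (f (x + δ • e) + f (x - δ • e)) / 2)
      (fun x => (f' (x + δ • e) + f' (x - δ • e)) / 2) (fun y s => ?_) x s
    have h1 := h (y + δ • e) s
    have h2 := h (y - δ • e) s
    have h3 := (h1.add h2).div_const 2
    have e1 : ∀ t : ℝ, y + δ • e + t • v = y + t • v + δ • e := fun t => by abel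
    have e2 : ∀ t : ℝ, y - δ • e + t • v = y + t • v - δ • e := fun t => by abel
    simp only [e1, e2] at h3
    exact h3

theorem line_log {F0 F1 F2 F3 : ℝ → ℝ} (h0 : ∀ t, HasDerivAt F0 (F1 t) t)
    (h1 : ∀ t, HasDerivAt F1 (F2 t) t) (h2 : ∀ t, HasDerivAt F2 (F3 t) t) (hp : ∀ t, 0 < F0 t) :
    iteratedDeriv 2 (fun t => -Real.log (F0 t)) 0 = -(F2 0 / F0 0) + (F1 0 / F0 0) ^ 2 ∧
    iteratedDeriv 3 (fun t => -Real.log (F0 t)) 0 =
      -(F3 0 / F0 0) + 3 * (F1 0 / F0 0 * (F2 0 / F0 0)) - 2 * (F1 0 / F0 0) ^ 3 := by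
  have d0 : ∀ t, HasDerivAt (fun t => -Real.log (F0 t)) (-(F1 t / F0 t)) t := fun t =>
    ((h0 t).log (hp t).ne').neg
  have d1 : ∀ t, HasDerivAt (fun t => -(F1 t / F0 t))
      (-(F2 t / F0 t) + (F1 t / F0 t) ^ 2) t := fun t => by
    have := ((h1 t).div (h0 t) (hp t).ne').neg
    refine this.congr_deriv ?_
    have := (hp t).ne'
    field_simp
    ring
  have d2 : ∀ t, HasDerivAt (fun t => -(F2 t / F0 t) + (F1 t / F0 t) ^ 2)
      (-(F3 t / F0 t) + 3 * (F1 t / F0 t * (F2 t / F0 t)) - 2 * (F1 t / F0 t) ^ 3) t := fun t => by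
    have := ((h2 t).div (h0 t) (hp t).ne').neg.add (((h1 t).div (h0 t) (hp t).ne').pow 2)
    refine this.congr_deriv ?_
    have := (hp t).ne'
    simp only [Pi.div_apply, Nat.add_one_sub_one, Nat.cast_ofNat, pow_one]
    field_simp
    ring
  constructor
  · rw [iteratedDeriv_succ', show deriv (fun t => -Real.log (F0 t)) = fun t => -(F1 t / F0 t) from
      funext fun t => (d0 t).deriv, iteratedDeriv_one, (d1 0).deriv]
  · rw [iteratedDeriv_succ', show deriv (fun t => -Real.log (F0 t)) = fun t => -(F1 t / F0 t) from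
      funext fun t => (d0 t).deriv, iteratedDeriv_succ', show deriv (fun t => -(F1 t / F0 t)) =
      fun t => -(F2 t / F0 t) + (F1 t / F0 t) ^ 2 from
      funext fun t => (d1 t).deriv, iteratedDeriv_one, (d2 0).deriv]

end

variable {n : ℕ}

theorem heat_one_sided (hstep : StepStmt (E n)) {U : E n → ℝ} {c C κ : ℝ} (h : Reg U c C)
    (hκ0 : 0 ≤ κ) (hκ1 : κ ≤ 1) (hS : SelfConc κ U) (P : E n →L[ℝ] E n) (x v : E n) :
    iteratedDeriv 3 (fun t : ℝ => heat U P (x + t • v)) 0 ≤
      2 * κ * (iteratedDeriv 2 (fun t : ℝ => heat U P (x + t • v)) 0) ^ ((3 : ℝ) / 2) := by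
  obtain ⟨C3, C4, hC3, hC4, hst⟩ := st_of_reg h hS
  -- `b` must be nonnegative
  have hst' : St c (max C 0) C3 C4 κ 0 U :=
    { smooth := hst.smooth
      lower := hst.lower
      upper := fun x v => (hst.upper x v).trans
        (mul_le_mul_of_nonneg_right (le_max_left _ _) (by positivity))
      b3 := hst.b3
      b4 := hst.b4
      sc := hst.sc }
  obtain ⟨a', K, δ0, ha', hK, hδ0, hit⟩ := iterate hstep h.c_pos (le_max_right C 0) hC3 hC4 hκ0 hκ1
    (S := ∑ i, ‖P (ei i)‖ ^ 2) (by positivity)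
  set δ : ℕ → ℝ := fun k => (√(k : ℝ))⁻¹ with hδ
  have hδlim : Tendsto δ atTop (𝓝 0) :=
    tendsto_inv_atTop_zero.comp <| Real.tendsto_sqrt_atTop.comp <| tendsto_natCast_atTop_atTop
  -- the approximations
  set A : ℕ → ℕ → E n → ℝ := fun i k => AA (δ k) (steps P k) (HL.f U v i) with hA
  have hexp : (fun y => Real.exp (-U y)) = HL.f U v 0 := by
    funext y; simp [HL.f, HL.q_zero]
  have hf0 : ∀ y, 0 < HL.f U v 0 y := fun y => by rw [← hexp]; positivity
  have hA0 : ∀ k y, 0 < A 0 k y := fun k y => AA_pos _ _ _ hf0 y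
  have hAd : ∀ i, i < 3 → ∀ k y s, HasDerivAt (fun t : ℝ => A i k (y + t • v))
      (A (i + 1) k (y + s • v)) s := by
    intro i hi k y s
    exact AA_line (δ k) v (steps P k) _ _ (fun y s => HL.hasDerivAt_f h.smooth v i hi y s) y s
  have hlim : ∀ i, Tendsto (fun k => A i k x) atTop
      (𝓝 ((∫ z : E n, gw z)⁻¹ * HL.H U v P i x)) := by
    intro i
    obtain ⟨B, -, hB⟩ := HL.bdd_mul_exp h (HL.gr_q h v i)
    have h1 := AA_lim P (HL.cont_f h v i) hB x
    have e1 : (∫ z : E n, gw z * HL.f U v i (x + P z)) = HL.H U v P i x := by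
      unfold HL.H gw
      refine integral_congr_ae (Eventually.of_forall fun z => ?_)
      simp only
      ring
    rw [e1] at h1
    exact h1
  have hZ : (∫ z : E n, gw z)⁻¹ ≠ 0 := inv_ne_zero gwZ_pos.ne'
  have hH0 : HL.H U v P 0 x ≠ 0 := (HL.H_zero_pos h v P x).ne'
  have hr : ∀ i, Tendsto (fun k => A i k x / A 0 k x) atTop (𝓝 (HL.r U v P i x)) := by
    intro i
    have h1 := (hlim i).div (hlim 0) (mul_ne_zero hZ hH0)
    have e1 : (∫ z : E n, gw z)⁻¹ * HL.H U v P i x / ((∫ z : E n, gw z)⁻¹ * HL.H U v P 0 x) =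
        HL.r U v P i x := by
      rw [HL.r]
      exact mul_div_mul_left _ _ hZ
    rw [e1] at h1
    exact h1
  -- second and third derivatives of the approximations
  have hD : ∀ k, iteratedDeriv 2 (fun t : ℝ => avgs (δ k) (steps P k) U (x + t • v)) 0 =
        -(A 2 k x / A 0 k x) + (A 1 k x / A 0 k x) ^ 2 ∧
      iteratedDeriv 3 (fun t : ℝ => avgs (δ k) (steps P k) U (x + t • v)) 0 =
        -(A 3 k x / A 0 k x) + 3 * (A 1 k x / A 0 k x * (A 2 k x / A 0 k x)) -
          2 * (A 1 k x / A 0 k x) ^ 3 := by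
    intro k
    have e1 : (fun t : ℝ => avgs (δ k) (steps P k) U (x + t • v)) =
        fun t : ℝ => -Real.log (A 0 k (x + t • v)) := by
      funext t
      rw [avgs_eq, hexp]
    have h1 := line_log (F0 := fun t => A 0 k (x + t • v)) (F1 := fun t => A 1 k (x + t • v))
      (F2 := fun t => A 2 k (x + t • v)) (F3 := fun t => A 3 k (x + t • v))
      (fun t => hAd 0 (by norm_num) k x t) (fun t => hAd 1 (by norm_num) k x t)
      (fun t => hAd 2 (by norm_num) k x t) (fun t => hA0 k _)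
    simp only [zero_smul, add_zero] at h1
    rw [e1]
    exact h1
  have hineq : ∀ᶠ k : ℕ in atTop,
      -(A 3 k x / A 0 k x) + 3 * (A 1 k x / A 0 k x * (A 2 k x / A 0 k x)) -
          2 * (A 1 k x / A 0 k x) ^ 3 ≤
        2 * κ * (-(A 2 k x / A 0 k x) + (A 1 k x / A 0 k x) ^ 2) ^ ((3 : ℝ) / 2) +
          K * δ k * ‖v‖ ^ 3 := by
    filter_upwards [hδlim.eventually (eventually_le_nhds hδ0), eventually_gt_atTop 0] with k hk hk0
    have hkr : (0 : ℝ) < k := by exact_mod_cast hk0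
    have hδk : 0 < δ k := by rw [hδ]; positivity
    obtain ⟨C3', C4', hw⟩ := hit (δ k) hδk hk (steps P k) U (steps_norm P k) (steps_length P k) hst'
    have h1 := hw.sc x v
    have h2 := L6.iteratedDeriv_two_line hw.smooth x v 0
    have h3 := L6.iteratedDeriv_three_line hw.smooth x v 0
    rw [zero_smul, add_zero] at h2 h3
    rw [← h2, ← h3, (hD k).1, (hD k).2] at h1
    exact h1
  have hL : Tendsto (fun k => -(A 3 k x / A 0 k x) + 3 * (A 1 k x / A 0 k x * (A 2 k x / A 0 k x)) -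
          2 * (A 1 k x / A 0 k x) ^ 3) atTop (𝓝 (HL.w3 U v P x)) := by
    rw [HL.w3]
    exact ((hr 3).neg.add (((hr 1).mul (hr 2)).const_mul 3)).sub (((hr 1).pow 3).const_mul 2)
  have hR : Tendsto (fun k => 2 * κ * (-(A 2 k x / A 0 k x) + (A 1 k x / A 0 k x) ^ 2) ^
      ((3 : ℝ) / 2) + K * δ k * ‖v‖ ^ 3) atTop
      (𝓝 (2 * κ * (HL.w2 U v P x) ^ ((3 : ℝ) / 2) + K * 0 * ‖v‖ ^ 3)) := by
    rw [HL.w2]
    refine ((((hr 2).neg.add ((hr 1).pow 2)).rpow_const (Or.inr (by norm_num))).const_mul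
      (2 * κ)).add ((hδlim.const_mul K).mul_const _)
  have hfin := le_of_tendsto_of_tendsto hL hR hineq
  rw [mul_zero, zero_mul, add_zero] at hfin
  rw [HL.iteratedDeriv_three_heat h, HL.iteratedDeriv_two_heat h]
  exact hfin

/-- **The discrete step gives the heat flow statement.** -/
theorem _root_.Vale.Agent.P227.M.SC.stmtHeat_of_step (hstep : ∀ n, StepStmt (E n)) : StmtHeat := by
  intro n U c C κ h hκ0 hκ1 hS P x v
  rw [abs_le]
  constructor
  · have h1 := heat_one_sided (hstep n) h hκ0 hκ1 hS P x (-v)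
    have e : (fun t : ℝ => heat U P (x + t • -v)) = fun t : ℝ => (fun s : ℝ => heat U P (x + s • v)) (-t) := by
      funext t; simp
    rw [e, iteratedDeriv_comp_neg 3 (fun s : ℝ => heat U P (x + s • v)) 0,
      iteratedDeriv_comp_neg 2 (fun s : ℝ => heat U P (x + s • v)) 0] at h1
    simp only [neg_zero] at h1
    norm_num at h1
    linarith
  · exact heat_one_sided (hstep n) h hκ0 hκ1 hS P x v

end Vale.Agent.P227.M.SC.F79
end

section

/-! # P227/M/LIN: definitions for the pointwise bound and its exact statement (helper479). -/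

open MeasureTheory Filter Metric Set
open scoped Topology

namespace Vale.Agent.P227.M.LIN

/-- sum of the absolute values of the derivatives of order `≤ 2` -/
noncomputable def S2 {n : ℕ} (d : E n → ℝ) (y : E n) : ℝ :=
  |d y| + (∑ a, |pd a d y|) + ∑ a, ∑ b, |hess d y a b|

/-- averaged function cut to the ball of radius `2R` -/
noncomputable def avR {n : ℕ} (m : ℕ) (R : ℝ) (g : E n → ℝ) (x : E n) : ℝ :=
  (closedBall (0 : E n) (2 * R)).indicator (fun x => av m (fun y => |g y|) x) x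

/-- `F = v0 + χ · mo m (v - v0)` -/
noncomputable def FF {n : ℕ} (m : ℕ) (χ v0 v : E n → ℝ) (z : E n) : ℝ :=
  v0 z + χ z * mo m (fun y => v y - v0 y) z

/-- `g = f - L f - w` -/
noncomputable def gg {n : ℕ} (ψ w f : E n → ℝ) (z : E n) : ℝ := f z - Lop ψ f z - w z

/-- exact statement of the pointwise bound (proved in `H1Pt.lean`) -/
def PtBound {n : ℕ} (ψ : E n → ℝ) (T1 R : ℝ) (χ : E n → ℝ) : Prop :=
  ∀ (m : ℕ) (v0 v w : E n → ℝ), Test v0 → Test v → Test w →
    (∀ x, R - 1 ≤ ‖x‖ → gg ψ w v0 x = 0) →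
    (∀ᵐ x, ∀ b, |pd b (gg ψ w (FF m χ v0 v)) x| ≤ |pd b (gg ψ w v0) x - mo m (pd b (gg ψ w v0)) x|
        + T1 * (dl m)⁻¹ * avR m R (gg ψ w v) x + T1 * avR m R (S2 (fun y => v y - v0 y)) x) ∧
    (∀ x b, |pd b (fun z => χ z * mo m (fun y => v y - v0 y) z) x| ≤ T1 * avR m R (S2 (fun y => v y - v0 y)) x) ∧
    (∀ x a b, |hess (fun z => χ z * mo m (fun y => v y - v0 y) z) x a b|
        ≤ T1 * avR m R (S2 (fun y => v y - v0 y)) x)

end Vale.Agent.P227.M.LIN
end

section

/-! # P227/M/LIN: cutoff functions with constants independent of the radius -/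

open MeasureTheory
open scoped Topology

namespace Vale.Agent.P227.M.LIN

namespace Cut

variable {n : ℕ}

theorem pd_scale {f : E n → ℝ} (hf : Differentiable ℝ f) (a : ℝ) (i : Fin n) :
    pd i (fun x => f (a • x)) = fun x => a * pd i f (a • x) := by
  funext x
  have h1 : HasFDerivAt (fun x : E n => a • x) (a • ContinuousLinearMap.id ℝ (E n)) x :=
    (hasFDerivAt_id x).const_smul a
  have h2 := (hf (a • x)).hasFDerivAt.comp x h1
  have h3 : fderiv ℝ (fun x => f (a • x)) x
      = (fderiv ℝ f (a • x)).comp (a • ContinuousLinearMap.id ℝ (E n)) := h2.fderiv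
  unfold pd
  rw [h3]
  simp

theorem pd_mul_scale {f : E n → ℝ} (hf : Differentiable ℝ f) (b a : ℝ) (i : Fin n) :
    pd i (fun x => b * f (a • x)) = fun x => b * a * pd i f (a • x) := by
  have hd : Differentiable ℝ (fun x : E n => f (a • x)) :=
    hf.comp (differentiable_id.const_smul a)
  funext x
  have h1 : fderiv ℝ (fun x => b * f (a • x)) x = b • fderiv ℝ (fun x => f (a • x)) x :=
    fderiv_const_mul (hd x) b
  have h2 := congrFun (pd_scale hf a i) x
  unfold pd at h2 ⊢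
  rw [h1, smul_apply, h2, smul_eq_mul]
  ring

/-- the fixed bump: equal to `1` on the closed unit ball, supported in the ball of radius `2` -/
noncomputable def bmp (n : ℕ) : ContDiffBump (0 : E n) := ⟨1, 2, one_pos, one_lt_two⟩

/-- the cutoff function -/
noncomputable def cut (n : ℕ) (R : ℝ) (x : E n) : ℝ := bmp n (R⁻¹ • x)

theorem bmp_smooth : ContDiff ℝ (⊤ : ℕ∞) (bmp n : E n → ℝ) := (bmp n).contDiff

theorem bmp_hcs : HasCompactSupport (bmp n : E n → ℝ) := (bmp n).hasCompactSupport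

/-- compactly supported continuous functions are bounded -/
theorem bdd_of_test {f : E n → ℝ} (hf : Continuous f) (hc : HasCompactSupport f) :
    ∃ C : ℝ, 0 ≤ C ∧ ∀ x, |f x| ≤ C := by
  obtain ⟨C, hC⟩ := hf.bounded_above_of_compact_support hc
  exact ⟨C, (norm_nonneg _).trans (hC 0), hC⟩

theorem pd_test {f : E n → ℝ} (hf : Test f) (i : Fin n) : Test (pd i f) := by
  refine ⟨contDiff_pd_top hf.1 i, ?_⟩
  exact hf.2.fderiv_apply ℝ (ei i)

/-- a common bound for finitely many test functions -/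
theorem bdd_fin {ι : Type*} [Fintype ι] {f : ι → E n → ℝ} (hf : ∀ i, Test (f i)) :
    ∃ C : ℝ, 0 ≤ C ∧ ∀ i x, |f i x| ≤ C := by
  choose B hB0 hB using fun i => bdd_of_test (hf i).1.continuous (hf i).2
  refine ⟨∑ i, B i, Finset.sum_nonneg fun i _ => hB0 i, fun i x => (hB i x).trans ?_⟩
  exact Finset.single_le_sum (f := B) (fun i _ => hB0 i) (Finset.mem_univ i)

theorem cut_test {R : ℝ} (hR : 0 < R) : Test (cut n R) := by
  constructor
  · exact bmp_smooth.comp (contDiff_id.const_smul R⁻¹)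
  · have h := (bmp_hcs (n := n)).comp_homeomorph (Homeomorph.smulOfNeZero R⁻¹ (inv_ne_zero hR.ne'))
    exact h

theorem cut_nonneg (R : ℝ) (x : E n) : 0 ≤ cut n R x := (bmp n).nonneg

theorem cut_le_one (R : ℝ) (x : E n) : cut n R x ≤ 1 := (bmp n).le_one

theorem cut_one {R : ℝ} (hR : 0 < R) {x : E n} (hx : ‖x‖ ≤ R) : cut n R x = 1 := by
  refine (bmp n).one_of_mem_closedBall ?_
  rw [Metric.mem_closedBall, dist_zero_right, norm_smul, norm_inv, Real.norm_of_nonneg hR.le]
  change R⁻¹ * ‖x‖ ≤ 1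
  rw [inv_mul_le_iff₀ hR, mul_one]
  exact hx

theorem cut_zero {R : ℝ} (hR : 0 < R) {x : E n} (hx : 2 * R ≤ ‖x‖) : cut n R x = 0 := by
  refine (bmp n).zero_of_le_dist ?_
  rw [dist_zero_right, norm_smul, norm_inv, Real.norm_of_nonneg hR.le]
  change 2 ≤ R⁻¹ * ‖x‖
  rw [le_inv_mul_iff₀ hR, mul_comm]
  exact hx

/-- a test function vanishing off the ball of radius `2` and its rescaling -/
theorem norm_mul_scale_le {g : E n → ℝ} {C : ℝ} (hC : ∀ x, |g x| ≤ C) (hC0 : 0 ≤ C)
    (hg : ∀ x, 2 < ‖x‖ → g x = 0) {R : ℝ} (hR : 0 < R) (x : E n) :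
    ‖x‖ * |g (R⁻¹ • x)| ≤ 2 * R * C := by
  by_cases hx : 2 < ‖R⁻¹ • x‖
  · rw [hg _ hx]
    simp only [abs_zero, mul_zero]
    positivity
  · rw [not_lt, norm_smul, norm_inv, Real.norm_of_nonneg hR.le, inv_mul_le_iff₀ hR] at hx
    exact mul_le_mul (hx.trans_eq (mul_comm _ _)) (hC _) (abs_nonneg _) (by positivity)

theorem fderiv_zero_off {g : E n → ℝ} {r : ℝ} (hg : ∀ x, r < ‖x‖ → g x = 0) (i : Fin n) :
    ∀ x, r < ‖x‖ → pd i g x = 0 := by
  intro x hx
  have h : g =ᶠ[𝓝 x] fun _ => 0 := by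
    filter_upwards [(isOpen_lt continuous_const continuous_norm).mem_nhds hx] with y hy
    exact hg y hy
  unfold pd
  rw [h.fderiv_eq]
  simp

theorem bmp_off : ∀ x : E n, 2 < ‖x‖ → bmp n x = 0 := by
  intro x hx
  refine (bmp n).zero_of_le_dist ?_
  rw [dist_zero_right]
  exact hx.le

theorem pd_cut (R : ℝ) (i : Fin n) :
    pd i (cut n R) = fun x => R⁻¹ * pd i (bmp n) (R⁻¹ • x) :=
  pd_scale (bmp_smooth.differentiable (by simp)) R⁻¹ i

theorem hess_cut (R : ℝ) (i j : Fin n) (x : E n) :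
    hess (cut n R) x i j = R⁻¹ * R⁻¹ * hess (bmp n) (R⁻¹ • x) i j := by
  unfold hess
  rw [pd_cut]
  have h := pd_mul_scale (f := pd j (bmp n)) ((contDiff_pd_top bmp_smooth j).differentiable
    (by simp)) R⁻¹ R⁻¹ i
  exact congrFun h x

theorem pd_hess_cut (R : ℝ) (i j k : Fin n) (x : E n) :
    pd k (fun z => hess (cut n R) z i j) x
      = R⁻¹ * R⁻¹ * R⁻¹ * pd k (fun z => hess (bmp n) z i j) (R⁻¹ • x) := by
  have h0 : (fun z => hess (cut n R) z i j) = fun x => R⁻¹ * R⁻¹ * hess (bmp n) (R⁻¹ • x) i j := by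
    funext z
    exact hess_cut R i j z
  rw [h0]
  have h := pd_mul_scale (f := fun z => hess (bmp n) z i j)
    ((contDiff_hess_top bmp_smooth i j).differentiable (by simp)) (R⁻¹ * R⁻¹) R⁻¹ k
  exact congrFun h x

/-- the cutoff functions, with a constant independent of the radius -/
theorem exists_cut (n : ℕ) : ∃ C : ℝ, 0 ≤ C ∧ ∀ R : ℝ, 1 ≤ R → ∃ χ : E n → ℝ, Test χ ∧
    (∀ x, 0 ≤ χ x) ∧ (∀ x, χ x ≤ 1) ∧ (∀ x, ‖x‖ ≤ R → χ x = 1) ∧ (∀ x, 2 * R ≤ ‖x‖ → χ x = 0) ∧
    (∀ x i, |pd i χ x| ≤ C) ∧ (∀ x i j, |hess χ x i j| ≤ C) ∧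
    (∀ x i j k, |pd k (fun z => hess χ z i j) x| ≤ C) ∧
    (∀ x i, ‖x‖ * |pd i χ x| ≤ C) ∧ (∀ x i j, ‖x‖ * |hess χ x i j| ≤ C) ∧
    (∀ x i j k, ‖x‖ * |pd k (fun z => hess χ z i j) x| ≤ C) := by
  have hb : Test (bmp n : E n → ℝ) := ⟨bmp_smooth, bmp_hcs⟩
  have hb1 : ∀ i, Test (pd i (bmp n)) := fun i => pd_test hb i
  have hb2 : ∀ p : Fin n × Fin n, Test (fun z => hess (bmp n) z p.1 p.2) := fun p =>
    pd_test (hb1 p.2) p.1
  have hb3 : ∀ p : Fin n × Fin n × Fin n, Test (pd p.1 (fun z => hess (bmp n) z p.2.1 p.2.2)) :=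
    fun p => pd_test (hb2 p.2) p.1
  obtain ⟨C1, hC1, h1⟩ := bdd_fin hb1
  obtain ⟨C2, hC2, h2⟩ := bdd_fin hb2
  obtain ⟨C3, hC3, h3⟩ := bdd_fin hb3
  have o1 : ∀ i : Fin n, ∀ x, 2 < ‖x‖ → pd i (bmp n) x = 0 := fun i => fderiv_zero_off bmp_off i
  have o2 : ∀ i j : Fin n, ∀ x, 2 < ‖x‖ → hess (bmp n) x i j = 0 := fun i j =>
    fderiv_zero_off (o1 j) i
  have o3 : ∀ i j k : Fin n, ∀ x, 2 < ‖x‖ → pd k (fun z => hess (bmp n) z i j) x = 0 :=
    fun i j k => fderiv_zero_off (o2 i j) k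
  refine ⟨2 * C1 + 2 * C2 + 2 * C3, by positivity, fun R hR => ?_⟩
  have hR0 : 0 < R := lt_of_lt_of_le one_pos hR
  have hi : R⁻¹ ≤ 1 := inv_le_one_of_one_le₀ hR
  have hi0 : 0 < R⁻¹ := inv_pos.2 hR0
  have hii : R⁻¹ * R⁻¹ ≤ 1 := mul_le_one₀ hi hi0.le hi
  have hiii : R⁻¹ * R⁻¹ * R⁻¹ ≤ 1 := mul_le_one₀ hii hi0.le hi
  have hRR : R⁻¹ * R = 1 := inv_mul_cancel₀ hR0.ne'
  refine ⟨cut n R, cut_test hR0, cut_nonneg R, cut_le_one R, fun x hx => cut_one hR0 hx,
    fun x hx => cut_zero hR0 hx, ?_, ?_, ?_, ?_, ?_, ?_⟩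
  · intro x i
    rw [pd_cut, abs_mul, abs_of_pos hi0]
    have := h1 i (R⁻¹ • x)
    nlinarith [abs_nonneg (pd i (bmp n) (R⁻¹ • x))]
  · intro x i j
    rw [hess_cut, abs_mul, abs_of_pos (mul_pos hi0 hi0)]
    have := h2 (i, j) (R⁻¹ • x)
    simp only at this
    nlinarith [abs_nonneg (hess (bmp n) (R⁻¹ • x) i j)]
  · intro x i j k
    rw [pd_hess_cut, abs_mul, abs_of_pos (mul_pos (mul_pos hi0 hi0) hi0)]
    have := h3 (k, i, j) (R⁻¹ • x)
    simp only at this
    nlinarith [abs_nonneg (pd k (fun z => hess (bmp n) z i j) (R⁻¹ • x))]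
  · intro x i
    rw [pd_cut, abs_mul, abs_of_pos hi0]
    have := norm_mul_scale_le (h1 i) hC1 (o1 i) hR0 x
    calc ‖x‖ * (R⁻¹ * |pd i (bmp n) (R⁻¹ • x)|)
        = R⁻¹ * (‖x‖ * |pd i (bmp n) (R⁻¹ • x)|) := by ring
      _ ≤ R⁻¹ * (2 * R * C1) := by gcongr
      _ = 2 * C1 * (R⁻¹ * R) := by ring
      _ = 2 * C1 := by rw [hRR, mul_one]
      _ ≤ _ := by linarith
  · intro x i j
    rw [hess_cut, abs_mul, abs_of_pos (mul_pos hi0 hi0)]
    have := norm_mul_scale_le (h2 (i, j)) hC2 (o2 i j) hR0 x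
    simp only at this
    calc ‖x‖ * (R⁻¹ * R⁻¹ * |hess (bmp n) (R⁻¹ • x) i j|)
        = R⁻¹ * (R⁻¹ * (‖x‖ * |hess (bmp n) (R⁻¹ • x) i j|)) := by ring
      _ ≤ R⁻¹ * (R⁻¹ * (2 * R * C2)) := by gcongr
      _ = R⁻¹ * (2 * C2) * (R⁻¹ * R) := by ring
      _ = R⁻¹ * (2 * C2) := by rw [hRR, mul_one]
      _ ≤ 1 * (2 * C2) := by gcongr
      _ ≤ _ := by linarith
  · intro x i j k
    rw [pd_hess_cut, abs_mul, abs_of_pos (mul_pos (mul_pos hi0 hi0) hi0)]
    have := norm_mul_scale_le (h3 (k, i, j)) hC3 (o3 i j k) hR0 x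
    simp only at this
    calc ‖x‖ * (R⁻¹ * R⁻¹ * R⁻¹ * |pd k (fun z => hess (bmp n) z i j) (R⁻¹ • x)|)
        = R⁻¹ * R⁻¹ * (R⁻¹ * (‖x‖ * |pd k (fun z => hess (bmp n) z i j) (R⁻¹ • x)|)) := by ring
      _ ≤ R⁻¹ * R⁻¹ * (R⁻¹ * (2 * R * C3)) := by gcongr
      _ = R⁻¹ * R⁻¹ * (2 * C3) * (R⁻¹ * R) := by ring
      _ = R⁻¹ * R⁻¹ * (2 * C3) := by rw [hRR, mul_one]
      _ ≤ 1 * (2 * C3) := by gcongr
      _ ≤ _ := by linarith

end Cut

/-- cut-offs with constants independent of `R` -/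
theorem cutoff (n : ℕ) : ∃ C3 : ℝ, 0 < C3 ∧ ∀ R : ℝ, 1 ≤ R → ∃ χ : E n → ℝ, Test χ ∧
    (∀ x, |χ x| ≤ 1) ∧ (∀ x, ‖x‖ < R → χ x = 1) ∧ (∀ x, 2 * R < ‖x‖ → χ x = 0) ∧
    (∀ x a, |pd a χ x| ≤ C3 ∧ ‖x‖ * |pd a χ x| ≤ C3) ∧
    (∀ x a b, |pd a (pd b χ) x| ≤ C3 ∧ ‖x‖ * |pd a (pd b χ) x| ≤ C3) ∧
    (∀ x a b d, |pd a (pd b (pd d χ)) x| ≤ C3) := by
  obtain ⟨C, hC, h⟩ := Cut.exists_cut n
  refine ⟨C + 1, by positivity, fun R hR => ?_⟩
  obtain ⟨χ, h0, h1, h2, h3, h4, h5, h6, h7, h8, h9, h10⟩ := h R hR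
  refine ⟨χ, h0, fun x => ?_, fun x hx => h3 x hx.le, fun x hx => h4 x hx.le, fun x a => ?_,
    fun x a b => ?_, fun x a b d => ?_⟩
  · rw [abs_of_nonneg (h1 x)]
    exact h2 x
  · exact ⟨(h5 x a).trans (by linarith), (h8 x a).trans (by linarith)⟩
  · exact ⟨(h6 x a b).trans (by linarith), (h9 x a b).trans (by linarith)⟩
  · exact (h7 x b d a).trans (by linarith)

/-- `τ` is bounded and Lipschitz -/
theorem tau_bdd {n : ℕ} {ψ V : E n → ℝ} {c C M : ℝ} (hM : MM ψ V c C M) :
    ∃ T : ℝ, 0 < T ∧ (∀ x i j, |tau ψ x i j| ≤ T) ∧ ∀ i j, Lp (fun x => tau ψ x i j) T := by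
  have hc := hM.c_pos
  have h1 : 0 < 1 / c := by positivity
  refine ⟨1 / c + (n : ℝ) ^ 2 * (1 / c) ^ 2 * |M|, by positivity, fun x i j => ?_, fun i j x y => ?_⟩
  · have h2 := Loc.tau_bdd hM x i j
    have h3 : 0 ≤ (n : ℝ) ^ 2 * (1 / c) ^ 2 * |M| := by positivity
    linarith
  · have h2 := Loc.tau_lip hM x y i j
    have h3 : (n : ℝ) ^ 2 * (1 / c) ^ 2 * M ≤ 1 / c + (n : ℝ) ^ 2 * (1 / c) ^ 2 * |M| := by
      have h4 : (n : ℝ) ^ 2 * (1 / c) ^ 2 * M ≤ (n : ℝ) ^ 2 * (1 / c) ^ 2 * |M| := by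
        gcongr
        exact le_abs_self M
      linarith
    exact h2.trans (mul_le_mul_of_nonneg_right h3 (norm_nonneg _))

end Vale.Agent.P227.M.LIN
end

section

/-! # LIN-4, part LEB: mollification of Lipschitz functions with compact support. -/

open MeasureTheory Filter Metric Set
open scoped Topology

namespace Vale.Agent.P227.M.LIN

private theorem lw700 {n : ℕ} {g : E n → ℝ} {K : ℝ} (hg : Lp g K) : LipschitzWith K.toNNReal g := by
  refine LipschitzWith.of_dist_le_mul fun x y => ?_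
  rw [Real.dist_eq, dist_eq_norm]
  exact (hg x y).trans (mul_le_mul_of_nonneg_right (Real.le_coe_toNNReal K) (norm_nonneg _))

theorem lip_ae {n : ℕ} {g : E n → ℝ} {K : ℝ} (hg : Lp g K) : ∀ᵐ x, DifferentiableAt ℝ g x :=
  (lw700 hg).ae_differentiableAt

private theorem rkc700 {n : ℕ} (m : ℕ) : Continuous (rk (n := n) m) := (bp n m).continuous_normed

private theorem rkn700 {n : ℕ} (m : ℕ) (x : E n) : 0 ≤ rk m x := (bp n m).nonneg_normed x

private theorem rks700 {n : ℕ} (m : ℕ) : HasCompactSupport (rk (n := n) m) :=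
  (bp n m).hasCompactSupport_normed

private theorem rki700 {n : ℕ} (m : ℕ) : Integrable (rk (n := n) m) :=
  (rkc700 m).integrable_of_hasCompactSupport (rks700 m)

private theorem rk1700 {n : ℕ} (m : ℕ) : ∫ x, rk (n := n) m x = 1 := (bp n m).integral_normed

private theorem rk0700 {n : ℕ} (m : ℕ) {x : E n} (hx : 1 < ‖x‖) : rk m x = 0 := by
  have h : x ∉ Function.support (rk (n := n) m) := by
    have : Function.support (rk (n := n) m) = ball (0 : E n) (dl m) := (bp n m).support_normed_eq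
    rw [this, mem_ball_zero_iff]
    have := dl_le_one m
    linarith
  simpa using h

private theorem normfd700 {n : ℕ} {g : E n → ℝ} {K : ℝ} (hg : Lp g K) (x : E n) :
    ‖fderiv ℝ g x‖ ≤ max K 0 := by
  have := norm_fderiv_le_of_lipschitz (x₀ := x) ℝ (lw700 hg)
  rwa [Real.coe_toNNReal'] at this

private theorem pdb700 {n : ℕ} {g : E n → ℝ} {K : ℝ} (hg : Lp g K) (b : Fin n) (x : E n) :
    |pd b g x| ≤ max K 0 := by
  unfold pd
  rw [← Real.norm_eq_abs]
  refine ((fderiv ℝ g x).le_opNorm _).trans ?_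
  have : ‖(ei b : E n)‖ = 1 := by simp [ei]
  rw [this, mul_one]
  exact normfd700 hg x

private theorem pdm700 {n : ℕ} (g : E n → ℝ) (b : Fin n) : Measurable (pd b g) := by
  unfold pd
  exact measurable_fderiv_apply_const ℝ g (ei b)

private theorem aedif700 {n : ℕ} {g : E n → ℝ} {K : ℝ} (hg : Lp g K) (x : E n) :
    ∀ᵐ t, DifferentiableAt ℝ g (x - t) :=
  (quasiMeasurePreserving_sub_left (volume : Measure (E n)) x).ae (lip_ae hg)

/-- the mollification of a Lipschitz function is differentiable, and `∂_b` commutes -/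
theorem lip_mo_aux {n : ℕ} {g : E n → ℝ} {K : ℝ} (hg : Lp g K) (m : ℕ) (x : E n) :
    Integrable (fun t => rk m t • fderiv ℝ g (x - t)) ∧
      HasFDerivAt (mo m g) (∫ t, rk m t • fderiv ℝ g (x - t)) x := by
  have hgc : Continuous g := (lw700 hg).continuous
  have hcont : ∀ y : E n, Continuous fun t => rk m t * g (y - t) := fun y =>
    (rkc700 m).mul (hgc.comp (continuous_const.sub continuous_id))
  have hcs : ∀ y : E n, HasCompactSupport fun t => rk m t * g (y - t) := fun y =>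
    (rks700 m).mul_right
  refine hasFDerivAt_integral_of_dominated_loc_of_lip (𝕜 := ℝ) (μ := volume)
    (F := fun y t => rk m t * g (y - t)) (F' := fun t => rk m t • fderiv ℝ g (x - t))
    (bound := fun t => rk m t * K.toNNReal) (s := univ) univ_mem ?_ ?_ ?_ ?_ ?_ ?_
  · exact Eventually.of_forall fun y => (hcont y).aestronglyMeasurable
  · exact (hcont x).integrable_of_hasCompactSupport (hcs x)
  · refine AEStronglyMeasurable.smul (rkc700 m).aestronglyMeasurable ?_
    exact ((measurable_fderiv ℝ g).comp (measurable_const.sub measurable_id)).aestronglyMeasurable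
  · refine Eventually.of_forall fun t => ?_
    refine LipschitzWith.lipschitzOnWith ?_
    refine LipschitzWith.of_dist_le_mul fun y z => ?_
    have h1 : dist (g (y - t)) (g (z - t)) ≤ K.toNNReal * dist (y - t) (z - t) := (lw700 hg).dist_le_mul _ _
    rw [dist_sub_right] at h1
    have h2 : dist (rk m t * g (y - t)) (rk m t * g (z - t)) = rk m t * dist (g (y - t)) (g (z - t)) := by
      rw [Real.dist_eq, Real.dist_eq, ← mul_sub, abs_mul, abs_of_nonneg (rkn700 m t)]
    show dist (rk m t * g (y - t)) (rk m t * g (z - t)) ≤ _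
    rw [h2, Real.coe_nnabs, abs_of_nonneg (mul_nonneg (rkn700 m t) (NNReal.coe_nonneg _)), mul_assoc]
    exact mul_le_mul_of_nonneg_left h1 (rkn700 m t)
  · exact (rki700 m).mul_const _
  · filter_upwards [aedif700 hg x] with t ht
    have h1 : HasFDerivAt (fun y => g (y - t)) (fderiv ℝ g (x - t)) x := by
      have h0 : HasFDerivAt (fun y : E n => y - t) (ContinuousLinearMap.id ℝ (E n)) x :=
        (hasFDerivAt_id x).sub_const t
      have := HasFDerivAt.comp x (f := fun y : E n => y - t) (g := g) ht.hasFDerivAt h0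
      rwa [ContinuousLinearMap.comp_id] at this
    exact h1.const_mul (rk m t)

theorem lip_mo {n : ℕ} {g : E n → ℝ} {K : ℝ} (hg : Lp g K) (hs : HasCompactSupport g) (m : ℕ) (x : E n) :
    DifferentiableAt ℝ (mo m g) x ∧ ∀ b, pd b (mo m g) x = mo m (pd b g) x := by
  obtain ⟨h1, h2⟩ := lip_mo_aux hg m x
  refine ⟨h2.differentiableAt, fun b => ?_⟩
  unfold pd
  rw [h2.fderiv, ContinuousLinearMap.integral_apply h1]
  rfl

private theorem pdli700 {n : ℕ} {g : E n → ℝ} {K : ℝ} (hg : Lp g K) (b : Fin n) :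
    LocallyIntegrable (pd b g) := by
  have hc : LocallyIntegrable (fun _ : E n => max K 0) := continuous_const.locallyIntegrable
  refine hc.mono (pdm700 g b).aestronglyMeasurable (Eventually.of_forall fun x => ?_)
  rw [Real.norm_eq_abs, Real.norm_eq_abs, abs_of_nonneg (le_max_right K 0)]
  exact pdb700 hg b x

private theorem mob700 {n : ℕ} {g : E n → ℝ} {K : ℝ} (hg : Lp g K) (b : Fin n) (m : ℕ) (x : E n) :
    |mo m (pd b g) x| ≤ max K 0 := by
  unfold mo
  rw [← Real.norm_eq_abs]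
  calc ‖∫ t, rk m t * pd b g (x - t)‖ ≤ ∫ t, rk m t * max K 0 := by
        refine norm_integral_le_of_norm_le ((rki700 m).mul_const _) (Eventually.of_forall fun t => ?_)
        rw [norm_mul, Real.norm_eq_abs, Real.norm_eq_abs, abs_of_nonneg (rkn700 m t)]
        exact mul_le_mul_of_nonneg_left (pdb700 hg b _) (rkn700 m t)
    _ = max K 0 := by rw [integral_mul_const, rk1700, one_mul]

/-- integrability of the square and convergence, `V` continuous -/
theorem leb {n : ℕ} {V g : E n → ℝ} {K : ℝ} (hV : Continuous V) (hg : Lp g K) (hs : HasCompactSupport g) (b : Fin n) :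
    (∀ m, Integrable (fun x => (pd b g x - mo m (pd b g) x) ^ 2 * Real.exp (-V x))) ∧
    Tendsto (fun m => ∫ x, (pd b g x - mo m (pd b g) x) ^ 2 * Real.exp (-V x)) atTop (𝓝 0) := by
  classical
  -- radius of the support
  obtain ⟨R, hR⟩ : ∃ R : ℝ, ∀ x : E n, R < ‖x‖ → pd b g x = 0 := by
    obtain ⟨R, hR⟩ := hs.isCompact.isBounded.subset_closedBall (0 : E n)
    refine ⟨R, fun x hx => ?_⟩
    have h1 : x ∉ tsupport g := fun h => by
      have := hR h
      rw [mem_closedBall_zero_iff] at this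
      linarith
    have h2 : x ∉ tsupport (fderiv ℝ g) := fun h => h1 (tsupport_fderiv_subset ℝ h)
    unfold pd
    rw [image_eq_zero_of_notMem_tsupport h2]
    rfl
  have hmo : ∀ m, ∀ x : E n, R + 1 < ‖x‖ → mo m (pd b g) x = 0 := by
    intro m x hx
    unfold mo
    refine integral_eq_zero_of_ae (Eventually.of_forall fun t => ?_)
    show rk m t * pd b g (x - t) = 0
    by_cases ht : 1 < ‖t‖
    · rw [rk0700 m ht, zero_mul]
    · rw [hR (x - t), mul_zero]
      have := norm_sub_norm_le x t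
      push Not at ht
      linarith
  have hdiff : ∀ m, Continuous (mo m (pd b g)) := by
    intro m
    have h1 : Continuous (convolution (rk (n := n) m) (pd b g) (ContinuousLinearMap.lsmul ℝ ℝ) volume) :=
      (rks700 m).continuous_convolution_left _ (rkc700 m) (pdli700 hg b)
    exact h1
  set B : ℝ := 2 * max K 0 with hB
  have hB0 : 0 ≤ B := by positivity
  have hbd : ∀ m x, |pd b g x - mo m (pd b g) x| ≤ B := by
    intro m x
    have h1 := pdb700 hg b x
    have h2 := mob700 hg b m x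
    calc |pd b g x - mo m (pd b g) x| ≤ |pd b g x| + |mo m (pd b g) x| := abs_sub _ _
      _ ≤ B := by rw [hB]; linarith
  set bd : E n → ℝ := fun x => (closedBall (0 : E n) (R + 1)).indicator (fun x => B ^ 2 * Real.exp (-V x)) x
    with hbdd
  have hbdi : Integrable bd := by
    rw [hbdd]
    refine (integrable_indicator_iff isClosed_closedBall.measurableSet).2 ?_
    exact (continuous_const.mul (Real.continuous_exp.comp hV.neg)).continuousOn.integrableOn_compact
      (isCompact_closedBall _ _)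
  have hle : ∀ m x, ‖(pd b g x - mo m (pd b g) x) ^ 2 * Real.exp (-V x)‖ ≤ bd x := by
    intro m x
    rw [hbdd]
    by_cases hx : x ∈ closedBall (0 : E n) (R + 1)
    · simp only [indicator_of_mem hx]
      rw [norm_mul, norm_pow, Real.norm_eq_abs, Real.norm_eq_abs, Real.abs_exp]
      have := hbd m x
      have h0 := abs_nonneg (pd b g x - mo m (pd b g) x)
      gcongr
    · simp only [indicator_of_notMem hx]
      rw [mem_closedBall_zero_iff] at hx
      push Not at hx
      rw [hR x (by linarith), hmo m x hx]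
      simp
  have hmeas : ∀ m, AEStronglyMeasurable (fun x => (pd b g x - mo m (pd b g) x) ^ 2 * Real.exp (-V x)) volume := by
    intro m
    refine Measurable.aestronglyMeasurable ?_
    exact (((pdm700 g b).sub (hdiff m).measurable).pow_const 2).mul
      (Real.continuous_exp.comp hV.neg).measurable
  refine ⟨fun m => hbdi.mono' (hmeas m) (Eventually.of_forall (hle m)), ?_⟩
  have hlim : ∀ᵐ x : E n, Tendsto (fun m => mo m (pd b g) x) atTop (𝓝 (pd b g x)) := by
    have := ContDiffBump.ae_convolution_tendsto_right_of_locallyIntegrable (μ := (volume : Measure (E n)))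
      (φ := fun m => bp n m) (l := atTop) (K := 2) (g := pd b g) dl_tendsto
      (Eventually.of_forall fun m => by
        show dl m ≤ 2 * (dl m / 2)
        linarith) (pdli700 hg b)
    exact this
  have h0 : (0 : ℝ) = ∫ _x : E n, (0 : ℝ) := by simp
  rw [h0]
  refine tendsto_integral_of_dominated_convergence bd hmeas hbdi
    (fun m => Eventually.of_forall (hle m)) ?_
  filter_upwards [hlim] with x hx
  have h1 : Tendsto (fun m => pd b g x - mo m (pd b g) x) atTop (𝓝 (pd b g x - pd b g x)) :=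
    tendsto_const_nhds.sub hx
  have h2 := (h1.pow 2).mul_const (Real.exp (-V x))
  simpa using h2

end Vale.Agent.P227.M.LIN
end
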