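import Mathlib
import Vale.Agent.P227.Bd3.B1

set_option linter.all false

section

/-! # P227/M, block LK: smoothness of weighted Laplace integrals `y ↦ ∫ e^{⟨x,y⟩ - W x} A x dx`. -/

open MeasureTheory
open scoped Topology

namespace Vale.Agent.P227.M.RL983

noncomputable def FA {n : ℕ} (W : E n → ℝ) {H : Type} [NormedAddCommGroup H] [NormedSpace ℝ H]
    (A : E n → H) (y : E n) : H := ∫ x, Real.exp (inner ℝ x y - W x) • A x

section
variable {n : ℕ} {W : E n → ℝ} {H : Type} [NormedAddCommGroup H] [NormedSpace ℝ H]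

/-- multiplication by `x` (as a functional) -/
noncomputable def mulX (A : E n → H) (x : E n) : E n →L[ℝ] H := (innerSL ℝ x).smulRight (A x)

end

end Vale.Agent.P227.M.RL983
end

section

/-! # P227/M, block LK: `logLap W` is smooth and all its derivatives of order `≥ 2` are bounded, for `Reg W c C`. -/

open MeasureTheory
open scoped Topology

namespace Vale.Agent.P227.M.RL983

/-! ## Hessian along lines -/

theorem sum_ei {n : ℕ} (v : E n) : v = ∑ i, v i • (ei i : E n) := by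
  ext j
  simp [ei, Pi.single_apply]

theorem hess_apply {n : ℕ} {f : E n → ℝ} (hf : ContDiff ℝ 2 f) (x : E n) (i j : Fin n) :
    hess f x i j = fderiv ℝ (fderiv ℝ f) x (ei i) (ei j) := by
  unfold hess pd
  have h1 : ContDiff ℝ 1 (fderiv ℝ f) := hf.fderiv_right (m := 1) (by norm_num)
  have h2 : DifferentiableAt ℝ (fderiv ℝ f) x := (h1.differentiable (by norm_num)) x
  rw [fderiv_clm_apply h2 (differentiableAt_const _)]
  simp

theorem qf_hess {n : ℕ} {f : E n → ℝ} (hf : ContDiff ℝ 2 f) (x v : E n) :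
    qf (hess f x) v = fderiv ℝ (fderiv ℝ f) x v v := by
  unfold qf
  have key : ∀ B : E n →L[ℝ] E n →L[ℝ] ℝ, B v v = ∑ i, ∑ j, B (ei i) (ei j) * v i * v j := by
    intro B
    have h1 : B v = ∑ i, v i • B (ei i) := by
      conv_lhs => rw [sum_ei v]
      rw [map_sum]
      refine Finset.sum_congr rfl fun i _ => ?_
      rw [map_smul]
    have h2 : ∀ i : Fin n, B (ei i) v = ∑ j, v j * B (ei i) (ei j) := by
      intro i
      conv_lhs => rw [sum_ei v]
      rw [map_sum]
      refine Finset.sum_congr rfl fun j _ => ?_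
      rw [map_smul, smul_eq_mul]
    rw [h1]
    simp only [ContinuousLinearMap.coe_sum', Finset.sum_apply, ContinuousLinearMap.coe_smul',
      Pi.smul_apply, smul_eq_mul]
    refine Finset.sum_congr rfl fun i _ => ?_
    rw [h2 i, Finset.mul_sum]
    refine Finset.sum_congr rfl fun j _ => ?_
    ring
  rw [key]
  refine Finset.sum_congr rfl fun i _ => Finset.sum_congr rfl fun j _ => ?_
  rw [hess_apply hf]

theorem line1 {n : ℕ} {f : E n → ℝ} (hf : ContDiff ℝ 2 f) (x v : E n) (t : ℝ) :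
    HasDerivAt (fun t : ℝ => f (x + t • v)) (fderiv ℝ f (x + t • v) v) t := by
  have h1 : HasFDerivAt f (fderiv ℝ f (x + t • v)) (x + t • v) :=
    (hf.differentiable (by norm_num) _).hasFDerivAt
  have h2 : HasDerivAt (fun t : ℝ => x + t • v) v t := by
    simpa using ((hasDerivAt_id t).smul_const v).const_add x
  exact h1.comp_hasDerivAt t h2

theorem line2 {n : ℕ} {f : E n → ℝ} (hf : ContDiff ℝ 2 f) (x v : E n) (t : ℝ) :
    HasDerivAt (fun t : ℝ => fderiv ℝ f (x + t • v) v) (fderiv ℝ (fderiv ℝ f) (x + t • v) v v) t := by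
  have h0 : ContDiff ℝ 1 (fderiv ℝ f) := hf.fderiv_right (m := 1) (by norm_num)
  have h1 : HasFDerivAt (fderiv ℝ f) (fderiv ℝ (fderiv ℝ f) (x + t • v)) (x + t • v) :=
    (h0.differentiable (by norm_num) _).hasFDerivAt
  have h2 : HasDerivAt (fun t : ℝ => x + t • v) v t := by
    simpa using ((hasDerivAt_id t).smul_const v).const_add x
  have h3 := h1.comp_hasDerivAt t h2
  have h4 := h3.clm_apply (hasDerivAt_const t v)
  simpa using h4

theorem taylor_low (g g1 g2 : ℝ → ℝ) (h1 : ∀ t, HasDerivAt g (g1 t) t) (h2 : ∀ t, HasDerivAt g1 (g2 t) t)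
    (q : ℝ) (hq : ∀ t, q ≤ g2 t) : g 0 + g1 0 + q / 2 ≤ g 1 := by
  have hm : Monotone (fun t => g1 t - q * t) := by
    refine monotone_of_hasDerivAt_nonneg (f' := fun t => g2 t - q) (fun t => ?_) (fun t => ?_)
    · simpa using (h2 t).fun_sub ((hasDerivAt_id t).const_mul q)
    · simpa using hq t
  have hk : ∀ t, HasDerivAt (fun t => g t - g1 0 * t - q / 2 * t ^ 2) (g1 t - g1 0 - q * t) t := by
    intro t
    have h := ((h1 t).fun_sub ((hasDerivAt_id t).const_mul (g1 0))).fun_sub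
      (((hasDerivAt_id t).pow 2).const_mul (q / 2))
    refine h.congr_deriv ?_
    simp
    ring
  have hmono : MonotoneOn (fun t => g t - g1 0 * t - q / 2 * t ^ 2) (Set.Icc 0 1) := by
    refine monotoneOn_of_deriv_nonneg (convex_Icc 0 1) ?_ ?_ ?_
    · exact fun t _ => (hk t).continuousAt.continuousWithinAt
    · exact fun t _ => (hk t).differentiableAt.differentiableWithinAt
    · intro t ht
      rw [interior_Icc] at ht
      rw [(hk t).deriv]
      have h3 := hm ht.1.le
      simp only [mul_zero, sub_zero] at h3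
      linarith
  have h5 := hmono (Set.left_mem_Icc.mpr zero_le_one) (Set.right_mem_Icc.mpr zero_le_one) zero_le_one
  simp only [mul_zero, sub_zero] at h5
  norm_num at h5
  linarith

theorem taylor_up (g g1 g2 : ℝ → ℝ) (h1 : ∀ t, HasDerivAt g (g1 t) t) (h2 : ∀ t, HasDerivAt g1 (g2 t) t)
    (q : ℝ) (hq : ∀ t, g2 t ≤ q) : g 1 ≤ g 0 + g1 0 + q / 2 := by
  have h := taylor_low (fun t => - g t) (fun t => - g1 t) (fun t => - g2 t) (fun t => (h1 t).neg)
    (fun t => (h2 t).neg) (-q) (fun t => neg_le_neg (hq t))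
  linarith

section
variable {n : ℕ} {W : E n → ℝ} {c C : ℝ}

theorem reg_c2 (h : Reg W c C) : ContDiff ℝ 2 W := by exact_mod_cast contDiff_infty.mp h.smooth 2

theorem reg_low (h : Reg W c C) (m z : E n) :
    W m + fderiv ℝ W m z + c / 2 * ‖z‖ ^ 2 ≤ W (m + z) := by
  have hc := reg_c2 h
  have h1 := taylor_low (fun t => W (m + t • z)) _ _ (line1 hc m z) (line2 hc m z) (c * ‖z‖ ^ 2)
    (fun t => by rw [← qf_hess hc]; exact h.lower _ _)
  simp only [zero_smul, add_zero, one_smul] at h1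
  linarith

theorem reg_up (h : Reg W c C) (m z : E n) :
    W (m + z) ≤ W m + fderiv ℝ W m z + C / 2 * ‖z‖ ^ 2 := by
  have hc := reg_c2 h
  have h1 := taylor_up (fun t => W (m + t • z)) _ _ (line1 hc m z) (line2 hc m z) (C * ‖z‖ ^ 2)
    (fun t => by rw [← qf_hess hc]; exact h.upper _ _)
  simp only [zero_smul, add_zero, one_smul] at h1
  linarith

end

/-! ## `logLap` -/

end Vale.Agent.P227.M.RL983
end

section

/-! # P227/M/MX: Laplace asymptotics at a point, level `k → ∞`, directly in `x`-space -/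

open MeasureTheory Set Filter Topology

namespace Vale.Agent.P227.M.MX

variable {E : Type*} [NormedAddCommGroup E] [InnerProductSpace ℝ E] [FiniteDimensional ℝ E]
  [MeasurableSpace E] [BorelSpace E]

/-- Laplace transform of `exp (-f)` -/
noncomputable def Lpl (f : E → ℝ) (w : E) : ℝ := ∫ u : E, Real.exp (inner ℝ u w - f u)

theorem integrable_Lpl {f : E → ℝ} {a : ℝ} (ha : 0 < a) (hf : Measurable f)
    (h : ∀ u, a / 2 * ‖u‖ ^ 2 ≤ f u) (w : E) :
    Integrable fun u : E => Real.exp (inner ℝ u w - f u) := by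
  have h1 := LK.integrable_exp_of_quad (f := fun u : E => a / 2 * ‖u‖ ^ 2) (a := a) ha one_pos (by fun_prop)
    (fun u => by simp) 1 w
  refine h1.mono' ?_ (Eventually.of_forall fun u => ?_)
  · have : Measurable fun x : E => (inner ℝ x w : ℝ) := (continuous_id.inner continuous_const).measurable
    exact (Real.measurable_exp.comp (this.sub hf)).aestronglyMeasurable
  · rw [Real.norm_eq_abs, abs_of_pos (Real.exp_pos _)]
    refine Real.exp_le_exp.2 ?_
    have := h u
    linarith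

theorem Lpl_pos {f : E → ℝ} {a : ℝ} (ha : 0 < a) (hf : Measurable f)
    (h : ∀ u, a / 2 * ‖u‖ ^ 2 ≤ f u) (w : E) : 0 < Lpl f w :=
  integral_exp_pos (integrable_Lpl ha hf h w)

/-- dominated convergence, inner integral -/
theorem tendsto_Lpl {f : ℕ → E → ℝ} {g : E → ℝ} {a : ℝ} (ha : 0 < a) (hf : ∀ j, Measurable (f j))
    (h : ∀ j u, a / 2 * ‖u‖ ^ 2 ≤ f j u) (hlim : ∀ u, Tendsto (fun j => f j u) atTop (𝓝 (g u))) (w : E) :
    Tendsto (fun j => Lpl (f j) w) atTop (𝓝 (Lpl g w)) := by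
  unfold Lpl
  refine tendsto_integral_of_dominated_convergence
    (fun u : E => Real.exp (inner ℝ u w - a / 2 * ‖u‖ ^ 2)) (fun j => ?_) ?_ (fun j => ?_) ?_
  · exact (integrable_Lpl ha (hf j) (h j) w).aestronglyMeasurable
  · exact integrable_Lpl ha (by fun_prop) (fun u => le_rfl) w
  · refine Eventually.of_forall fun u => ?_
    rw [Real.norm_eq_abs, abs_of_pos (Real.exp_pos _)]
    refine Real.exp_le_exp.2 ?_
    have := h j u
    linarith
  · refine Eventually.of_forall fun u => ?_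
    exact (Real.continuous_exp.tendsto _).comp (tendsto_const_nhds.sub (hlim u))

/-- completing the square -/
theorem Lpl_quad {b : ℝ} (hb : 0 < b) (w : E) :
    Lpl (fun u : E => b / 2 * ‖u‖ ^ 2) w = Real.exp (‖w‖ ^ 2 / (2 * b)) * ∫ v : E, Real.exp (-(b / 2 * ‖v‖ ^ 2)) := by
  unfold Lpl
  rw [← integral_const_mul, ← integral_add_right_eq_self (μ := (volume : Measure E)) _ (b⁻¹ • w)]
  congr 1
  ext v
  rw [← Real.exp_add]
  congr 1
  simp only []
  rw [inner_add_left, inner_smul_left, norm_add_sq_real, inner_smul_right, norm_smul]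
  simp only [Real.norm_eq_abs, mul_pow, sq_abs, real_inner_self_eq_norm_sq, RCLike.conj_to_real]
  field_simp
  ring

theorem Lpl_ge {f : E → ℝ} {a b : ℝ} (ha : 0 < a) (hb : 0 < b) (hf : Measurable f)
    (h : ∀ u, a / 2 * ‖u‖ ^ 2 ≤ f u) (h' : ∀ u, f u ≤ b / 2 * ‖u‖ ^ 2) (w : E) :
    ‖w‖ ^ 2 / (2 * b) + Real.log (∫ v : E, Real.exp (-(b / 2 * ‖v‖ ^ 2))) ≤ Real.log (Lpl f w) := by
  have hi : Integrable fun v : E => Real.exp (-(b / 2 * ‖v‖ ^ 2)) := by
    refine (integrable_Lpl hb (f := fun u : E => b / 2 * ‖u‖ ^ 2) (by fun_prop) (fun u => le_rfl) 0).congr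
      (Eventually.of_forall fun u => ?_)
    simp
  have h1 : Lpl (fun u : E => b / 2 * ‖u‖ ^ 2) w ≤ Lpl f w := by
    unfold Lpl
    refine integral_mono (integrable_Lpl hb (by fun_prop) (fun u => le_rfl) w) (integrable_Lpl ha hf h w) fun u => ?_
    refine Real.exp_le_exp.2 ?_
    have := h' u
    simp only
    linarith
  rw [Lpl_quad hb] at h1
  have h2 := Real.log_le_log (mul_pos (Real.exp_pos _) (integral_exp_pos hi)) h1
  rwa [Real.log_mul (Real.exp_pos _).ne' (integral_exp_pos hi).ne', Real.log_exp] at h2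

theorem measurable_Lpl {f : E → ℝ} (hf : Measurable f) : Measurable (Lpl f) := by
  unfold Lpl
  have h1 : StronglyMeasurable (fun p : E × E => Real.exp (inner ℝ p.2 p.1 - f p.2)) := by
    refine Measurable.stronglyMeasurable ?_
    have : Measurable fun p : E × E => (inner ℝ p.2 p.1 : ℝ) := (continuous_snd.inner continuous_fst).measurable
    exact Real.measurable_exp.comp (this.sub (hf.comp measurable_snd))
  exact (h1.integral_prod_right' (ν := volume)).measurable

/-- outer integral at level `k` -/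
noncomputable def KO (k : ℝ) (x0 : E) (f : E → ℝ) : ℝ :=
  ∫ w : E, Real.exp (-((1 + 1 / k) * Real.log (Lpl f w)) - (Real.sqrt k)⁻¹ * inner ℝ x0 w)

/-- a Gaussian majorant -/
theorem integrable_maj {b : ℝ} (hb : 0 < b) (C D : ℝ) :
    Integrable fun w : E => Real.exp (C + D * ‖w‖ - ‖w‖ ^ 2 / (2 * b)) := by
  have h1 : Integrable fun w : E => Real.exp (C + b * D ^ 2) * Real.exp (-((1 / (2 * b)) / 2 * ‖w‖ ^ 2)) := by
    refine Integrable.const_mul ?_ _
    refine (integrable_Lpl (a := 1 / (2 * b)) (by positivity) (f := fun u : E => (1 / (2 * b)) / 2 * ‖u‖ ^ 2)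
      (by fun_prop) (fun u => le_rfl) 0).congr (Eventually.of_forall fun u => ?_)
    simp
  refine h1.mono' (by fun_prop) (Eventually.of_forall fun w => ?_)
  rw [Real.norm_eq_abs, abs_of_pos (Real.exp_pos _), ← Real.exp_add]
  refine Real.exp_le_exp.2 ?_
  have h2 : D * ‖w‖ ≤ b * D ^ 2 + ‖w‖ ^ 2 / (4 * b) := by
    have h3 : 0 ≤ (2 * b * D - ‖w‖) ^ 2 / (4 * b) := by positivity
    have h4 : (2 * b * D - ‖w‖) ^ 2 / (4 * b) = b * D ^ 2 + ‖w‖ ^ 2 / (4 * b) - D * ‖w‖ := by
      field_simp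
      ring
    linarith
  have h5 : 1 / (2 * b) / 2 * ‖w‖ ^ 2 = ‖w‖ ^ 2 / (4 * b) := by
    field_simp
    ring
  have h6 : ‖w‖ ^ 2 / (2 * b) = 2 * (‖w‖ ^ 2 / (4 * b)) := by
    field_simp
    ring
  rw [h5, h6]
  linarith

theorem KO_bound {f : E → ℝ} {a b k : ℝ} (ha : 0 < a) (hb : 0 < b) (hk : 1 ≤ k) (hf : Measurable f)
    (h : ∀ u, a / 2 * ‖u‖ ^ 2 ≤ f u) (h' : ∀ u, f u ≤ b / 2 * ‖u‖ ^ 2) (x0 w : E) :
    -((1 + 1 / k) * Real.log (Lpl f w)) - (Real.sqrt k)⁻¹ * inner ℝ x0 w ≤
      2 * |Real.log (∫ v : E, Real.exp (-(b / 2 * ‖v‖ ^ 2)))| + ‖x0‖ * ‖w‖ - ‖w‖ ^ 2 / (2 * b) := by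
  have h1 := Lpl_ge ha hb hf h h' w
  set cb := Real.log (∫ v : E, Real.exp (-(b / 2 * ‖v‖ ^ 2))) with hcb
  have hk0 : 0 < k := by linarith
  have hq : 0 < 1 / k := by positivity
  have hq1 : 1 / k ≤ 1 := by rw [div_le_one hk0]; exact hk
  have h2 : (1 + 1 / k) * (‖w‖ ^ 2 / (2 * b) + cb) ≤ (1 + 1 / k) * Real.log (Lpl f w) :=
    mul_le_mul_of_nonneg_left h1 (by linarith)
  have h3 : ‖w‖ ^ 2 / (2 * b) - 2 * |cb| ≤ (1 + 1 / k) * (‖w‖ ^ 2 / (2 * b) + cb) := by
    have h4 : 0 ≤ ‖w‖ ^ 2 / (2 * b) := by positivity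
    have h5 : -|cb| ≤ cb := neg_abs_le cb
    have h6 : 0 ≤ |cb| := abs_nonneg cb
    nlinarith [mul_nonneg hq.le h4, mul_nonneg hq.le h6]
  have h7 : -((Real.sqrt k)⁻¹ * inner ℝ x0 w) ≤ ‖x0‖ * ‖w‖ := by
    have h8 : |inner ℝ x0 w| ≤ ‖x0‖ * ‖w‖ := abs_real_inner_le_norm x0 w
    have h9 : (Real.sqrt k)⁻¹ ≤ 1 := inv_le_one_of_one_le₀ (Real.one_le_sqrt.2 hk)
    have h10 : 0 ≤ (Real.sqrt k)⁻¹ := by positivity
    calc -((Real.sqrt k)⁻¹ * inner ℝ x0 w) ≤ |(Real.sqrt k)⁻¹ * inner ℝ x0 w| := neg_le_abs _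
      _ = (Real.sqrt k)⁻¹ * |inner ℝ x0 w| := by rw [abs_mul, abs_of_nonneg h10]
      _ ≤ 1 * (‖x0‖ * ‖w‖) := mul_le_mul h9 h8 (abs_nonneg _) zero_le_one
      _ = ‖x0‖ * ‖w‖ := one_mul _
  linarith

theorem measurable_KO_integrand {f : E → ℝ} (hf : Measurable f) (k : ℝ) (x0 : E) :
    Measurable fun w : E => Real.exp (-((1 + 1 / k) * Real.log (Lpl f w)) - (Real.sqrt k)⁻¹ * inner ℝ x0 w) := by
  have h1 : Measurable fun w : E => (inner ℝ x0 w : ℝ) := (continuous_const.inner continuous_id).measurable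
  exact Real.measurable_exp.comp ((((Real.measurable_log.comp (measurable_Lpl hf)).const_mul _).neg).sub (h1.const_mul _))

theorem integrable_KO {f : E → ℝ} {a b k : ℝ} (ha : 0 < a) (hb : 0 < b) (hk : 1 ≤ k) (hf : Measurable f)
    (h : ∀ u, a / 2 * ‖u‖ ^ 2 ≤ f u) (h' : ∀ u, f u ≤ b / 2 * ‖u‖ ^ 2) (x0 : E) :
    Integrable fun w : E => Real.exp (-((1 + 1 / k) * Real.log (Lpl f w)) - (Real.sqrt k)⁻¹ * inner ℝ x0 w) := by
  refine (integrable_maj hb (2 * |Real.log (∫ v : E, Real.exp (-(b / 2 * ‖v‖ ^ 2)))|) ‖x0‖).mono'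
    (measurable_KO_integrand hf k x0).aestronglyMeasurable (Eventually.of_forall fun w => ?_)
  rw [Real.norm_eq_abs, abs_of_pos (Real.exp_pos _)]
  exact Real.exp_le_exp.2 (KO_bound ha hb hk hf h h' x0 w)

/-- dominated convergence, outer integral -/
theorem tendsto_KO {f : ℕ → E → ℝ} {g : E → ℝ} {k : ℕ → ℝ} {a b : ℝ} (ha : 0 < a) (hb : 0 < b)
    (hk : ∀ j, 1 ≤ k j) (hkl : Tendsto k atTop atTop) (hf : ∀ j, Measurable (f j)) (hg : Measurable g)
    (h : ∀ j u, a / 2 * ‖u‖ ^ 2 ≤ f j u) (h' : ∀ j u, f j u ≤ b / 2 * ‖u‖ ^ 2)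
    (hlim : ∀ u, Tendsto (fun j => f j u) atTop (𝓝 (g u))) (x0 : E) :
    Tendsto (fun j => KO (k j) x0 (f j)) atTop (𝓝 (∫ w : E, (Lpl g w)⁻¹)) := by
  have hga : ∀ u, a / 2 * ‖u‖ ^ 2 ≤ g u := fun u => ge_of_tendsto' (hlim u) fun j => h j u
  have e1 : (fun w : E => (Lpl g w)⁻¹) = fun w : E => Real.exp (-Real.log (Lpl g w)) := by
    ext w
    rw [Real.exp_neg, Real.exp_log (Lpl_pos ha hg hga w)]
  rw [e1]
  unfold KO
  refine tendsto_integral_of_dominated_convergence
    (fun w : E => Real.exp (2 * |Real.log (∫ v : E, Real.exp (-(b / 2 * ‖v‖ ^ 2)))| + ‖x0‖ * ‖w‖ - ‖w‖ ^ 2 / (2 * b)))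
    (fun j => (measurable_KO_integrand (hf j) (k j) x0).aestronglyMeasurable) (integrable_maj hb _ _)
    (fun j => Eventually.of_forall fun w => ?_) (Eventually.of_forall fun w => ?_)
  · rw [Real.norm_eq_abs, abs_of_pos (Real.exp_pos _)]
    exact Real.exp_le_exp.2 (KO_bound ha hb (hk j) (hf j) (h j) (h' j) x0 w)
  · refine (Real.continuous_exp.tendsto _).comp ?_
    have h1 : Tendsto (fun j => Real.log (Lpl (f j) w)) atTop (𝓝 (Real.log (Lpl g w))) :=
      (Real.continuousAt_log (Lpl_pos ha hg hga w).ne').tendsto.comp (tendsto_Lpl ha hf h hlim w)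
    have h2 : Tendsto (fun j => 1 + 1 / k j) atTop (𝓝 (1 + 0)) :=
      tendsto_const_nhds.add (by simp only [one_div]; exact hkl.inv_tendsto_atTop)
    have h3 : Tendsto (fun j => (Real.sqrt (k j))⁻¹) atTop (𝓝 0) :=
      (Real.tendsto_sqrt_atTop.comp hkl).inv_tendsto_atTop
    have h4 := ((h2.mul h1).neg).sub (h3.mul_const (inner ℝ x0 w))
    simpa using h4

/-- the Gaussian identity: no Gaussian integral has to be computed -/
theorem gauss_det {S : E →L[ℝ] E} {a : ℝ} (ha : 0 < a) (hsym : ∀ v w, inner ℝ (S v) w = inner ℝ (S w) v)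
    (hpos : ∀ v, a * ‖v‖ ^ 2 ≤ inner ℝ (S v) v) :
    ∫ w : E, (Lpl (fun u : E => 1 / 2 * inner ℝ (S u) u) w)⁻¹ = |S.det| ∧ S.det ≠ 0 := by
  have hinj : Function.Injective (S : E →ₗ[ℝ] E) := by
    rw [← LinearMap.ker_eq_bot, LinearMap.ker_eq_bot']
    intro v hv
    have h1 := hpos v
    have h2 : S v = 0 := hv
    rw [h2, inner_zero_left] at h1
    have h3 : ‖v‖ ^ 2 ≤ 0 := by
      by_contra hcon
      push Not at hcon
      have := mul_pos ha hcon
      linarith
    have h4 : ‖v‖ = 0 := by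
      have := sq_nonneg ‖v‖
      exact pow_eq_zero_iff (two_ne_zero) |>.1 (le_antisymm h3 this)
    exact norm_eq_zero.1 h4
  have hbij : Function.Bijective (S : E →ₗ[ℝ] E) := ⟨hinj, LinearMap.injective_iff_surjective.1 hinj⟩
  have hdet : LinearMap.det (S : E →ₗ[ℝ] E) ≠ 0 := by
    intro h0
    have h1 := LinearMap.bot_lt_ker_of_det_eq_zero h0
    rw [LinearMap.ker_eq_bot.2 hinj] at h1
    exact lt_irrefl _ h1
  have hdet' : S.det = LinearMap.det (S : E →ₗ[ℝ] E) := rfl
  set IS := ∫ v : E, Real.exp (-(1 / 2 * inner ℝ (S v) v)) with hIS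
  have hmeas : Measurable fun u : E => 1 / 2 * (inner ℝ (S u) u : ℝ) :=
    ((S.continuous.inner continuous_id).measurable).const_mul _
  have hlow : ∀ u : E, a / 2 * ‖u‖ ^ 2 ≤ 1 / 2 * (inner ℝ (S u) u : ℝ) := fun u => by
    have := hpos u
    linarith
  have hIpos : 0 < IS := by
    refine integral_exp_pos ?_
    refine (integrable_Lpl ha hmeas hlow 0).congr (Eventually.of_forall fun u => ?_)
    simp
  have key : ∀ v : E, Lpl (fun u : E => 1 / 2 * inner ℝ (S u) u) (S v) = Real.exp (1 / 2 * inner ℝ (S v) v) * IS := by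
    intro p
    unfold Lpl
    rw [hIS, ← integral_const_mul, ← integral_add_right_eq_self (μ := (volume : Measure E)) _ p]
    congr 1
    ext v
    rw [← Real.exp_add]
    congr 1
    simp only []
    rw [map_add, inner_add_left, inner_add_left, inner_add_right, inner_add_right]
    have h1 : (inner ℝ v (S p) : ℝ) = inner ℝ (S v) p := by rw [real_inner_comm, hsym]
    have h2 : (inner ℝ p (S p) : ℝ) = inner ℝ (S p) p := real_inner_comm _ _
    rw [h1, h2, hsym p v]
    ring
  have hmap := Measure.map_linearMap_addHaar_eq_smul_addHaar (μ := (volume : Measure E)) hdet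
  have hmeasH : Measurable fun w : E => (Lpl (fun u : E => 1 / 2 * inner ℝ (S u) u) w)⁻¹ := (measurable_Lpl hmeas).inv
  have h1 : ∫ v : E, (Lpl (fun u : E => 1 / 2 * inner ℝ (S u) u) (S v))⁻¹
      = |(LinearMap.det (S : E →ₗ[ℝ] E))⁻¹| * ∫ w : E, (Lpl (fun u : E => 1 / 2 * inner ℝ (S u) u) w)⁻¹ := by
    have h2 : ∫ v : E, (Lpl (fun u : E => 1 / 2 * inner ℝ (S u) u) ((S : E →ₗ[ℝ] E) v))⁻¹
        = ∫ w : E, (Lpl (fun u : E => 1 / 2 * inner ℝ (S u) u) w)⁻¹ ∂(Measure.map (S : E →ₗ[ℝ] E) volume) := by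
      exact (integral_map S.continuous.measurable.aemeasurable hmeasH.aestronglyMeasurable).symm
    rw [hmap, integral_smul_measure, ENNReal.toReal_ofReal (abs_nonneg _), smul_eq_mul] at h2
    exact h2
  have h3 : ∫ v : E, (Lpl (fun u : E => 1 / 2 * inner ℝ (S u) u) (S v))⁻¹ = 1 := by
    have h4 : (fun v : E => (Lpl (fun u : E => 1 / 2 * inner ℝ (S u) u) (S v))⁻¹)
        = fun v : E => IS⁻¹ * Real.exp (-(1 / 2 * inner ℝ (S v) v)) := by
      ext v
      rw [key, mul_inv, Real.exp_neg]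
      ring
    rw [h4, integral_const_mul, ← hIS, inv_mul_cancel₀ hIpos.ne']
  rw [h3] at h1
  refine ⟨?_, by rw [hdet']; exact hdet⟩
  rw [hdet']
  have h5 : |(LinearMap.det (S : E →ₗ[ℝ] E))⁻¹| ≠ 0 := abs_ne_zero.2 (inv_ne_zero hdet)
  rw [abs_inv] at h1
  have h6 : |LinearMap.det (S : E →ₗ[ℝ] E)| ≠ 0 := abs_ne_zero.2 hdet
  have h7 := congrArg (fun t => |LinearMap.det (S : E →ₗ[ℝ] E)| * t) h1
  simp only [mul_one] at h7
  rw [← mul_assoc, mul_inv_cancel₀ h6, one_mul] at h7
  exact h7.symm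

/-- scaling and translation -/
theorem integral_scale (F : E → ℝ) {r : ℝ} (hr : 0 < r) (x0 : E) :
    ∫ x : E, F x = (r ^ Module.finrank ℝ E)⁻¹ * ∫ u : E, F (x0 + r⁻¹ • u) := by
  have h1 := Measure.integral_comp_smul (volume : Measure E) (fun x => F (x0 + x)) r⁻¹
  rw [integral_add_left_eq_self (μ := (volume : Measure E)) F x0] at h1
  rw [h1, smul_eq_mul, ← mul_assoc, inv_pow, inv_inv, abs_of_pos (by positivity), inv_mul_cancel₀ (by positivity), one_mul]

/-- the localised potential -/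
noncomputable def loc (k : ℝ) (c : E → ℝ) (x0 y0 : E) (u : E) : ℝ :=
  k * c (x0 + (Real.sqrt k)⁻¹ • u) - k * c x0 - Real.sqrt k * inner ℝ u y0

theorem phi_loc {k : ℝ} (hk : 0 < k) {c : E → ℝ} {x0 y0 : E} {a : ℝ} (ha : 0 < a) (hc : Measurable c)
    (h : ∀ u, a / 2 * ‖u‖ ^ 2 ≤ loc k c x0 y0 u) (w : E) :
    k * LK.phi k c (y0 + (Real.sqrt k)⁻¹ • w) = -(Module.finrank ℝ E * Real.log (Real.sqrt k))
      + (k * inner ℝ x0 y0 + Real.sqrt k * inner ℝ x0 w - k * c x0) + Real.log (Lpl (loc k c x0 y0) w) := by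
  have hr : 0 < Real.sqrt k := Real.sqrt_pos.2 hk
  have hrr : Real.sqrt k * Real.sqrt k = k := Real.mul_self_sqrt hk.le
  set r := Real.sqrt k with hrdef
  have hm : Measurable (loc k c x0 y0) := by
    unfold loc
    have h1 : Measurable fun u : E => (inner ℝ u y0 : ℝ) := (continuous_id.inner continuous_const).measurable
    have h2 : Measurable fun u : E => x0 + (Real.sqrt k)⁻¹ • u := by fun_prop
    exact (((hc.comp h2).const_mul k).sub measurable_const).sub (h1.const_mul _)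
  have hpos := Lpl_pos ha hm h w
  unfold LK.phi
  have e1 : ∫ x : E, Real.exp (k * inner ℝ x (y0 + r⁻¹ • w) - k * c x)
      = (r ^ Module.finrank ℝ E)⁻¹ * (Real.exp (k * inner ℝ x0 y0 + r * inner ℝ x0 w - k * c x0) * Lpl (loc k c x0 y0) w) := by
    rw [integral_scale _ hr x0]
    congr 1
    unfold Lpl
    rw [← integral_const_mul]
    congr 1
    ext u
    rw [← Real.exp_add]
    congr 1
    unfold loc
    rw [← hrdef]
    simp only [inner_add_left, inner_add_right, inner_smul_left, inner_smul_right, RCLike.conj_to_real]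
    have h3 : k * (r⁻¹ * (inner ℝ x0 w : ℝ)) = r * inner ℝ x0 w := by
      rw [← hrr]
      field_simp
    have h4 : k * (r⁻¹ * (inner ℝ u y0 : ℝ)) = r * inner ℝ u y0 := by
      rw [← hrr]
      field_simp
    have h5 : k * (r⁻¹ * (r⁻¹ * (inner ℝ u w : ℝ))) = inner ℝ u w := by
      rw [← hrr]
      field_simp
    linear_combination h3 + h4 + h5
  rw [e1, Real.log_mul (by positivity) (by positivity), Real.log_inv, Real.log_pow,
    Real.log_mul (by positivity) hpos.ne', Real.log_exp]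
  field_simp
  ring

/-- **the exact identity at level `k`** -/
theorem level_eq {k : ℝ} (hk : 1 ≤ k) {c : E → ℝ} {x0 y0 : E} {a b : ℝ} (ha : 0 < a) (hb : 0 < b) (hc : Measurable c)
    (h : ∀ u, a / 2 * ‖u‖ ^ 2 ≤ loc k c x0 y0 u) (h' : ∀ u, loc k c x0 y0 u ≤ b / 2 * ‖u‖ ^ 2) :
    k * c x0 - LK.Q k (LK.phi k c) x0 = inner ℝ x0 y0 - c x0
      - Module.finrank ℝ E * (Real.log (Real.sqrt k) / k) - Real.log (KO k x0 (loc k c x0 y0)) := by
  have hk0 : 0 < k := by linarith
  have hr : 0 < Real.sqrt k := Real.sqrt_pos.2 hk0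
  have hrr : Real.sqrt k * Real.sqrt k = k := Real.mul_self_sqrt hk0.le
  have hm : Measurable (loc k c x0 y0) := by
    unfold loc
    have h1 : Measurable fun u : E => (inner ℝ u y0 : ℝ) := (continuous_id.inner continuous_const).measurable
    have h2 : Measurable fun u : E => x0 + (Real.sqrt k)⁻¹ • u := by fun_prop
    exact (((hc.comp h2).const_mul k).sub measurable_const).sub (h1.const_mul _)
  have hKpos : 0 < KO k x0 (loc k c x0 y0) := integral_exp_pos (integrable_KO ha hb hk hm h h' x0)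
  set r := Real.sqrt k with hrdef
  set N : ℝ := (Module.finrank ℝ E : ℝ) with hN
  unfold LK.Q
  have e1 : ∫ y : E, Real.exp (k * inner ℝ x0 y - (k + 1) * LK.phi k c y)
      = (r ^ Module.finrank ℝ E)⁻¹ * (Real.exp ((1 + 1 / k) * (N * Real.log r) - inner ℝ x0 y0 + (k + 1) * c x0)
        * KO k x0 (loc k c x0 y0)) := by
    rw [integral_scale _ hr y0]
    congr 1
    unfold KO
    rw [← integral_const_mul]
    congr 1
    ext w
    rw [← Real.exp_add]
    congr 1
    have h1 := phi_loc hk0 (y0 := y0) ha hc h w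
    rw [← hrdef, ← hN] at h1
    have h2 : (k + 1) * LK.phi k c (y0 + r⁻¹ • w) = (1 + 1 / k) * (k * LK.phi k c (y0 + r⁻¹ • w)) := by
      field_simp
    rw [h2, h1, inner_add_right, inner_smul_right, ← hrdef]
    have h3 : k * (r⁻¹ * (inner ℝ x0 w : ℝ)) = r * inner ℝ x0 w := by
      rw [← hrr]
      field_simp
    have h4 : (1 + 1 / k) * (r * (inner ℝ x0 w : ℝ)) = r * inner ℝ x0 w + r⁻¹ * inner ℝ x0 w := by
      rw [← hrr]
      field_simp
    have h5 : (1 + 1 / k) * (k * (inner ℝ x0 y0 : ℝ)) = k * inner ℝ x0 y0 + inner ℝ x0 y0 := by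
      field_simp
    have h6 : (1 + 1 / k) * (k * c x0) = (k + 1) * c x0 := by
      field_simp
    linear_combination h3 - h4 - h5 + h6
  rw [e1, Real.log_mul (by positivity) (by positivity), Real.log_inv, Real.log_pow,
    Real.log_mul (by positivity) hKpos.ne', Real.log_exp, ← hN]
  field_simp
  ring

end Vale.Agent.P227.M.MX
end

section

/-! From third derivatives along lines to the Lipschitz bound of the Hessian. -/

open Set

namespace Vale.Agent.P227.M.SC.Pol

variable {E : Type*} [NormedAddCommGroup E] [NormedSpace ℝ E]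

/-- polarisation of a symmetric trilinear form -/
theorem polar_id (T : E →L[ℝ] E →L[ℝ] E →L[ℝ] ℝ) (h12 : ∀ u v w, T u v w = T v u w)
    (h23 : ∀ u v w, T u v w = T u w v) (u v w : E) :
    24 * T u v w = T (u + v + w) (u + v + w) (u + v + w) -
      T (u + v - w) (u + v - w) (u + v - w) - T (u - v + w) (u - v + w) (u - v + w) -
      T (-u + v + w) (-u + v + w) (-u + v + w) := by
  have a1 := h12 v u u
  have a2 := h23 u v u
  have b1 := h12 u v v
  have b2 := h23 v u v
  have c1 := h12 w u u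
  have c2 := h23 u w u
  have d1 := h12 u w w
  have d2 := h23 w u w
  have e1 := h12 w v v
  have e2 := h23 v w v
  have f1 := h12 v w w
  have f2 := h23 w v w
  have g1 := h12 v u w
  have g2 := h23 u v w
  have g3 := h12 u w v
  have g4 := h23 w u v
  have g5 := h12 w v u
  have g6 := h23 v w u
  simp only [map_add, map_sub, map_neg, _root_.add_apply,
    _root_.sub_apply, _root_.neg_apply]
  linarith

theorem polar_bound {T : E →L[ℝ] E →L[ℝ] E →L[ℝ] ℝ} (h12 : ∀ u v w, T u v w = T v u w)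
    (h23 : ∀ u v w, T u v w = T u w v) {K : ℝ} (hT : ∀ v, |T v v v| ≤ K * ‖v‖ ^ 3)
    (u v w : E) : |T u v w| ≤ 9 / 2 * K * ‖u‖ * ‖v‖ * ‖w‖ := by
  have key : ∀ u v w : E, ‖u‖ = 1 → ‖v‖ = 1 → ‖w‖ = 1 → |T u v w| ≤ 9 / 2 * K := by
    intro u v w hu hv hw
    have hK : 0 ≤ K := by
      have := hT u
      rw [hu] at this
      have h0 := abs_nonneg (T u u u)
      linarith
    have hb : ∀ z : E, ‖z‖ ≤ 3 → |T z z z| ≤ K * 27 := by
      intro z hz
      refine (hT z).trans ?_
      have : ‖z‖ ^ 3 ≤ 3 ^ 3 := pow_le_pow_left₀ (norm_nonneg z) hz 3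
      nlinarith
    have n1 : ‖u + v + w‖ ≤ 3 := by
      refine (norm_add₃_le).trans ?_
      rw [hu, hv, hw]; norm_num
    have n2 : ‖u + v - w‖ ≤ 3 := by
      have := norm_add₃_le (a := u) (b := v) (c := -w)
      rw [← sub_eq_add_neg, norm_neg, hu, hv, hw] at this
      linarith
    have n3 : ‖u - v + w‖ ≤ 3 := by
      have := norm_add₃_le (a := u) (b := -v) (c := w)
      rw [← sub_eq_add_neg, norm_neg, hu, hv, hw] at this
      linarith
    have n4 : ‖-u + v + w‖ ≤ 3 := by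
      have := norm_add₃_le (a := -u) (b := v) (c := w)
      rw [norm_neg, hu, hv, hw] at this
      linarith
    have e := polar_id T h12 h23 u v w
    have h1 := abs_le.1 (hb _ n1)
    have h2 := abs_le.1 (hb _ n2)
    have h3 := abs_le.1 (hb _ n3)
    have h4 := abs_le.1 (hb _ n4)
    rw [abs_le]
    constructor <;> linarith [h1.1, h1.2, h2.1, h2.2, h3.1, h3.2, h4.1, h4.2]
  rcases eq_or_ne u 0 with rfl | hu
  · simp
  rcases eq_or_ne v 0 with rfl | hv
  · simp
  rcases eq_or_ne w 0 with rfl | hw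
  · simp
  have hu' := norm_pos_iff.2 hu
  have hv' := norm_pos_iff.2 hv
  have hw' := norm_pos_iff.2 hw
  have nrm : ∀ z : E, z ≠ 0 → ‖(‖z‖⁻¹ : ℝ) • z‖ = 1 := by
    intro z hz
    rw [norm_smul, norm_inv, norm_norm, inv_mul_cancel₀ (norm_ne_zero_iff.2 hz)]
  have h := key _ _ _ (nrm u hu) (nrm v hv) (nrm w hw)
  simp only [map_smul, _root_.smul_apply, smul_eq_mul] at h
  rw [abs_mul, abs_mul, abs_mul, abs_inv, abs_inv, abs_inv, abs_norm, abs_norm, abs_norm] at h
  have h2 : |T u v w| = ‖u‖ * ‖v‖ * ‖w‖ * (‖u‖⁻¹ * (‖v‖⁻¹ * (‖w‖⁻¹ * |T u v w|))) := by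
    field_simp
  have h3 : (‖u‖⁻¹ * (‖v‖⁻¹ * (‖w‖⁻¹ * |T u v w|))) ≤ 9 / 2 * K := by
    linarith [h, mul_comm (‖u‖⁻¹) (‖v‖⁻¹ * (‖w‖⁻¹ * |T u v w|)),
      show ‖w‖⁻¹ * (‖v‖⁻¹ * (‖u‖⁻¹ * |T u v w|)) = ‖u‖⁻¹ * (‖v‖⁻¹ * (‖w‖⁻¹ * |T u v w|)) by ring]
  rw [h2]
  calc ‖u‖ * ‖v‖ * ‖w‖ * (‖u‖⁻¹ * (‖v‖⁻¹ * (‖w‖⁻¹ * |T u v w|)))
      ≤ ‖u‖ * ‖v‖ * ‖w‖ * (9 / 2 * K) := by
        apply mul_le_mul_of_nonneg_left h3; positivity
    _ = 9 / 2 * K * ‖u‖ * ‖v‖ * ‖w‖ := by ring

/-! ### derivatives along lines -/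

theorem line_hasDerivAt (x v : E) (t : ℝ) : HasDerivAt (fun t : ℝ => x + t • v) v t := by
  simpa using ((hasDerivAt_id t).smul_const v).const_add x

theorem line1 {F : Type*} [NormedAddCommGroup F] [NormedSpace ℝ F] {c : E → F}
    (hc : Differentiable ℝ c) (x v : E) (t : ℝ) :
    HasDerivAt (fun t : ℝ => c (x + t • v)) (fderiv ℝ c (x + t • v) v) t :=
  (hc (x + t • v)).hasFDerivAt.comp_hasDerivAt t (line_hasDerivAt x v t)

theorem eval1 {F : Type*} [NormedAddCommGroup F] [NormedSpace ℝ F] {G : ℝ → E →L[ℝ] F}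
    {G' : E →L[ℝ] F} {t : ℝ} (h : HasDerivAt G G' t) (v : E) :
    HasDerivAt (fun s => G s v) (G' v) t := by
  have h1 := h.clm_apply (hasDerivAt_const t v)
  rwa [map_zero, add_zero] at h1

theorem evalF1 {F : Type*} [NormedAddCommGroup F] [NormedSpace ℝ F] {G : E → E →L[ℝ] F}
    {G' : E →L[ℝ] E →L[ℝ] F} {x : E} (h : HasFDerivAt G G' x) (v : E) :
    HasFDerivAt (fun s => G s v) (G'.flip v) x := by
  have h1 := h.clm_apply (hasFDerivAt_const v x)
  refine h1.congr_fderiv ?_
  ext z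
  simp

theorem line2 {c : E → ℝ} (hc : Differentiable ℝ (fderiv ℝ c)) (x v : E) (t : ℝ) :
    HasDerivAt (fun t : ℝ => fderiv ℝ c (x + t • v) v)
      (fderiv ℝ (fderiv ℝ c) (x + t • v) v v) t :=
  eval1 (line1 hc x v t) v

theorem line3 {c : E → ℝ} (hc : Differentiable ℝ (fderiv ℝ (fderiv ℝ c))) (x v : E) (t : ℝ) :
    HasDerivAt (fun t : ℝ => fderiv ℝ (fderiv ℝ c) (x + t • v) v v)
      (fderiv ℝ (fderiv ℝ (fderiv ℝ c)) (x + t • v) v v v) t := by
  have h1 := line1 (c := fderiv ℝ (fderiv ℝ c)) hc x v t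
  have h2 := eval1 h1 v
  exact eval1 h2 v

variable {c : E → ℝ}

theorem cd1 (hc : ContDiff ℝ 3 c) : Differentiable ℝ c := hc.differentiable (by norm_num)

theorem cd2 (hc : ContDiff ℝ 3 c) : ContDiff ℝ 2 (fderiv ℝ c) :=
  hc.fderiv_right (m := 2) (by norm_num)

theorem cd3 (hc : ContDiff ℝ 3 c) : ContDiff ℝ 1 (fderiv ℝ (fderiv ℝ c)) :=
  (cd2 hc).fderiv_right (m := 1) (by norm_num)

theorem iter1 (hc : ContDiff ℝ 3 c) (x v : E) :
    iteratedDeriv 1 (fun t : ℝ => c (x + t • v)) = fun t => fderiv ℝ c (x + t • v) v := by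
  rw [iteratedDeriv_one]
  funext t
  exact (line1 (cd1 hc) x v t).deriv

theorem iter2 (hc : ContDiff ℝ 3 c) (x v : E) :
    iteratedDeriv 2 (fun t : ℝ => c (x + t • v)) =
      fun t => fderiv ℝ (fderiv ℝ c) (x + t • v) v v := by
  rw [iteratedDeriv_succ, iter1 hc]
  funext t
  exact (line2 ((cd2 hc).differentiable (by norm_num)) x v t).deriv

theorem iter3 (hc : ContDiff ℝ 3 c) (x v : E) :
    iteratedDeriv 3 (fun t : ℝ => c (x + t • v)) =
      fun t => fderiv ℝ (fderiv ℝ (fderiv ℝ c)) (x + t • v) v v v := by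
  rw [iteratedDeriv_succ, iter2 hc]
  funext t
  exact (line3 ((cd3 hc).differentiable (by norm_num)) x v t).deriv

/-! ### symmetry -/

theorem hess_symm (hc : ContDiff ℝ 3 c) (x u v : E) :
    fderiv ℝ (fderiv ℝ c) x u v = fderiv ℝ (fderiv ℝ c) x v u :=
  (hc.contDiffAt.isSymmSndFDerivAt (by simp; norm_num)).eq u v

theorem d3_symm12 (hc : ContDiff ℝ 3 c) (x u v w : E) :
    fderiv ℝ (fderiv ℝ (fderiv ℝ c)) x u v w = fderiv ℝ (fderiv ℝ (fderiv ℝ c)) x v u w := by
  have h := ((cd2 hc).contDiffAt (x := x)).isSymmSndFDerivAt (by simp)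
  rw [h.eq u v]

theorem d3_symm23 (hc : ContDiff ℝ 3 c) (x u v w : E) :
    fderiv ℝ (fderiv ℝ (fderiv ℝ c)) x u v w = fderiv ℝ (fderiv ℝ (fderiv ℝ c)) x u w v := by
  have hd : DifferentiableAt ℝ (fderiv ℝ (fderiv ℝ c)) x :=
    (cd3 hc).differentiable (by norm_num) x
  have h1 := evalF1 (evalF1 hd.hasFDerivAt v) w
  have h2 := evalF1 (evalF1 hd.hasFDerivAt w) v
  have h3 : (fun y => fderiv ℝ (fderiv ℝ c) y v w) = fun y => fderiv ℝ (fderiv ℝ c) y w v :=
    funext fun y => hess_symm hc y v w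
  rw [h3] at h1
  exact DFunLike.congr_fun (h1.unique h2) u

/-- Third derivatives along lines bounded by `K` bound the whole third derivative. -/
theorem d3_bound (hc : ContDiff ℝ 3 c) {K : ℝ}
    (h : ∀ x v, |iteratedDeriv 3 (fun t : ℝ => c (x + t • v)) 0| ≤ K * ‖v‖ ^ 3) (x u v w : E) :
    |fderiv ℝ (fderiv ℝ (fderiv ℝ c)) x u v w| ≤ 9 / 2 * K * ‖u‖ * ‖v‖ * ‖w‖ := by
  refine polar_bound (d3_symm12 hc x) (d3_symm23 hc x) (fun v => ?_) u v w
  have := h x v
  rw [iter3 hc] at this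
  simpa using this

theorem lip_of_apply {F : Type*} [NormedAddCommGroup F] [NormedSpace ℝ F] {g : E → F}
    (hg : Differentiable ℝ g) {C : ℝ} (hC : 0 ≤ C) (h : ∀ x u, ‖fderiv ℝ g x u‖ ≤ C * ‖u‖) :
    LipschitzWith (Real.toNNReal C) g := by
  refine lipschitzWith_of_nnnorm_fderiv_le hg fun x => ?_
  rw [← NNReal.coe_le_coe, coe_nnnorm, Real.coe_toNNReal _ hC]
  exact ContinuousLinearMap.opNorm_le_bound _ hC fun u => h x u

theorem d3_apply_norm (hc : ContDiff ℝ 3 c) {K : ℝ} (hK : 0 ≤ K)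
    (h : ∀ x v, |iteratedDeriv 3 (fun t : ℝ => c (x + t • v)) 0| ≤ K * ‖v‖ ^ 3) (x u : E) :
    ‖fderiv ℝ (fderiv ℝ (fderiv ℝ c)) x u‖ ≤ 9 / 2 * K * ‖u‖ := by
  refine ContinuousLinearMap.opNorm_le_bound _ (by positivity) fun v => ?_
  refine ContinuousLinearMap.opNorm_le_bound _ (by positivity) fun w => ?_
  rw [Real.norm_eq_abs]
  exact d3_bound hc h x u v w

/-- The Hessian is Lipschitz. -/
theorem hess_lipschitz (hc : ContDiff ℝ 3 c) {K : ℝ} (hK : 0 ≤ K)
    (h : ∀ x v, |iteratedDeriv 3 (fun t : ℝ => c (x + t • v)) 0| ≤ K * ‖v‖ ^ 3) :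
    LipschitzWith (Real.toNNReal (9 / 2 * K)) (fderiv ℝ (fderiv ℝ c)) := by
  exact lip_of_apply ((cd3 hc).differentiable (by norm_num)) (by positivity)
    (d3_apply_norm hc hK h)

end Vale.Agent.P227.M.SC.Pol
end

section

/-! # Laplace integrals with a Gaussian weight: smoothness and bounds of all derivatives

`W x ≥ a ‖x‖² - b` (continuous), `g` continuous with polynomial growth: the function
`y ↦ ∫ exp (⟪x, y⟫ - W x) • g x` is smooth; `‖iteratedFDeriv k‖ ≤ ∫ exp (⟪x,y⟫ - W x) ‖x‖^k ‖g x‖`. -/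

open MeasureTheory Set Real
open scoped Topology RealInnerProductSpace

namespace Vale.Agent.P227.M.RegLap

set_option linter.unusedSectionVars false

variable {V : Type} [NormedAddCommGroup V] [InnerProductSpace ℝ V] [FiniteDimensional ℝ V]
  [MeasurableSpace V] [BorelSpace V]

/-- the Gaussian is integrable -/
theorem ra_gauss_integrable {a : ℝ} (ha : 0 < a) :
    Integrable (fun x : V => Real.exp (-(a * ‖x‖ ^ 2))) := by
  have h := GaussianFourier.integrable_cexp_neg_mul_sq_norm_add (V := V) (b := (a : ℂ))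
    (by simpa using ha) 0 0
  refine h.norm.congr (ae_of_all _ fun x => ?_)
  simp only [Complex.norm_exp]
  congr 1
  have : (-(a : ℂ) * (‖x‖ : ℂ) ^ 2 + 0 * ((inner ℝ (0 : V) x : ℝ) : ℂ)) = ((-(a * ‖x‖ ^ 2) : ℝ) : ℂ) := by
    push_cast; ring
  rw [this, Complex.ofReal_re]

/-- pointwise domination of `(1+t)^q exp (R t - a t²)` -/
theorem ra_dom {a : ℝ} (ha : 0 < a) (q : ℕ) (R t : ℝ) (ht : 0 ≤ t) :
    (1 + t) ^ q * Real.exp (R * t - a * t ^ 2) ≤
      (q.factorial : ℝ) * Real.exp (1 + (R + 1) ^ 2 / (2 * a)) * Real.exp (-(a / 2 * t ^ 2)) := by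
  have h1 : (1 + t) ^ q ≤ (q.factorial : ℝ) * Real.exp (1 + t) := by
    have h := Real.pow_div_factorial_le_exp (1 + t) (by linarith) q
    have hq : (0 : ℝ) < q.factorial := by exact_mod_cast Nat.factorial_pos q
    rw [div_le_iff₀ hq] at h
    linarith
  have h2 : (R + 1) * t ≤ a / 2 * t ^ 2 + (R + 1) ^ 2 / (2 * a) := by
    have h3 : 0 ≤ (a * t - (R + 1)) ^ 2 / (2 * a) := by positivity
    have h4 : (a * t - (R + 1)) ^ 2 / (2 * a) = a / 2 * t ^ 2 - (R + 1) * t + (R + 1) ^ 2 / (2 * a) := by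
      field_simp
      ring
    linarith
  calc (1 + t) ^ q * Real.exp (R * t - a * t ^ 2)
      ≤ (q.factorial : ℝ) * Real.exp (1 + t) * Real.exp (R * t - a * t ^ 2) :=
        mul_le_mul_of_nonneg_right h1 (Real.exp_pos _).le
    _ = (q.factorial : ℝ) * Real.exp (1 + t + (R * t - a * t ^ 2)) := by rw [Real.exp_add (1 + t)]; ring
    _ ≤ (q.factorial : ℝ) * Real.exp (1 + (R + 1) ^ 2 / (2 * a) + -(a / 2 * t ^ 2)) := by
        refine mul_le_mul_of_nonneg_left (Real.exp_le_exp.2 ?_) (by positivity)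
        nlinarith [h2]
    _ = _ := by rw [Real.exp_add (1 + (R + 1) ^ 2 / (2 * a))]; ring

/-- weight data: continuous with a quadratic lower bound -/
structure GW (W : V → ℝ) (a b : ℝ) : Prop where
  a_pos : 0 < a
  cont : Continuous W
  lower : ∀ x, a * ‖x‖ ^ 2 - b ≤ W x

/-- polynomial growth -/
def PGr {F : Type} [NormedAddCommGroup F] (g : V → F) : Prop :=
  Continuous g ∧ ∃ (q : ℕ) (K : ℝ), ∀ x, ‖g x‖ ≤ K * (1 + ‖x‖) ^ q

variable {F : Type} [NormedAddCommGroup F] [NormedSpace ℝ F]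

/-- the bound used for domination, uniform for `‖y‖ ≤ R` -/
theorem ra_bound {W : V → ℝ} {a b : ℝ} (hW : GW W a b) {g : V → F} {q : ℕ} {K : ℝ}
    (hg : ∀ x, ‖g x‖ ≤ K * (1 + ‖x‖) ^ q) {R : ℝ} {y : V} (hy : ‖y‖ ≤ R) (x : V) :
    Real.exp (⟪x, y⟫ - W x) * ‖g x‖ ≤
      (K * Real.exp b * ((q.factorial : ℝ) * Real.exp (1 + (R + 1) ^ 2 / (2 * a)))) *
        Real.exp (-(a / 2 * ‖x‖ ^ 2)) := by
  have hK : 0 ≤ K := by
    have := (norm_nonneg _).trans (hg 0)
    simpa using this
  have h1 : Real.exp (⟪x, y⟫ - W x) ≤ Real.exp b * Real.exp (R * ‖x‖ - a * ‖x‖ ^ 2) := by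
    rw [← Real.exp_add]
    refine Real.exp_le_exp.2 ?_
    have h2 := hW.lower x
    have h3 : ⟪x, y⟫ ≤ ‖x‖ * ‖y‖ := real_inner_le_norm x y
    have h4 : ‖x‖ * ‖y‖ ≤ ‖x‖ * R := mul_le_mul_of_nonneg_left hy (norm_nonneg _)
    linarith [mul_comm R ‖x‖]
  calc Real.exp (⟪x, y⟫ - W x) * ‖g x‖
      ≤ (Real.exp b * Real.exp (R * ‖x‖ - a * ‖x‖ ^ 2)) * (K * (1 + ‖x‖) ^ q) :=
        mul_le_mul h1 (hg x) (norm_nonneg _) (by positivity)
    _ = K * Real.exp b * ((1 + ‖x‖) ^ q * Real.exp (R * ‖x‖ - a * ‖x‖ ^ 2)) := by ring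
    _ ≤ K * Real.exp b * ((q.factorial : ℝ) * Real.exp (1 + (R + 1) ^ 2 / (2 * a)) *
          Real.exp (-(a / 2 * ‖x‖ ^ 2))) :=
        mul_le_mul_of_nonneg_left (ra_dom hW.a_pos q R ‖x‖ (norm_nonneg _)) (by positivity)
    _ = _ := by ring

theorem ra_integrable {W : V → ℝ} {a b : ℝ} (hW : GW W a b) {g : V → F} (hg : PGr g) (y : V) :
    Integrable (fun x => Real.exp (⟪x, y⟫ - W x) • g x) := by
  obtain ⟨hc, q, K, hK⟩ := hg
  refine Integrable.mono' ((ra_gauss_integrable (V := V) (a := a / 2) (by have := hW.a_pos; positivity)).const_mul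
    (K * Real.exp b * ((q.factorial : ℝ) * Real.exp (1 + (‖y‖ + 1) ^ 2 / (2 * a))))) ?_ ?_
  · refine Continuous.aestronglyMeasurable ?_
    exact (Real.continuous_exp.comp (((continuous_id.inner continuous_const)).sub hW.cont)).smul hc
  · refine ae_of_all _ fun x => ?_
    rw [norm_smul, Real.norm_of_nonneg (Real.exp_pos _).le]
    exact ra_bound hW hK le_rfl x

/-- the Laplace integral -/
noncomputable def lapI (W : V → ℝ) (g : V → F) (y : V) : F :=
  ∫ x, Real.exp (⟪x, y⟫ - W x) • g x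

/-- the derivative weight -/
noncomputable def dg (g : V → F) (x : V) : V →L[ℝ] F := (innerSL ℝ x).smulRight (g x)

theorem dg_norm (g : V → F) (x : V) : ‖dg g x‖ = ‖x‖ * ‖g x‖ := by
  rw [dg, ContinuousLinearMap.norm_smulRight_apply, innerSL_apply_norm]

theorem dg_pgr {g : V → F} (hg : PGr g) : PGr (dg g) := by
  obtain ⟨hc, q, K, hK⟩ := hg
  have hK0 : 0 ≤ K := by
    have := (norm_nonneg _).trans (hK 0)
    simpa using this
  refine ⟨?_, q + 1, K, fun x => ?_⟩
  · unfold dg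
    exact (ContinuousLinearMap.smulRightL ℝ V F).continuous₂.comp
      (((innerSL ℝ).continuous).prodMk hc)
  · rw [dg_norm, pow_succ]
    have h1 : ‖x‖ ≤ 1 + ‖x‖ := by linarith
    calc ‖x‖ * ‖g x‖ ≤ (1 + ‖x‖) * (K * (1 + ‖x‖) ^ q) :=
          mul_le_mul h1 (hK x) (norm_nonneg _) (by positivity)
      _ = K * ((1 + ‖x‖) ^ q * (1 + ‖x‖)) := by ring

theorem lapI_hasFDerivAt {W : V → ℝ} {a b : ℝ} (hW : GW W a b) {g : V → F} (hg : PGr g) (y : V) :
    HasFDerivAt (lapI W g) (lapI W (dg g) y) y := by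
  obtain ⟨hc', q', K', hK'⟩ := dg_pgr hg
  have key := hasFDerivAt_integral_of_dominated_of_fderiv_le (𝕜 := ℝ) (μ := (volume : Measure V))
    (F := fun (y : V) (x : V) => Real.exp (⟪x, y⟫ - W x) • g x)
    (F' := fun (y : V) (x : V) => Real.exp (⟪x, y⟫ - W x) • dg g x) (x₀ := y)
    (s := Metric.ball y 1)
    (bound := fun x => (K' * Real.exp b * ((q'.factorial : ℝ) *
      Real.exp (1 + ((‖y‖ + 1) + 1) ^ 2 / (2 * a)))) * Real.exp (-(a / 2 * ‖x‖ ^ 2)))
    (Metric.ball_mem_nhds y one_pos) ?_ ?_ ?_ ?_ ?_ ?_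
  · exact key
  · exact Filter.Eventually.of_forall fun z => (ra_integrable hW hg z).aestronglyMeasurable
  · exact ra_integrable hW hg y
  · exact (ra_integrable hW (dg_pgr hg) y).aestronglyMeasurable
  · refine ae_of_all _ fun x z hz => ?_
    rw [norm_smul, Real.norm_of_nonneg (Real.exp_pos _).le]
    refine ra_bound hW hK' ?_ x
    have h1 : ‖z‖ ≤ ‖y‖ + ‖z - y‖ := by
      have := norm_add_le y (z - y)
      simpa using this
    have h2 : ‖z - y‖ < 1 := by simpa [dist_eq_norm] using hz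
    linarith
  · exact (ra_gauss_integrable (V := V) (a := a / 2) (by have := hW.a_pos; positivity)).const_mul _
  · refine ae_of_all _ fun x z _ => ?_
    have h1 : HasFDerivAt (fun z : V => ⟪x, z⟫ - W x) (innerSL ℝ x) z := by
      have := (innerSL ℝ x).hasFDerivAt (x := z)
      simpa using this.sub_const (W x)
    have h2 := (h1.exp).smul_const (g x)
    convert h2 using 1
    ext v
    simp [dg, mul_smul]

theorem lapI_contDiff_nat {W : V → ℝ} {a b : ℝ} (hW : GW W a b) (n : ℕ) :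
    ∀ {F : Type} [NormedAddCommGroup F] [NormedSpace ℝ F] (g : V → F), PGr g →
      ContDiff ℝ n (lapI W g) := by
  induction n with
  | zero =>
    intro F _ _ g hg
    rw [Nat.cast_zero, contDiff_zero]
    exact continuous_iff_continuousAt.2 fun y => (lapI_hasFDerivAt hW hg y).continuousAt
  | succ n ih =>
    intro F _ _ g hg
    rw [Nat.cast_succ, contDiff_succ_iff_hasFDerivAt]
    exact ⟨lapI W (dg g), ih (dg g) (dg_pgr hg), fun y => lapI_hasFDerivAt hW hg y⟩

theorem lapI_contDiff {W : V → ℝ} {a b : ℝ} (hW : GW W a b) {g : V → F} (hg : PGr g) :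
    ContDiff ℝ (⊤ : ℕ∞) (lapI W g) :=
  contDiff_infty.2 fun n => lapI_contDiff_nat hW n g hg

theorem lapI_iterated_le {W : V → ℝ} {a b : ℝ} (hW : GW W a b) (k : ℕ) :
    ∀ {F : Type} [NormedAddCommGroup F] [NormedSpace ℝ F] (g : V → F), PGr g → ∀ y,
      ‖iteratedFDeriv ℝ k (lapI W g) y‖ ≤ ∫ x, Real.exp (⟪x, y⟫ - W x) * (‖x‖ ^ k * ‖g x‖) := by
  induction k with
  | zero =>
    intro F _ _ g hg y
    rw [norm_iteratedFDeriv_zero]
    refine (norm_integral_le_integral_norm _).trans (le_of_eq ?_)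
    refine integral_congr_ae (ae_of_all _ fun x => ?_)
    simp only [norm_smul, Real.norm_of_nonneg (Real.exp_pos _).le, pow_zero, one_mul]
  | succ k ih =>
    intro F _ _ g hg y
    have h1 : fderiv ℝ (lapI W g) = lapI W (dg g) := by
      funext z
      exact (lapI_hasFDerivAt hW hg z).fderiv
    rw [← norm_iteratedFDeriv_fderiv, h1]
    refine (ih (dg g) (dg_pgr hg) y).trans (le_of_eq ?_)
    refine integral_congr_ae (ae_of_all _ fun x => ?_)
    simp only [dg_norm, pow_succ]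
    ring

end Vale.Agent.P227.M.RegLap
end

section

/-! # Line restrictions: Hessian bounds versus convexity (for `pd`, `hess`, `qf` of `M/Defs`) -/

open MeasureTheory Set Real
open scoped Topology RealInnerProductSpace

namespace Vale.Agent.P227.M.RegLap

variable {n : ℕ}

/-- a vector is the sum of its coordinates -/
theorem rl_sum (v : E n) : v = ∑ i, v i • (ei i : E n) := by
  ext j
  simp [ei, Pi.single_apply]

/-- first derivative along a line -/
theorem rl_d1 {W : E n → ℝ} (hW : Differentiable ℝ W) (x v : E n) (t : ℝ) :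
    HasDerivAt (fun t : ℝ => W (x + t • v)) (fderiv ℝ W (x + t • v) v) t := by
  have h1 : HasDerivAt (fun t : ℝ => x + t • v) v t := by
    simpa using ((hasDerivAt_id t).smul_const v).const_add x
  exact (hW (x + t • v)).hasFDerivAt.comp_hasDerivAt t h1

theorem rl_fderiv_apply {W : E n → ℝ} (p v : E n) :
    fderiv ℝ W p v = ∑ j, v j * pd j W p := by
  conv_lhs => rw [rl_sum v]
  rw [map_sum]
  refine Finset.sum_congr rfl fun j _ => ?_
  rw [map_smul, smul_eq_mul, pd]

/-- second derivative along a line -/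
theorem rl_d2 {W : E n → ℝ} (hW : ContDiff ℝ 2 W) (x v : E n) (t : ℝ) :
    HasDerivAt (fun t : ℝ => fderiv ℝ W (x + t • v) v) (qf (hess W (x + t • v)) v) t := by
  have hpd : ∀ j : Fin n, Differentiable ℝ (pd j W) := by
    intro j
    have h1 : ContDiff ℝ 1 (fderiv ℝ W) := hW.fderiv_right (by norm_num)
    exact (h1.clm_apply contDiff_const).differentiable one_ne_zero
  have h1 : ∀ j : Fin n, HasDerivAt (fun t : ℝ => v j * pd j W (x + t • v))
      (v j * fderiv ℝ (pd j W) (x + t • v) v) t := fun j => (rl_d1 (hpd j) x v t).const_mul (v j)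
  have h2 := HasDerivAt.fun_sum (u := Finset.univ) (fun j _ => h1 j)
  have h3 : (fun t : ℝ => fderiv ℝ W (x + t • v) v) =
      fun t : ℝ => ∑ j, v j * pd j W (x + t • v) := by
    funext s
    exact rl_fderiv_apply _ _
  rw [h3]
  have h4 : qf (hess W (x + t • v)) v = ∑ j, v j * fderiv ℝ (pd j W) (x + t • v) v := by
    unfold qf
    rw [Finset.sum_comm]
    refine Finset.sum_congr rfl fun j _ => ?_
    rw [rl_fderiv_apply, Finset.mul_sum]
    refine Finset.sum_congr rfl fun i _ => ?_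
    unfold hess
    ring
  rw [h4]
  exact h2

/-- convexity from lines -/
theorem rl_convex_of_lines {f : E n → ℝ}
    (h : ∀ x v : E n, ConvexOn ℝ univ (fun t : ℝ => f (x + t • v))) : ConvexOn ℝ univ f := by
  refine ⟨convex_univ, fun x _ y _ a b ha hb hab => ?_⟩
  have h1 := (h x (y - x)).2 (mem_univ 0) (mem_univ 1) ha hb hab
  have h2 : a • x + b • y = x + b • (y - x) := by
    have : a = 1 - b := by linarith
    subst this
    module
  rw [h2]
  simpa using h1

/-- one dimension: nonnegative second derivative gives convexity -/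
theorem rl_conv1 {g g1 g2 : ℝ → ℝ} (h1 : ∀ t, HasDerivAt g (g1 t) t)
    (h2 : ∀ t, HasDerivAt g1 (g2 t) t) (hn : ∀ t, 0 ≤ g2 t) : ConvexOn ℝ univ g := by
  have hm : Monotone g1 := monotone_of_deriv_nonneg (fun t => (h2 t).differentiableAt)
    (fun t => by rw [(h2 t).deriv]; exact hn t)
  have hd : deriv g = g1 := funext fun t => (h1 t).deriv
  refine Monotone.convexOn_univ_of_deriv (fun t => (h1 t).differentiableAt) ?_
  rw [hd]
  exact hm

/-- one dimension: convexity gives a nonnegative second derivative -/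
theorem rl_conv1' {g g1 g2 : ℝ → ℝ} (h1 : ∀ t, HasDerivAt g (g1 t) t)
    (h2 : ∀ t, HasDerivAt g1 (g2 t) t) (hc : ConvexOn ℝ univ g) (t : ℝ) : 0 ≤ g2 t := by
  have hd : deriv g = g1 := funext fun t => (h1 t).deriv
  have hm : Monotone g1 := by
    have h := hc.monotoneOn_deriv (fun t _ => (h1 t).differentiableAt)
    rw [hd] at h
    exact fun a b hab => h (mem_univ a) (mem_univ b) hab
  exact (h2 t).nonneg_of_monotone hm

/-- one dimension: Taylor lower bound -/
theorem rl_taylor {g g1 g2 : ℝ → ℝ} {m : ℝ} (h1 : ∀ t, HasDerivAt g (g1 t) t)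
    (h2 : ∀ t, HasDerivAt g1 (g2 t) t) (hn : ∀ t, m ≤ g2 t) : g 0 + g1 0 + m / 2 ≤ g 1 := by
  have hm : Monotone (fun t => g1 t - m * t) := by
    refine monotone_of_deriv_nonneg (fun t => ((h2 t).sub ((hasDerivAt_id t).const_mul m)).differentiableAt)
      (fun t => ?_)
    have := ((h2 t).sub ((hasDerivAt_id t).const_mul m)).deriv
    rw [show (fun t => g1 t - m * t) = (g1 - fun y => m * id y) from rfl, this]
    linarith [hn t]
  have hq : ∀ t, HasDerivAt (fun t => g t - g1 0 * t - m / 2 * t ^ 2) (g1 t - g1 0 - m * t) t := by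
    intro t
    have h3 := ((h1 t).sub ((hasDerivAt_id t).const_mul (g1 0))).sub
      (((hasDerivAt_id t).pow 2).const_mul (m / 2))
    have h4 : g1 t - g1 0 * 1 - m / 2 * ((2 : ℕ) * id t ^ (2 - 1) * 1) = g1 t - g1 0 - m * t := by
      simp only [id, Nat.cast_ofNat]
      ring
    rw [h4] at h3
    exact h3
  have hmo : MonotoneOn (fun t => g t - g1 0 * t - m / 2 * t ^ 2) (Icc 0 1) := by
    refine monotoneOn_of_deriv_nonneg (convex_Icc 0 1)
      (fun t _ => (hq t).continuousAt.continuousWithinAt)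
      (fun t _ => (hq t).differentiableAt.differentiableWithinAt) (fun t ht => ?_)
    rw [(hq t).deriv]
    rw [interior_Icc] at ht
    have := hm ht.1.le
    simp only [mul_zero, sub_zero] at this
    linarith
  have := hmo (left_mem_Icc.2 zero_le_one) (right_mem_Icc.2 zero_le_one) zero_le_one
  simp only [mul_zero, sub_zero, mul_one, one_pow] at this
  norm_num at this
  linarith

theorem rl_sq_d1 (x v : E n) (t : ℝ) :
    HasDerivAt (fun t : ℝ => ‖x + t • v‖ ^ 2) (2 * ⟪x + t • v, v⟫) t := by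
  have h1 : HasDerivAt (fun t : ℝ => x + t • v) v t := by
    simpa using ((hasDerivAt_id t).smul_const v).const_add x
  have h2 := h1.norm_sq
  convert h2 using 1

theorem rl_sq_d2 (x v : E n) (t : ℝ) :
    HasDerivAt (fun t : ℝ => 2 * ⟪x + t • v, v⟫) (2 * ‖v‖ ^ 2) t := by
  have h1 : HasDerivAt (fun t : ℝ => x + t • v) v t := by
    simpa using ((hasDerivAt_id t).smul_const v).const_add x
  have h2 := (h1.inner ℝ (hasDerivAt_const t v)).const_mul 2
  have h3 : (2 : ℝ) * (⟪x + t • v, (0 : E n)⟫ + ⟪v, v⟫) = 2 * ‖v‖ ^ 2 := by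
    rw [inner_zero_right, zero_add, real_inner_self_eq_norm_sq]
  rw [h3] at h2
  exact h2

/-- lower Hessian bound gives convexity of `W - c/2 ‖x‖²` -/
theorem rl_convex_lower {W : E n → ℝ} {c : ℝ} (hW : ContDiff ℝ 2 W)
    (h : ∀ x v, c * ‖v‖ ^ 2 ≤ qf (hess W x) v) :
    ConvexOn ℝ univ (fun x => W x - c / 2 * ‖x‖ ^ 2) := by
  refine rl_convex_of_lines fun x v => ?_
  refine rl_conv1
    (g1 := fun t => fderiv ℝ W (x + t • v) v - c / 2 * (2 * ⟪x + t • v, v⟫))
    (g2 := fun t => qf (hess W (x + t • v)) v - c / 2 * (2 * ‖v‖ ^ 2))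
    (fun t => (rl_d1 (hW.differentiable (by norm_num)) x v t).sub ((rl_sq_d1 x v t).const_mul _))
    (fun t => (rl_d2 hW x v t).sub ((rl_sq_d2 x v t).const_mul _)) (fun t => ?_)
  have := h (x + t • v) v
  linarith

/-- upper Hessian bound gives convexity of `C/2 ‖x‖² - W` -/
theorem rl_convex_upper {W : E n → ℝ} {C : ℝ} (hW : ContDiff ℝ 2 W)
    (h : ∀ x v, qf (hess W x) v ≤ C * ‖v‖ ^ 2) :
    ConvexOn ℝ univ (fun x => C / 2 * ‖x‖ ^ 2 - W x) := by
  refine rl_convex_of_lines fun x v => ?_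
  refine rl_conv1
    (g1 := fun t => C / 2 * (2 * ⟪x + t • v, v⟫) - fderiv ℝ W (x + t • v) v)
    (g2 := fun t => C / 2 * (2 * ‖v‖ ^ 2) - qf (hess W (x + t • v)) v)
    (fun t => ((rl_sq_d1 x v t).const_mul _).sub (rl_d1 (hW.differentiable (by norm_num)) x v t))
    (fun t => ((rl_sq_d2 x v t).const_mul _).sub (rl_d2 hW x v t)) (fun t => ?_)
  have := h (x + t • v) v
  linarith

/-- convexity of a function along lines -/
theorem rl_line_convex {f : E n → ℝ} (hf : ConvexOn ℝ univ f) (x v : E n) :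
    ConvexOn ℝ univ (fun t : ℝ => f (x + t • v)) := by
  refine ⟨convex_univ, fun s _ t _ a b ha hb hab => ?_⟩
  have h1 := hf.2 (mem_univ (x + s • v)) (mem_univ (x + t • v)) ha hb hab
  have h2 : a • (x + s • v) + b • (x + t • v) = x + (a • s + b • t) • v := by
    have : a = 1 - b := by linarith
    subst this
    simp only [smul_eq_mul]
    module
  rw [h2] at h1
  exact h1

/-- converse of `rl_convex_lower` -/
theorem rl_lower_of_convex {W : E n → ℝ} {c : ℝ} (hW : ContDiff ℝ 2 W)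
    (h : ConvexOn ℝ univ (fun x => W x - c / 2 * ‖x‖ ^ 2)) (x v : E n) :
    c * ‖v‖ ^ 2 ≤ qf (hess W x) v := by
  have h0 := rl_conv1'
    (g1 := fun t => fderiv ℝ W (x + t • v) v - c / 2 * (2 * ⟪x + t • v, v⟫))
    (g2 := fun t => qf (hess W (x + t • v)) v - c / 2 * (2 * ‖v‖ ^ 2))
    (fun t => (rl_d1 (hW.differentiable (by norm_num)) x v t).sub ((rl_sq_d1 x v t).const_mul _))
    (fun t => (rl_d2 hW x v t).sub ((rl_sq_d2 x v t).const_mul _)) (rl_line_convex h x v) 0
  simp only [zero_smul, add_zero] at h0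
  linarith

/-- converse of `rl_convex_upper` -/
theorem rl_upper_of_convex {W : E n → ℝ} {C : ℝ} (hW : ContDiff ℝ 2 W)
    (h : ConvexOn ℝ univ (fun x => C / 2 * ‖x‖ ^ 2 - W x)) (x v : E n) :
    qf (hess W x) v ≤ C * ‖v‖ ^ 2 := by
  have h0 := rl_conv1'
    (g1 := fun t => C / 2 * (2 * ⟪x + t • v, v⟫) - fderiv ℝ W (x + t • v) v)
    (g2 := fun t => C / 2 * (2 * ‖v‖ ^ 2) - qf (hess W (x + t • v)) v)
    (fun t => ((rl_sq_d1 x v t).const_mul _).sub (rl_d1 (hW.differentiable (by norm_num)) x v t))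
    (fun t => ((rl_sq_d2 x v t).const_mul _).sub (rl_d2 hW x v t)) (rl_line_convex h x v) 0
  simp only [zero_smul, add_zero] at h0
  linarith

/-- Taylor lower bound -/
theorem rl_taylor_lower {W : E n → ℝ} {c : ℝ} (hW : ContDiff ℝ 2 W)
    (h : ∀ x v, c * ‖v‖ ^ 2 ≤ qf (hess W x) v) (p z : E n) :
    W p + fderiv ℝ W p z + c / 2 * ‖z‖ ^ 2 ≤ W (p + z) := by
  have h0 := rl_taylor (m := c * ‖z‖ ^ 2)
    (fun t => rl_d1 (hW.differentiable (by norm_num)) p z t) (fun t => rl_d2 hW p z t)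
    (fun t => h (p + t • z) z)
  simp only [zero_smul, add_zero, one_smul] at h0
  linarith

/-- Taylor upper bound -/
theorem rl_taylor_upper {W : E n → ℝ} {C : ℝ} (hW : ContDiff ℝ 2 W)
    (h : ∀ x v, qf (hess W x) v ≤ C * ‖v‖ ^ 2) (p z : E n) :
    W (p + z) ≤ W p + fderiv ℝ W p z + C / 2 * ‖z‖ ^ 2 := by
  have h0 := rl_taylor (m := -(C * ‖z‖ ^ 2))
    (fun t => (rl_d1 (hW.differentiable (by norm_num)) p z t).neg)
    (fun t => (rl_d2 hW p z t).neg) (fun t => by
      have := h (p + t • z) z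
      linarith)
  simp only [zero_smul, add_zero, one_smul, Pi.neg_apply] at h0
  linarith

end Vale.Agent.P227.M.RegLap
end

section

/-! Two convexity tools: Prekopa for `y ↦ -log ∫ exp (-F x y)` and Hoelder for
`y ↦ log ∫ exp (G a y)`. -/

open MeasureTheory Set Real
open scoped ENNReal

namespace Vale.Agent.P227.M.LKHB

theorem cv_ofReal_rpow {x s : ℝ} (hx : 0 < x) :
    ENNReal.ofReal x ^ s = ENNReal.ofReal (x ^ s) := by
  rw [ENNReal.ofReal_rpow_of_pos hx]

theorem cv_log_le {a b c s t : ℝ} (ha : 0 < a) (hb : 0 < b) (hc : 0 < c)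
    (h : a ^ s * b ^ t ≤ c) : s * Real.log a + t * Real.log b ≤ Real.log c := by
  have h1 := Real.log_le_log (mul_pos (Real.rpow_pos_of_pos ha s) (Real.rpow_pos_of_pos hb t)) h
  rwa [Real.log_mul (Real.rpow_pos_of_pos ha s).ne' (Real.rpow_pos_of_pos hb t).ne',
    Real.log_rpow ha, Real.log_rpow hb] at h1

theorem cv_le_log {a b c s t : ℝ} (ha : 0 < a) (hb : 0 < b) (hc : 0 < c)
    (h : c ≤ a ^ s * b ^ t) : Real.log c ≤ s * Real.log a + t * Real.log b := by
  have h1 := Real.log_le_log hc h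
  rwa [Real.log_mul (Real.rpow_pos_of_pos ha s).ne' (Real.rpow_pos_of_pos hb t).ne',
    Real.log_rpow ha, Real.log_rpow hb] at h1

/-- Prekopa: the marginal of a log-concave function is log-concave. -/
theorem prekopa_convex {n : ℕ} {E : Type*} [AddCommGroup E] [Module ℝ E]
    (F : (Fin n → ℝ) → E → ℝ)
    (hF : ConvexOn ℝ univ (fun p : (Fin n → ℝ) × E => F p.1 p.2))
    (hi : ∀ y, Integrable (fun x => Real.exp (-F x y))) :
    ConvexOn ℝ univ (fun y => -Real.log (∫ x, Real.exp (-F x y))) := by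
  have hpos : ∀ y, 0 < ∫ x, Real.exp (-F x y) := fun y => integral_exp_pos (hi y)
  have hmeas : ∀ y, Measurable (fun x => F x y) := by
    intro y
    have hc : ConvexOn ℝ univ (fun x => F x y) := by
      refine ⟨convex_univ, fun x _ x' _ s t hs ht hst => ?_⟩
      have h := hF.2 (mem_univ (x, y)) (mem_univ (x', y)) hs ht hst
      have h2 : s • y + t • y = y := by rw [← add_smul, hst, one_smul]
      simpa [h2] using h
    exact (hc.continuousOn isOpen_univ |>.mono (subset_refl _) |> continuousOn_univ.1).measurable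
  refine ⟨convex_univ, fun y _ y' _ s t hs ht hst => ?_⟩
  rcases hs.eq_or_lt with rfl | hs
  · have ht1 : t = 1 := by linarith
    subst ht1
    simp
  rcases ht.eq_or_lt with rfl | ht
  · have hs1 : s = 1 := by linarith
    subst hs1
    simp
  have hkey := pl_pi hs ht hst n (fun x => ENNReal.ofReal (Real.exp (-F x y)))
    (fun x => ENNReal.ofReal (Real.exp (-F x y')))
    (fun x => ENNReal.ofReal (Real.exp (-F x (s • y + t • y'))))
    (Real.measurable_exp.comp (hmeas y).neg).ennreal_ofReal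
    (Real.measurable_exp.comp (hmeas y').neg).ennreal_ofReal
    (Real.measurable_exp.comp (hmeas _).neg).ennreal_ofReal (by
      intro x x'
      rw [cv_ofReal_rpow (Real.exp_pos _), cv_ofReal_rpow (Real.exp_pos _),
        ← ENNReal.ofReal_mul (Real.rpow_nonneg (Real.exp_pos _).le _)]
      apply ENNReal.ofReal_le_ofReal
      rw [← Real.exp_mul, ← Real.exp_mul, ← Real.exp_add]
      apply Real.exp_le_exp.2
      have h := hF.2 (mem_univ (x, y)) (mem_univ (x', y')) hs.le ht.le hst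
      simp only [Prod.smul_fst, Prod.smul_snd, Prod.fst_add, Prod.snd_add, smul_eq_mul] at h
      linarith)
  rw [← ofReal_integral_eq_lintegral_ofReal (hi y) (ae_of_all _ fun _ => (Real.exp_pos _).le),
    ← ofReal_integral_eq_lintegral_ofReal (hi y') (ae_of_all _ fun _ => (Real.exp_pos _).le),
    ← ofReal_integral_eq_lintegral_ofReal (hi _) (ae_of_all _ fun _ => (Real.exp_pos _).le),
    cv_ofReal_rpow (hpos y), cv_ofReal_rpow (hpos y'),
    ← ENNReal.ofReal_mul (Real.rpow_nonneg (hpos y).le _),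
    ENNReal.ofReal_le_ofReal_iff (hpos _).le] at hkey
  have h1 := cv_log_le (hpos y) (hpos y') (hpos _) hkey
  simp only [smul_eq_mul]
  linarith

/-- Hoelder: `y ↦ log ∫ exp (G a y)` is convex if every `G a` is convex. -/
theorem holder_convex {α E : Type*} [MeasurableSpace α] [AddCommGroup E] [Module ℝ E]
    (ν : Measure α) [NeZero ν] (G : α → E → ℝ) (hG : ∀ a, ConvexOn ℝ univ (G a))
    (hi : ∀ y, Integrable (fun a => Real.exp (G a y)) ν) :
    ConvexOn ℝ univ (fun y => Real.log (∫ a, Real.exp (G a y) ∂ν)) := by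
  have hpos : ∀ y, 0 < ∫ a, Real.exp (G a y) ∂ν := fun y => integral_exp_pos (hi y)
  refine ⟨convex_univ, fun y _ y' _ s t hs ht hst => ?_⟩
  rcases hs.eq_or_lt with rfl | hs
  · have ht1 : t = 1 := by linarith
    subst ht1
    simp
  rcases ht.eq_or_lt with rfl | ht
  · have hs1 : s = 1 := by linarith
    subst hs1
    simp
  have h1 : ENNReal.ofReal (∫ a, Real.exp (G a (s • y + t • y')) ∂ν) ≤
      ENNReal.ofReal ((∫ a, Real.exp (G a y) ∂ν) ^ s * (∫ a, Real.exp (G a y') ∂ν) ^ t) := by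
    rw [ENNReal.ofReal_mul (Real.rpow_nonneg (hpos y).le _), ← cv_ofReal_rpow (hpos y),
      ← cv_ofReal_rpow (hpos y'),
      ofReal_integral_eq_lintegral_ofReal (hi y) (ae_of_all _ fun _ => (Real.exp_pos _).le),
      ofReal_integral_eq_lintegral_ofReal (hi y') (ae_of_all _ fun _ => (Real.exp_pos _).le),
      ofReal_integral_eq_lintegral_ofReal (hi _) (ae_of_all _ fun _ => (Real.exp_pos _).le)]
    refine le_trans (lintegral_mono fun a => ?_) (ENNReal.lintegral_mul_norm_pow_le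
      (hi y).1.aemeasurable.ennreal_ofReal (hi y').1.aemeasurable.ennreal_ofReal hs.le ht.le hst)
    rw [cv_ofReal_rpow (Real.exp_pos _), cv_ofReal_rpow (Real.exp_pos _),
      ← ENNReal.ofReal_mul (Real.rpow_nonneg (Real.exp_pos _).le _)]
    apply ENNReal.ofReal_le_ofReal
    rw [← Real.exp_mul, ← Real.exp_mul, ← Real.exp_add]
    apply Real.exp_le_exp.2
    have h := (hG a).2 (mem_univ y) (mem_univ y') hs.le ht.le hst
    simp only [smul_eq_mul] at h
    linarith
  have h2 := (ENNReal.ofReal_le_ofReal_iff (mul_nonneg (Real.rpow_nonneg (hpos y).le _)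
    (Real.rpow_nonneg (hpos y').le _))).1 h1
  have h3 := cv_le_log (hpos y) (hpos y') (hpos _) h2
  simpa only [smul_eq_mul] using h3

end Vale.Agent.P227.M.LKHB
end

section

/-! The log-Laplace transform on `EuclideanSpace ℝ (Fin n)`: Hessian bounds as convexity statements,
and the invariance of the class of the level `k` map. -/

open MeasureTheory Set Real
open scoped ENNReal RealInnerProductSpace

namespace Vale.Agent.P227.M.LKHB

/-- the Euclidean space -/
abbrev En (n : ℕ) : Type := EuclideanSpace ℝ (Fin n)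

variable {n : ℕ}

/-- Prekopa on the Euclidean space. -/
theorem prekopaE {Y : Type*} [AddCommGroup Y] [Module ℝ Y] (F : En n → Y → ℝ)
    (hF : ConvexOn ℝ univ (fun p : En n × Y => F p.1 p.2))
    (hi : ∀ y, Integrable (fun x => Real.exp (-F x y))) :
    ConvexOn ℝ univ (fun y => -Real.log (∫ x, Real.exp (-F x y))) := by
  have hmp := PiLp.volume_preserving_toLp (Fin n)
  have hemb : MeasurableEmbedding (WithLp.toLp 2 : (Fin n → ℝ) → En n) :=
    (MeasurableEquiv.toLp 2 (Fin n → ℝ)).measurableEmbedding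
  have hconv : ConvexOn ℝ univ (fun p : (Fin n → ℝ) × Y => F (WithLp.toLp 2 p.1) p.2) := by
    have h := hF.comp_linearMap (LinearMap.prodMap
      ((WithLp.linearEquiv 2 ℝ (Fin n → ℝ)).symm : (Fin n → ℝ) →ₗ[ℝ] En n)
      (LinearMap.id : Y →ₗ[ℝ] Y))
    exact h
  have h1 := prekopa_convex (fun x y => F (WithLp.toLp 2 x) y) hconv (fun y =>
    (hmp.integrable_comp_emb hemb).2 (hi y))
  refine h1.congr fun y _ => ?_
  have h2 := hmp.integral_comp hemb (fun x => Real.exp (-F x y))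
  simp only [h2]

theorem convex_sqE {c : ℝ} (hc : 0 ≤ c) : ConvexOn ℝ univ (fun x : En n => c * ‖x‖ ^ 2) := by
  have h1 : ConvexOn ℝ univ (fun x : En n => ‖x‖ ^ 2) :=
    convexOn_univ_norm.pow (fun x _ => norm_nonneg x) 2
  exact h1.smul hc

end Vale.Agent.P227.M.LKHB
end

section

/-! # P227/M/ID: the core weak identity for Lipschitz functions with compact support (helper294) -/

open MeasureTheory
open scoped Topology NNReal

namespace Vale.Agent.P227.M.B294

variable {n : ℕ} {ψ V : E n → ℝ} {c C M : ℝ}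

lemma inv_lip (h : MM ψ V c C M) : LipschitzWith (Real.toNNReal c⁻¹) (gmap h).inv := by
  refine LipschitzWith.of_dist_le_mul fun y z => ?_
  rw [dist_eq_norm, dist_eq_norm]
  exact ((gmap h).inv_dist_le y z).trans (mul_le_mul_of_nonneg_right (Real.le_coe_toNNReal _)
    (norm_nonneg _))

lemma contDiff_ph (h : MM ψ V c C M) : ContDiff ℝ 1 (ph h) := by
  rw [contDiff_one_iff_hasFDerivAt]
  exact ⟨fun y => innerSL ℝ ((gmap h).inv y), (innerSL ℝ).continuous.comp (gmap h).continuous_inv,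
    fun y => hasFDerivAt_ph h y⟩

/-- null sets are preserved by `inv` -/
lemma ae_inv (h : MM ψ V c C M) {p : E n → Prop} (hp : ∀ᵐ x, p x) :
    ∀ᵐ y, p ((gmap h).inv y) := by
  rw [ae_iff] at hp ⊢
  have e : {y | ¬ p ((gmap h).inv y)} = gr ψ '' {x | ¬ p x} := by
    ext y
    constructor
    · intro hy
      exact ⟨(gmap h).inv y, hy, (gmap h).g_inv y⟩
    · rintro ⟨x, hx, rfl⟩
      change ¬ p ((gmap h).inv (gr ψ x))
      rw [(gmap h).inv_g]
      exact hx
  rw [e]
  exact addHaar_image_eq_zero_of_differentiableOn_of_addHaar_eq_zero volume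
    (fun x _ => (hasFDerivAt_gr h.C2 x).differentiableAt.differentiableWithinAt) hp

/-- CORE for Lipschitz functions with compact support -/
theorem core_lip (h : MM ψ V c C M) (a : Fin n) (G : E n → ℝ) {K : ℝ≥0} (hG : LipschitzWith K G)
    (hs : HasCompactSupport G) :
    ∫ x, (∑ b, tau ψ x a b * pd b G x) * Real.exp (-(V x))
      = ∫ x, (x a * G x) * Real.exp (-(V x)) := by
  set X : E n → E n := (gmap h).inv with hX
  set g : E n → ℝ := fun y => G (X y) with hg
  have hgl : LipschitzWith (K * Real.toNNReal c⁻¹) g := hG.comp (inv_lip h)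
  have hgs : HasCompactSupport g := hs.comp_homeomorph (gmap h).homeo.symm
  obtain ⟨R, hR⟩ := hgs.isCompact.isBounded.subset_closedBall (0 : E n)
  set R' : ℝ := max R 0 with hR'
  have hR'0 : 0 ≤ R' := le_max_right _ _
  have hsub : tsupport g ⊆ Metric.closedBall 0 R' :=
    hR.trans (Metric.closedBall_subset_closedBall (le_max_left _ _))
  let χ : ContDiffBump (0 : E n) := ⟨R' + 1, R' + 2, by linarith, by linarith⟩
  have hχ1 : ∀ y ∈ tsupport g, χ =ᶠ[𝓝 y] fun _ => 1 := by
    intro y hy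
    have hy' : y ∈ Metric.ball (0 : E n) (R' + 1) := by
      have := hsub hy
      rw [Metric.mem_closedBall] at this
      rw [Metric.mem_ball]
      linarith
    exact χ.eventuallyEq_one_of_mem_ball hy'
  set ρ : E n → ℝ := fun y => χ y * Real.exp (-(ph h y)) with hρ
  have hχc : ContDiff ℝ 1 χ := χ.contDiff (n := 1)
  have hρc : ContDiff ℝ 1 ρ := hχc.mul ((contDiff_ph h).neg.exp)
  have hρs : HasCompactSupport ρ := χ.hasCompactSupport.mul_right
  obtain ⟨D, hD⟩ := hρc.lipschitzWith_of_hasCompactSupport hρs (by norm_num)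
  have hibp := hgl.integral_lineDeriv_mul_eq (μ := (volume : Measure (E n))) hD hρs (ei a)
  -- left side
  have hdiff : ∀ᵐ y, DifferentiableAt ℝ G (X y) := ae_inv h (hG.ae_differentiableAt)
  have hL : ∫ y, lineDeriv ℝ g y (ei a) * ρ y
      = ∫ y, (∑ b, tau ψ (X y) a b * pd b G (X y)) * Real.exp (-(ph h y)) := by
    refine integral_congr_ae ?_
    filter_upwards [hdiff] with y hy
    have hd : HasFDerivAt g ((fderiv ℝ G (X y)).comp (Top ψ (X y))) y :=
      hy.hasFDerivAt.comp y (hasFDerivAt_inv h y)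
    have hval : lineDeriv ℝ g y (ei a) = ∑ b, tau ψ (X y) a b * pd b G (X y) := by
      rw [(hd.hasLineDerivAt (ei a)).lineDeriv, ContinuousLinearMap.comp_apply, fderiv_apply_eq]
      refine Finset.sum_congr rfl fun b _ => ?_
      rw [Top_ei, tau_symm h]
    by_cases hyt : y ∈ tsupport g
    · have := (hχ1 y hyt).eq_of_nhds
      rw [hval, hρ]
      simp only
      rw [this, one_mul]
    · have h0 : g =ᶠ[𝓝 y] fun _ => 0 := notMem_tsupport_iff_eventuallyEq.1 hyt
      have hz : lineDeriv ℝ g y (ei a) = 0 := by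
        rw [h0.lineDeriv_eq]
        simp [lineDeriv]
      rw [hz, zero_mul, ← hval, hz, zero_mul]
  have hRt : ∫ y, lineDeriv ℝ ρ y (-(ei a)) * g y
      = ∫ y, (X y a * G (X y)) * Real.exp (-(ph h y)) := by
    refine integral_congr_ae (Filter.Eventually.of_forall fun y => ?_)
    by_cases hyt : y ∈ tsupport g
    · have h1 : ρ =ᶠ[𝓝 y] fun y => Real.exp (-(ph h y)) := by
        filter_upwards [hχ1 y hyt] with z hz
        rw [hρ]
        simp only
        rw [hz, one_mul]
      have h2 := (hasFDerivAt_exp_ph h y).hasLineDerivAt (-(ei a))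
      simp only
      rw [h1.lineDeriv_eq, h2.lineDeriv]
      simp only [smul_apply, neg_apply, innerSL_apply_apply, smul_eq_mul, inner_neg_right]
      rw [inner_eq]
      simp [ei, Pi.single_apply, hg, hX]
      ring
    · have h0 : g y = 0 := image_eq_zero_of_notMem_tsupport hyt
      simp only
      have h0' : G (X y) = 0 := h0
      rw [h0, h0']
      simp
  rw [hL, hRt] at hibp
  rw [← integral_y h (fun x => ∑ b, tau ψ x a b * pd b G x), ← integral_y h (fun x => x a * G x)]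
  exact hibp

end Vale.Agent.P227.M.B294
end

section

/-!
# P227, block LIN, leaf LIN-3: the soft Hilbert space step

`H` is a real Hilbert space, `D` a real vector space (the test functions), `J A : D → H` linear
(`J` the inclusion, `A` the generator), `A` symmetric and nonpositive, and the range of `J - A`
is dense.  If `f` is orthogonal to all limits `h = lim J s` with `A s → 0` and to all limits
`h = lim J s` with `A s → - h`, then `f` can be approximated by `- A (w - 2 v)` with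
`(J - A) v` close to `J w`.
-/

namespace Vale.Agent.P227.M.LIN.H737

open Filter Topology

variable {H : Type*} [NormedAddCommGroup H] [InnerProductSpace ℝ H]
variable {D : Type*} [AddCommGroup D] [Module ℝ D]

/-- `Rel J A r g`: `r = (1 - A)⁻¹ g` in the sense of sequences. -/
def Rel (J A : D →ₗ[ℝ] H) (r g : H) : Prop :=
  ∃ s : ℕ → D, Tendsto (fun m => J (s m)) atTop (𝓝 r) ∧
    Tendsto (fun m => J (s m) - A (s m)) atTop (𝓝 g)

theorem Rel.self (J A : D →ₗ[ℝ] H) (w : D) : Rel J A (J w) (J w - A w) :=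
  ⟨fun _ => w, tendsto_const_nhds, tendsto_const_nhds⟩

theorem Rel.add {J A : D →ₗ[ℝ] H} {r g r' g' : H} (h : Rel J A r g) (h' : Rel J A r' g') :
    Rel J A (r + r') (g + g') := by
  obtain ⟨s, hs1, hs2⟩ := h
  obtain ⟨t, ht1, ht2⟩ := h'
  refine ⟨fun m => s m + t m, ?_, ?_⟩
  · simpa using hs1.add ht1
  · have := hs2.add ht2
    refine this.congr (fun m => ?_)
    rw [map_add, map_add]; abel

theorem Rel.smul {J A : D →ₗ[ℝ] H} {r g : H} (c : ℝ) (h : Rel J A r g) :
    Rel J A (c • r) (c • g) := by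
  obtain ⟨s, hs1, hs2⟩ := h
  refine ⟨fun m => c • s m, ?_, ?_⟩
  · simpa using hs1.const_smul c
  · have := hs2.const_smul c
    refine this.congr (fun m => ?_)
    rw [map_smul, map_smul, smul_sub]

theorem Rel.symm {J A : D →ₗ[ℝ] H}
    (hsym : ∀ f g, inner ℝ (A f) (J g) = inner ℝ (J f) (A g))
    {r g r' g' : H} (h : Rel J A r g) (h' : Rel J A r' g') :
    inner ℝ r g' = inner ℝ g r' := by
  obtain ⟨s, hs1, hs2⟩ := h
  obtain ⟨t, ht1, ht2⟩ := h'
  have h1 : Tendsto (fun m => inner ℝ (J (s m)) (J (t m) - A (t m))) atTop (𝓝 (inner ℝ r g')) :=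
    hs1.inner ht2
  have h2 : Tendsto (fun m => inner ℝ (J (s m) - A (s m)) (J (t m))) atTop (𝓝 (inner ℝ g r')) :=
    hs2.inner ht1
  have h3 : (fun m => inner ℝ (J (s m)) (J (t m) - A (t m)))
      = fun m => inner ℝ (J (s m) - A (s m)) (J (t m)) := by
    funext m
    rw [inner_sub_right, inner_sub_left, hsym]
  rw [h3] at h1
  exact tendsto_nhds_unique h1 h2

theorem norm_le {J A : D →ₗ[ℝ] H} (hneg : ∀ f, inner ℝ (A f) (J f) ≤ 0) (f : D) :
    ‖J f‖ ≤ ‖J f - A f‖ := by
  have h1 : ‖J f - A f‖ ^ 2 = ‖J f‖ ^ 2 - 2 * inner ℝ (J f) (A f) + ‖A f‖ ^ 2 :=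
    norm_sub_sq_real _ _
  have h2 : inner ℝ (J f) (A f) ≤ 0 := by
    rw [real_inner_comm]; exact hneg f
  have h3 : ‖J f‖ ^ 2 ≤ ‖J f - A f‖ ^ 2 := by
    rw [h1]; nlinarith [sq_nonneg ‖A f‖]
  exact le_of_sq_le_sq h3 (norm_nonneg _)
where
  le_of_sq_le_sq {a b : ℝ} (h : a ^ 2 ≤ b ^ 2) (hb : 0 ≤ b) : a ≤ b :=
    le_of_abs_le (by simpa [abs_of_nonneg hb] using (sq_le_sq.mp h))

theorem Rel.total [CompleteSpace H] {J A : D →ₗ[ℝ] H}
    (hneg : ∀ f, inner ℝ (A f) (J f) ≤ 0)
    (hdense : Dense (Set.range fun f => J f - A f)) (g : H) : ∃ r, Rel J A r g := by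
  obtain ⟨u, hu, hlim⟩ := mem_closure_iff_seq_limit.mp (hdense g)
  choose s hs using hu
  have hs' : ∀ m, J (s m) - A (s m) = u m := hs
  have hB : CauchySeq u := hlim.cauchySeq
  have hC : CauchySeq (fun m => J (s m)) := by
    rw [Metric.cauchySeq_iff'] at hB ⊢
    intro ε hε
    obtain ⟨N, hN⟩ := hB ε hε
    refine ⟨N, fun m hm => ?_⟩
    have h1 := hN m hm
    rw [dist_eq_norm] at h1 ⊢
    have h2 : ‖J (s m - s N)‖ ≤ ‖J (s m - s N) - A (s m - s N)‖ := norm_le hneg _
    have h3 : J (s m - s N) - A (s m - s N) = u m - u N := by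
      rw [map_sub, map_sub, ← hs' m, ← hs' N]; abel
    rw [h3, map_sub] at h2
    exact lt_of_le_of_lt h2 h1
  obtain ⟨r, hr⟩ := cauchySeq_tendsto_of_complete hC
  exact ⟨r, s, hr, hlim.congr (fun m => (hs' m).symm)⟩

/-- The abstract approximation theorem. -/
theorem approx [CompleteSpace H] (J A : D →ₗ[ℝ] H)
    (hsym : ∀ f g, inner ℝ (A f) (J g) = inner ℝ (J f) (A g))
    (hneg : ∀ f, inner ℝ (A f) (J f) ≤ 0)
    (hdense : Dense (Set.range fun f => J f - A f))
    (f : H)
    (h1 : ∀ h : H, (∃ s : ℕ → D, Tendsto (fun m => J (s m)) atTop (𝓝 h) ∧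
      Tendsto (fun m => A (s m)) atTop (𝓝 0)) → inner ℝ f h = 0)
    (h2 : ∀ h : H, (∃ s : ℕ → D, Tendsto (fun m => J (s m)) atTop (𝓝 h) ∧
      Tendsto (fun m => A (s m)) atTop (𝓝 (-h))) → inner ℝ f h = 0) :
    ∀ ε > 0, ∃ (w : D) (v : ℕ → D), Tendsto (fun i => J (v i) - A (v i)) atTop (𝓝 (J w)) ∧
      ∀ i, ‖f + A (w - (2 : ℝ) • v i)‖ ≤ ε := by
  classical
  -- the subspace of attained right-hand sides
  let S : Submodule ℝ H :=
    { carrier := {g | ∃ (w : D) (r : H), Rel J A r (J w) ∧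
        g = (J w - A w) - (3 : ℝ) • J w + (2 : ℝ) • r}
      add_mem' := by
        rintro a b ⟨w, r, hr, rfl⟩ ⟨w', r', hr', rfl⟩
        refine ⟨w + w', r + r', by simpa using hr.add hr', ?_⟩
        simp only [map_add, smul_add]; abel
      zero_mem' := ⟨0, 0, by simpa using (Rel.self J A 0), by simp⟩
      smul_mem' := by
        rintro c a ⟨w, r, hr, rfl⟩
        refine ⟨c • w, c • r, by simpa using hr.smul c, ?_⟩
        simp only [map_smul, smul_add, smul_sub, smul_comm c (3 : ℝ), smul_comm c (2 : ℝ)] }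
  have hperp : ∀ h ∈ Sᗮ, inner ℝ f h = 0 := by
    intro h hh
    obtain ⟨h', hr'⟩ := Rel.total hneg hdense h
    obtain ⟨h'', hr''⟩ := Rel.total hneg hdense h'
    have key : ∀ w : D, inner ℝ (J w - A w) (h - (3 : ℝ) • h' + (2 : ℝ) • h'') = 0 := by
      intro w
      obtain ⟨r, hr⟩ := Rel.total hneg hdense (J w)
      have e0 : inner ℝ ((J w - A w) - (3 : ℝ) • J w + (2 : ℝ) • r) h = 0 :=
        hh _ ⟨w, r, hr, rfl⟩
      have e1 : inner ℝ (J w) h = inner ℝ (J w - A w) h' := (Rel.self J A w).symm hsym hr'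
      have e2 : inner ℝ r h = inner ℝ (J w) h' := hr.symm hsym hr'
      have e3 : inner ℝ (J w) h' = inner ℝ (J w - A w) h'' := (Rel.self J A w).symm hsym hr''
      rw [inner_add_left, inner_sub_left, inner_smul_left, inner_smul_left] at e0
      rw [inner_add_right, inner_sub_right, inner_smul_right, inner_smul_right]
      simp only [conj_trivial] at e0
      rw [e1, e2, e3] at e0
      linarith
    have hzero : h - (3 : ℝ) • h' + (2 : ℝ) • h'' = 0 := by
      set z := h - (3 : ℝ) • h' + (2 : ℝ) • h'' with hz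
      have hcl : ∀ x : H, inner ℝ x z = 0 := by
        have hclosed : IsClosed {x : H | inner ℝ x z = 0} :=
          isClosed_eq (continuous_id.inner continuous_const) continuous_const
        have hsub : Set.range (fun f => J f - A f) ⊆ {x : H | inner ℝ x z = 0} := by
          rintro _ ⟨w, rfl⟩; exact key w
        intro x
        have := (hclosed.closure_subset_iff.mpr hsub) (hdense x)
        exact this
      exact inner_self_eq_zero.mp (hcl z)
    have hsecond : (2 : ℝ) • h'' = (3 : ℝ) • h' - h := by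
      have := hzero
      rw [sub_add_eq_add_sub, sub_eq_zero] at this
      rw [← this]; abel
    -- first eigen-limit
    have r1 : Rel J A (h - (2 : ℝ) • h') (h - (2 : ℝ) • h') := by
      have := hr'.add (hr''.smul (-2))
      have e1 : h' + (-2 : ℝ) • h'' = h - (2 : ℝ) • h' := by
        rw [neg_smul, hsecond, show (3 : ℝ) • h' = (2 : ℝ) • h' + h' by
          rw [show (3 : ℝ) = 2 + 1 by norm_num, add_smul, one_smul]]
        abel
      have e2 : h + (-2 : ℝ) • h' = h - (2 : ℝ) • h' := by rw [neg_smul]; abel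
      rwa [e1, e2] at this
    have q1 : inner ℝ f (h - (2 : ℝ) • h') = 0 := by
      obtain ⟨s, hs1, hs2⟩ := r1
      refine h1 _ ⟨s, hs1, ?_⟩
      have := hs1.sub hs2
      simpa using this
    -- second eigen-limit
    have r2 : Rel J A ((1 / 2 : ℝ) • (h - h')) (h - h') := by
      have := hr'.add (hr''.smul (-1))
      have e1 : h' + (-1 : ℝ) • h'' = (1 / 2 : ℝ) • (h - h') := by
        have : h'' = (1 / 2 : ℝ) • ((2 : ℝ) • h'') := by
          rw [smul_smul]; norm_num
        rw [this, hsecond, smul_smul, smul_sub, smul_smul, smul_sub]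
        module
      have e2 : h + (-1 : ℝ) • h' = h - h' := by rw [neg_smul, one_smul]; abel
      rwa [e1, e2] at this
    have q2 : inner ℝ f ((1 / 2 : ℝ) • (h - h')) = 0 := by
      obtain ⟨s, hs1, hs2⟩ := r2
      refine h2 _ ⟨s, hs1, ?_⟩
      have := hs1.sub hs2
      have e : (1 / 2 : ℝ) • (h - h') - (h - h') = -((1 / 2 : ℝ) • (h - h')) := by module
      rw [e] at this
      simpa using this
    rw [inner_sub_right, inner_smul_right] at q1
    rw [inner_smul_right, inner_sub_right] at q2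
    linarith
  have hf : f ∈ S.topologicalClosure := by
    rw [← Submodule.orthogonal_orthogonal_eq_closure]
    rw [Submodule.mem_orthogonal']
    exact hperp
  intro ε hε
  have hf' : f ∈ closure (S : Set H) := hf
  obtain ⟨g0, hg0, hdist⟩ := Metric.mem_closure_iff.mp hf' ε hε
  obtain ⟨w, r, ⟨s, hs1, hs2⟩, rfl⟩ := hg0
  have hA : Tendsto (fun m => f + A (w - (2 : ℝ) • s m)) atTop
      (𝓝 (f - ((J w - A w) - (3 : ℝ) • J w + (2 : ℝ) • r))) := by
    have t1 : Tendsto (fun m => A (s m)) atTop (𝓝 (r - J w)) := by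
      have := hs1.sub hs2
      simpa using this
    have t2 := (tendsto_const_nhds (x := f + A w)).sub (t1.const_smul (2 : ℝ))
    have e : f + A w - (2 : ℝ) • (r - J w)
          = f - ((J w - A w) - (3 : ℝ) • J w + (2 : ℝ) • r) := by module
    rw [e] at t2
    refine t2.congr (fun m => ?_)
    rw [map_sub, map_smul, add_sub_assoc]
  have ev1 : ∀ᶠ m in atTop, ‖f + A (w - (2 : ℝ) • s m)‖ < ε := by
    have := hA.norm
    rw [dist_eq_norm] at hdist
    exact this.eventually (gt_mem_nhds hdist)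
  obtain ⟨N, hN⟩ := eventually_atTop.mp ev1
  refine ⟨w, fun i => s (i + N), ?_, fun i => (hN _ (Nat.le_add_left _ _)).le⟩
  exact hs2.comp (tendsto_add_atTop_nat N)

end Vale.Agent.P227.M.LIN.H737
end

section

/-! # P227/M/LIN: proof of `StmtHilb` (LIN-3). -/

open MeasureTheory Filter
open scoped Topology

namespace Vale.Agent.P227.M.LIN

theorem stmtHilb : StmtHilb := by
  intro W H _ _ _ _ _ J A hsym hneg hdense r h1 h2 ε hε
  exact H737.approx J A hsym hneg hdense r
    (fun h ⟨s, hs1, hs2⟩ => h1 h s hs1 hs2) (fun h ⟨s, hs1, hs2⟩ => h2 h s hs1 hs2) ε hε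

end Vale.Agent.P227.M.LIN
end

section

open MeasureTheory Filter Topology
open scoped NNReal ContDiff

namespace Vale.Agent.P227.M.AE

variable {n : ℕ} {ψ V : E n → ℝ} {c C M : ℝ}

/-- bounded and Lipschitz -/
def BL (f : E n → ℝ) : Prop := ∃ (K : ℝ≥0) (B : ℝ), LipschitzWith K f ∧ ∀ x, |f x| ≤ B

/-- bounded, Lipschitz, compactly supported -/
def BLC (f : E n → ℝ) : Prop := BL f ∧ HasCompactSupport f

lemma BL.mul {f g : E n → ℝ} (hf : BL f) (hg : BL g) : BL (fun x => f x * g x) := by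
  obtain ⟨K, B, hK, hB⟩ := hf
  obtain ⟨K', B', hK', hB'⟩ := hg
  have hB0 : 0 ≤ B := (abs_nonneg _).trans (hB 0)
  have hB0' : 0 ≤ B' := (abs_nonneg _).trans (hB' 0)
  refine ⟨(B * K' + B' * K).toNNReal, B * B', ?_, fun x => ?_⟩
  · refine LipschitzWith.of_dist_le_mul fun x y => ?_
    rw [Real.coe_toNNReal _ (by positivity), Real.dist_eq]
    have e : f x * g x - f y * g y = f x * (g x - g y) + (f x - f y) * g y := by ring
    have h1 : |g x - g y| ≤ K' * dist x y := by rw [← Real.dist_eq]; exact hK'.dist_le_mul x y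
    have h2 : |f x - f y| ≤ K * dist x y := by rw [← Real.dist_eq]; exact hK.dist_le_mul x y
    rw [e]
    refine (abs_add_le _ _).trans ?_
    rw [abs_mul, abs_mul]
    have h3 := mul_le_mul (hB x) h1 (abs_nonneg _) hB0
    have h4 := mul_le_mul h2 (hB' y) (abs_nonneg _) (by positivity)
    calc |f x| * |g x - g y| + |f x - f y| * |g y|
        ≤ B * (K' * dist x y) + K * dist x y * B' := add_le_add h3 h4
      _ = _ := by ring
  · rw [abs_mul]
    exact mul_le_mul (hB x) (hB' x) (abs_nonneg _) hB0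

lemma BL.add {f g : E n → ℝ} (hf : BL f) (hg : BL g) : BL (fun x => f x + g x) := by
  obtain ⟨K, B, hK, hB⟩ := hf
  obtain ⟨K', B', hK', hB'⟩ := hg
  exact ⟨K + K', B + B', hK.add hK', fun x => (abs_add_le _ _).trans (add_le_add (hB x) (hB' x))⟩

lemma BL.neg {f : E n → ℝ} (hf : BL f) : BL (fun x => - f x) := by
  obtain ⟨K, B, hK, hB⟩ := hf
  exact ⟨K, B, hK.neg, fun x => by rw [abs_neg]; exact hB x⟩

lemma BL.const (a : ℝ) : BL (fun _ : E n => a) :=
  ⟨0, |a|, LipschitzWith.const a, fun _ => le_rfl⟩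

lemma BL.sum {ι : Type*} (s : Finset ι) {f : ι → E n → ℝ} (hf : ∀ i ∈ s, BL (f i)) :
    BL (fun x => ∑ i ∈ s, f i x) := by
  classical
  induction s using Finset.induction_on with
  | empty => simpa using BL.const (0 : ℝ)
  | insert a s ha ih =>
    have h1 := (hf a (Finset.mem_insert_self a s)).add
      (ih fun i hi => hf i (Finset.mem_insert_of_mem hi))
    simpa [Finset.sum_insert ha] using h1

lemma BL.continuous {f : E n → ℝ} (hf : BL f) : Continuous f := by
  obtain ⟨K, B, hK, _⟩ := hf; exact hK.continuous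

lemma BL.ae_diff {f : E n → ℝ} (hf : BL f) : ∀ᵐ x, DifferentiableAt ℝ f x := by
  obtain ⟨K, B, hK, _⟩ := hf; exact hK.ae_differentiableAt

lemma BLC.mul_right {f g : E n → ℝ} (hf : BLC f) (hg : BL g) : BLC (fun x => f x * g x) :=
  ⟨hf.1.mul hg, hf.2.mul_right⟩

lemma BLC.mul_left {f g : E n → ℝ} (hf : BL f) (hg : BLC g) : BLC (fun x => f x * g x) :=
  ⟨hf.mul hg.1, hg.2.mul_left⟩

lemma BLC.add {f g : E n → ℝ} (hf : BLC f) (hg : BLC g) : BLC (fun x => f x + g x) :=
  ⟨hf.1.add hg.1, hf.2.add hg.2⟩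

lemma BLC.neg {f : E n → ℝ} (hf : BLC f) : BLC (fun x => - f x) :=
  ⟨hf.1.neg, hf.2.neg⟩

lemma BLC.sub {f g : E n → ℝ} (hf : BLC f) (hg : BLC g) : BLC (fun x => f x - g x) := by
  simpa [sub_eq_add_neg] using hf.add hg.neg

lemma BLC.zero : BLC (fun _ : E n => (0 : ℝ)) := ⟨BL.const 0, HasCompactSupport.zero⟩

lemma BLC.sum {ι : Type*} (s : Finset ι) {f : ι → E n → ℝ} (hf : ∀ i ∈ s, BLC (f i)) :
    BLC (fun x => ∑ i ∈ s, f i x) := by
  classical
  induction s using Finset.induction_on with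
  | empty => simpa using BLC.zero
  | insert a s ha ih =>
    have h1 := (hf a (Finset.mem_insert_self a s)).add
      (ih fun i hi => hf i (Finset.mem_insert_of_mem hi))
    simpa [Finset.sum_insert ha] using h1

lemma BLC.integrable {f : E n → ℝ} (hf : BLC f) : Integrable f :=
  hf.1.continuous.integrable_of_hasCompactSupport hf.2

lemma blc_of_test {f : E n → ℝ} (hf : Test f) : BLC f := by
  obtain ⟨K, hK⟩ := ContDiff.lipschitzWith_of_hasCompactSupport hf.2 hf.1 (by simp)
  obtain ⟨B, hB⟩ := hf.2.exists_bound_of_continuous hf.1.continuous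
  exact ⟨⟨K, B, hK, fun x => by simpa using hB x⟩, hf.2⟩

/-- a compactly supported Lipschitz function times a smooth function -/
lemma BLC.mul_smooth {f w : E n → ℝ} (hf : BLC f) (hw : ContDiff ℝ (⊤ : ℕ∞) w) :
    BLC (fun x => f x * w x) := by
  obtain ⟨R, hR⟩ := hf.2.isCompact.isBounded.subset_closedBall (0 : E n)
  have hR' : tsupport f ⊆ Metric.closedBall (0 : E n) (max R 1) :=
    hR.trans (Metric.closedBall_subset_closedBall (le_max_left _ _))
  let χ : ContDiffBump (0 : E n) := ⟨max R 1, max R 1 + 1, lt_of_lt_of_le one_pos (le_max_right _ _),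
    lt_add_one _⟩
  have h1 : (fun x => f x * w x) = fun x => f x * (χ x * w x) := by
    funext x
    by_cases hx : f x = 0
    · simp [hx]
    · have : x ∈ Metric.closedBall (0 : E n) (max R 1) := hR' (subset_tsupport _ hx)
      rw [χ.one_of_mem_closedBall this, one_mul]
  rw [h1]
  have h2 : Test (fun x => χ x * w x) :=
    ⟨(χ.contDiff (n := (⊤ : ℕ∞))).mul hw, χ.hasCompactSupport.mul_right⟩
  exact hf.mul_right (blc_of_test h2).1

lemma measurable_pd (b : Fin n) (f : E n → ℝ) : Measurable (pd b f) := by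
  unfold pd
  exact measurable_fderiv_apply_const ℝ f (ei b)

/-- the integral of a derivative of a compactly supported Lipschitz function vanishes -/
lemma integral_pd {f : E n → ℝ} (hf : BLC f) (b : Fin n) : ∫ x, pd b f x = 0 := by
  obtain ⟨⟨K, B, hK, hB⟩, hc⟩ := hf
  have h1 := LipschitzWith.integral_lineDeriv_mul_eq (μ := (volume : Measure (E n)))
    (LipschitzWith.const (1 : ℝ)) hK hc (ei b)
  have h2 : ∀ x : E n, lineDeriv ℝ (fun _ : E n => (1 : ℝ)) x (ei b) = 0 := by
    intro x; simp [lineDeriv]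
  simp only [h2, zero_mul, integral_zero, mul_one] at h1
  have h3 : ∀ᵐ x : E n, lineDeriv ℝ f x (-(ei b)) = - pd b f x := by
    filter_upwards [hK.ae_differentiableAt] with x hx
    rw [hx.lineDeriv_eq_fderiv]; simp [pd]
  rw [integral_congr_ae h3, integral_neg] at h1
  linarith

/-- derivatives of Lipschitz functions are bounded -/
lemma BL.pd_bound {f : E n → ℝ} (hf : BL f) : ∃ K : ℝ, ∀ b x, |pd b f x| ≤ K := by
  obtain ⟨K, B, hK, _⟩ := hf
  refine ⟨K, fun b x => ?_⟩
  have h1 := norm_fderiv_le_of_lipschitz ℝ hK (x₀ := x)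
  have h2 := (fderiv ℝ f x).le_opNorm (ei b)
  rw [norm_ei, mul_one, Real.norm_eq_abs] at h2
  exact h2.trans h1

lemma pd_eq_zero_of_notMem {f : E n → ℝ} {x : E n} (hx : x ∉ tsupport f) (b : Fin n) :
    pd b f x = 0 := by
  have h1 : f =ᶠ[𝓝 x] fun _ => 0 := notMem_tsupport_iff_eventuallyEq.mp hx
  unfold pd
  rw [h1.fderiv_eq]; simp

lemma BLC.integrable_pd {f : E n → ℝ} (hf : BLC f) (b : Fin n) : Integrable (pd b f) := by
  obtain ⟨K, hK⟩ := hf.1.pd_bound
  have hfin : volume (tsupport f) < ⊤ := hf.2.isCompact.measure_lt_top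
  have h1 : IntegrableOn (pd b f) (tsupport f) := by
    refine Measure.integrableOn_of_bounded (M := K) hfin.ne
      (measurable_pd b f).aestronglyMeasurable ?_
    exact Eventually.of_forall fun x => by simpa using hK b x
  exact (integrableOn_iff_integrable_of_support_subset (fun x hx => by
    by_contra hcon
    exact hx (pd_eq_zero_of_notMem hcon b))).mp h1

end Vale.Agent.P227.M.AE
end

section

open MeasureTheory Filter Topology
open scoped NNReal ContDiff

namespace Vale.Agent.P227.M.AE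

variable {n : ℕ} {ψ V : E n → ℝ} {c C M : ℝ}

lemma smooth_w (hV : Nice V c C) : ContDiff ℝ (⊤ : ℕ∞) (fun x => Real.exp (-V x)) :=
  Real.contDiff_exp.comp hV.smooth.neg

lemma pd_w (hV : Nice V c C) (a : Fin n) (x : E n) :
    pd a (fun z => Real.exp (-V z)) x = - pd a V x * Real.exp (-V x) := by
  have h1 : DifferentiableAt ℝ V x := (hV.smooth.differentiable (by simp)).differentiableAt
  unfold pd
  rw [fderiv_exp h1.fun_neg, fderiv_fun_neg]
  simp; ring

lemma test_pd {f : E n → ℝ} (hf : Test f) (a : Fin n) : Test (pd a f) := by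
  refine ⟨?_, ?_⟩
  · unfold pd
    exact (hf.1.fderiv_right (m := (⊤ : ℕ∞)) (by simp)).clm_apply contDiff_const
  · exact hf.2.fderiv_apply ℝ (ei a)

lemma test_diff {f : E n → ℝ} (hf : Test f) (x : E n) : DifferentiableAt ℝ f x :=
  (hf.1.differentiable (by simp)).differentiableAt

lemma pd_comm {f : E n → ℝ} (hf : ContDiff ℝ 2 f) (i j : Fin n) (x : E n) :
    pd i (pd j f) x = pd j (pd i f) x := hess_symm hf x i j

lemma test_two {f : E n → ℝ} (hf : Test f) : ContDiff ℝ 2 f := by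
  have := contDiff_infty.mp hf.1 2
  exact_mod_cast this

lemma tau_BL (h : MM ψ V c C M) (i j : Fin n) : BL (fun x => tau ψ x i j) := by
  obtain ⟨K, hK⟩ := tau_lip h
  exact ⟨K, 1 / c, hK i j, fun x => tau_bound h x i j⟩

/-- pointwise divergence of `w τ q` at good points -/
lemma div_ae (hV : Nice V c C) (h : MM ψ V c C M) {x : E n} (hx : Good ψ x) {q : Fin n → E n → ℝ}
    (hq : ∀ b, DifferentiableAt ℝ (q b) x) :
    ∑ a, pd a (fun z => ∑ b, tau ψ z a b * (q b z * Real.exp (-V z))) x =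
      ((∑ a, ∑ b, tau ψ x a b * pd a (q b) x) - ∑ b, x b * q b x) * Real.exp (-V x) := by
  have hw : DifferentiableAt ℝ (fun z => Real.exp (-V z)) x :=
    ((smooth_w hV).differentiable (by simp)).differentiableAt
  have h1 : ∀ a, pd a (fun z => ∑ b, tau ψ z a b * (q b z * Real.exp (-V z))) x =
      ∑ b, (tau ψ x a b * pd a (q b) x -
        (pd a V x * tau ψ x b a - pd a (fun z => tau ψ z b a) x) * q b x) * Real.exp (-V x) := by
    intro a
    rw [pd_sum Finset.univ (fun b _ => (hx.2 a b).fun_mul ((hq b).fun_mul hw))]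
    refine Finset.sum_congr rfl fun b _ => ?_
    rw [pd_mul (hx.2 a b) ((hq b).fun_mul hw), pd_mul (hq b) hw, pd_w hV]
    have h2 : (fun z => tau ψ z b a) = fun z => tau ψ z a b := by
      funext z; exact tau_symm h z b a
    rw [h2, tau_symm h x b a]
    ring
  simp only [h1]
  simp only [← Finset.sum_mul]
  congr 1
  simp only [Finset.sum_sub_distrib]
  congr 1
  rw [Finset.sum_comm]
  refine Finset.sum_congr rfl fun b _ => ?_
  rw [← Finset.sum_mul, stein_ae h hx b]

/-- Stein's identity for compactly supported Lipschitz fields -/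
theorem stein_lip (hV : Nice V c C) (h : MM ψ V c C M) {q : Fin n → E n → ℝ}
    (hq : ∀ b, BLC (q b)) :
    ∫ x, ((∑ a, ∑ b, tau ψ x a b * pd a (q b) x) - ∑ b, x b * q b x) * Real.exp (-V x) = 0 := by
  have hY : ∀ a, BLC (fun z => ∑ b, tau ψ z a b * (q b z * Real.exp (-V z))) := fun a =>
    BLC.sum _ fun b _ => BLC.mul_left (tau_BL h a b) ((hq b).mul_smooth (smooth_w hV))
  have h1 : ∀ᵐ x : E n, ∀ b, DifferentiableAt ℝ (q b) x := by
    rw [ae_all_iff]; exact fun b => (hq b).1.ae_diff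
  have h2 : ∫ x, ∑ a, pd a (fun z => ∑ b, tau ψ z a b * (q b z * Real.exp (-V z))) x = 0 := by
    rw [integral_finsetSum _ (fun a _ => (hY a).integrable_pd a)]
    exact Finset.sum_eq_zero fun a _ => integral_pd (hY a) a
  rw [← h2]
  refine integral_congr_ae ?_
  filter_upwards [ae_good h, h1] with x hx hqx
  exact (div_ae hV h hx hqx).symm

lemma Lop_BLC (h : MM ψ V c C M) {f : E n → ℝ} (hf : Test f) : BLC (Lop ψ f) := by
  unfold Lop
  refine BLC.sub ?_ ?_
  · refine BLC.sum _ fun i _ => BLC.sum _ fun j _ => ?_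
    exact BLC.mul_left (tau_BL h i j) (blc_of_test (test_pd (test_pd hf j) i))
  · refine BLC.sum _ fun i _ => ?_
    refine blc_of_test ⟨?_, (test_pd hf i).2.mul_left⟩
    have : ContDiff ℝ (⊤ : ℕ∞) (fun x : E n => x i) := (EuclideanSpace.proj i : E n →L[ℝ] ℝ).contDiff
    exact this.mul (test_pd hf i).1

/-- commutator of `∂_a` and `L` at good points -/
lemma pd_Lop {x : E n} (hx : Good ψ x) {f : E n → ℝ} (hf : Test f) (a : Fin n) :
    pd a (Lop ψ f) x = Lop ψ (pd a f) x +
      (∑ i, ∑ j, pd a (fun z => tau ψ z i j) x * hess f x i j) - pd a f x := by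
  have hd1 : ∀ i j, DifferentiableAt ℝ (fun z => hess f z i j) x := fun i j =>
    test_diff (test_pd (test_pd hf j) i) x
  have hd2 : ∀ i, DifferentiableAt ℝ (fun z : E n => z i * pd i f z) x := fun i =>
    (diff_coord i x).fun_mul (test_diff (test_pd hf i) x)
  have hs1 : ∀ i ∈ (Finset.univ : Finset (Fin n)),
      DifferentiableAt ℝ (fun z => ∑ j, tau ψ z i j * hess f z i j) x := fun i _ =>
    DifferentiableAt.fun_sum fun j _ => (hx.2 i j).fun_mul (hd1 i j)
  have h0 : Lop ψ f = fun z => (∑ i, ∑ j, tau ψ z i j * hess f z i j) - ∑ i, z i * pd i f z := rfl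
  rw [h0, pd_sub (DifferentiableAt.fun_sum hs1) (DifferentiableAt.fun_sum fun i _ => hd2 i),
    pd_sum Finset.univ hs1, pd_sum Finset.univ (fun i _ => hd2 i)]
  have h1 : ∀ i, pd a (fun z => ∑ j, tau ψ z i j * hess f z i j) x =
      ∑ j, (pd a (fun z => tau ψ z i j) x * hess f x i j +
        tau ψ x i j * hess (pd a f) x i j) := by
    intro i
    rw [pd_sum Finset.univ (fun j _ => (hx.2 i j).fun_mul (hd1 i j))]
    refine Finset.sum_congr rfl fun j _ => ?_
    rw [pd_mul (hx.2 i j) (hd1 i j)]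
    congr 2
    show pd a (pd i (pd j f)) x = pd i (pd j (pd a f)) x
    rw [pd_comm (test_two (test_pd hf j)) a i x]
    congr 1
    funext z
    exact pd_comm (test_two hf) a j z
  have h2 : ∀ i, pd a (fun z : E n => z i * pd i f z) x =
      (if i = a then 1 else 0) * pd i f x + x i * pd i (pd a f) x := by
    intro i
    rw [pd_mul (diff_coord i x) (test_diff (test_pd hf i) x), pd_coord,
      pd_comm (test_two hf) a i x]
  simp only [h1, h2, Finset.sum_add_distrib]
  unfold Lop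
  simp
  ring

/-- the pure algebra of the Bochner identity at one point -/
lemma boch_alg (t N : Fin n → Fin n → ℝ) (dt F3 : Fin n → Fin n → Fin n → ℝ) (F x g LF U : Fin n → ℝ)
    (L : ℝ)
    (hN : ∀ a b, N a b = N b a) (ht : ∀ a b, t a b = t b a)
    (hS1 : ∀ b i j, ∑ e, t b e * dt e i j = ∑ e, t i e * dt e b j)
    (hS2 : ∀ e i j, dt e i j = dt e j i)
    (hg : ∀ a, g a = ∑ b, t a b * F b)
    (hL : L = (∑ a, ∑ b, t a b * N a b) - ∑ b, x b * F b)
    (hLF : ∀ k, LF k = (∑ i, ∑ j, t i j * F3 i j k) - ∑ i, x i * N i k)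
    (hU : ∀ a, U a = LF a + (∑ i, ∑ j, dt a i j * N i j) - F a) :
    (∑ a, ∑ b, t a b * ((U a * F b + L * N a b) -
      ∑ k, ((∑ d, (dt a k d * F d + t k d * N a d)) * N b k + g k * F3 a b k))) -
      (∑ b, x b * (L * F b - ∑ k, g k * N b k)) =
    L ^ 2 - (∑ a, ∑ b, ∑ k, ∑ d, t a b * N b k * t k d * N d a) - ∑ a, F a * g a := by
  have e1 : ∑ a, ∑ b, t a b * ((U a * F b + L * N a b) -
      ∑ k, ((∑ d, (dt a k d * F d + t k d * N a d)) * N b k + g k * F3 a b k)) =
      (∑ a, U a * g a) + L * (∑ a, ∑ b, t a b * N a b) -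
      (∑ a, ∑ b, ∑ k, ∑ d, t a b * (dt a k d * F d * N b k)) -
      (∑ a, ∑ b, ∑ k, ∑ d, t a b * (t k d * N a d * N b k)) -
      (∑ k, g k * ∑ a, ∑ b, t a b * F3 a b k) := by
    have f1 : ∑ a, U a * g a = ∑ a, ∑ b, t a b * (U a * F b) := by
      refine Finset.sum_congr rfl fun a _ => ?_
      rw [hg, Finset.mul_sum]
      exact Finset.sum_congr rfl fun b _ => by ring
    have f2 : L * (∑ a, ∑ b, t a b * N a b) = ∑ a, ∑ b, t a b * (L * N a b) := by
      rw [Finset.mul_sum]
      refine Finset.sum_congr rfl fun a _ => ?_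
      rw [Finset.mul_sum]
      exact Finset.sum_congr rfl fun b _ => by ring
    have f3 : (∑ k, g k * ∑ a, ∑ b, t a b * F3 a b k) = ∑ a, ∑ b, ∑ k, t a b * (g k * F3 a b k) := by
      have : ∀ k, g k * ∑ a, ∑ b, t a b * F3 a b k = ∑ a, ∑ b, t a b * (g k * F3 a b k) := by
        intro k
        rw [Finset.mul_sum]
        refine Finset.sum_congr rfl fun a _ => ?_
        rw [Finset.mul_sum]
        exact Finset.sum_congr rfl fun b _ => by ring
      simp only [this]
      rw [Finset.sum_comm]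
      refine Finset.sum_congr rfl fun a _ => ?_
      rw [Finset.sum_comm]
    rw [f1, f2, f3]
    simp only [← Finset.sum_add_distrib, ← Finset.sum_sub_distrib]
    refine Finset.sum_congr rfl fun a _ => Finset.sum_congr rfl fun b _ => ?_
    simp only [Finset.sum_add_distrib, Finset.mul_sum, Finset.sum_mul, mul_sub, mul_add, add_mul]
    ring
  have e2 : (∑ b, x b * (L * F b - ∑ k, g k * N b k)) =
      L * (∑ b, x b * F b) - ∑ k, g k * ∑ b, x b * N b k := by
    have f1 : ∑ k, g k * ∑ b, x b * N b k = ∑ b, x b * ∑ k, g k * N b k := by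
      simp only [Finset.mul_sum]
      rw [Finset.sum_comm]
      exact Finset.sum_congr rfl fun b _ => Finset.sum_congr rfl fun k _ => by ring
    rw [f1, Finset.mul_sum, ← Finset.sum_sub_distrib]
    exact Finset.sum_congr rfl fun b _ => by ring
  have e3 : ∑ a, ∑ b, ∑ k, ∑ d, t a b * (dt a k d * F d * N b k) =
      ∑ a, g a * ∑ i, ∑ j, dt a i j * N i j := by
    have f1 : ∀ b k d, ∑ a, t a b * dt a k d = ∑ a, t d a * dt a b k := by
      intro b k d
      have g1 : ∑ a, t a b * dt a k d = ∑ e, t b e * dt e d k :=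
        Finset.sum_congr rfl fun a _ => by rw [ht a b, hS2 a k d]
      rw [g1, hS1 b d k]
    calc ∑ a, ∑ b, ∑ k, ∑ d, t a b * (dt a k d * F d * N b k)
        = ∑ b, ∑ k, ∑ d, (∑ a, t a b * dt a k d) * (F d * N b k) := by
          rw [Finset.sum_comm]
          refine Finset.sum_congr rfl fun b _ => ?_
          rw [Finset.sum_comm]
          refine Finset.sum_congr rfl fun k _ => ?_
          rw [Finset.sum_comm]
          refine Finset.sum_congr rfl fun d _ => ?_
          rw [Finset.sum_mul]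
          exact Finset.sum_congr rfl fun a _ => by ring
      _ = ∑ b, ∑ k, ∑ d, ∑ a, t a d * F d * (dt a b k * N b k) := by
          refine Finset.sum_congr rfl fun b _ => Finset.sum_congr rfl fun k _ =>
            Finset.sum_congr rfl fun d _ => ?_
          rw [f1, Finset.sum_mul]
          exact Finset.sum_congr rfl fun a _ => by rw [ht d a]; ring
      _ = ∑ a, g a * ∑ i, ∑ j, dt a i j * N i j := by
          have f2 : ∀ a, g a * ∑ i, ∑ j, dt a i j * N i j =
              ∑ i, ∑ j, ∑ d, t a d * F d * (dt a i j * N i j) := by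
            intro a
            rw [hg, Finset.mul_sum]
            refine Finset.sum_congr rfl fun i _ => ?_
            rw [Finset.mul_sum]
            refine Finset.sum_congr rfl fun j _ => ?_
            rw [Finset.sum_mul]
          simp only [f2]
          symm
          rw [Finset.sum_comm]
          refine Finset.sum_congr rfl fun i _ => ?_
          rw [Finset.sum_comm]
          refine Finset.sum_congr rfl fun j _ => ?_
          rw [Finset.sum_comm]
  have e4 : ∑ a, ∑ b, ∑ k, ∑ d, t a b * (t k d * N a d * N b k) =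
      ∑ a, ∑ b, ∑ k, ∑ d, t a b * N b k * t k d * N d a := by
    refine Finset.sum_congr rfl fun a _ => Finset.sum_congr rfl fun b _ =>
      Finset.sum_congr rfl fun k _ => Finset.sum_congr rfl fun d _ => ?_
    rw [hN a d]; ring
  have e5 : ∑ a, U a * g a = (∑ k, g k * LF k) + (∑ a, g a * ∑ i, ∑ j, dt a i j * N i j) -
      ∑ a, F a * g a := by
    rw [← Finset.sum_add_distrib, ← Finset.sum_sub_distrib]
    refine Finset.sum_congr rfl fun a _ => ?_
    rw [hU]; ring
  have e6 : ∑ k, g k * LF k = (∑ k, g k * ∑ i, ∑ j, t i j * F3 i j k) -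
      ∑ k, g k * ∑ b, x b * N b k := by
    rw [← Finset.sum_sub_distrib]
    refine Finset.sum_congr rfl fun k _ => ?_
    rw [hLF]; ring
  rw [e1, e2, e3, e4, e5, e6]
  have e7 : L ^ 2 = L * (∑ a, ∑ b, t a b * N a b) - L * (∑ b, x b * F b) := by
    rw [sq]
    nth_rewrite 2 [hL]
    ring
  rw [e7]; ring

lemma fld_BLC (h : MM ψ V c C M) {f : E n → ℝ} (hf : Test f) (k : Fin n) : BLC (fld ψ f k) := by
  unfold fld
  exact BLC.sum _ fun d _ => BLC.mul_left (tau_BL h k d) (blc_of_test (test_pd hf d))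

lemma pd_fld {x : E n} (hx : Good ψ x) {f : E n → ℝ} (hf : Test f) (a k : Fin n) :
    pd a (fld ψ f k) x =
      ∑ d, (pd a (fun z => tau ψ z k d) x * pd d f x + tau ψ x k d * hess f x a d) := by
  unfold fld
  rw [pd_sum Finset.univ (fun d _ => (hx.2 k d).fun_mul (test_diff (test_pd hf d) x))]
  refine Finset.sum_congr rfl fun d _ => ?_
  rw [pd_mul (hx.2 k d) (test_diff (test_pd hf d) x)]
  rfl

/-- the Bochner field -/
noncomputable def qB (ψ f : E n → ℝ) (b : Fin n) (z : E n) : ℝ :=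
  Lop ψ f z * pd b f z - ∑ k, fld ψ f k z * pd b (pd k f) z

lemma qB_BLC (h : MM ψ V c C M) {f : E n → ℝ} (hf : Test f) (b : Fin n) : BLC (qB ψ f b) := by
  unfold qB
  refine BLC.sub ((Lop_BLC h hf).mul_right (blc_of_test (test_pd hf b)).1) ?_
  exact BLC.sum _ fun k _ => (fld_BLC h hf k).mul_right (blc_of_test (test_pd (test_pd hf k) b)).1

lemma boch_ae (h : MM ψ V c C M) {f : E n → ℝ} (hf : Test f) : ∀ᵐ x : E n,
    (∑ a, ∑ b, tau ψ x a b * pd a (qB ψ f b) x) - ∑ b, x b * qB ψ f b x =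
      (Lop ψ f x) ^ 2 - (tau ψ x * hess f x * tau ψ x * hess f x).trace -
        ∑ b, pd b f x * fld ψ f b x := by
  have h1 : ∀ᵐ x : E n, ∀ k, DifferentiableAt ℝ (fld ψ f k) x := by
    rw [ae_all_iff]; exact fun k => (fld_BLC h hf k).1.ae_diff
  filter_upwards [ae_good h, (Lop_BLC h hf).1.ae_diff, h1] with x hx hLx hfx
  have h2 : ∀ a b, pd a (qB ψ f b) x = (pd a (Lop ψ f) x * pd b f x + Lop ψ f x * hess f x a b) -
      ∑ k, ((∑ d, (pd a (fun z => tau ψ z k d) x * pd d f x + tau ψ x k d * hess f x a d)) *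
        hess f x b k + fld ψ f k x * pd a (pd b (pd k f)) x) := by
    intro a b
    have g1 : DifferentiableAt ℝ (fun z => Lop ψ f z * pd b f z) x :=
      hLx.fun_mul (test_diff (test_pd hf b) x)
    have g2 : ∀ k ∈ (Finset.univ : Finset (Fin n)),
        DifferentiableAt ℝ (fun z => fld ψ f k z * pd b (pd k f) z) x := fun k _ =>
      (hfx k).fun_mul (test_diff (test_pd (test_pd hf k) b) x)
    have g0 : qB ψ f b = fun z => Lop ψ f z * pd b f z - ∑ k, fld ψ f k z * pd b (pd k f) z := rfl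
    rw [g0, pd_sub g1 (DifferentiableAt.fun_sum g2), pd_sum Finset.univ g2,
      pd_mul hLx (test_diff (test_pd hf b) x)]
    congr 1
    refine Finset.sum_congr rfl fun k _ => ?_
    rw [pd_mul (hfx k) (test_diff (test_pd (test_pd hf k) b) x), pd_fld hx hf a k]
    rfl
  simp only [h2]
  have h3 := boch_alg (fun a b => tau ψ x a b) (fun a b => hess f x a b)
    (fun a i j => pd a (fun z => tau ψ z i j) x) (fun a b k => pd a (pd b (pd k f)) x)
    (fun a => pd a f x) (fun a => x a) (fun a => fld ψ f a x) (fun a => Lop ψ (pd a f) x)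
    (fun a => pd a (Lop ψ f) x) (Lop ψ f x)
    (fun a b => hess_symm (test_two hf) x a b) (fun a b => tau_symm h x a b)
    (fun b i j => S3_symm12 h hx b i j)
    (fun e i j => by
      have : (fun z => tau ψ z i j) = fun z => tau ψ z j i := by
        funext z; exact tau_symm h z i j
      simp only [this])
    (fun a => rfl) rfl
    (fun k => rfl)
    (fun a => pd_Lop hx hf a)
  simp only at h3
  have h4 : (∑ b, x b * qB ψ f b x) =
      ∑ b, x b * (Lop ψ f x * pd b f x - ∑ k, fld ψ f k x * hess f x b k) := rfl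
  rw [h4, h3]
  congr 2
  rw [Matrix.trace]
  refine Finset.sum_congr rfl fun a _ => ?_
  rw [Matrix.diag_apply, Matrix.mul_apply]
  simp only [Matrix.mul_apply, Finset.sum_mul]
  -- ∑ b ∑ k ∑ d t a b N b k t k d N d a = ∑ d ∑ k ∑ b ...
  rw [Finset.sum_comm]
  have : ∀ k, ∑ b, ∑ d, tau ψ x a b * hess f x b k * tau ψ x k d * hess f x d a =
      ∑ d, ∑ b, tau ψ x a b * hess f x b k * tau ψ x k d * hess f x d a := fun k => Finset.sum_comm
  simp only [this]
  rw [Finset.sum_comm]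

end Vale.Agent.P227.M.AE

namespace Vale.Agent.P227.M.LIN

open Vale.Agent.P227.M.AE

/-- LIN-5a -/
theorem stmtBoch : StmtBoch := by
  intro n ψ V c C M hV h f hf
  have h1 := stein_lip hV h (fun b => qB_BLC h hf b)
  have h2 : ∫ x, ((Lop ψ f x) ^ 2 - (tau ψ x * hess f x * tau ψ x * hess f x).trace -
        ∑ b, pd b f x * fld ψ f b x) * Real.exp (-V x) = 0 := by
    rw [← h1]
    refine integral_congr_ae ?_
    filter_upwards [boch_ae h hf] with x hx
    rw [hx]
  have i1 : Integrable (fun x => (Lop ψ f x) ^ 2 * Real.exp (-V x)) := by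
    have : BLC (fun x => Lop ψ f x * Lop ψ f x * Real.exp (-V x)) :=
      ((Lop_BLC h hf).mul_right (Lop_BLC h hf).1).mul_smooth (smooth_w hV)
    simpa [sq] using this.integrable
  have i3 : Integrable (fun x => (∑ b, pd b f x * fld ψ f b x) * Real.exp (-V x)) := by
    have : BLC (fun x => (∑ b, pd b f x * fld ψ f b x) * Real.exp (-V x)) :=
      (BLC.sum _ fun b _ => (blc_of_test (test_pd hf b)).mul_right (fld_BLC h hf b).1).mul_smooth
        (smooth_w hV)
    exact this.integrable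
  have i2 : Integrable (fun x => (tau ψ x * hess f x * tau ψ x * hess f x).trace *
      Real.exp (-V x)) := by
    have : BLC (fun x => (tau ψ x * hess f x * tau ψ x * hess f x).trace * Real.exp (-V x)) := by
      refine BLC.mul_smooth ?_ (smooth_w hV)
      have e : (fun x => (tau ψ x * hess f x * tau ψ x * hess f x).trace) = fun x =>
          ∑ a, ∑ d, (∑ k, (∑ b, tau ψ x a b * hess f x b k) * tau ψ x k d) * hess f x d a := by
        funext x
        rw [Matrix.trace]
        refine Finset.sum_congr rfl fun a _ => ?_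
        rw [Matrix.diag_apply, Matrix.mul_apply]
        simp only [Matrix.mul_apply]
      rw [e]
      refine BLC.sum _ fun a _ => BLC.sum _ fun d _ => ?_
      refine BLC.mul_left ?_ (blc_of_test (test_pd (test_pd hf a) d))
      refine BL.sum _ fun k _ => BL.mul (BL.sum _ fun b _ => ?_) (tau_BL h k d)
      exact (tau_BL h a b).mul (blc_of_test (test_pd (test_pd hf k) b)).1
    exact this.integrable
  have h3 : ∫ x, (Lop ψ f x) ^ 2 * Real.exp (-V x) =
      (∫ x, (tau ψ x * hess f x * tau ψ x * hess f x).trace * Real.exp (-V x)) +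
        ∫ x, (∑ b, pd b f x * fld ψ f b x) * Real.exp (-V x) := by
    have e : (fun x => ((Lop ψ f x) ^ 2 - (tau ψ x * hess f x * tau ψ x * hess f x).trace -
        ∑ b, pd b f x * fld ψ f b x) * Real.exp (-V x)) = fun x =>
        (Lop ψ f x) ^ 2 * Real.exp (-V x) -
          (tau ψ x * hess f x * tau ψ x * hess f x).trace * Real.exp (-V x) -
          (∑ b, pd b f x * fld ψ f b x) * Real.exp (-V x) := by
      funext x; ring
    have i12 : Integrable (fun x => (Lop ψ f x) ^ 2 * Real.exp (-V x) -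
        (tau ψ x * hess f x * tau ψ x * hess f x).trace * Real.exp (-V x)) := i1.sub i2
    rw [e, integral_sub i12 i3, integral_sub i1 i2] at h2
    linarith
  unfold Ex
  rw [h3, add_div]

end Vale.Agent.P227.M.LIN
end

section

/-! # P227/M, block LIN: `StmtConst` and `StmtAff` (LIN-5b/c). -/

set_option linter.all false

open MeasureTheory Filter
open scoped Topology

namespace Vale.Agent.P227.M.LIN

open Vale.Agent.P227.M Vale.Agent.P227.M.Aff

variable {n : ℕ}

theorem meas_wt {V : E n → ℝ} (hV : Continuous V) :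
    Measurable (fun x => ENNReal.ofReal (Real.exp (-V x))) :=
  (Real.continuous_exp.comp hV.neg).measurable.ennreal_ofReal

theorem aesm_of_memLp {V : E n → ℝ} (hV : Continuous V) {h : E n → ℝ} (hh : MemLp h 2 (mu V)) :
    AEStronglyMeasurable h volume := by
  refine hh.1.mono_ac ?_
  refine withDensity_absolutelyContinuous' (meas_wt hV).aemeasurable (Filter.Eventually.of_forall fun x => ?_)
  simp [Real.exp_pos]

theorem int_sq_of_memLp {V : E n → ℝ} (hV : Continuous V) {h : E n → ℝ} (hh : MemLp h 2 (mu V)) :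
    Integrable (fun x => h x ^ 2 * Real.exp (-V x)) := by
  have h1 := hh.integrable_sq
  rw [mu, integrable_withDensity_iff (meas_wt hV) (Filter.Eventually.of_forall fun x => ENNReal.ofReal_lt_top)] at h1
  refine h1.congr (Filter.Eventually.of_forall fun x => ?_)
  simp only [ENNReal.toReal_ofReal (Real.exp_pos _).le]

theorem ex_tendsto {V : E n → ℝ} (hZ : 0 < ∫ x, Real.exp (-V x)) {g : ℕ → E n → ℝ}
    (hg : Tendsto (fun m => Ex V (g m)) atTop (𝓝 0)) :
    Tendsto (fun m => ∫ x, g m x * Real.exp (-V x)) atTop (𝓝 0) := by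
  have := hg.mul_const (∫ x, Real.exp (-V x))
  rw [zero_mul] at this
  refine this.congr (fun m => ?_)
  unfold Ex
  field_simp

theorem sum_tendsto {ι : Type*} [Fintype ι] {V : E n → ℝ} (hV : Continuous V) {g : ι → ℕ → E n → ℝ}
    (hc : ∀ i m, Continuous (g i m)) (hs : ∀ i m, HasCompactSupport (g i m))
    (h : Tendsto (fun m => ∫ x, (∑ i, (g i m x) ^ 2) * Real.exp (-V x)) atTop (𝓝 0)) (i : ι) :
    Tendsto (fun m => ∫ x, (g i m x) ^ 2 * Real.exp (-V x)) atTop (𝓝 0) := by
  have hint : ∀ j m, Integrable (fun x => (g j m x) ^ 2 * Real.exp (-V x)) := by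
    intro j m
    refine Continuous.integrable_of_hasCompactSupport
      (((hc j m).pow 2).mul (Real.continuous_exp.comp hV.neg)) ?_
    have h0 : HasCompactSupport (fun z => g j m z * (g j m z * Real.exp (-V z))) := (hs j m).mul_right
    have h1 : (fun z => g j m z * (g j m z * Real.exp (-V z))) = fun z => g j m z ^ 2 * Real.exp (-V z) := by
      funext z; ring
    rw [h1] at h0
    exact h0
  refine squeeze_zero (fun m => integral_nonneg fun x => by positivity) (fun m => ?_) h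
  refine integral_mono (hint i m) ?_ (fun x => ?_)
  · simp only [Finset.sum_mul]
    exact integrable_finset_sum _ (fun j _ => hint j m)
  · refine mul_le_mul_of_nonneg_right ?_ (Real.exp_pos _).le
    exact Finset.single_le_sum (f := fun j => (g j m x) ^ 2) (fun j _ => sq_nonneg _) (Finset.mem_univ i)

theorem stmtConst : StmtConst := by
  intro n V c C hN f h hf hh h1 h2
  have hV : Continuous V := hN.toReg.cont
  have hZ := hN.toReg.Z_pos
  have hc : ∀ i m, Continuous (pd i (f m)) := fun i m => pd_continuous ((hf m).1.of_le (by exact_mod_cast le_top)) i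
  exact ae_const_of_grad hV hf (aesm_of_memLp hV hh) (int_sq_of_memLp hV hh) (ex_tendsto hZ h1)
    (fun i => sum_tendsto hV (g := fun i m => pd i (f m)) hc (fun i m => pd_supp (hf m).2 i) (ex_tendsto hZ h2) i)

theorem stmtAff : StmtAff := by
  intro n V c C hN f h hf hh h1 h2
  have hV : Continuous V := hN.toReg.cont
  have hZ := hN.toReg.Z_pos
  have hp : ∀ j m, ContDiff ℝ (⊤ : ℕ∞) (pd j (f m)) := fun j m => contDiff_pd_top (hf m).1 j
  have hc : ∀ (i : Fin n × Fin n) m, Continuous (fun x => hess (f m) x i.1 i.2) := fun i m =>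
    pd_continuous ((hp i.2 m).of_le (by exact_mod_cast le_top)) i.1
  have h3 : Tendsto (fun m => ∫ x, (∑ i : Fin n × Fin n, (hess (f m) x i.1 i.2) ^ 2) * Real.exp (-V x))
      atTop (𝓝 0) := by
    refine (ex_tendsto hZ h2).congr (fun m => ?_)
    simp only [Fintype.sum_prod_type]
  exact ae_affine_of_hess hV hf (aesm_of_memLp hV hh) (int_sq_of_memLp hV hh) (ex_tendsto hZ h1)
    (fun i j => sum_tendsto hV (g := fun (i : Fin n × Fin n) m x => hess (f m) x i.1 i.2) hc
      (fun i m => pd_supp (pd_supp (hf m).2 i.2) i.1) h3 (i, j))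

end Vale.Agent.P227.M.LIN
end

section

/-! # P227/M/Loc/Gm: measurable functions of polynomial growth, the expectation `Ex` on them -/

open MeasureTheory

namespace Vale.Agent.P227.M.Loc

variable {n : ℕ}

/-- measurable functions of polynomial growth -/
def Gm (f : E n → ℝ) : Prop :=
  AEStronglyMeasurable f volume ∧ ∃ (B : ℝ) (k : ℕ), 0 ≤ B ∧ ∀ x, |f x| ≤ B * (1 + ‖x‖) ^ k

theorem Gm.of_gr {f : E n → ℝ} (h : Gr f) : Gm f := ⟨h.1.aestronglyMeasurable, h.2⟩

theorem Gm.of_bound {f : E n → ℝ} (hf : AEStronglyMeasurable f volume) {B : ℝ}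
    (hB : ∀ x, |f x| ≤ B) : Gm f := by
  refine ⟨hf, |B|, 0, abs_nonneg _, fun x => ?_⟩
  simpa using (hB x).trans (le_abs_self B)

theorem Gm.const (c : ℝ) : Gm (fun _ : E n => c) := Gm.of_gr (Gr.const c)

theorem Gm.coord (i : Fin n) : Gm (fun x : E n => x i) := Gm.of_gr (Gr.coord i)

theorem Gm.add {f g : E n → ℝ} (hf : Gm f) (hg : Gm g) : Gm (fun x => f x + g x) := by
  obtain ⟨hfc, B, k, hB, hb⟩ := hf
  obtain ⟨hgc, D, l, hD, hd⟩ := hg
  refine ⟨hfc.add hgc, B + D, k + l, add_nonneg hB hD, fun x => ?_⟩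
  have h1 := one_le_one_add_norm x
  have hk : (1 + ‖x‖) ^ k ≤ (1 + ‖x‖) ^ (k + l) := pow_le_pow_right₀ h1 (Nat.le_add_right _ _)
  have hl : (1 + ‖x‖) ^ l ≤ (1 + ‖x‖) ^ (k + l) := pow_le_pow_right₀ h1 (Nat.le_add_left _ _)
  calc |f x + g x| ≤ |f x| + |g x| := abs_add_le _ _
    _ ≤ B * (1 + ‖x‖) ^ k + D * (1 + ‖x‖) ^ l := add_le_add (hb x) (hd x)
    _ ≤ B * (1 + ‖x‖) ^ (k + l) + D * (1 + ‖x‖) ^ (k + l) := by gcongr
    _ = _ := by ring

theorem Gm.mul {f g : E n → ℝ} (hf : Gm f) (hg : Gm g) : Gm (fun x => f x * g x) := by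
  obtain ⟨hfc, B, k, hB, hb⟩ := hf
  obtain ⟨hgc, D, l, hD, hd⟩ := hg
  refine ⟨hfc.mul hgc, B * D, k + l, mul_nonneg hB hD, fun x => ?_⟩
  rw [abs_mul, pow_add]
  calc |f x| * |g x| ≤ (B * (1 + ‖x‖) ^ k) * (D * (1 + ‖x‖) ^ l) :=
        mul_le_mul (hb x) (hd x) (abs_nonneg _) (mul_nonneg hB (pow_nonneg (by positivity) _))
    _ = _ := by ring

theorem Gm.const_mul {f : E n → ℝ} (hf : Gm f) (c : ℝ) : Gm (fun x => c * f x) :=
  (Gm.const c).mul hf

theorem Gm.neg {f : E n → ℝ} (hf : Gm f) : Gm (fun x => -f x) := by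
  have h := hf.const_mul (-1)
  simpa using h

theorem Gm.sub {f g : E n → ℝ} (hf : Gm f) (hg : Gm g) : Gm (fun x => f x - g x) := by
  have h := hf.add hg.neg
  simpa [sub_eq_add_neg] using h

theorem Gm.sq {f : E n → ℝ} (hf : Gm f) : Gm (fun x => f x ^ 2) := by
  have h := hf.mul hf
  simpa [pow_two] using h

theorem Gm.sum {ι : Type*} (s : Finset ι) {f : ι → E n → ℝ} (hf : ∀ i ∈ s, Gm (f i)) :
    Gm (fun x => ∑ i ∈ s, f i x) := by
  classical
  induction s using Finset.induction_on with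
  | empty => simpa using Gm.const (n := n) 0
  | insert a s ha ih =>
    have h := (hf a (Finset.mem_insert_self a s)).add
      (ih fun i hi => hf i (Finset.mem_insert_of_mem hi))
    simpa [Finset.sum_insert ha] using h

theorem Gm.fsum {ι : Type*} [Fintype ι] {f : ι → E n → ℝ} (hf : ∀ i, Gm (f i)) :
    Gm (fun x => ∑ i, f i x) := Gm.sum _ fun i _ => hf i

section Ex

variable {V : E n → ℝ} {c C : ℝ}

theorem Gm.integrable (h : Reg V c C) {f : E n → ℝ} (hf : Gm f) :
    Integrable (fun x => f x * Real.exp (-V x)) := by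
  obtain ⟨hfm, B, k, hB, hb⟩ := hf
  have h1 : Gr (fun x : E n => B * (1 + ‖x‖) ^ k) :=
    (Gr.const B).mul (((Gr.const 1).add Gr.norm).pow k)
  refine (h.integrable_gr h1).mono (hfm.mul (Real.continuous_exp.comp h.cont.neg).aestronglyMeasurable)
    (Filter.Eventually.of_forall fun x => ?_)
  rw [norm_mul, norm_mul]
  refine mul_le_mul_of_nonneg_right ?_ (norm_nonneg _)
  rw [Real.norm_eq_abs, Real.norm_eq_abs]
  exact (hb x).trans (le_abs_self _)

theorem Ex_add (h : Reg V c C) {f g : E n → ℝ} (hf : Gm f) (hg : Gm g) :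
    Ex V (fun x => f x + g x) = Ex V f + Ex V g := by
  unfold Ex
  rw [← add_div, ← integral_add (hf.integrable h) (hg.integrable h)]
  simp only [add_mul]

theorem Ex_const_mul (a : ℝ) (f : E n → ℝ) : Ex V (fun x => a * f x) = a * Ex V f := by
  unfold Ex
  rw [← mul_div_assoc, ← integral_const_mul]
  simp only [mul_assoc]

theorem Ex_neg (f : E n → ℝ) : Ex V (fun x => -f x) = -Ex V f := by
  have := Ex_const_mul (V := V) (-1) f
  simpa using this

theorem Ex_sub (h : Reg V c C) {f g : E n → ℝ} (hf : Gm f) (hg : Gm g) :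
    Ex V (fun x => f x - g x) = Ex V f - Ex V g := by
  have := Ex_add h hf hg.neg
  rw [Ex_neg] at this
  simpa [sub_eq_add_neg] using this

theorem Ex_sum (h : Reg V c C) {ι : Type*} (s : Finset ι) {f : ι → E n → ℝ}
    (hf : ∀ i ∈ s, Gm (f i)) : Ex V (fun x => ∑ i ∈ s, f i x) = ∑ i ∈ s, Ex V (f i) := by
  unfold Ex
  rw [← Finset.sum_div, ← integral_finsetSum s fun i hi => (hf i hi).integrable h]
  simp only [Finset.sum_mul]

theorem Ex_one (h : Reg V c C) : Ex V (fun _ => 1) = 1 := by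
  unfold Ex
  simp only [one_mul]
  exact div_self h.Z_pos.ne'

theorem Ex_const (h : Reg V c C) (a : ℝ) : Ex V (fun _ => a) = a := by
  have := Ex_const_mul (V := V) a (fun _ : E n => (1 : ℝ))
  rw [Ex_one h] at this
  simpa using this

theorem Ex_nonneg (h : Reg V c C) {f : E n → ℝ} (hf : ∀ x, 0 ≤ f x) : 0 ≤ Ex V f := by
  unfold Ex
  exact div_nonneg (integral_nonneg fun x => mul_nonneg (hf x) (Real.exp_pos _).le) h.Z_pos.le

theorem Ex_mono (h : Reg V c C) {f g : E n → ℝ} (hf : Gm f) (hg : Gm g) (hfg : ∀ x, f x ≤ g x) :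
    Ex V f ≤ Ex V g := by
  have h1 : 0 ≤ Ex V (fun x => g x - f x) := Ex_nonneg h fun x => sub_nonneg.2 (hfg x)
  rw [Ex_sub h hg hf] at h1
  linarith

theorem Ex_congr_ae {f g : E n → ℝ} (hfg : ∀ᵐ x, f x = g x) : Ex V f = Ex V g := by
  unfold Ex
  congr 1
  refine integral_congr_ae ?_
  filter_upwards [hfg] with x hx
  rw [hx]

end Ex

end Vale.Agent.P227.M.Loc
end

section

/-! # P227/M/Loc/Calc: bounded Lipschitz functions, `L F` for test functions `F`, `∇(LF + F + u)` -/

open MeasureTheory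

namespace Vale.Agent.P227.M.Loc

variable {n : ℕ}

/-- bounded Lipschitz functions -/
def BL (f : E n → ℝ) : Prop :=
  ∃ K B : ℝ, 0 ≤ K ∧ 0 ≤ B ∧ (∀ x y, |f x - f y| ≤ K * ‖x - y‖) ∧ ∀ x, |f x| ≤ B

theorem BL.lipschitz {f : E n → ℝ} (h : BL f) : ∃ K : NNReal, LipschitzWith K f := by
  obtain ⟨K, B, hK, -, h1, -⟩ := h
  refine ⟨Real.toNNReal K, LipschitzWith.of_dist_le' fun x y => ?_⟩
  rw [Real.dist_eq, dist_eq_norm]
  exact h1 x y

theorem BL.continuous {f : E n → ℝ} (h : BL f) : Continuous f := by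
  obtain ⟨K, hK⟩ := h.lipschitz
  exact hK.continuous

theorem BL.gr {f : E n → ℝ} (h : BL f) : Gr f := by
  have hc := h.continuous
  obtain ⟨K, B, -, -, -, h2⟩ := h
  exact Gr.of_bound hc h2

theorem BL.add {f g : E n → ℝ} (hf : BL f) (hg : BL g) : BL (fun x => f x + g x) := by
  obtain ⟨K, B, hK, hB, h1, h2⟩ := hf
  obtain ⟨K', B', hK', hB', h1', h2'⟩ := hg
  refine ⟨K + K', B + B', by positivity, by positivity, fun x y => ?_, fun x => ?_⟩
  · calc |f x + g x - (f y + g y)| = |(f x - f y) + (g x - g y)| := by congr 1; ring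
      _ ≤ |f x - f y| + |g x - g y| := abs_add_le _ _
      _ ≤ K * ‖x - y‖ + K' * ‖x - y‖ := add_le_add (h1 x y) (h1' x y)
      _ = _ := by ring
  · exact (abs_add_le _ _).trans (add_le_add (h2 x) (h2' x))

theorem BL.mul {f g : E n → ℝ} (hf : BL f) (hg : BL g) : BL (fun x => f x * g x) := by
  obtain ⟨K, B, hK, hB, h1, h2⟩ := hf
  obtain ⟨K', B', hK', hB', h1', h2'⟩ := hg
  refine ⟨K * B' + B * K', B * B', by positivity, by positivity, fun x y => ?_, fun x => ?_⟩
  · calc |f x * g x - f y * g y| = |(f x - f y) * g x + f y * (g x - g y)| := by congr 1; ring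
      _ ≤ |(f x - f y) * g x| + |f y * (g x - g y)| := abs_add_le _ _
      _ = |f x - f y| * |g x| + |f y| * |g x - g y| := by rw [abs_mul, abs_mul]
      _ ≤ (K * ‖x - y‖) * B' + B * (K' * ‖x - y‖) :=
          add_le_add (mul_le_mul (h1 x y) (h2' x) (abs_nonneg _) (by positivity))
            (mul_le_mul (h2 y) (h1' x y) (abs_nonneg _) hB)
      _ = _ := by ring
  · rw [abs_mul]
    exact mul_le_mul (h2 x) (h2' x) (abs_nonneg _) hB

theorem BL.const (a : ℝ) : BL (fun _ : E n => a) :=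
  ⟨0, |a|, le_rfl, abs_nonneg _, fun x y => by simp, fun _ => le_rfl⟩

theorem BL.neg {f : E n → ℝ} (hf : BL f) : BL (fun x => -f x) := by
  have h := (BL.const (-1)).mul hf
  simpa using h

theorem BL.sub {f g : E n → ℝ} (hf : BL f) (hg : BL g) : BL (fun x => f x - g x) := by
  have h := hf.add hg.neg
  simpa [sub_eq_add_neg] using h

theorem BL.fsum {ι : Type*} [Fintype ι] {f : ι → E n → ℝ} (hf : ∀ i, BL (f i)) :
    BL (fun x => ∑ i, f i x) := by
  classical
  have : ∀ s : Finset ι, BL (fun x => ∑ i ∈ s, f i x) := fun s => by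
    induction s using Finset.induction_on with
    | empty => simpa using BL.const (n := n) 0
    | insert a s ha ih =>
      have h := (hf a).add ih
      simpa [Finset.sum_insert ha] using h
  exact this _

theorem BL.of_test {f : E n → ℝ} (hf : Test f) : BL f := by
  obtain ⟨K, hK⟩ := ContDiff.lipschitzWith_of_hasCompactSupport hf.2 hf.1 (by simp)
  obtain ⟨B, hB⟩ := hf.1.continuous.bounded_above_of_compact_support hf.2
  refine ⟨K, |B|, K.2, abs_nonneg _, fun x y => ?_, fun x => ?_⟩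
  · have := hK.dist_le_mul x y
    rwa [Real.dist_eq, dist_eq_norm] at this
  · exact (hB x).trans (le_abs_self B)

/-! ### test functions -/

theorem test_pd {f : E n → ℝ} (hf : Test f) (i : Fin n) : Test (pd i f) :=
  ⟨contDiff_pd_top hf.1 i, hf.2.fderiv_apply ℝ (ei i)⟩

theorem test_hess {f : E n → ℝ} (hf : Test f) (i j : Fin n) : Test (fun x => hess f x i j) :=
  test_pd (test_pd hf j) i

theorem test_coord_mul {f : E n → ℝ} (hf : Test f) (i : Fin n) : Test (fun x => x i * f x) := by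
  refine ⟨ContDiff.mul (by fun_prop) hf.1, ?_⟩
  exact hf.2.mul_left

variable {ψ V : E n → ℝ} {c C M : ℝ}

theorem bl_tau (h : MM ψ V c C M) (i j : Fin n) : BL (fun x => tau ψ x i j) := by
  have hc := h.c_pos
  refine ⟨|(n : ℝ) ^ 2 * (1 / c) ^ 2 * M|, 1 / c, abs_nonneg _, by positivity, fun x y => ?_,
    fun x => tau_bdd h x i j⟩
  exact (tau_lip h x y i j).trans (mul_le_mul_of_nonneg_right (le_abs_self _) (norm_nonneg _))

theorem bl_Lop (h : MM ψ V c C M) {F : E n → ℝ} (hF : Test F) : BL (Lop ψ F) := by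
  have h1 : BL (fun x => ∑ i, ∑ j, tau ψ x i j * hess F x i j) :=
    BL.fsum fun i => BL.fsum fun j => (bl_tau h i j).mul (BL.of_test (test_hess hF i j))
  have h2 : BL (fun x => ∑ i, x i * pd i F x) :=
    BL.fsum fun i => BL.of_test (test_coord_mul (test_pd hF i) i)
  exact h1.sub h2

theorem gm_pd_of_bl {f : E n → ℝ} (h : BL f) (b : Fin n) : Gm (pd b f) := by
  obtain ⟨K, hK⟩ := h.lipschitz
  refine Gm.of_bound (B := K) ?_ fun x => ?_
  · exact (measurable_fderiv_apply_const ℝ f (ei b)).aestronglyMeasurable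
  · exact (abs_pd_le_norm f x b).trans (norm_fderiv_le_of_lipschitz ℝ hK)

theorem ae_diff_of_bl {f : E n → ℝ} (h : BL f) : ∀ᵐ x, DifferentiableAt ℝ f x := by
  obtain ⟨K, hK⟩ := h.lipschitz
  exact hK.ae_differentiableAt

theorem gm_fld (h : MM ψ V c C M) {f : E n → ℝ} (hf : BL f) (b : Fin n) : Gm (fld ψ f b) :=
  Gm.fsum fun j => (Gm.of_gr (bl_tau h b j).gr).mul (gm_pd_of_bl hf j)

theorem fld_add_ae {f g : E n → ℝ} (hf : BL f) (hg : Differentiable ℝ g) :
    ∀ᵐ x, ∀ b, fld ψ (fun z => f z + g z) b x = fld ψ f b x + fld ψ g b x := by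
  filter_upwards [ae_diff_of_bl hf] with x hx b
  unfold fld
  rw [← Finset.sum_add_distrib]
  refine Finset.sum_congr rfl fun j _ => ?_
  have : pd j (fun z => f z + g z) x = pd j f x + pd j g x := by
    unfold pd
    rw [fderiv_fun_add hx (hg x)]
    rfl
  rw [this]
  ring

/-! ### sums of pieces, `g = ⟨x, ∇W⟩` -/

theorem pd_sum {J : ℕ} {W : Fin J → E n → ℝ} (hW : ∀ j, Differentiable ℝ (W j)) (i : Fin n)
    (x : E n) : pd i (fun x => ∑ j, W j x) x = ∑ j, pd i (W j) x := by
  unfold pd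
  rw [fderiv_fun_sum fun j _ => hW j x]
  simp

theorem hess_sum {J : ℕ} {W : Fin J → E n → ℝ} (hW : ∀ j, ContDiff ℝ (⊤ : ℕ∞) (W j))
    (x : E n) : hess (fun x => ∑ j, W j x) x = ∑ j, hess (W j) x := by
  ext i k
  have h1 : pd k (fun x => ∑ j, W j x) = fun x => ∑ j, pd k (W j) x := by
    funext y
    exact pd_sum (fun j => (hW j).differentiable (by simp)) k y
  rw [hess, h1, pd_sum (fun j => (contDiff_pd_top (hW j) k).differentiable (by simp)) i x,
    Matrix.sum_apply]
  rfl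

/-- `g = ⟨x, ∇W⟩` -/
noncomputable def rad (W : E n → ℝ) (x : E n) : ℝ := ∑ i, x i * pd i W x

theorem rad_smooth {W : E n → ℝ} (hW : ContDiff ℝ (⊤ : ℕ∞) W) : ContDiff ℝ (⊤ : ℕ∞) (rad W) := by
  unfold rad
  refine ContDiff.sum fun i _ => ContDiff.mul (by fun_prop) (contDiff_pd_top hW i)

theorem pd_rad {W : E n → ℝ} (hW : ContDiff ℝ (⊤ : ℕ∞) W) (b : Fin n) (x : E n) :
    pd b (rad W) x = pd b W x + ∑ i, hess W x b i * x i := by
  have hd : ∀ i : Fin n, HasFDerivAt (fun x : E n => x i * pd i W x)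
      ((x i) • fderiv ℝ (pd i W) x + (pd i W x) • (EuclideanSpace.proj i : E n →L[ℝ] ℝ)) x := fun i => by
    have h1 : HasFDerivAt (fun x : E n => x i) (EuclideanSpace.proj i : E n →L[ℝ] ℝ) x :=
      (EuclideanSpace.proj i : E n →L[ℝ] ℝ).hasFDerivAt
    have h2 : HasFDerivAt (pd i W) (fderiv ℝ (pd i W) x) x :=
      ((contDiff_pd_top hW i).differentiable (by simp) x).hasFDerivAt
    exact h1.mul h2
  have h := (HasFDerivAt.fun_sum fun i (_ : i ∈ Finset.univ) => hd i).fderiv
  have h' : fderiv ℝ (rad W) x = ∑ i, ((x i) • fderiv ℝ (pd i W) x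
      + (pd i W x) • (EuclideanSpace.proj i : E n →L[ℝ] ℝ)) := h
  have e : ∀ i, (EuclideanSpace.proj i : E n →L[ℝ] ℝ) (ei b) = if i = b then 1 else 0 := fun i => by
    simp [ei_apply]
  show fderiv ℝ (rad W) x (ei b) = _
  rw [h']
  simp only [sum_apply, add_apply, smul_apply, smul_eq_mul, e, Finset.sum_add_distrib, mul_ite,
    mul_one, mul_zero, Finset.sum_ite_eq', Finset.mem_univ, if_true]
  rw [add_comm]
  congr 1
  refine Finset.sum_congr rfl fun i _ => ?_
  rw [mul_comm]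
  rfl

end Vale.Agent.P227.M.Loc
end

section

/-! # P227: end reduction, part C: the local variance inequality gives the soft inequality -/

open MeasureTheory Set Metric Filter Topology
open scoped ENNReal NNReal

namespace Vale.Agent.P227.End

/-- a smooth wall with its first two derivatives and growth bounds -/
structure Wall (v v1 v2 : ℝ → ℝ) : Prop where
  d1 : ∀ t, HasDerivAt v (v1 t) t
  d2 : ∀ t, HasDerivAt v1 (v2 t) t
  cont2 : Continuous v2
  lower : ∀ t, |t| - 1 ≤ v t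
  growth : ∃ C, 0 ≤ C ∧ ∀ t, |v1 t| ≤ C * (1 + |t|) ∧ |v2 t| ≤ C

/-- Gibbs weight -/
noncomputable def gib {n J : ℕ} (v : ℝ → ℝ) (e : ℝ) (ν : Fin J → EV n) (x : EV n) : ℝ :=
  Real.exp (-(∑ j, v (inner ℝ x (ν j))) - e * ‖x‖ ^ 2)

/-- first derivative observable -/
noncomputable def obs1 {n J : ℕ} (v1 : ℝ → ℝ) (ν : Fin J → EV n) (ρ : Fin J → ℝ) (x : EV n) : ℝ :=
  ∑ j, ρ j * ((inner ℝ x (ν j) : ℝ) * v1 (inner ℝ x (ν j)))

/-- second derivative observable -/
noncomputable def obs2 {n J : ℕ} (v1 v2 : ℝ → ℝ) (ν : Fin J → EV n) (ρ : Fin J → ℝ) (x : EV n) : ℝ :=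
  ∑ j, ρ j ^ 2 * ((inner ℝ x (ν j) : ℝ) * v1 (inner ℝ x (ν j)) + (inner ℝ x (ν j) : ℝ) ^ 2 * v2 (inner ℝ x (ν j)))

/-- the local inequality `Var (∑ ρ_j w_j v'(w_j)) ≤ ∑ ρ_j² E [w_j v'(w_j) + w_j² v''(w_j)]`, unnormalised -/
def LocalIneq (v v1 v2 : ℝ → ℝ) (e : ℝ) : Prop :=
  ∀ (n J : ℕ) (ν : Fin J → EV n), 0 < n → (∀ x : EV n, (∀ j, (inner ℝ x (ν j) : ℝ) = 0) → x = 0) → ∀ ρ : Fin J → ℝ,
    (∫ x, obs1 v1 ν ρ x ^ 2 * gib v e ν x) * (∫ x, gib v e ν x) ≤
      (∫ x, obs1 v1 ν ρ x * gib v e ν x) ^ 2 + (∫ x, obs2 v1 v2 ν ρ x * gib v e ν x) * (∫ x, gib v e ν x)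

/-- polynomial times exponential -/
theorem integrable_pow_exp {n : ℕ} {a : ℝ} (ha : 0 < a) (m : ℕ) :
    Integrable (fun x : EV n => (1 + ‖x‖) ^ m * Real.exp (-(a * ‖x‖))) := by
  have h1 : Integrable (fun x : EV n => (m.factorial / (a / 2) ^ m * Real.exp (a / 2)) * Real.exp (-(a / 2 * ‖x‖))) :=
    (integrable_exp_neg_norm (half_pos ha)).const_mul _
  refine h1.mono' (by fun_prop) (Eventually.of_forall fun x => ?_)
  have hp : (0 : ℝ) < 1 + ‖x‖ := by positivity
  rw [Real.norm_eq_abs, abs_of_pos (mul_pos (pow_pos hp _) (Real.exp_pos _))]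
  have h3 := Real.pow_div_factorial_le_exp (a / 2 * (1 + ‖x‖)) (by positivity) m
  have h6 : (0 : ℝ) < m.factorial := by exact_mod_cast Nat.factorial_pos _
  have h7 : (1 + ‖x‖) ^ m ≤ m.factorial / (a / 2) ^ m * Real.exp (a / 2 * (1 + ‖x‖)) := by
    rw [mul_pow, div_le_iff₀ h6] at h3
    have h8 : (0 : ℝ) < (a / 2) ^ m := by positivity
    rw [div_mul_eq_mul_div, le_div_iff₀ h8]
    linarith
  calc (1 + ‖x‖) ^ m * Real.exp (-(a * ‖x‖)) ≤ (m.factorial / (a / 2) ^ m * Real.exp (a / 2 * (1 + ‖x‖))) * Real.exp (-(a * ‖x‖)) :=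
        mul_le_mul_of_nonneg_right h7 (Real.exp_pos _).le
    _ = _ := by
      rw [mul_assoc, mul_assoc, ← Real.exp_add, ← Real.exp_add]
      congr 2
      ring

section
variable {n J : ℕ} (ν : Fin J → EV n) (s ρ : Fin J → ℝ)

/-- moving family of vectors -/
noncomputable def mv (r : ℝ) (j : Fin J) : EV n := Real.exp (-(s j + r * ρ j)) • ν j

theorem inner_mv (r : ℝ) (j : Fin J) (x : EV n) : (inner ℝ x (mv ν s ρ r j) : ℝ) = Real.exp (-(s j + r * ρ j)) * inner ℝ x (ν j) := by
  rw [mv, inner_smul_right]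

theorem hasDerivAt_inner_mv (r : ℝ) (j : Fin J) (x : EV n) :
    HasDerivAt (fun r => (inner ℝ x (mv ν s ρ r j) : ℝ)) (-ρ j * inner ℝ x (mv ν s ρ r j)) r := by
  have h1 : HasDerivAt (fun r : ℝ => -(s j + r * ρ j)) (-ρ j) r := by
    have h0 : HasDerivAt (fun r : ℝ => s j + r * ρ j) (ρ j) r := by
      simpa using ((hasDerivAt_id r).mul_const (ρ j)).const_add (s j)
    exact h0.neg
  have h2 := h1.exp.mul_const (inner ℝ x (ν j) : ℝ)
  refine HasDerivAt.congr_deriv (h2.congr_of_eventuallyEq (Eventually.of_forall fun r => inner_mv ν s ρ r j x)) ?_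
  rw [inner_mv]
  ring

variable {v v1 v2 : ℝ → ℝ} (hw : Wall v v1 v2) (e : ℝ)

include hw

theorem hasDerivAt_gib (r : ℝ) (x : EV n) :
    HasDerivAt (fun r => gib v e (mv ν s ρ r) x) (obs1 v1 (mv ν s ρ r) ρ x * gib v e (mv ν s ρ r) x) r := by
  have h1 : HasDerivAt (fun r => ∑ j, v (inner ℝ x (mv ν s ρ r j))) (∑ j, v1 (inner ℝ x (mv ν s ρ r j)) * (-ρ j * inner ℝ x (mv ν s ρ r j))) r := by
    refine HasDerivAt.fun_sum fun j _ => ?_
    exact (hw.d1 _).comp r (hasDerivAt_inner_mv ν s ρ r j x)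
  have h2 := ((h1.neg).sub_const (e * ‖x‖ ^ 2)).exp
  refine HasDerivAt.congr_deriv h2 ?_
  simp only [gib, obs1, Pi.neg_apply]
  rw [mul_comm]
  congr 1
  rw [← Finset.sum_neg_distrib]
  refine Finset.sum_congr rfl fun j _ => ?_
  ring

theorem hasDerivAt_obs1 (r : ℝ) (x : EV n) :
    HasDerivAt (fun r => obs1 v1 (mv ν s ρ r) ρ x) (-obs2 v1 v2 (mv ν s ρ r) ρ x) r := by
  have h1 : HasDerivAt (fun r => obs1 v1 (mv ν s ρ r) ρ x)
      (∑ j, ρ j * ((-ρ j * inner ℝ x (mv ν s ρ r j)) * v1 (inner ℝ x (mv ν s ρ r j)) +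
        inner ℝ x (mv ν s ρ r j) * (v2 (inner ℝ x (mv ν s ρ r j)) * (-ρ j * inner ℝ x (mv ν s ρ r j))))) r := by
    unfold obs1
    refine HasDerivAt.fun_sum fun j _ => ?_
    have hd := hasDerivAt_inner_mv ν s ρ r j x
    exact (hd.mul ((hw.d2 _).comp r hd)).const_mul (ρ j)
  refine HasDerivAt.congr_deriv h1 ?_
  rw [obs2, ← Finset.sum_neg_distrib]
  refine Finset.sum_congr rfl fun j _ => ?_
  ring

theorem hasDerivAt_obs1_gib (r : ℝ) (x : EV n) :
    HasDerivAt (fun r => obs1 v1 (mv ν s ρ r) ρ x * gib v e (mv ν s ρ r) x)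
      ((obs1 v1 (mv ν s ρ r) ρ x ^ 2 - obs2 v1 v2 (mv ν s ρ r) ρ x) * gib v e (mv ν s ρ r) x) r := by
  refine HasDerivAt.congr_deriv ((hasDerivAt_obs1 ν s ρ hw r x).mul (hasDerivAt_gib ν s ρ hw e r x)) ?_
  ring

theorem continuous_v : Continuous v := continuous_iff_continuousAt.2 fun t => (hw.d1 t).continuousAt
theorem continuous_v1 : Continuous v1 := continuous_iff_continuousAt.2 fun t => (hw.d2 t).continuousAt

theorem continuous_gib (ν : Fin J → EV n) : Continuous (gib v e ν) := by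
  have := continuous_v hw
  unfold gib
  refine Real.continuous_exp.comp ?_
  refine Continuous.sub (Continuous.neg (continuous_finsetSum _ fun j _ => this.comp ?_)) (by fun_prop)
  fun_prop

theorem continuous_obs1 (ν : Fin J → EV n) (ρ : Fin J → ℝ) : Continuous (obs1 v1 ν ρ) := by
  have := continuous_v1 hw
  unfold obs1
  refine continuous_finsetSum _ fun j _ => ?_
  refine continuous_const.mul (Continuous.mul (by fun_prop) (this.comp (by fun_prop)))

theorem continuous_obs2 (ν : Fin J → EV n) (ρ : Fin J → ℝ) : Continuous (obs2 v1 v2 ν ρ) := by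
  have h1 := continuous_v1 hw
  have h2 := hw.cont2
  unfold obs2
  refine continuous_finsetSum _ fun j _ => ?_
  refine continuous_const.mul (Continuous.add (Continuous.mul (by fun_prop) (h1.comp (by fun_prop)))
    (Continuous.mul (by fun_prop) (h2.comp (by fun_prop))))

/-- bounds for the observables -/
theorem bound_obs (hν : ∀ x : EV n, (∀ j, (inner ℝ x (ν j) : ℝ) = 0) → x = 0) (he : 0 ≤ e) (R : ℝ) (hR : 0 ≤ R) :
    ∃ a P : ℝ, 0 < a ∧ 0 ≤ P ∧ ∀ r : ℝ, |r| ≤ R → ∀ x : EV n,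
      |gib v e (mv ν s ρ r) x| ≤ P * Real.exp (-(a * ‖x‖)) ∧ |obs1 v1 (mv ν s ρ r) ρ x| ≤ P * (1 + ‖x‖) ^ 2 ∧
      |obs2 v1 v2 (mv ν s ρ r) ρ x| ≤ P * (1 + ‖x‖) ^ 2 := by
  obtain ⟨C, hC0, hC⟩ := hw.growth
  obtain ⟨a, ha, hab⟩ := exists_norm_le ν hν (fun _ => 1) (fun _ => one_pos)
  set S : ℝ := ∑ j, (|s j| + R * |ρ j|) with hS
  have hSj : ∀ j, |s j| + R * |ρ j| ≤ S := fun j =>
    Finset.single_le_sum (f := fun j => |s j| + R * |ρ j|) (fun i _ => by positivity) (Finset.mem_univ j)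
  have hexp : ∀ r : ℝ, |r| ≤ R → ∀ j, Real.exp (-S) ≤ Real.exp (-(s j + r * ρ j)) ∧ Real.exp (-(s j + r * ρ j)) ≤ Real.exp S := by
    intro r hr j
    have h1 : |s j + r * ρ j| ≤ S := by
      refine (abs_add_le _ _).trans (le_trans ?_ (hSj j))
      rw [abs_mul]
      have := mul_le_mul_of_nonneg_right hr (abs_nonneg (ρ j))
      linarith
    have h2 := abs_le.1 h1
    constructor <;> refine Real.exp_le_exp.2 ?_ <;> linarith [h2.1, h2.2]
  set N : ℝ := ∑ j, ‖ν j‖ with hN
  have hNj : ∀ j, ‖ν j‖ ≤ N := fun j => Finset.single_le_sum (f := fun j => ‖ν j‖) (fun i _ => norm_nonneg _) (Finset.mem_univ j)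
  have hN0 : 0 ≤ N := Finset.sum_nonneg fun i _ => norm_nonneg _
  set M : ℝ := Real.exp S * N with hM
  have hM0 : 0 ≤ M := mul_nonneg (Real.exp_pos _).le hN0
  have hwj : ∀ r : ℝ, |r| ≤ R → ∀ (x : EV n) j, |(inner ℝ x (mv ν s ρ r j) : ℝ)| ≤ M * (1 + ‖x‖) := by
    intro r hr x j
    rw [inner_mv, abs_mul, abs_of_pos (Real.exp_pos _), hM, mul_assoc]
    refine mul_le_mul (hexp r hr j).2 ?_ (abs_nonneg _) (Real.exp_pos _).le
    have h1 := abs_real_inner_le_norm x (ν j)
    have h2 : ‖x‖ * ‖ν j‖ ≤ (1 + ‖x‖) * N := mul_le_mul (by linarith) (hNj j) (norm_nonneg _) (by positivity)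
    linarith
  set T : ℝ := ∑ j, |ρ j| with hT
  set T2 : ℝ := ∑ j, ρ j ^ 2 with hT2
  have hT0 : 0 ≤ T := Finset.sum_nonneg fun i _ => abs_nonneg _
  have hT20 : 0 ≤ T2 := Finset.sum_nonneg fun i _ => sq_nonneg _
  set P1 : ℝ := T * (M * (C * (1 + M))) with hP1
  set P2 : ℝ := T2 * (M * (C * (1 + M)) + M ^ 2 * C) with hP2
  have hP10 : 0 ≤ P1 := by positivity
  have hP20 : 0 ≤ P2 := by positivity
  refine ⟨Real.exp (-S) * a, Real.exp J + P1 + P2, by positivity, by positivity, fun r hr x => ?_⟩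
  have hx1 : (1 : ℝ) ≤ 1 + ‖x‖ := by linarith [norm_nonneg x]
  have hbase : ∀ j, |(inner ℝ x (mv ν s ρ r j) : ℝ) * v1 (inner ℝ x (mv ν s ρ r j))| ≤ M * (C * (1 + M)) * (1 + ‖x‖) ^ 2 := by
    intro j
    rw [abs_mul]
    have h1 := hwj r hr x j
    have h2 := (hC (inner ℝ x (mv ν s ρ r j))).1
    have h3 : C * (1 + |(inner ℝ x (mv ν s ρ r j) : ℝ)|) ≤ C * (1 + M) * (1 + ‖x‖) := by
      have : 1 + |(inner ℝ x (mv ν s ρ r j) : ℝ)| ≤ (1 + M) * (1 + ‖x‖) := by nlinarith
      calc _ ≤ C * ((1 + M) * (1 + ‖x‖)) := mul_le_mul_of_nonneg_left this hC0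
        _ = _ := by ring
    calc _ ≤ (M * (1 + ‖x‖)) * (C * (1 + M) * (1 + ‖x‖)) :=
          mul_le_mul h1 (h2.trans h3) (abs_nonneg _) (by positivity)
      _ = _ := by ring
  have hsq : ∀ j, |(inner ℝ x (mv ν s ρ r j) : ℝ) ^ 2 * v2 (inner ℝ x (mv ν s ρ r j))| ≤ M ^ 2 * C * (1 + ‖x‖) ^ 2 := by
    intro j
    rw [abs_mul, abs_pow]
    have h1 := hwj r hr x j
    have h2 := (hC (inner ℝ x (mv ν s ρ r j))).2
    calc _ ≤ (M * (1 + ‖x‖)) ^ 2 * C := mul_le_mul (pow_le_pow_left₀ (abs_nonneg _) h1 2) h2 (abs_nonneg _) (by positivity)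
      _ = _ := by ring
  refine ⟨?_, ?_, ?_⟩
  · rw [gib, abs_of_pos (Real.exp_pos _)]
    have h1 : ∑ j, (|(inner ℝ x (mv ν s ρ r j) : ℝ)| - 1) ≤ ∑ j, v (inner ℝ x (mv ν s ρ r j)) :=
      Finset.sum_le_sum fun j _ => hw.lower _
    rw [Finset.sum_sub_distrib] at h1
    simp only [Finset.sum_const, Finset.card_univ, Fintype.card_fin, nsmul_eq_mul, mul_one] at h1
    have h2 : Real.exp (-S) * (a * ‖x‖) ≤ ∑ j, |(inner ℝ x (mv ν s ρ r j) : ℝ)| := by
      refine (mul_le_mul_of_nonneg_left (hab x) (Real.exp_pos _).le).trans ?_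
      rw [Finset.mul_sum]
      refine Finset.sum_le_sum fun j _ => ?_
      rw [inner_mv, abs_mul, abs_of_pos (Real.exp_pos _), div_one]
      exact mul_le_mul_of_nonneg_right (hexp r hr j).1 (abs_nonneg _)
    have h3 : 0 ≤ e * ‖x‖ ^ 2 := by positivity
    have h4 : Real.exp (-(∑ j, v (inner ℝ x (mv ν s ρ r j))) - e * ‖x‖ ^ 2) ≤ Real.exp J * Real.exp (-(Real.exp (-S) * a * ‖x‖)) := by
      rw [← Real.exp_add]
      refine Real.exp_le_exp.2 ?_
      linarith
    refine h4.trans (mul_le_mul_of_nonneg_right ?_ (Real.exp_pos _).le)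
    linarith
  · have h1 : |obs1 v1 (mv ν s ρ r) ρ x| ≤ P1 * (1 + ‖x‖) ^ 2 := by
      rw [obs1]
      refine (Finset.abs_sum_le_sum_abs _ _).trans ?_
      calc _ ≤ ∑ j, |ρ j| * (M * (C * (1 + M)) * (1 + ‖x‖) ^ 2) := by
            refine Finset.sum_le_sum fun j _ => ?_
            rw [abs_mul]
            exact mul_le_mul_of_nonneg_left (hbase j) (abs_nonneg _)
        _ = _ := by
          rw [← Finset.sum_mul]
          ring
    refine h1.trans (mul_le_mul_of_nonneg_right ?_ (by positivity))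
    linarith [Real.exp_pos J]
  · have h1 : |obs2 v1 v2 (mv ν s ρ r) ρ x| ≤ P2 * (1 + ‖x‖) ^ 2 := by
      rw [obs2]
      refine (Finset.abs_sum_le_sum_abs _ _).trans ?_
      calc _ ≤ ∑ j, ρ j ^ 2 * ((M * (C * (1 + M)) + M ^ 2 * C) * (1 + ‖x‖) ^ 2) := by
            refine Finset.sum_le_sum fun j _ => ?_
            rw [abs_mul, abs_of_nonneg (sq_nonneg (ρ j))]
            refine mul_le_mul_of_nonneg_left ?_ (sq_nonneg _)
            refine (abs_add_le _ _).trans ?_
            linarith [hbase j, hsq j]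
        _ = _ := by
          rw [← Finset.sum_mul]
          ring
    refine h1.trans (mul_le_mul_of_nonneg_right ?_ (by positivity))
    linarith [Real.exp_pos J]

/-- first and second derivative of the partition function -/
theorem hasDerivAt_part (hν : ∀ x : EV n, (∀ j, (inner ℝ x (ν j) : ℝ) = 0) → x = 0) (he : 0 ≤ e) (r0 : ℝ) :
    Integrable (gib v e (mv ν s ρ r0)) ∧ Integrable (fun x => obs1 v1 (mv ν s ρ r0) ρ x ^ 2 * gib v e (mv ν s ρ r0) x) ∧
    Integrable (fun x => obs2 v1 v2 (mv ν s ρ r0) ρ x * gib v e (mv ν s ρ r0) x) ∧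
    HasDerivAt (fun r => ∫ x, gib v e (mv ν s ρ r) x) (∫ x, obs1 v1 (mv ν s ρ r0) ρ x * gib v e (mv ν s ρ r0) x) r0 ∧
    HasDerivAt (fun r => ∫ x, obs1 v1 (mv ν s ρ r) ρ x * gib v e (mv ν s ρ r) x)
      (∫ x, (obs1 v1 (mv ν s ρ r0) ρ x ^ 2 - obs2 v1 v2 (mv ν s ρ r0) ρ x) * gib v e (mv ν s ρ r0) x) r0 := by
  obtain ⟨a, P, ha, hP, hb⟩ := bound_obs ν s ρ hw e hν he (|r0| + 1) (by positivity)
  have hcg := fun r => continuous_gib hw e (mv ν s ρ r)
  have hc1 := fun r => continuous_obs1 hw (mv ν s ρ r) ρ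
  have hc2 := fun r => continuous_obs2 hw (mv ν s ρ r) ρ
  have hball : ∀ r ∈ ball r0 1, |r| ≤ |r0| + 1 := by
    intro r hr
    have h1 : |r - r0| < 1 := by simpa [Real.dist_eq] using hr
    have h2 : |r| ≤ |r - r0| + |r0| := by
      have := abs_add_le (r - r0) r0
      simpa using this
    linarith
  have hr0 : |r0| ≤ |r0| + 1 := by linarith
  have hI := fun m : ℕ => integrable_pow_exp (n := n) ha m
  have hg : Integrable (gib v e (mv ν s ρ r0)) := by
    refine ((hI 0).const_mul P).mono' (hcg r0).aestronglyMeasurable (Eventually.of_forall fun x => ?_)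
    rw [Real.norm_eq_abs]
    simpa using (hb r0 hr0 x).1
  have h1g : ∀ r, |r| ≤ |r0| + 1 → ∀ x : EV n, |obs1 v1 (mv ν s ρ r) ρ x * gib v e (mv ν s ρ r) x| ≤
      (P * P) * ((1 + ‖x‖) ^ 2 * Real.exp (-(a * ‖x‖))) := by
    intro r hr x
    obtain ⟨b1, b2, b3⟩ := hb r hr x
    rw [abs_mul]
    calc _ ≤ (P * (1 + ‖x‖) ^ 2) * (P * Real.exp (-(a * ‖x‖))) := mul_le_mul b2 b1 (abs_nonneg _) (by positivity)
      _ = _ := by ring
  have h2g : ∀ r, |r| ≤ |r0| + 1 → ∀ x : EV n, |obs2 v1 v2 (mv ν s ρ r) ρ x * gib v e (mv ν s ρ r) x| ≤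
      (P * P) * ((1 + ‖x‖) ^ 2 * Real.exp (-(a * ‖x‖))) := by
    intro r hr x
    obtain ⟨b1, b2, b3⟩ := hb r hr x
    rw [abs_mul]
    calc _ ≤ (P * (1 + ‖x‖) ^ 2) * (P * Real.exp (-(a * ‖x‖))) := mul_le_mul b3 b1 (abs_nonneg _) (by positivity)
      _ = _ := by ring
  have h11g : ∀ r, |r| ≤ |r0| + 1 → ∀ x : EV n, |obs1 v1 (mv ν s ρ r) ρ x ^ 2 * gib v e (mv ν s ρ r) x| ≤
      (P ^ 2 * P) * ((1 + ‖x‖) ^ 4 * Real.exp (-(a * ‖x‖))) := by
    intro r hr x
    obtain ⟨b1, b2, b3⟩ := hb r hr x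
    rw [abs_mul, abs_pow]
    calc _ ≤ (P * (1 + ‖x‖) ^ 2) ^ 2 * (P * Real.exp (-(a * ‖x‖))) :=
          mul_le_mul (pow_le_pow_left₀ (abs_nonneg _) b2 2) b1 (abs_nonneg _) (by positivity)
      _ = _ := by ring
  have hI1 : Integrable (fun x => obs1 v1 (mv ν s ρ r0) ρ x * gib v e (mv ν s ρ r0) x) := by
    refine ((hI 2).const_mul (P * P)).mono' ((hc1 r0).mul (hcg r0)).aestronglyMeasurable (Eventually.of_forall fun x => ?_)
    rw [Real.norm_eq_abs]
    exact h1g r0 hr0 x
  have hI2 : Integrable (fun x => obs2 v1 v2 (mv ν s ρ r0) ρ x * gib v e (mv ν s ρ r0) x) := by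
    refine ((hI 2).const_mul (P * P)).mono' ((hc2 r0).mul (hcg r0)).aestronglyMeasurable (Eventually.of_forall fun x => ?_)
    rw [Real.norm_eq_abs]
    exact h2g r0 hr0 x
  have hI11 : Integrable (fun x => obs1 v1 (mv ν s ρ r0) ρ x ^ 2 * gib v e (mv ν s ρ r0) x) := by
    refine ((hI 4).const_mul (P ^ 2 * P)).mono' (((hc1 r0).pow 2).mul (hcg r0)).aestronglyMeasurable (Eventually.of_forall fun x => ?_)
    rw [Real.norm_eq_abs]
    exact h11g r0 hr0 x
  refine ⟨hg, hI11, hI2, ?_, ?_⟩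
  · refine (hasDerivAt_integral_of_dominated_loc_of_deriv_le (bound := fun x => (P * P) * ((1 + ‖x‖) ^ 2 * Real.exp (-(a * ‖x‖))))
      (ball_mem_nhds r0 one_pos) (Eventually.of_forall fun r => (hcg r).aestronglyMeasurable) hg
      ((hc1 r0).mul (hcg r0)).aestronglyMeasurable (Eventually.of_forall fun x r hr => ?_) ((hI 2).const_mul _)
      (Eventually.of_forall fun x r hr => hasDerivAt_gib ν s ρ hw e r x)).2
    rw [Real.norm_eq_abs]
    exact h1g r (hball r hr) x
  · refine (hasDerivAt_integral_of_dominated_loc_of_deriv_le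
      (F := fun r x => obs1 v1 (mv ν s ρ r) ρ x * gib v e (mv ν s ρ r) x)
      (F' := fun r x => (obs1 v1 (mv ν s ρ r) ρ x ^ 2 - obs2 v1 v2 (mv ν s ρ r) ρ x) * gib v e (mv ν s ρ r) x)
      (bound := fun x => (P ^ 2 * P) * ((1 + ‖x‖) ^ 4 * Real.exp (-(a * ‖x‖))) + (P * P) * ((1 + ‖x‖) ^ 2 * Real.exp (-(a * ‖x‖))))
      (ball_mem_nhds r0 one_pos) (Eventually.of_forall fun r => ((hc1 r).mul (hcg r)).aestronglyMeasurable) hI1
      ((((hc1 r0).pow 2).sub (hc2 r0)).mul (hcg r0)).aestronglyMeasurable (Eventually.of_forall fun x r hr => ?_)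
      (((hI 4).const_mul _).add ((hI 2).const_mul _))
      (Eventually.of_forall fun x r hr => hasDerivAt_obs1_gib ν s ρ hw e r x)).2
    rw [Real.norm_eq_abs, sub_mul]
    refine (abs_sub _ _).trans (add_le_add (h11g r (hball r hr) x) (h2g r (hball r hr) x))

/-- the local inequality gives the soft inequality -/
theorem soft_of_local (he : 0 ≤ e) (H : LocalIneq v v1 v2 e) (n J : ℕ) (ν : Fin J → EV n) (hn : 0 < n)
    (hν : ∀ x : EV n, (∀ j, (inner ℝ x (ν j) : ℝ) = 0) → x = 0)
    (g h : Fin J → ℝ) (t : ℝ) (hg : ∀ j, 0 < g j) (hh : ∀ j, 0 < h j) (ht0 : 0 ≤ t) (ht1 : t ≤ 1) :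
    softInt v e ν g ^ (1 - t) * softInt v e ν h ^ t ≤ softInt v e ν (fun j => g j ^ (1 - t) * h j ^ t) := by
  set s : Fin J → ℝ := fun j => Real.log (g j) with hs
  set ρ : Fin J → ℝ := fun j => Real.log (h j) - Real.log (g j) with hρ
  set F : ℝ → ℝ := fun r => ∫ x, gib v e (mv ν s ρ r) x with hF
  have hsoft : ∀ r : ℝ, softInt v e ν (fun j => Real.exp (s j + r * ρ j)) = F r := by
    intro r
    simp only [softInt, hF, gib]
    refine integral_congr_ae (Eventually.of_forall fun x => ?_)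
    simp only
    congr 3
    refine Finset.sum_congr rfl fun j _ => ?_
    rw [inner_mv, Real.exp_neg, div_eq_inv_mul]
  have e0 : softInt v e ν g = F 0 := by
    rw [← hsoft 0]
    congr 1
    funext j
    simp only [hs, zero_mul, add_zero]
    exact (Real.exp_log (hg j)).symm
  have e1 : softInt v e ν h = F 1 := by
    rw [← hsoft 1]
    congr 1
    funext j
    simp only [hs, hρ, one_mul, add_sub_cancel]
    exact (Real.exp_log (hh j)).symm
  have et : softInt v e ν (fun j => g j ^ (1 - t) * h j ^ t) = F t := by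
    rw [← hsoft t]
    congr 1
    funext j
    rw [Real.rpow_def_of_pos (hg j), Real.rpow_def_of_pos (hh j), ← Real.exp_add]
    congr 1
    simp only [hs, hρ]
    ring
  rw [e0, e1, et]
  have hmvs : ∀ r, ∀ x : EV n, (∀ j, (inner ℝ x (mv ν s ρ r j) : ℝ) = 0) → x = 0 := by
    intro r x hx
    refine hν x fun j => ?_
    have h1 := hx j
    rw [inner_mv] at h1
    rcases mul_eq_zero.1 h1 with h2 | h2
    · exact absurd h2 (Real.exp_pos _).ne'
    · exact h2
  obtain ⟨m, rfl⟩ : ∃ m, n = m + 1 := ⟨n - 1, by omega⟩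
  have hFpos : ∀ r, 0 < F r := by
    intro r
    have h1 := (hasDerivAt_part ν s ρ hw e hν he r).1
    exact integral_exp_pos h1
  set A : ℝ → ℝ := fun r => ∫ x, obs1 v1 (mv ν s ρ r) ρ x * gib v e (mv ν s ρ r) x with hA
  set A2 : ℝ → ℝ := fun r => ∫ x, (obs1 v1 (mv ν s ρ r) ρ x ^ 2 - obs2 v1 v2 (mv ν s ρ r) ρ x) * gib v e (mv ν s ρ r) x with hA2
  have hdF : ∀ r, HasDerivAt F (A r) r := fun r => (hasDerivAt_part ν s ρ hw e hν he r).2.2.2.1
  have hdA : ∀ r, HasDerivAt A (A2 r) r := fun r => (hasDerivAt_part ν s ρ hw e hν he r).2.2.2.2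
  have hineq : ∀ r, A2 r * F r ≤ A r ^ 2 := by
    intro r
    have h1 := H (m + 1) J (mv ν s ρ r) hn (hmvs r) ρ
    have h2 : A2 r = (∫ x, obs1 v1 (mv ν s ρ r) ρ x ^ 2 * gib v e (mv ν s ρ r) x) - ∫ x, obs2 v1 v2 (mv ν s ρ r) ρ x * gib v e (mv ν s ρ r) x := by
      rw [hA2, ← integral_sub (hasDerivAt_part ν s ρ hw e hν he r).2.1 (hasDerivAt_part ν s ρ hw e hν he r).2.2.1]
      refine integral_congr_ae (Eventually.of_forall fun x => ?_)
      simp only
      ring
    rw [h2, sub_mul]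
    linarith
  have hconc : ConcaveOn ℝ univ (fun r => Real.log (F r)) := by
    refine concaveOn_of_hasDerivWithinAt2_nonpos (f' := fun r => A r / F r) (f'' := fun r => (A2 r * F r - A r * A r) / F r ^ 2)
      convex_univ ?_ ?_ ?_ ?_
    · exact continuousOn_of_forall_continuousAt fun r _ => ((hdF r).log (hFpos r).ne').continuousAt
    · intro r _
      exact ((hdF r).log (hFpos r).ne').hasDerivWithinAt
    · intro r _
      exact ((hdA r).div (hdF r) (hFpos r).ne').hasDerivWithinAt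
    · intro r _
      have := hineq r
      refine div_nonpos_of_nonpos_of_nonneg ?_ (sq_nonneg _)
      nlinarith
  have h3 := hconc.2 (mem_univ 0) (mem_univ 1) (by linarith : 0 ≤ 1 - t) ht0 (by ring)
  simp only [smul_eq_mul, mul_zero, mul_one, zero_add] at h3
  rw [Real.rpow_def_of_pos (hFpos 0), Real.rpow_def_of_pos (hFpos 1), ← Real.exp_add, ← Real.le_log_iff_exp_le (hFpos t)]
  linarith

end

end Vale.Agent.P227.End
end

section

/-! # P227: end reduction, part D: concrete smooth walls; the local inequality gives the logarithmic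
Brunn-Minkowski inequality -/

open MeasureTheory Set Metric Filter Topology
open scoped ENNReal NNReal

namespace Vale.Agent.P227.End

/-- the local variance inequality for any sequence of walls converging to the hard wall gives the whole
logarithmic Brunn-Minkowski inequality -/
theorem log_bm_of_walls (v v1 v2 : ℕ → ℝ → ℝ) (e : ℕ → ℝ) (hW : ∀ k, Wall (v k) (v1 k) (v2 k))
    (hv0 : ∀ t, |t| < 1 → Tendsto (fun k => v k t) atTop (𝓝 0))
    (hv1 : ∀ t, 1 < |t| → Tendsto (fun k => v k t) atTop atTop) (he0 : ∀ k, 0 ≤ e k) (he : Tendsto e atTop (𝓝 0))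
    (H : ∀ k : ℕ, LocalIneq (v k) (v1 k) (v2 k) (e k))
    {n : ℕ} (hn : 0 < n) {K L : Set (EV n)} (hK : SymConvexBody K)
    (hL : SymConvexBody L) {t : ℝ} (ht0 : 0 ≤ t) (ht1 : t ≤ 1) :
    (volume K).toReal ^ (1 - t) * (volume L).toReal ^ t ≤ (volume (logComb t K L)).toReal := by
  refine log_bm_of_soft v e (fun k => continuous_v (hW k)) (fun k => (hW k).lower) hv0 hv1 he0 he ?_ hn hK hL ht0 ht1
  intro k m J ν hm hν g h τ hg hh h0 h1
  exact soft_of_local (hW k) _ (he0 k) (H k) m J ν hm hν g h τ hg hh h0 h1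

end Vale.Agent.P227.End
end

section

open MeasureTheory Set Filter Real
open scoped Topology

namespace Vale.Agent.P227.M.SC1

theorem cut_anti {f : ℝ → ℝ} {u v : ℝ} (huv : u ≤ v) (hf : AntitoneOn f (Ioo u v)) :
    ∃ a, u ≤ a ∧ a ≤ v ∧ (∀ x, u < x → x < a → 0 ≤ f x) ∧ (∀ x, a < x → x < v → f x ≤ 0) := by
  set A : Set ℝ := {x | x ∈ Ioo u v ∧ 0 < f x} ∪ {u} with hA
  have hbdd : BddAbove A := by
    refine ⟨v, ?_⟩
    rintro x (⟨hx, -⟩ | rfl)
    · exact hx.2.le
    · exact huv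
  have hne : A.Nonempty := ⟨u, Or.inr rfl⟩
  refine ⟨sSup A, le_csSup hbdd (Or.inr rfl), csSup_le hne ?_, ?_, ?_⟩
  · rintro x (⟨hx, -⟩ | rfl)
    · exact hx.2.le
    · exact huv
  · intro x hux hxa
    obtain ⟨y, hy, hxy⟩ := exists_lt_of_lt_csSup hne hxa
    rcases hy with ⟨hy, hfy⟩ | rfl
    · have : f y ≤ f x := hf ⟨hux, hxy.trans hy.2⟩ hy hxy.le
      linarith
    · exact absurd hxy (not_lt.2 hux.le)
  · intro x hax hxv
    by_contra hcon
    push Not at hcon
    have hux : u < x := lt_of_le_of_lt (le_csSup hbdd (Or.inr rfl)) hax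
    have : x ∈ A := Or.inl ⟨⟨hux, hxv⟩, hcon⟩
    exact absurd (le_csSup hbdd this) (not_le.2 hax)

theorem cut_mono {f : ℝ → ℝ} {u v : ℝ} (huv : u ≤ v) (hf : MonotoneOn f (Ioo u v)) :
    ∃ a, u ≤ a ∧ a ≤ v ∧ (∀ x, u < x → x < a → f x ≤ 0) ∧ (∀ x, a < x → x < v → 0 ≤ f x) := by
  obtain ⟨a, h1, h2, h3, h4⟩ := cut_anti (f := fun x => - f x) huv (fun x hx y hy hxy =>
    neg_le_neg (hf hx hy hxy))
  refine ⟨a, h1, h2, fun x hx hxa => ?_, fun x hx hxv => ?_⟩
  · have := h3 x hx hxa; linarith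
  · have := h4 x hx hxv; linarith

/-- Cut on a half line, for a function which is nonpositive far away. -/
theorem cut_anti' {f : ℝ → ℝ} {u V : ℝ} (hf : AntitoneOn f (Ioi u)) (hV : ∀ x, V ≤ x → f x ≤ 0) :
    ∃ a, u ≤ a ∧ (∀ x, u < x → x < a → 0 ≤ f x) ∧ (∀ x, a < x → f x ≤ 0) := by
  obtain ⟨a, h1, h2, h3, h4⟩ := cut_anti (f := f) (le_max_left u V)
    (hf.mono Ioo_subset_Ioi_self)
  refine ⟨a, h1, h3, fun x hx => ?_⟩
  rcases lt_or_ge x (max u V) with h | h
  · exact h4 x hx h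
  · exact hV x ((le_max_right _ _).trans h)

/-- The sign pattern of the difference of the logarithms. -/
theorem pattern {U U1 U2 : ℝ → ℝ} {c0 c k β LA : ℝ} (hU1 : ∀ x, HasDerivAt U (U1 x) x)
    (hU2 : ∀ x, HasDerivAt U1 (U2 x) x) (hc0 : 0 < c0) (h0 : ∀ x, c0 ≤ U2 x) (hc : 0 < c)
    (hk : k = 1 / c ^ 2)
    (hL : ∀ x y, |(√(U2 x))⁻¹ - (√(U2 y))⁻¹| ≤ c * |x - y|) :
    ∃ a b d s t : ℝ, 0 ≤ a ∧ a ≤ s ∧ s ≤ b ∧ b ≤ t ∧ t ≤ d ∧
      (∀ x, 0 < x → x < a → 0 ≤ -U x - (LA + k * log x - β * x)) ∧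
      (∀ x, a < x → x < s → -U x - (LA + k * log x - β * x) ≤ 0) ∧
      (∀ x, s < x → x < b → -U x - (LA + k * log x - β * x) ≤ 0) ∧
      (∀ x, b < x → x < t → 0 ≤ -U x - (LA + k * log x - β * x)) ∧
      (∀ x, t < x → x < d → 0 ≤ -U x - (LA + k * log x - β * x)) ∧
      (∀ x, d < x → -U x - (LA + k * log x - β * x) ≤ 0) := by
  have hU2pos : ∀ x, 0 < U2 x := fun x => hc0.trans_le (h0 x)
  have hkpos : 0 < k := by rw [hk]; positivity
  set l : ℝ → ℝ := fun x => -U x - (LA + k * log x - β * x) with hl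
  set l1 : ℝ → ℝ := fun x => -U1 x - k / x + β with hl1
  have hdl : ∀ x, 0 < x → HasDerivAt l (l1 x) x := by
    intro x hx
    have h1 := (hU1 x).neg
    have h2 := ((hasDerivAt_log hx.ne').const_mul k).const_add LA
    have h3 := (hasDerivAt_id x).const_mul β
    have h4 := h1.sub (h2.sub h3)
    have e : l1 x = -U1 x - (k * x⁻¹ - β * 1) := by
      simp only [hl1]; ring
    rw [e]
    exact h4
  have hdl1 : ∀ x, 0 < x → HasDerivAt l1 (-U2 x + k / x ^ 2) x := by
    intro x hx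
    have h1 := (hU2 x).neg
    have h2 := (hasDerivAt_inv hx.ne').const_mul k
    have h3 := (h1.sub h2).add_const β
    have e : -U2 x + k / x ^ 2 = -U2 x - k * (-(x ^ 2)⁻¹) := by ring
    rw [e]
    refine h3.congr_of_eventuallyEq (Eventually.of_forall fun y => ?_)
    simp only [hl1, Pi.sub_apply, Pi.neg_apply, div_eq_mul_inv]
  -- the function D
  have hDanti : Antitone (fun x => (√(U2 x))⁻¹ - c * x) := by
    intro x y hxy
    have h1 := hL x y
    rw [abs_sub_comm x y, abs_of_nonneg (sub_nonneg.2 hxy), abs_sub_comm] at h1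
    have h2 := le_abs_self ((√(U2 y))⁻¹ - (√(U2 x))⁻¹)
    simp only
    linarith
  have hsqrt : ∀ x, (√(U2 x))⁻¹ ≤ (√c0)⁻¹ := fun x =>
    inv_anti₀ (Real.sqrt_pos.2 hc0) (Real.sqrt_le_sqrt (h0 x))
  obtain ⟨x1, hx10, hx1a, hx1b⟩ := cut_anti' (f := fun x => (√(U2 x))⁻¹ - c * x) (u := 0)
    (V := (√c0)⁻¹ / c) (hDanti.antitoneOn _) (by
      intro x hx
      rw [div_le_iff₀ hc] at hx
      have := hsqrt x
      linarith)
  -- signs of the second derivative
  have hsec : ∀ x, 0 < x → (0 ≤ (√(U2 x))⁻¹ - c * x ↔ 0 ≤ -U2 x + k / x ^ 2) := by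
    intro x hx
    have e1 : 0 ≤ (√(U2 x))⁻¹ - c * x ↔ c * x * √(U2 x) ≤ 1 := by
      rw [sub_nonneg, ← one_div, le_div_iff₀ (Real.sqrt_pos.2 (hU2pos x))]
    have e2 : c * x * √(U2 x) ≤ 1 ↔ (c * x) ^ 2 * U2 x ≤ 1 := by
      rw [← Real.sq_sqrt (hU2pos x).le, ← mul_pow, sq_sqrt (hU2pos x).le]
      rw [sq_le_one_iff₀ (by positivity)]
    have e3 : 0 ≤ -U2 x + k / x ^ 2 ↔ (c * x) ^ 2 * U2 x ≤ 1 := by
      rw [hk, neg_add_eq_sub, sub_nonneg, div_div, le_div_iff₀ (by positivity)]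
      constructor <;> intro h <;> nlinarith
    rw [e1, e2, e3]
  have hsec' : ∀ x, 0 < x → (√(U2 x))⁻¹ - c * x ≤ 0 → -U2 x + k / x ^ 2 ≤ 0 := by
    intro x hx h
    have hsp := Real.sqrt_pos.2 (hU2pos x)
    have h1 : 1 ≤ c * x * √(U2 x) := by
      have h2 : (√(U2 x))⁻¹ ≤ c * x := by linarith
      rwa [← one_div, div_le_iff₀ hsp] at h2
    have h3 : 1 ≤ (c * x) ^ 2 * U2 x := by
      have h4 : (c * x * √(U2 x)) ^ 2 = (c * x) ^ 2 * U2 x := by
        rw [mul_pow, Real.sq_sqrt (hU2pos x).le]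
      rw [← h4]
      exact one_le_pow₀ h1
    have h5 : k / x ^ 2 ≤ U2 x := by
      rw [hk, div_div, div_le_iff₀ (by positivity)]
      nlinarith
    linarith
  -- monotonicity of l1
  have hmono1 : MonotoneOn l1 (Ioc 0 x1) := by
    apply monotoneOn_of_deriv_nonneg (convex_Ioc 0 x1)
    · intro x hx
      exact (hdl1 x hx.1).continuousAt.continuousWithinAt
    · intro x hx
      rw [interior_Ioc] at hx
      exact (hdl1 x hx.1).differentiableAt.differentiableWithinAt
    · intro x hx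
      rw [interior_Ioc] at hx
      rw [(hdl1 x hx.1).deriv]
      exact (hsec x hx.1).1 (hx1a x hx.1 hx.2)
  have hanti1 : AntitoneOn l1 (Ioi x1) := by
    apply antitoneOn_of_deriv_nonpos (convex_Ioi x1)
    · intro x hx
      exact (hdl1 x (hx10.trans_lt hx)).continuousAt.continuousWithinAt
    · intro x hx
      rw [interior_Ioi] at hx
      exact (hdl1 x (hx10.trans_lt hx)).differentiableAt.differentiableWithinAt
    · intro x hx
      rw [interior_Ioi] at hx
      rw [(hdl1 x (hx10.trans_lt hx)).deriv]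
      exact hsec' x (hx10.trans_lt hx) (hx1b x hx)
  -- growth of U1 and U
  have hg1 : ∀ x, 0 ≤ x → U1 0 + c0 * x ≤ U1 x := by
    intro x hx
    have hm : MonotoneOn (fun y => U1 y - c0 * y) (Ici 0) := by
      apply monotoneOn_of_deriv_nonneg (convex_Ici 0)
      · intro y _
        exact ((hU2 y).sub ((hasDerivAt_id y).const_mul c0)).continuousAt.continuousWithinAt
      · intro y _
        exact ((hU2 y).sub ((hasDerivAt_id y).const_mul c0)).differentiableAt.differentiableWithinAt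
      · intro y _
        have h1 : HasDerivAt (fun y => U1 y - c0 * y) (U2 y - c0 * 1) y :=
          (hU2 y).sub ((hasDerivAt_id y).const_mul c0)
        rw [h1.deriv]
        have := h0 y
        linarith
    have := hm (mem_Ici.2 le_rfl) (mem_Ici.2 hx) hx
    simp only at this
    linarith
  have hg0 : ∀ x, 0 ≤ x → U 0 + U1 0 * x + c0 / 2 * x ^ 2 ≤ U x := by
    intro x hx
    have hm : MonotoneOn (fun y => U y - (U1 0 * y + c0 / 2 * y ^ 2)) (Ici 0) := by
      have hd : ∀ y, HasDerivAt (fun y => U y - (U1 0 * y + c0 / 2 * y ^ 2))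
          (U1 y - (U1 0 * 1 + c0 / 2 * (2 * y ^ (2 - 1) * 1))) y := by
        intro y
        exact (hU1 y).sub (((hasDerivAt_id y).const_mul (U1 0)).add
          (((hasDerivAt_id y).pow 2).const_mul (c0 / 2)))
      apply monotoneOn_of_deriv_nonneg (convex_Ici 0)
      · intro y _
        exact (hd y).continuousAt.continuousWithinAt
      · intro y _
        exact (hd y).differentiableAt.differentiableWithinAt
      · intro y hy
        rw [interior_Ici] at hy
        rw [(hd y).deriv]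
        have := hg1 y (le_of_lt hy)
        simp only [Nat.add_one_sub_one, pow_one]
        linarith
    have := hm (mem_Ici.2 le_rfl) (mem_Ici.2 hx) hx
    simp only at this
    nlinarith
  -- s and t
  obtain ⟨s, hs0, hsx1, hsa, hsb⟩ := cut_mono (f := l1) hx10 (hmono1.mono Ioo_subset_Ioc_self)
  obtain ⟨t, htx1, hta, htb⟩ := cut_anti' (f := l1) (u := x1) (V := max 1 ((β - U1 0) / c0))
    hanti1 (by
      intro x hx
      have hx1 : 1 ≤ x := (le_max_left _ _).trans hx
      have hx2 : (β - U1 0) / c0 ≤ x := (le_max_right _ _).trans hx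
      rw [div_le_iff₀ hc0] at hx2
      have h1 := hg1 x (by linarith)
      have h2 : 0 ≤ k / x := by positivity
      simp only [hl1]
      linarith)
  have hst : s ≤ t := hsx1.trans htx1
  have hpos1 : ∀ x, s < x → x < t → 0 ≤ l1 x := by
    intro x hsx hxt
    rcases lt_trichotomy x x1 with h | h | h
    · exact hsb x hsx h
    · subst h
      have hm1 : s < (s + x) / 2 := by linarith
      have hm2 : (s + x) / 2 < x := by linarith
      have h1 := hsb _ hm1 hm2
      have h2 := hmono1 (show (s + x) / 2 ∈ Ioc 0 x from ⟨by linarith, hm2.le⟩)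
        (show x ∈ Ioc 0 x from ⟨by linarith, le_rfl⟩) hm2.le
      linarith
    · exact hta x h hxt
  -- monotonicity of l
  have hl_a : AntitoneOn l (Ioo 0 s) := by
    apply antitoneOn_of_deriv_nonpos (convex_Ioo 0 s)
    · intro x hx
      exact (hdl x hx.1).continuousAt.continuousWithinAt
    · intro x hx
      rw [interior_Ioo] at hx
      exact (hdl x hx.1).differentiableAt.differentiableWithinAt
    · intro x hx
      rw [interior_Ioo] at hx
      rw [(hdl x hx.1).deriv]
      exact hsa x hx.1 hx.2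
  have hl_b : MonotoneOn l (Ioo s t) := by
    apply monotoneOn_of_deriv_nonneg (convex_Ioo s t)
    · intro x hx
      exact (hdl x (hs0.trans_lt hx.1)).continuousAt.continuousWithinAt
    · intro x hx
      rw [interior_Ioo] at hx
      exact (hdl x (hs0.trans_lt hx.1)).differentiableAt.differentiableWithinAt
    · intro x hx
      rw [interior_Ioo] at hx
      rw [(hdl x (hs0.trans_lt hx.1)).deriv]
      exact hpos1 x hx.1 hx.2
  have ht0 : 0 ≤ t := hs0.trans hst
  have hl_c : AntitoneOn l (Ioi t) := by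
    apply antitoneOn_of_deriv_nonpos (convex_Ioi t)
    · intro x hx
      exact (hdl x (ht0.trans_lt hx)).continuousAt.continuousWithinAt
    · intro x hx
      rw [interior_Ioi] at hx
      exact (hdl x (ht0.trans_lt hx)).differentiableAt.differentiableWithinAt
    · intro x hx
      rw [interior_Ioi] at hx
      rw [(hdl x (ht0.trans_lt hx)).deriv]
      exact htb x hx
  obtain ⟨a, ha0, has, haa, hab⟩ := cut_anti hs0 hl_a
  obtain ⟨b, hsb', hbt, hba, hbb⟩ := cut_mono hst hl_b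
  obtain ⟨d, htd, hda, hdb⟩ := cut_anti' (f := l) (u := t)
    (V := max 1 (2 * (|β - U1 0| + |U 0 + LA|) / c0)) hl_c (by
      intro x hx
      have hx1 : 1 ≤ x := (le_max_left _ _).trans hx
      have hx2 : 2 * (|β - U1 0| + |U 0 + LA|) / c0 ≤ x := (le_max_right _ _).trans hx
      rw [div_le_iff₀ hc0] at hx2
      have h1 := hg0 x (by linarith)
      have h2 : 0 ≤ k * log x := mul_nonneg hkpos.le (log_nonneg hx1)
      have h3 := le_abs_self (β - U1 0)
      have h4 := neg_abs_le (U 0 + LA)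
      have h5 : 0 ≤ |U 0 + LA| := abs_nonneg _
      simp only [hl]
      nlinarith [mul_le_mul_of_nonneg_right h3 (by linarith : (0:ℝ) ≤ x),
        mul_le_mul_of_nonneg_right hx2 (by linarith : (0:ℝ) ≤ x),
        mul_nonneg h5 (by linarith : (0:ℝ) ≤ x - 1)])
  exact ⟨a, b, d, s, t, ha0, has, hsb', hbt, htd, haa, hab, hba, hbb, hda, hdb⟩

/-! ### Gamma densities -/

/-- The Gamma density of shape `k+1` and rate `β`. -/
noncomputable def q (k β : ℝ) : ℝ → ℝ :=
  (Ioi (0 : ℝ)).indicator fun x => exp (log (((1 / β) ^ (k + 1) * Gamma (k + 1))⁻¹) + k * log x - β * x)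

theorem q_eq {k β : ℝ} (hk : 0 < k) (hβ : 0 < β) {x : ℝ} (hx : 0 < x) :
    q k β x = ((1 / β) ^ (k + 1) * Gamma (k + 1))⁻¹ * (x ^ k * exp (-β * x)) := by
  have hG : 0 < (1 / β) ^ (k + 1) * Gamma (k + 1) :=
    mul_pos (rpow_pos_of_pos (by positivity) _) (Gamma_pos_of_pos (by linarith))
  unfold q
  rw [indicator_of_mem (show x ∈ Ioi (0 : ℝ) from hx)]
  rw [show log (((1 / β) ^ (k + 1) * Gamma (k + 1))⁻¹) + k * log x - β * x =
    log (((1 / β) ^ (k + 1) * Gamma (k + 1))⁻¹) + (log x * k + (-β * x)) by ring]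
  rw [exp_add, exp_log (inv_pos.2 hG), exp_add, ← rpow_def_of_pos hx]

theorem q_int {k β : ℝ} (hk : 0 < k) (hβ : 0 < β) (j : ℕ) :
    Integrable (fun x => x ^ j * q k β x) ∧
    ∫ x, x ^ j * q k β x = (1 / β) ^ j * (Gamma (k + 1 + j) / Gamma (k + 1)) := by
  have hG : 0 < (1 / β) ^ (k + 1) * Gamma (k + 1) :=
    mul_pos (rpow_pos_of_pos (by positivity) _) (Gamma_pos_of_pos (by linarith))
  set A := ((1 / β) ^ (k + 1) * Gamma (k + 1))⁻¹ with hA
  have h1 : (fun x => x ^ j * q k β x) =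
      (Ioi (0 : ℝ)).indicator (fun x => A * (x ^ (k + j) * exp (-β * x ^ (1 : ℝ)))) := by
    funext x
    by_cases hx : 0 < x
    · rw [indicator_of_mem (show x ∈ Ioi (0 : ℝ) from hx), q_eq hk hβ hx, rpow_add hx,
        rpow_natCast, rpow_one]
      ring
    · rw [indicator_of_notMem (show x ∉ Ioi (0 : ℝ) from hx)]
      unfold q
      rw [indicator_of_notMem (show x ∉ Ioi (0 : ℝ) from hx), mul_zero]
  have h2 : IntegrableOn (fun x : ℝ => x ^ (k + j) * exp (-β * x ^ (1 : ℝ))) (Ioi 0) :=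
    integrableOn_rpow_mul_exp_neg_mul_rpow (by have : (0:ℝ) ≤ j := Nat.cast_nonneg j; linarith) one_pos hβ
  constructor
  · rw [h1, integrable_indicator_iff measurableSet_Ioi]
    exact h2.const_mul A
  · rw [h1, integral_indicator measurableSet_Ioi, integral_const_mul]
    have h3 : ∫ x in Ioi (0 : ℝ), x ^ (k + j) * exp (-β * x ^ (1 : ℝ)) =
        (1 / β) ^ (k + 1 + j) * Gamma (k + 1 + j) := by
      rw [← integral_rpow_mul_exp_neg_mul_Ioi (by positivity) hβ]
      refine setIntegral_congr_fun measurableSet_Ioi fun x hx => ?_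
      simp only [rpow_one]
      congr 2 <;> ring
    rw [h3, rpow_add (by positivity), rpow_natCast, hA]
    have h4 : (1 / β) ^ (k + 1) ≠ 0 := (rpow_pos_of_pos (by positivity) _).ne'
    have h5 : Gamma (k + 1) ≠ 0 := (Gamma_pos_of_pos (by linarith)).ne'
    field_simp

theorem gam1 {a : ℝ} (ha : 0 < a) : Gamma (a + (1 : ℕ)) / Gamma a = a := by
  have h5 : Gamma a ≠ 0 := (Gamma_pos_of_pos ha).ne'
  rw [Nat.cast_one, Gamma_add_one ha.ne']
  field_simp

theorem gam2 {a : ℝ} (ha : 0 < a) : Gamma (a + (2 : ℕ)) / Gamma a = (a + 1) * a := by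
  have h5 : Gamma a ≠ 0 := (Gamma_pos_of_pos ha).ne'
  rw [show a + ((2 : ℕ) : ℝ) = (a + 1) + 1 by push_cast; ring, Gamma_add_one (by positivity),
    Gamma_add_one ha.ne']
  field_simp

theorem gam3 {a : ℝ} (ha : 0 < a) : Gamma (a + (3 : ℕ)) / Gamma a = (a + 2) * (a + 1) * a := by
  have h5 : Gamma a ≠ 0 := (Gamma_pos_of_pos ha).ne'
  rw [show a + ((3 : ℕ) : ℝ) = ((a + 1) + 1) + 1 by push_cast; ring, Gamma_add_one (by positivity),
    Gamma_add_one (by positivity), Gamma_add_one ha.ne']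
  field_simp
  ring

/-! ### Integrability -/

theorem growth {U U1 U2 : ℝ → ℝ} {c0 : ℝ} (hU1 : ∀ x, HasDerivAt U (U1 x) x)
    (hU2 : ∀ x, HasDerivAt U1 (U2 x) x) (h0 : ∀ x, c0 ≤ U2 x) (x : ℝ) :
    U 0 + U1 0 * x + c0 / 2 * x ^ 2 ≤ U x := by
  have hconv : ConvexOn ℝ univ (fun y => U y - (c0 / 2 * y ^ 2)) := by
    have hd : ∀ y, HasDerivAt (fun y => U y - (c0 / 2 * y ^ 2)) (U1 y - c0 * y) y := by
      intro y
      have h1 := (hU1 y).sub (((hasDerivAt_id y).pow 2).const_mul (c0 / 2))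
      refine h1.congr_deriv ?_
      simp
      ring
    have hd2 : ∀ y, HasDerivAt (fun y => U1 y - c0 * y) (U2 y - c0) y := by
      intro y
      have h1 := (hU2 y).sub ((hasDerivAt_id y).const_mul c0)
      refine h1.congr_deriv ?_
      simp
    apply convexOn_of_hasDerivWithinAt2_nonneg (f' := fun y => U1 y - c0 * y)
      (f'' := fun y => U2 y - c0) convex_univ
    · exact fun y _ => (hd y).continuousAt.continuousWithinAt
    · intro y _
      exact (hd y).hasDerivWithinAt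
    · intro y _
      exact (hd2 y).hasDerivWithinAt
    · intro y _
      have := h0 y
      linarith
  have hd0 : HasDerivAt (fun y => U y - (c0 / 2 * y ^ 2)) (U1 0) 0 := by
    have h1 := (hU1 0).sub (((hasDerivAt_id (0:ℝ)).pow 2).const_mul (c0 / 2))
    refine h1.congr_deriv ?_
    simp
  have key : (fun y => U y - (c0 / 2 * y ^ 2)) 0 + U1 0 * x ≤ (fun y => U y - (c0 / 2 * y ^ 2)) x := by
    rcases lt_trichotomy x 0 with hx | hx | hx
    · have h2 := hconv.slope_le_of_hasDerivAt (mem_univ x) (mem_univ 0) hx hd0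
      rw [slope_def_field, div_le_iff₀ (by linarith)] at h2
      simp only at h2 ⊢
      linarith
    · subst hx; simp
    · have h2 := hconv.le_slope_of_hasDerivAt (mem_univ 0) (mem_univ x) hx hd0
      rw [slope_def_field, le_div_iff₀ (by linarith)] at h2
      simp only at h2 ⊢
      linarith
  simp only at key
  nlinarith

theorem integrable_pow_mul {U : ℝ → ℝ} (hU : Continuous U) {A B c0 : ℝ} (hc0 : 0 < c0)
    (h : ∀ x, A + B * x + c0 / 2 * x ^ 2 ≤ U x) (j : ℕ) :
    Integrable (fun x => x ^ j * exp (-U x)) := by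
  have hg : Integrable (fun x : ℝ => (j.factorial : ℝ) * (exp (-A) * exp ((1 + |B|) ^ 2 / c0)) *
      exp (-(c0 / 4) * x ^ 2)) := (integrable_exp_neg_mul_sq (by positivity)).const_mul _
  refine hg.mono' (by fun_prop) (Eventually.of_forall fun x => ?_)
  rw [norm_mul, norm_pow, Real.norm_eq_abs, Real.norm_eq_abs, abs_of_pos (exp_pos _)]
  have h1 : |x| ^ j ≤ (j.factorial : ℝ) * exp |x| := by
    have := Real.pow_div_factorial_le_exp |x| (abs_nonneg x) j
    rwa [div_le_iff₀ (by positivity), mul_comm] at this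
  have h2 : exp |x| * exp (-U x) ≤ exp (-A) * exp ((1 + |B|) ^ 2 / c0) * exp (-(c0 / 4) * x ^ 2) := by
    rw [← exp_add, ← exp_add, ← exp_add]
    apply exp_le_exp.2
    have h3 := h x
    have h4 : -(|B| * |x|) ≤ B * x := by
      rw [← abs_mul]; exact neg_abs_le _
    have h5 : (1 + |B|) * |x| ≤ (1 + |B|) ^ 2 / c0 + c0 / 4 * x ^ 2 := by
      have h6 : 0 ≤ ((1 + |B|) / √c0 - √c0 / 2 * |x|) ^ 2 := sq_nonneg _
      have h7 : ((1 + |B|) / √c0 - √c0 / 2 * |x|) ^ 2 =
          (1 + |B|) ^ 2 / c0 + c0 / 4 * x ^ 2 - (1 + |B|) * |x| := by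
        have h8 : √c0 ≠ 0 := (Real.sqrt_pos.2 hc0).ne'
        rw [sub_sq, div_pow, Real.sq_sqrt hc0.le, mul_pow, div_pow, Real.sq_sqrt hc0.le, sq_abs]
        field_simp
        ring
      linarith
    linarith
  calc |x| ^ j * exp (-U x) ≤ ((j.factorial : ℝ) * exp |x|) * exp (-U x) :=
        mul_le_mul_of_nonneg_right h1 (exp_pos _).le
    _ = (j.factorial : ℝ) * (exp |x| * exp (-U x)) := by ring
    _ ≤ (j.factorial : ℝ) * (exp (-A) * exp ((1 + |B|) ^ 2 / c0) * exp (-(c0 / 4) * x ^ 2)) :=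
        mul_le_mul_of_nonneg_left h2 (by positivity)
    _ = _ := by ring

/-! ### The comparison -/

theorem int_comb {f0 f1 f2 f3 : ℝ → ℝ} (h0 : Integrable f0) (h1 : Integrable f1)
    (h2 : Integrable f2) (h3 : Integrable f3) (A B C : ℝ) :
    ∫ x, (f3 x - A * f2 x + B * f1 x - C * f0 x) =
      (∫ x, f3 x) - A * (∫ x, f2 x) + B * (∫ x, f1 x) - C * ∫ x, f0 x := by
  have i2 := h2.const_mul A
  have i1 := h1.const_mul B
  have i0 := h0.const_mul C
  have j1 : Integrable (fun x => f3 x - A * f2 x) := h3.sub i2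
  have j2 : Integrable (fun x => f3 x - A * f2 x + B * f1 x) := j1.add i1
  rw [integral_sub j2 i0, integral_add j1 i1, integral_sub h3 i2, integral_const_mul,
    integral_const_mul, integral_const_mul]

/-- Normalised form, the gamma law of shape `k+1` and rate `β` having the same mass, first and
second moment. -/
theorem core {U U1 U2 : ℝ → ℝ} {c0 c k β : ℝ} (hU1 : ∀ x, HasDerivAt U (U1 x) x)
    (hU2 : ∀ x, HasDerivAt U1 (U2 x) x) (hc0 : 0 < c0) (h0 : ∀ x, c0 ≤ U2 x) (hc : 0 < c)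
    (hk : k = 1 / c ^ 2) (hβ : 0 < β)
    (hL : ∀ x y, |(√(U2 x))⁻¹ - (√(U2 y))⁻¹| ≤ c * |x - y|)
    (hm0 : ∫ x, exp (-U x) = 1) (hm1 : ∫ x, x * exp (-U x) = (k + 1) / β)
    (hm2 : ∫ x, x ^ 2 * exp (-U x) = (k + 2) * (k + 1) / β ^ 2) :
    ∫ x, x ^ 3 * exp (-U x) ≤ (k + 3) * (k + 2) * (k + 1) / β ^ 3 := by
  have hkpos : 0 < k := by rw [hk]; positivity
  have hUc : Continuous U := continuous_iff_continuousAt.2 fun x => (hU1 x).continuousAt
  have hp := integrable_pow_mul hUc hc0 (growth hU1 hU2 h0)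
  have hq := q_int hkpos hβ
  obtain ⟨a, b, d, s, t, ha0, has, hsb, hbt, htd, p1, p2, p3, p4, p5, p6⟩ :=
    pattern (LA := log (((1 / β) ^ (k + 1) * Gamma (k + 1))⁻¹)) (β := β) hU1 hU2 hc0 h0 hc hk hL
  have hqx : ∀ x, 0 < x → q k β x =
      exp (log (((1 / β) ^ (k + 1) * Gamma (k + 1))⁻¹) + k * log x - β * x) := by
    intro x hx
    unfold q
    rw [indicator_of_mem (show x ∈ Ioi (0 : ℝ) from hx)]
  have hqx0 : ∀ x, x ≤ 0 → q k β x = 0 := by
    intro x hx
    unfold q
    rw [indicator_of_notMem (show x ∉ Ioi (0 : ℝ) from not_lt.2 hx)]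
  have hpos : ∀ x, 0 < x →
      0 ≤ -U x - (log (((1 / β) ^ (k + 1) * Gamma (k + 1))⁻¹) + k * log x - β * x) →
      0 ≤ exp (-U x) - q k β x := by
    intro x hx h
    rw [hqx x hx, sub_nonneg]
    exact exp_le_exp.2 (by linarith)
  have hneg : ∀ x, 0 < x →
      -U x - (log (((1 / β) ^ (k + 1) * Gamma (k + 1))⁻¹) + k * log x - β * x) ≤ 0 →
      exp (-U x) - q k β x ≤ 0 := by
    intro x hx h
    rw [hqx x hx, sub_nonpos]
    exact exp_le_exp.2 (by linarith)
  -- pointwise sign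
  have hsign : ∀ x, x ∉ ({0, s, t, a, b, d} : Set ℝ) →
      (x - a) * (x - b) * (x - d) * (exp (-U x) - q k β x) ≤ 0 := by
    intro x hx
    simp only [mem_insert_iff, mem_singleton_iff, not_or] at hx
    obtain ⟨n0, ns, nt, na, nb, nd⟩ := hx
    rcases lt_or_gt_of_ne n0 with h | h
    · -- x < 0
      rw [hqx0 x h.le, sub_zero]
      have e1 : 0 < (x - a) * (x - b) := mul_pos_of_neg_of_neg (by linarith) (by linarith)
      have e2 : (x - a) * (x - b) * (x - d) < 0 := mul_neg_of_pos_of_neg e1 (by linarith)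
      exact (mul_neg_of_neg_of_pos e2 (exp_pos _)).le
    rcases lt_or_gt_of_ne na with ha | ha
    · have e0 := hpos x h (p1 x h ha)
      have e1 : 0 < (x - a) * (x - b) := mul_pos_of_neg_of_neg (by linarith) (by linarith)
      have e2 : (x - a) * (x - b) * (x - d) < 0 := mul_neg_of_pos_of_neg e1 (by linarith)
      exact mul_nonpos_of_nonpos_of_nonneg e2.le e0
    rcases lt_or_gt_of_ne ns with hs | hs
    · have e0 := hneg x h (p2 x ha hs)
      have e1 : (x - a) * (x - b) < 0 := mul_neg_of_pos_of_neg (by linarith) (by linarith)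
      have e2 : 0 < (x - a) * (x - b) * (x - d) := mul_pos_of_neg_of_neg e1 (by linarith)
      exact mul_nonpos_of_nonneg_of_nonpos e2.le e0
    rcases lt_or_gt_of_ne nb with hb | hb
    · have e0 := hneg x h (p3 x hs hb)
      have e1 : (x - a) * (x - b) < 0 := mul_neg_of_pos_of_neg (by linarith) (by linarith)
      have e2 : 0 < (x - a) * (x - b) * (x - d) := mul_pos_of_neg_of_neg e1 (by linarith)
      exact mul_nonpos_of_nonneg_of_nonpos e2.le e0
    rcases lt_or_gt_of_ne nt with ht | ht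
    · have e0 := hpos x h (p4 x hb ht)
      have e1 : 0 < (x - a) * (x - b) := mul_pos (by linarith) (by linarith)
      have e2 : (x - a) * (x - b) * (x - d) < 0 := mul_neg_of_pos_of_neg e1 (by linarith)
      exact mul_nonpos_of_nonpos_of_nonneg e2.le e0
    rcases lt_or_gt_of_ne nd with hd | hd
    · have e0 := hpos x h (p5 x ht hd)
      have e1 : 0 < (x - a) * (x - b) := mul_pos (by linarith) (by linarith)
      have e2 : (x - a) * (x - b) * (x - d) < 0 := mul_neg_of_pos_of_neg e1 (by linarith)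
      exact mul_nonpos_of_nonpos_of_nonneg e2.le e0
    · have e0 := hneg x h (p6 x hd)
      have e1 : 0 < (x - a) * (x - b) := mul_pos (by linarith) (by linarith)
      have e2 : 0 < (x - a) * (x - b) * (x - d) := mul_pos e1 (by linarith)
      exact mul_nonpos_of_nonneg_of_nonpos e2.le e0
  have hae : ∀ᵐ x : ℝ, (x - a) * (x - b) * (x - d) * (exp (-U x) - q k β x) ≤ 0 := by
    have hfin : ({0, s, t, a, b, d} : Set ℝ).Countable :=
      (Set.toFinite _).countable
    filter_upwards [hfin.ae_notMem volume] with x hx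
    exact hsign x hx
  have hint : ∫ x, (x - a) * (x - b) * (x - d) * (exp (-U x) - q k β x) ≤ 0 :=
    integral_nonpos_of_ae hae
  -- expansion
  set h : ℝ → ℝ := fun x => exp (-U x) - q k β x with hh
  have hj : ∀ j : ℕ, Integrable (fun x => x ^ j * h x) := by
    intro j
    have := (hp j).sub (hq j).1
    refine this.congr (Eventually.of_forall fun x => ?_)
    simp only [hh, Pi.sub_apply]
    ring
  have hjv : ∀ j : ℕ, ∫ x, x ^ j * h x = (∫ x, x ^ j * exp (-U x)) -
      (1 / β) ^ j * (Gamma (k + 1 + j) / Gamma (k + 1)) := by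
    intro j
    rw [← (hq j).2, ← integral_sub (hp j) (hq j).1]
    refine integral_congr_ae (Eventually.of_forall fun x => ?_)
    simp only [hh]
    ring
  have hexp : ∫ x, (x - a) * (x - b) * (x - d) * h x =
      (∫ x, x ^ 3 * h x) - (a + b + d) * (∫ x, x ^ 2 * h x) +
        (a * b + b * d + a * d) * (∫ x, x ^ 1 * h x) - a * b * d * ∫ x, x ^ 0 * h x := by
    rw [← int_comb (hj 0) (hj 1) (hj 2) (hj 3)]
    refine integral_congr_ae (Eventually.of_forall fun x => ?_)
    simp only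
    ring
  have hG : Gamma (k + 1) ≠ 0 := (Gamma_pos_of_pos (by linarith)).ne'
  have z0 : ∫ x, x ^ 0 * h x = 0 := by
    rw [hjv 0]
    simp only [pow_zero, one_mul, Nat.cast_zero, add_zero, div_self hG, hm0, sub_self]
  have z1 : ∫ x, x ^ 1 * h x = 0 := by
    rw [hjv 1, gam1 (by linarith)]
    simp only [pow_one]
    rw [hm1]
    ring
  have z2 : ∫ x, x ^ 2 * h x = 0 := by
    rw [hjv 2, gam2 (by linarith), hm2]
    rw [div_pow, one_pow]
    ring
  have z3 : ∫ x, x ^ 3 * h x ≤ 0 := by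
    rw [hexp, z0, z1, z2] at hint
    linarith
  rw [hjv 3, gam3 (by linarith)] at z3
  have e : (1 / β) ^ 3 * ((k + 1 + 2) * (k + 1 + 1) * (k + 1)) =
      (k + 3) * (k + 2) * (k + 1) / β ^ 3 := by
    rw [div_pow, one_pow]
    ring
  rw [e] at z3
  linarith

/-- Upper bound for the third central moment. -/
theorem third_le' {W W1 W2 : ℝ → ℝ} {c0 c : ℝ} (hW1 : ∀ x, HasDerivAt W (W1 x) x)
    (hW2 : ∀ x, HasDerivAt W1 (W2 x) x) (hc0 : 0 < c0) (h0 : ∀ x, c0 ≤ W2 x) (hc : 0 < c)
    (hL : ∀ x y, |(√(W2 x))⁻¹ - (√(W2 y))⁻¹| ≤ c * |x - y|) {Z m v : ℝ}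
    (hZ : Z = ∫ x, exp (-W x)) (hm : m = (∫ x, x * exp (-W x)) / Z)
    (hv : v = (∫ x, (x - m) ^ 2 * exp (-W x)) / Z) :
    (∫ x, (x - m) ^ 3 * exp (-W x)) / Z ≤ 2 * (c / √(1 + c ^ 2)) * √v ^ 3 := by
  have hWc : Continuous W := continuous_iff_continuousAt.2 fun x => (hW1 x).continuousAt
  have hp := integrable_pow_mul hWc hc0 (growth hW1 hW2 h0)
  have hI0 : Integrable (fun x => exp (-W x)) := by simpa using hp 0
  have hZpos : 0 < Z := by
    rw [hZ]
    exact integral_exp_pos hI0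
  have hI1 : Integrable (fun x => x * exp (-W x)) := by simpa using hp 1
  have hI2 := hp 2
  have hI3 := hp 3
  -- positivity of the variance
  have hIc2 : Integrable (fun x => (x - m) ^ 2 * exp (-W x)) := by
    have := (hI2.sub (hI1.const_mul (2 * m))).add (hI0.const_mul (m ^ 2))
    refine this.congr (Eventually.of_forall fun x => ?_)
    simp only [Pi.sub_apply, Pi.add_apply]
    ring
  have hvpos : 0 < v := by
    rw [hv]
    apply div_pos _ hZpos
    rw [integral_pos_iff_support_of_nonneg (fun x => mul_nonneg (sq_nonneg _) (exp_pos _).le) hIc2]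
    have hsup : Function.support (fun x => (x - m) ^ 2 * exp (-W x)) = {m}ᶜ := by
      ext x
      simp only [Function.mem_support, mem_compl_iff, mem_singleton_iff]
      constructor
      · intro h hx
        apply h
        rw [hx]
        simp
      · intro h
        exact mul_ne_zero (pow_ne_zero _ (sub_ne_zero.2 h)) (exp_pos _).ne'
    rw [hsup]
    have : volume ({m}ᶜ : Set ℝ) = ⊤ := by
      rw [measure_compl (measurableSet_singleton m) (by simp)]
      simp
    rw [this]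
    exact ENNReal.zero_lt_top
  obtain ⟨k, hk⟩ : ∃ k : ℝ, k = 1 / c ^ 2 := ⟨_, rfl⟩
  have hkpos : 0 < k := by rw [hk]; positivity
  set β : ℝ := √(k + 1) / √v with hβ
  have hs1 : 0 < √(k + 1) := Real.sqrt_pos.2 (by linarith)
  have hsv : 0 < √v := Real.sqrt_pos.2 hvpos
  have hβpos : 0 < β := div_pos hs1 hsv
  set x0 : ℝ := m - (k + 1) / β with hx0
  set U : ℝ → ℝ := fun x => W (x + x0) + log Z with hU
  have hexpU : ∀ x, exp (-U x) = exp (-W (x + x0)) / Z := by
    intro x
    simp only [hU]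
    rw [neg_add, exp_add, exp_neg (log Z), exp_log hZpos]
    rfl
  have hU1 : ∀ x, HasDerivAt U (W1 (x + x0)) x := by
    intro x
    exact ((hW1 (x + x0)).comp_add_const x x0).add_const _
  have hU2 : ∀ x, HasDerivAt (fun x => W1 (x + x0)) (W2 (x + x0)) x := by
    intro x
    exact (hW2 (x + x0)).comp_add_const x x0
  -- moments of the translated density
  have hmom : ∀ f : ℝ → ℝ, ∫ x, f x * exp (-U x) = (∫ x, f (x - x0) * exp (-W x)) / Z := by
    intro f
    have h1 : ∫ x, f x * exp (-U x) = (∫ x, f x * exp (-W (x + x0))) / Z := by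
      rw [← integral_div]
      refine integral_congr_ae (Eventually.of_forall fun x => ?_)
      simp only [hexpU]
      ring
    rw [h1]
    congr 1
    have h2 := integral_add_right_eq_self (μ := (volume : Measure ℝ))
      (fun x => f (x - x0) * exp (-W x)) x0
    rw [← h2]
    refine integral_congr_ae (Eventually.of_forall fun x => ?_)
    simp only [add_sub_cancel_right]
  have hmZ : ∫ x, x * exp (-W x) = m * Z := by
    rw [hm]; field_simp
  have hvZ : ∫ x, (x - m) ^ 2 * exp (-W x) = v * Z := by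
    rw [hv]; field_simp
  have hc1 : ∫ x, (x - m) * exp (-W x) = 0 := by
    have : ∫ x, (x - m) * exp (-W x) = (∫ x, x * exp (-W x)) - m * ∫ x, exp (-W x) := by
      rw [← integral_const_mul, ← integral_sub hI1 (hI0.const_mul m)]
      refine integral_congr_ae (Eventually.of_forall fun x => ?_)
      simp only
      ring
    rw [this, hmZ, ← hZ]
    ring
  have hIc1 : Integrable (fun x => (x - m) * exp (-W x)) := by
    have := hI1.sub (hI0.const_mul m)
    refine this.congr (Eventually.of_forall fun x => ?_)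
    simp only [Pi.sub_apply]
    ring
  have hIc3 : Integrable (fun x => (x - m) ^ 3 * exp (-W x)) := by
    have := ((hI3.sub (hI2.const_mul (3 * m))).add (hI1.const_mul (3 * m ^ 2))).sub
      (hI0.const_mul (m ^ 3))
    refine this.congr (Eventually.of_forall fun x => ?_)
    simp only [Pi.sub_apply, Pi.add_apply]
    ring
  set T := ∫ x, (x - m) ^ 3 * exp (-W x) with hT
  set r : ℝ := (k + 1) / β with hr
  have hmx : m = x0 + r := by rw [hx0]; ring
  have hm0 : ∫ x, exp (-U x) = 1 := by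
    have := hmom (fun _ => 1)
    simp only [one_mul] at this
    rw [this, ← hZ, div_self hZpos.ne']
  have hm1 : ∫ x, x * exp (-U x) = (k + 1) / β := by
    have h1 := hmom (fun x => x)
    rw [h1, div_eq_iff hZpos.ne']
    have h2 := int_comb hI0 hIc1 hIc1 hIc1 0 0 (-r)
    have h3 : ∫ x, (x - x0) * exp (-W x) = ∫ x, ((x - m) * exp (-W x) -
        0 * ((x - m) * exp (-W x)) + 0 * ((x - m) * exp (-W x)) - (-r) * exp (-W x)) := by
      refine integral_congr_ae (Eventually.of_forall fun x => ?_)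
      simp only
      rw [hmx]
      ring
    rw [h3, h2, hc1, ← hZ]
    ring
  have hrv : r ^ 2 = (k + 1) * v := by
    rw [hr, hβ]
    have e1 : √(k + 1) ^ 2 = k + 1 := Real.sq_sqrt (by linarith)
    have e2 : √v ^ 2 = v := Real.sq_sqrt hvpos.le
    rw [div_div_eq_mul_div, div_pow, mul_pow, e1, e2]
    field_simp
  have hβv : 1 / β ^ 2 = v / (k + 1) := by
    rw [hβ, div_pow, Real.sq_sqrt (by linarith), Real.sq_sqrt hvpos.le, one_div_div]
  have hm2 : ∫ x, x ^ 2 * exp (-U x) = (k + 2) * (k + 1) / β ^ 2 := by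
    have h1 := hmom (fun x => x ^ 2)
    rw [h1, div_eq_iff hZpos.ne']
    have h2 := int_comb hI0 hIc1 hIc2 hIc2 0 (2 * r) (-r ^ 2)
    have h3 : ∫ x, (x - x0) ^ 2 * exp (-W x) = ∫ x, ((x - m) ^ 2 * exp (-W x) -
        0 * ((x - m) ^ 2 * exp (-W x)) + (2 * r) * ((x - m) * exp (-W x)) -
          (-r ^ 2) * exp (-W x)) := by
      refine integral_congr_ae (Eventually.of_forall fun x => ?_)
      simp only
      rw [hmx]
      ring
    rw [h3, h2, hc1, ← hZ, hvZ, hrv]
    have e : (k + 2) * (k + 1) / β ^ 2 = (k + 2) * v := by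
      rw [← mul_one_div, hβv]
      field_simp
    rw [e]
    ring
  have hmain := core (U := U) (U1 := fun x => W1 (x + x0)) (U2 := fun x => W2 (x + x0)) hU1 hU2 hc0
    (fun x => h0 _) hc hk hβpos (fun x y => by
      have := hL (x + x0) (y + x0)
      rwa [add_sub_add_right_eq_sub] at this) hm0 hm1 hm2
  have h1 := hmom (fun x => x ^ 3)
  rw [h1] at hmain
  have h2 := int_comb hI0 hIc1 hIc2 hIc3 (-(3 * r)) (3 * r ^ 2) (-r ^ 3)
  have h3 : ∫ x, (x - x0) ^ 3 * exp (-W x) = ∫ x, ((x - m) ^ 3 * exp (-W x) -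
      (-(3 * r)) * ((x - m) ^ 2 * exp (-W x)) + (3 * r ^ 2) * ((x - m) * exp (-W x)) -
        (-r ^ 3) * exp (-W x)) := by
    refine integral_congr_ae (Eventually.of_forall fun x => ?_)
    simp only
    rw [hmx]
    ring
  rw [h3, h2, hc1, ← hZ, hvZ] at hmain
  have h4 : (T - -(3 * r) * (v * Z) + 3 * r ^ 2 * 0 - -r ^ 3 * Z) / Z = T / Z + 3 * r * v + r ^ 3 := by
    field_simp
    ring
  rw [h4] at hmain
  -- arithmetic: r = (k+1)/β, v = (k+1)/β²
  have hvβ : v = (k + 1) / β ^ 2 := by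
    rw [← mul_one_div, hβv]
    field_simp
  have h5 : T / Z ≤ 2 * (k + 1) / β ^ 3 := by
    have e : (k + 3) * (k + 2) * (k + 1) / β ^ 3 - 3 * r * v - r ^ 3 = 2 * (k + 1) / β ^ 3 := by
      rw [hvβ, hr]
      field_simp
      ring
    linarith
  refine h5.trans (le_of_eq ?_)
  rw [hβ, div_pow]
  have e1 : √(k + 1) ^ 3 = (k + 1) * √(k + 1) := by
    rw [pow_succ, Real.sq_sqrt (by linarith)]
  rw [e1]
  have e2 : √(1 + c ^ 2) = c * √(k + 1) := by
    have : 1 + c ^ 2 = c ^ 2 * (k + 1) := by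
      rw [hk]; field_simp
    rw [this, Real.sqrt_mul (by positivity), Real.sqrt_sq hc.le]
  rw [e2]
  field_simp

/-- `c`-self-concordance in one dimension (in the form: `(W'')^{-1/2}` is `c`-Lipschitz) bounds the
third central moment. -/
theorem third_le {W W1 W2 : ℝ → ℝ} {c0 c : ℝ} (hW1 : ∀ x, HasDerivAt W (W1 x) x)
    (hW2 : ∀ x, HasDerivAt W1 (W2 x) x) (hc0 : 0 < c0) (h0 : ∀ x, c0 ≤ W2 x) (hc : 0 < c)
    (hL : ∀ x y, |(√(W2 x))⁻¹ - (√(W2 y))⁻¹| ≤ c * |x - y|) {Z m v : ℝ}
    (hZ : Z = ∫ x, exp (-W x)) (hm : m = (∫ x, x * exp (-W x)) / Z)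
    (hv : v = (∫ x, (x - m) ^ 2 * exp (-W x)) / Z) :
    |(∫ x, (x - m) ^ 3 * exp (-W x)) / Z| ≤ 2 * (c / √(1 + c ^ 2)) * √v ^ 3 := by
  have hup := third_le' hW1 hW2 hc0 h0 hc hL hZ hm hv
  have hneg1 : ∀ x, HasDerivAt (fun x => W (-x)) (-W1 (-x)) x := by
    intro x
    have := (hW1 (-x)).comp x (hasDerivAt_neg x)
    rw [mul_neg, mul_one] at this
    exact this
  have hneg2 : ∀ x, HasDerivAt (fun x => -W1 (-x)) (W2 (-x)) x := by
    intro x
    have := ((hW2 (-x)).comp x (hasDerivAt_neg x)).neg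
    rw [mul_neg, mul_one, neg_neg] at this
    exact this
  have hdn := third_le' (W := fun x => W (-x)) (W1 := fun x => -W1 (-x)) (W2 := fun x => W2 (-x))
    (Z := Z) (m := -m) (v := v) hneg1 hneg2 hc0 (fun x => h0 _) hc (fun x y => by
      have := hL (-x) (-y)
      rwa [show -x - -y = -(x - y) by ring, abs_neg] at this)
    (by rw [hZ]; exact (integral_neg_eq_self (fun x => exp (-W x)) volume).symm)
    (by
      rw [hm, ← integral_neg_eq_self (fun x => x * exp (-W x)) volume, ← neg_div, ← integral_neg]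
      congr 1
      refine integral_congr_ae (Eventually.of_forall fun x => ?_)
      simp)
    (by
      rw [hv, ← integral_neg_eq_self (fun x => (x - m) ^ 2 * exp (-W x)) volume]
      congr 1
      refine integral_congr_ae (Eventually.of_forall fun x => ?_)
      simp only
      ring)
  have e : ∫ x, (x - -m) ^ 3 * exp (-W (-x)) = - ∫ x, (x - m) ^ 3 * exp (-W x) := by
    rw [← integral_neg_eq_self (fun x => (x - m) ^ 3 * exp (-W x)) volume, ← integral_neg]
    refine integral_congr_ae (Eventually.of_forall fun x => ?_)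
    simp only
    ring
  rw [e, neg_div] at hdn
  rw [abs_le]
  constructor
  · linarith
  · exact hup

/-- The simpler form. -/
theorem third_le_two {W W1 W2 : ℝ → ℝ} {c0 c : ℝ} (hW1 : ∀ x, HasDerivAt W (W1 x) x)
    (hW2 : ∀ x, HasDerivAt W1 (W2 x) x) (hc0 : 0 < c0) (h0 : ∀ x, c0 ≤ W2 x) (hc : 0 < c)
    (hL : ∀ x y, |(√(W2 x))⁻¹ - (√(W2 y))⁻¹| ≤ c * |x - y|) {Z m v : ℝ}
    (hZ : Z = ∫ x, exp (-W x)) (hm : m = (∫ x, x * exp (-W x)) / Z)
    (hv : v = (∫ x, (x - m) ^ 2 * exp (-W x)) / Z) :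
    |(∫ x, (x - m) ^ 3 * exp (-W x)) / Z| ≤ 2 * c * √v ^ 3 := by
  refine (third_le hW1 hW2 hc0 h0 hc hL hZ hm hv).trans ?_
  have h1 : c / √(1 + c ^ 2) ≤ c := by
    apply div_le_self hc.le
    rw [Real.one_le_sqrt]
    nlinarith
  have h2 : 0 ≤ √v ^ 3 := by positivity
  nlinarith

/-- The differential form of self-concordance implies the Lipschitz form. -/
theorem lip_of_sc {W2 W3 : ℝ → ℝ} {c0 c : ℝ} (hW3 : ∀ x, HasDerivAt W2 (W3 x) x) (hc0 : 0 < c0)
    (h0 : ∀ x, c0 ≤ W2 x) (hsc : ∀ x, |W3 x| ≤ 2 * c * √(W2 x) ^ 3) (x y : ℝ) :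
    |(√(W2 x))⁻¹ - (√(W2 y))⁻¹| ≤ c * |x - y| := by
  have hpos : ∀ x, 0 < W2 x := fun x => hc0.trans_le (h0 x)
  have hd : ∀ x, HasDerivAt (fun x => (√(W2 x))⁻¹) (-(W3 x / (2 * √(W2 x))) / √(W2 x) ^ 2) x := by
    intro x
    exact ((hW3 x).sqrt (hpos x).ne').inv (Real.sqrt_pos.2 (hpos x)).ne'
  have hb : ∀ x, ‖-(W3 x / (2 * √(W2 x))) / √(W2 x) ^ 2‖ ≤ c := by
    intro x
    have hs := Real.sqrt_pos.2 (hpos x)
    rw [Real.norm_eq_abs, abs_div, abs_neg, abs_div, abs_of_pos (by positivity : 0 < 2 * √(W2 x)),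
      abs_of_pos (by positivity : 0 < √(W2 x) ^ 2), div_div, div_le_iff₀ (by positivity)]
    refine (hsc x).trans (le_of_eq ?_)
    ring
  have := convex_univ.norm_image_sub_le_of_norm_hasDerivWithin_le
    (f := fun x => (√(W2 x))⁻¹) (s := univ) (x := y) (y := x)
    (fun z _ => (hd z).hasDerivWithinAt) (fun z _ => hb z) (mem_univ _) (mem_univ _)
  simpa [Real.norm_eq_abs] using this

/-- Third central moment under the differential form of self-concordance. -/
theorem third_le_sc {W W1 W2 W3 : ℝ → ℝ} {c0 c : ℝ} (hW1 : ∀ x, HasDerivAt W (W1 x) x)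
    (hW2 : ∀ x, HasDerivAt W1 (W2 x) x) (hW3 : ∀ x, HasDerivAt W2 (W3 x) x) (hc0 : 0 < c0)
    (h0 : ∀ x, c0 ≤ W2 x) (hc : 0 < c) (hsc : ∀ x, |W3 x| ≤ 2 * c * √(W2 x) ^ 3) {Z m v : ℝ}
    (hZ : Z = ∫ x, exp (-W x)) (hm : m = (∫ x, x * exp (-W x)) / Z)
    (hv : v = (∫ x, (x - m) ^ 2 * exp (-W x)) / Z) :
    |(∫ x, (x - m) ^ 3 * exp (-W x)) / Z| ≤ 2 * c * √v ^ 3 :=
  third_le_two hW1 hW2 hc0 h0 hc (lip_of_sc hW3 hc0 h0 hsc) hZ hm hv

end Vale.Agent.P227.M.SC1
end

section

/-! P227, block Lap: Laplace integrals `F y = ∫ exp (B x y) • g x` are smooth; line derivatives;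
first three derivatives of `log F` are mean, variance and third central moment. -/

set_option linter.all false
set_option autoImplicit false

open MeasureTheory Filter Topology

namespace Vale.Agent.P227.M.Lap

universe u

variable {E : Type*} [NormedAddCommGroup E] [NormedSpace ℝ E] [MeasurableSpace E] [BorelSpace E]
  [SecondCountableTopology E]
variable {E' : Type u} [NormedAddCommGroup E'] [NormedSpace ℝ E']
variable {G : Type u} [NormedAddCommGroup G] [NormedSpace ℝ G]

/-- the Laplace integral -/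
noncomputable def lap (B : E →L[ℝ] E' →L[ℝ] ℝ) (μ : Measure E) (g : E → G) (y : E') : G :=
  ∫ x, Real.exp (B x y) • g x ∂μ

/-- all exponential moments are finite -/
def Expo (μ : Measure E) (g : E → G) : Prop :=
  AEStronglyMeasurable g μ ∧ ∀ R : ℝ, Integrable (fun x => Real.exp (R * ‖x‖) * ‖g x‖) μ

theorem Expo.of_le {G' : Type*} [NormedAddCommGroup G'] [NormedSpace ℝ G'] {μ : Measure E}
    {g : E → G} (hg : Expo μ g) {h : E → G'} (hm : AEStronglyMeasurable h μ) (C R0 : ℝ)
    (hle : ∀ x, ‖h x‖ ≤ C * (Real.exp (R0 * ‖x‖) * ‖g x‖)) :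
    AEStronglyMeasurable h μ ∧ ∀ R : ℝ, Integrable (fun x => Real.exp (R * ‖x‖) * ‖h x‖) μ := by
  refine ⟨hm, fun R => ?_⟩
  refine Integrable.mono' ((hg.2 (R + R0)).const_mul C) ?_ ?_
  · exact AEStronglyMeasurable.mul (by fun_prop) hm.norm
  · refine Eventually.of_forall fun x => ?_
    have h0 : 0 ≤ Real.exp (R * ‖x‖) := (Real.exp_pos _).le
    rw [Real.norm_of_nonneg (by positivity), add_mul, Real.exp_add]
    calc Real.exp (R * ‖x‖) * ‖h x‖
        ≤ Real.exp (R * ‖x‖) * (C * (Real.exp (R0 * ‖x‖) * ‖g x‖)) :=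
          mul_le_mul_of_nonneg_left (hle x) h0
      _ = C * (Real.exp (R * ‖x‖) * Real.exp (R0 * ‖x‖) * ‖g x‖) := by ring

theorem le_exp_norm (x : E) : ‖x‖ ≤ Real.exp (1 * ‖x‖) := by
  rw [one_mul]; linarith [Real.add_one_le_exp ‖x‖]

theorem Expo.smulRight {μ : Measure E} {g : E → G} (hg : Expo μ g) (B : E →L[ℝ] E' →L[ℝ] ℝ) :
    Expo μ (fun x => (B x).smulRight (g x)) := by
  refine Expo.of_le hg ?_ ‖B‖ 1 fun x => ?_
  · have hc : Continuous (fun p : (E' →L[ℝ] ℝ) × G => p.1.smulRight p.2) := by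
      exact (ContinuousLinearMap.smulRightL ℝ E' G).continuous₂
    have h1 : AEStronglyMeasurable (fun x => ((B x : E' →L[ℝ] ℝ), g x)) μ :=
      (B.continuous.aestronglyMeasurable).prodMk hg.1
    exact hc.comp_aestronglyMeasurable h1
  · rw [ContinuousLinearMap.norm_smulRight_apply]
    calc ‖B x‖ * ‖g x‖ ≤ (‖B‖ * ‖x‖) * ‖g x‖ := by
          gcongr; exact B.le_opNorm x
      _ ≤ (‖B‖ * Real.exp (1 * ‖x‖)) * ‖g x‖ := by
          gcongr; exact le_exp_norm x
      _ = _ := by ring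

theorem Expo.smul {μ : Measure E} {g : E → G} (hg : Expo μ g) (B : E →L[ℝ] E' →L[ℝ] ℝ) (v : E') :
    Expo μ (fun x => (B x v) • g x) := by
  refine Expo.of_le hg ?_ (‖B‖ * ‖v‖) 1 fun x => ?_
  · have hc : Continuous (fun x => B x v) := by fun_prop
    exact (hc.aestronglyMeasurable).smul hg.1
  · rw [norm_smul]
    calc ‖B x v‖ * ‖g x‖ ≤ (‖B‖ * ‖x‖ * ‖v‖) * ‖g x‖ := by
          gcongr; exact B.le_opNorm₂ x v
      _ ≤ (‖B‖ * Real.exp (1 * ‖x‖) * ‖v‖) * ‖g x‖ := by
          gcongr; exact le_exp_norm x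
      _ = _ := by ring

theorem exp_le (B : E →L[ℝ] E' →L[ℝ] ℝ) (x : E) (y : E') {R : ℝ} (hy : ‖y‖ ≤ R) :
    Real.exp (B x y) ≤ Real.exp (‖B‖ * R * ‖x‖) := by
  apply Real.exp_le_exp.2
  calc B x y ≤ ‖B x y‖ := Real.le_norm_self _
    _ ≤ ‖B‖ * ‖x‖ * ‖y‖ := B.le_opNorm₂ x y
    _ ≤ ‖B‖ * ‖x‖ * R := by gcongr
    _ = _ := by ring

theorem measurable_lap {μ : Measure E} {g : E → G} (hg : Expo μ g) (B : E →L[ℝ] E' →L[ℝ] ℝ)
    (y : E') : AEStronglyMeasurable (fun x => Real.exp (B x y) • g x) μ := by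
  have hc : Continuous (fun x => Real.exp (B x y)) := by fun_prop
  exact (hc.aestronglyMeasurable).smul hg.1

theorem integrable_lap {μ : Measure E} {g : E → G} (hg : Expo μ g) (B : E →L[ℝ] E' →L[ℝ] ℝ)
    (y : E') : Integrable (fun x => Real.exp (B x y) • g x) μ := by
  refine Integrable.mono' (hg.2 (‖B‖ * ‖y‖)) (measurable_lap hg B y) ?_
  refine Eventually.of_forall fun x => ?_
  rw [norm_smul, Real.norm_of_nonneg (Real.exp_pos _).le]
  gcongr
  exact Real.exp_le_exp.1 (exp_le B x y le_rfl)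

theorem hasFDerivAt_lap {μ : Measure E} {g : E → G} (hg : Expo μ g) (B : E →L[ℝ] E' →L[ℝ] ℝ)
    (y : E') : HasFDerivAt (lap B μ g) (lap B μ (fun x => (B x).smulRight (g x)) y) y := by
  have hg' : Expo μ (fun x => (B x).smulRight (g x)) := hg.smulRight B
  unfold lap
  refine hasFDerivAt_integral_of_dominated_of_fderiv_le (𝕜 := ℝ) (H := E') (E := G)
    (F := fun (z : E') (x : E) => Real.exp (B x z) • g x)
    (F' := fun (z : E') (x : E) => Real.exp (B x z) • (B x).smulRight (g x))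
    (x₀ := y) (s := Metric.ball y 1)
    (bound := fun x : E => Real.exp (‖B‖ * (‖y‖ + 1) * ‖x‖) * ‖(B x).smulRight (g x)‖)
    (Metric.ball_mem_nhds y one_pos) ?_ ?_ ?_ ?_ ?_ ?_
  · exact Eventually.of_forall fun z => measurable_lap hg B z
  · exact integrable_lap hg B y
  · exact measurable_lap hg' B y
  · refine Eventually.of_forall fun x z hz => ?_
    rw [norm_smul, Real.norm_of_nonneg (Real.exp_pos _).le]
    have : ‖z‖ ≤ ‖y‖ + 1 := by
      have h1 : ‖z - y‖ < 1 := by simpa [dist_eq_norm] using hz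
      have h2 : ‖z‖ ≤ ‖z - y‖ + ‖y‖ := by simpa using norm_add_le (z - y) y
      linarith
    exact mul_le_mul_of_nonneg_right (exp_le B x z this) (norm_nonneg _)
  · exact hg'.2 _
  · refine Eventually.of_forall fun x z hz => ?_
    have h0 : HasFDerivAt (fun z : E' => B x z) (B x) z := (B x).hasFDerivAt
    have h2 := (h0.exp).smul_const (g x)
    convert h2 using 1
    ext w
    simp [smul_smul]

theorem fderiv_lap_apply {μ : Measure E} {g : E → G} [CompleteSpace G] (hg : Expo μ g)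
    (B : E →L[ℝ] E' →L[ℝ] ℝ) (y v : E') :
    fderiv ℝ (lap B μ g) y v = lap B μ (fun x => (B x v) • g x) y := by
  rw [(hasFDerivAt_lap hg B y).fderiv]
  unfold lap
  rw [ContinuousLinearMap.integral_apply (integrable_lap (hg.smulRight B) B y)]
  refine integral_congr_ae (Eventually.of_forall fun x => ?_)
  simp

/-- derivative along a line -/
theorem hasDerivAt_line {μ : Measure E} {g : E → G} [CompleteSpace G] (hg : Expo μ g)
    (B : E →L[ℝ] E' →L[ℝ] ℝ) (y v : E') (t : ℝ) :
    HasDerivAt (fun t : ℝ => lap B μ g (y + t • v))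
      (lap B μ (fun x => (B x v) • g x) (y + t • v)) t := by
  have h1 : HasDerivAt (fun t : ℝ => y + t • v) v t := by
    simpa using ((hasDerivAt_id t).smul_const v).const_add y
  have h2 := (hasFDerivAt_lap hg B (y + t • v)).comp_hasDerivAt t h1
  have h3 := fderiv_lap_apply hg B (y + t • v) v
  rw [(hasFDerivAt_lap hg B (y + t • v)).fderiv] at h3
  rw [h3] at h2
  exact h2

/-! ### The logarithm -/

section real

variable {E' : Type} [NormedAddCommGroup E'] [NormedSpace ℝ E']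
variable {μ : Measure E} {g : E → ℝ} {B : E →L[ℝ] E' →L[ℝ] ℝ}

theorem Expo.pow (hg : Expo μ g) (B : E →L[ℝ] E' →L[ℝ] ℝ) (v : E') (j : ℕ) :
    Expo μ (fun x => (B x v) ^ j • g x) := by
  induction j with
  | zero => simpa using hg
  | succ j ih =>
    have := ih.smul B v
    convert this using 2 with x
    rw [smul_smul, ← pow_succ']

theorem lap_pos (hg : Expo μ g) (h0 : ∀ x, 0 ≤ g x) (h1 : μ {x | g x ≠ 0} ≠ 0) (y : E') :
    0 < lap B μ g y := by
  unfold lap
  rw [integral_pos_iff_support_of_nonneg (fun x => by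
    simpa using mul_nonneg (Real.exp_pos _).le (h0 x)) (integrable_lap hg B y)]
  have : Function.support (fun x => Real.exp (B x y) • g x) = {x | g x ≠ 0} := by
    ext x
    simp [Function.mem_support, (Real.exp_pos _).ne']
  rw [this]
  exact pos_iff_ne_zero.2 h1

/-- mean of `⟨x, v⟩` -/
noncomputable def mean (B : E →L[ℝ] E' →L[ℝ] ℝ) (μ : Measure E) (g : E → ℝ) (v y : E') : ℝ :=
  lap B μ (fun x => (B x v) * g x) y / lap B μ g y

/-- `j`-th central moment of `⟨x, v⟩` -/
noncomputable def cmom (B : E →L[ℝ] E' →L[ℝ] ℝ) (μ : Measure E) (g : E → ℝ) (v y : E') (j : ℕ) : ℝ :=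
  lap B μ (fun x => (B x v - mean B μ g v y) ^ j * g x) y / lap B μ g y

theorem cmom_two (hg : Expo μ g) (hpos : ∀ y, 0 < lap B μ g y) (v y : E') :
    cmom B μ g v y 2 = lap B μ (fun x => (B x v) ^ 2 • g x) y / lap B μ g y
      - (mean B μ g v y) ^ 2 := by
  have h0 := (hpos y).ne'
  set m := mean B μ g v y with hm
  have e1 : lap B μ (fun x => (B x v) * g x) y = m * lap B μ g y := by
    rw [hm, mean]; field_simp
  have : lap B μ (fun x => (B x v - m) ^ 2 * g x) y
      = lap B μ (fun x => (B x v) ^ 2 • g x) y - 2 * m * lap B μ (fun x => (B x v) * g x) y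
        + m ^ 2 * lap B μ g y := by
    unfold lap
    rw [← integral_const_mul, ← integral_const_mul, ← integral_sub, ← integral_add]
    · refine integral_congr_ae (Eventually.of_forall fun x => ?_)
      simp only [smul_eq_mul]; ring
    · exact ((integrable_lap (hg.pow B v 2) B y)).sub
        ((integrable_lap (hg.smul B v) B y).const_mul _)
    · exact (integrable_lap hg B y).const_mul _
    · exact integrable_lap (hg.pow B v 2) B y
    · exact (integrable_lap (hg.smul B v) B y).const_mul _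
  rw [cmom, this, e1]
  field_simp
  ring

theorem cmom_three (hg : Expo μ g) (hpos : ∀ y, 0 < lap B μ g y) (v y : E') :
    cmom B μ g v y 3 = lap B μ (fun x => (B x v) ^ 3 • g x) y / lap B μ g y
      - 3 * mean B μ g v y * (lap B μ (fun x => (B x v) ^ 2 • g x) y / lap B μ g y)
      + 2 * (mean B μ g v y) ^ 3 := by
  have h0 := (hpos y).ne'
  set m := mean B μ g v y with hm
  have e1 : lap B μ (fun x => (B x v) * g x) y = m * lap B μ g y := by
    rw [hm, mean]; field_simp
  have : lap B μ (fun x => (B x v - m) ^ 3 * g x) y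
      = (lap B μ (fun x => (B x v) ^ 3 • g x) y - 3 * m * lap B μ (fun x => (B x v) ^ 2 • g x) y)
        + (3 * m ^ 2 * lap B μ (fun x => (B x v) * g x) y
        - m ^ 3 * lap B μ g y) := by
    unfold lap
    rw [← integral_const_mul, ← integral_const_mul, ← integral_const_mul, ← integral_sub,
      ← integral_sub, ← integral_add]
    · refine integral_congr_ae (Eventually.of_forall fun x => ?_)
      simp only [smul_eq_mul]; ring
    · exact ((integrable_lap (hg.pow B v 3) B y)).sub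
        ((integrable_lap (hg.pow B v 2) B y).const_mul _)
    · exact ((integrable_lap (hg.smul B v) B y).const_mul _).sub
        ((integrable_lap hg B y).const_mul _)
    · exact (integrable_lap (hg.smul B v) B y).const_mul _
    · exact (integrable_lap hg B y).const_mul _
    · exact integrable_lap (hg.pow B v 3) B y
    · exact (integrable_lap (hg.pow B v 2) B y).const_mul _
  rw [cmom, this, e1]
  field_simp
  ring

theorem hasDerivAt_log (hg : Expo μ g) (hpos : ∀ y, 0 < lap B μ g y) (y v : E') (t : ℝ) :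
    HasDerivAt (fun t : ℝ => Real.log (lap B μ g (y + t • v))) (mean B μ g v (y + t • v)) t := by
  have := (hasDerivAt_line hg B y v t).log (hpos _).ne'
  simpa [mean] using this

theorem hasDerivAt_mean (hg : Expo μ g) (hpos : ∀ y, 0 < lap B μ g y) (y v : E') (t : ℝ) :
    HasDerivAt (fun t : ℝ => mean B μ g v (y + t • v)) (cmom B μ g v (y + t • v) 2) t := by
  have h1 := hasDerivAt_line (hg.smul B v) B y v t
  have h2 := (h1.div (hasDerivAt_line hg B y v t) (hpos _).ne')
  refine HasDerivAt.congr_deriv h2 ?_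
  have h0 := (hpos (y + t • v)).ne'
  have e3 : (fun x => (B x v) • (B x v) • g x) = fun x => (B x v) ^ 2 • g x := by
    funext x; rw [smul_smul, pow_two]
  have e1 : lap B μ (fun x => (B x v) • g x) (y + t • v)
      = mean B μ g v (y + t • v) * lap B μ g (y + t • v) := by
    rw [mean]; simp only [smul_eq_mul]; field_simp
  rw [cmom_two hg hpos, e3, e1]
  field_simp

theorem hasDerivAt_cmom_two (hg : Expo μ g) (hpos : ∀ y, 0 < lap B μ g y) (y v : E') (t : ℝ) :
    HasDerivAt (fun t : ℝ => cmom B μ g v (y + t • v) 2) (cmom B μ g v (y + t • v) 3) t := by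
  have h1 := hasDerivAt_line (hg.pow B v 2) B y v t
  have h2 := (h1.div (hasDerivAt_line hg B y v t) (hpos _).ne').sub
    ((hasDerivAt_mean hg hpos y v t).pow 2)
  have e : (fun t : ℝ => cmom B μ g v (y + t • v) 2) = fun t : ℝ =>
      lap B μ (fun x => (B x v) ^ 2 • g x) (y + t • v) / lap B μ g (y + t • v)
      - (mean B μ g v (y + t • v)) ^ 2 := funext fun t => cmom_two hg hpos v _
  rw [e]
  refine HasDerivAt.congr_deriv h2 ?_
  have h0 := (hpos (y + t • v)).ne'
  rw [cmom_two hg hpos, cmom_three hg hpos]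
  have e3 : (fun x => (B x v) • (B x v) ^ 2 • g x) = fun x => (B x v) ^ 3 • g x := by
    funext x; simp only [smul_smul]; ring_nf
  rw [e3]
  have e1 : lap B μ (fun x => (B x v) • g x) (y + t • v)
      = mean B μ g v (y + t • v) * lap B μ g (y + t • v) := by
    rw [mean]; simp only [smul_eq_mul]; field_simp
  rw [e1]
  field_simp
  ring

end real

end Vale.Agent.P227.M.Lap
end

section

/-! P227, block Lap/LL: `logLap W` is smooth; line derivatives
of order 1, 2, 3 are mean, variance and third central moment of the tilted measure. -/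

set_option linter.all false
set_option autoImplicit false

open MeasureTheory Filter Topology

namespace Vale.Agent.P227.M.Lap

universe u

section abstractBound

variable {E : Type*} [NormedAddCommGroup E] [NormedSpace ℝ E] [MeasurableSpace E] [BorelSpace E]
  [SecondCountableTopology E]
variable {E' : Type u} [NormedAddCommGroup E'] [NormedSpace ℝ E']

end abstractBound

/-- Hessian form: `qf (hess W x) v = D²W(x)(v,v)` -/
theorem qf_hess {n : ℕ} {W : E n → ℝ} (hW : ContDiff ℝ 2 W) (x v : E n) :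
    qf (hess W x) v = fderiv ℝ (fderiv ℝ W) x v v := by
  have hd : Differentiable ℝ (fderiv ℝ W) := (hW.fderiv_right (m := 1) (by norm_num)).differentiable (by norm_num)
  have hv : v = ∑ i, v i • (ei i : E n) := by
    have := ((EuclideanSpace.basisFun (Fin n) ℝ).sum_repr v).symm
    simpa [ei, EuclideanSpace.basisFun_apply, EuclideanSpace.basisFun_repr] using this
  have h1 : ∀ i j, hess W x i j = fderiv ℝ (fderiv ℝ W) x (ei i) (ei j) := by
    intro i j
    unfold hess pd
    have : (fun x => fderiv ℝ W x (ei j)) = fun x => (ContinuousLinearMap.apply ℝ ℝ (ei j : E n)) (fderiv ℝ W x) := rfl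
    rw [this, fderiv_comp' x (ContinuousLinearMap.differentiableAt _) (hd x)]
    simp
  have h2 : fderiv ℝ (fderiv ℝ W) x v v = ∑ i, ∑ j, v i * (v j * fderiv ℝ (fderiv ℝ W) x (ei i) (ei j)) := by
    conv_lhs => rw [hv]
    simp only [map_sum, map_smul, ContinuousLinearMap.sum_apply, ContinuousLinearMap.smul_apply,
      smul_eq_mul, Finset.mul_sum]
    rw [Finset.sum_comm]
    refine Finset.sum_congr rfl fun i _ => Finset.sum_congr rfl fun j _ => ?_
    ring
  rw [h2]
  unfold qf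
  refine Finset.sum_congr rfl fun i _ => Finset.sum_congr rfl fun j _ => ?_
  rw [h1]; ring

/-- second order bounds along lines -/
theorem taylor_bounds {n : ℕ} {W : E n → ℝ} {c C : ℝ} (h : Reg W c C) (x z : E n) :
    c / 2 * ‖z‖ ^ 2 ≤ W (x + z) - W x - fderiv ℝ W x z ∧
      W (x + z) - W x - fderiv ℝ W x z ≤ C / 2 * ‖z‖ ^ 2 := by
  have hW2 : ContDiff ℝ 2 W := h.smooth.of_le (WithTop.coe_le_coe.2 (le_top : (2 : ℕ∞) ≤ ⊤))
  have hd : Differentiable ℝ W := hW2.differentiable (by norm_num)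
  have hd2 : Differentiable ℝ (fderiv ℝ W) := (hW2.fderiv_right (m := 1) (by norm_num)).differentiable (by norm_num)
  have hl : ∀ t : ℝ, HasDerivAt (fun t : ℝ => x + t • z) z t := fun t => by
    simpa using ((hasDerivAt_id t).smul_const z).const_add x
  have d1 : ∀ t : ℝ, HasDerivAt (fun t : ℝ => W (x + t • z)) (fderiv ℝ W (x + t • z) z) t := fun t =>
    (hd (x + t • z)).hasFDerivAt.comp_hasDerivAt t (hl t)
  have d2 : ∀ t : ℝ, HasDerivAt (fun t : ℝ => fderiv ℝ W (x + t • z) z)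
      (fderiv ℝ (fderiv ℝ W) (x + t • z) z z) t := fun t => by
    have := (hd2 (x + t • z)).hasFDerivAt.comp_hasDerivAt t (hl t)
    exact ((ContinuousLinearMap.apply ℝ ℝ z).hasFDerivAt (x := fderiv ℝ W (x + t • z))).comp_hasDerivAt t this
  -- monotonicity of `t ↦ W (x + t z) - t D W z - (c/2) t² |z|²` etc.
  have key : ∀ (a : ℝ) (s : ℝ), (∀ t : ℝ, 0 ≤ s * (fderiv ℝ (fderiv ℝ W) (x + t • z) z z - a)) →
      0 ≤ s * (W (x + z) - W x - fderiv ℝ W x z - a / 2) := by
    intro a s hs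
    -- first derivative
    have m1 : Monotone (fun t : ℝ => s * (fderiv ℝ W (x + t • z) z - a * t)) := by
      apply monotone_of_deriv_nonneg
      · exact fun t => (((d2 t).sub ((hasDerivAt_id t).const_mul a)).const_mul s).differentiableAt
      · intro t
        have := (((d2 t).sub ((hasDerivAt_id t).const_mul a)).const_mul s).deriv
        simp only [mul_one, id] at this
        have e : deriv (fun t : ℝ => s * (fderiv ℝ W (x + t • z) z - a * t)) t
          = s * (fderiv ℝ (fderiv ℝ W) (x + t • z) z z - a) := this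
        rw [e]; exact hs t
    have m2 : MonotoneOn (fun t : ℝ => s * (W (x + t • z) - t * fderiv ℝ W x z - a / 2 * t ^ 2)) (Set.Icc 0 1) := by
      have hD : ∀ t : ℝ, HasDerivAt (fun t : ℝ => s * (W (x + t • z) - t * fderiv ℝ W x z - a / 2 * t ^ 2))
          (s * (fderiv ℝ W (x + t • z) z - a * t) - s * (fderiv ℝ W x z)) t := by
        intro t
        have h3 := ((((d1 t).sub ((hasDerivAt_id t).mul_const (fderiv ℝ W x z))).sub
          (((hasDerivAt_id t).pow 2).const_mul (a / 2))).const_mul s)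
        refine HasDerivAt.congr_deriv h3 ?_
        simp
        ring
      apply monotoneOn_of_deriv_nonneg (convex_Icc 0 1)
      · exact fun t _ => (hD t).continuousAt.continuousWithinAt
      · exact fun t _ => (hD t).differentiableAt.differentiableWithinAt
      · intro t ht
        rw [interior_Icc] at ht
        rw [(hD t).deriv]
        have := m1 ht.1.le
        simp only [zero_smul, add_zero, mul_zero, sub_zero] at this
        linarith
    have := m2 (Set.left_mem_Icc.2 zero_le_one) (Set.right_mem_Icc.2 zero_le_one) zero_le_one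
    simp only [zero_smul, add_zero, one_smul] at this
    nlinarith [this]
  have q := fun t : ℝ => qf_hess hW2 (x + t • z) z
  constructor
  · have := key (c * ‖z‖ ^ 2) 1 (fun t => by
      have := h.lower (x + t • z) z
      rw [q t] at this
      linarith)
    linarith
  · have := key (C * ‖z‖ ^ 2) (-1) (fun t => by
      have := h.upper (x + t • z) z
      rw [q t] at this
      linarith)
    linarith

/-- the pairing -/
noncomputable abbrev BB (n : ℕ) : E n →L[ℝ] E n →L[ℝ] ℝ := innerSL ℝ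

theorem BB_apply {n : ℕ} (x y : E n) : (BB n) x y = inner ℝ x y := rfl

theorem integrable_gauss {n : ℕ} {c : ℝ} (hc : 0 < c) (R : ℝ) :
    Integrable (fun x : E n => Real.exp (R * ‖x‖) * Real.exp (-(c / 2 * ‖x‖ ^ 2))) volume := by
  have h1 : Integrable (fun x : E n => Real.exp (-(c / 4) * ‖x‖ ^ 2)) volume := by
    have := (GaussianFourier.integrable_cexp_neg_mul_sq_norm_add (V := E n) (b := ((c / 4 : ℝ) : ℂ))
      (by simpa using (by positivity : (0:ℝ) < c / 4)) 0 0).norm
    refine this.congr (Eventually.of_forall fun x => ?_)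
    simp [Complex.norm_exp, ← Complex.ofReal_pow, ← Complex.ofReal_mul, ← Complex.ofReal_neg]
  refine Integrable.mono' (h1.const_mul (Real.exp (R ^ 2 / c))) (by fun_prop) ?_
  refine Eventually.of_forall fun x => ?_
  rw [Real.norm_of_nonneg (by positivity), ← Real.exp_add, ← Real.exp_add]
  apply Real.exp_le_exp.2
  have : 0 ≤ (R - c / 2 * ‖x‖) ^ 2 / c := by positivity
  have e : (R - c / 2 * ‖x‖) ^ 2 / c = R ^ 2 / c - R * ‖x‖ + c / 4 * ‖x‖ ^ 2 := by
    field_simp; ring
  nlinarith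

theorem expo_of_le {n : ℕ} {c : ℝ} (hc : 0 < c) {g : E n → ℝ} (hg : Continuous g) (K R0 : ℝ)
    (hle : ∀ x, |g x| ≤ K * (Real.exp (R0 * ‖x‖) * Real.exp (-(c / 2 * ‖x‖ ^ 2)))) :
    Expo volume g := by
  refine ⟨hg.aestronglyMeasurable, fun R => ?_⟩
  refine Integrable.mono' ((integrable_gauss hc (R + R0)).const_mul K) (by fun_prop) ?_
  refine Eventually.of_forall fun x => ?_
  rw [Real.norm_of_nonneg (by positivity), Real.norm_eq_abs, add_mul, Real.exp_add]
  calc Real.exp (R * ‖x‖) * |g x|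
      ≤ Real.exp (R * ‖x‖) * (K * (Real.exp (R0 * ‖x‖) * Real.exp (-(c / 2 * ‖x‖ ^ 2)))) :=
        mul_le_mul_of_nonneg_left (hle x) (Real.exp_pos _).le
    _ = _ := by ring

/-- `exp (-W)` has all exponential moments -/
theorem expo_exp_neg {n : ℕ} {W : E n → ℝ} {c C : ℝ} (h : Reg W c C) :
    Expo volume (fun x => Real.exp (-W x)) := by
  have hcont : Continuous W := h.smooth.continuous
  refine expo_of_le h.c_pos (by fun_prop) (Real.exp (-W 0)) ‖fderiv ℝ W 0‖ fun x => ?_
  rw [abs_of_pos (Real.exp_pos _), ← Real.exp_add, ← Real.exp_add]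
  apply Real.exp_le_exp.2
  have h1 := (taylor_bounds h 0 x).1
  rw [zero_add] at h1
  have h2 : |fderiv ℝ W 0 x| ≤ ‖fderiv ℝ W 0‖ * ‖x‖ := by
    simpa using (fderiv ℝ W 0).le_opNorm x
  have h3 := neg_abs_le (fderiv ℝ W 0 x)
  linarith

theorem logLap_eq {n : ℕ} (W : E n → ℝ) (y : E n) :
    logLap W y = Real.log (lap (BB n) volume (fun x => Real.exp (-W x)) y) := by
  unfold logLap lap
  congr 1
  refine integral_congr_ae (Eventually.of_forall fun x => ?_)
  simp only [smul_eq_mul, BB_apply]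
  rw [← Real.exp_add, sub_eq_add_neg]

theorem lap_exp_pos {n : ℕ} {W : E n → ℝ} {c C : ℝ} (h : Reg W c C) (y : E n) :
    0 < lap (BB n) volume (fun x => Real.exp (-W x)) y := by
  refine lap_pos (expo_exp_neg h) (fun x => (Real.exp_pos _).le) ?_ y
  have : {x : E n | Real.exp (-W x) ≠ 0} = Set.univ := by
    ext x; simp [(Real.exp_pos _).ne']
  rw [this]
  exact (Measure.measure_univ_ne_zero).2 (NeZero.ne _)

/-- mean of `⟨x, v⟩` under `exp (⟨x,y⟩ - W x)` -/
noncomputable def tmean {n : ℕ} (W : E n → ℝ) (y v : E n) : ℝ :=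
  (∫ x : E n, inner ℝ x v * Real.exp (inner ℝ x y - W x)) / ∫ x : E n, Real.exp (inner ℝ x y - W x)

/-- `j`-th central moment of `⟨x, v⟩` under `exp (⟨x,y⟩ - W x)` -/
noncomputable def tmom {n : ℕ} (W : E n → ℝ) (y v : E n) (j : ℕ) : ℝ :=
  (∫ x : E n, (inner ℝ x v - tmean W y v) ^ j * Real.exp (inner ℝ x y - W x)) /
    ∫ x : E n, Real.exp (inner ℝ x y - W x)

theorem mean_eq {n : ℕ} (W : E n → ℝ) (y v : E n) :
    mean (BB n) volume (fun x => Real.exp (-W x)) v y = tmean W y v := by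
  unfold mean tmean lap
  simp only [smul_eq_mul, BB_apply, sub_eq_add_neg, Real.exp_add]
  congr 1
  refine integral_congr_ae (Eventually.of_forall fun x => ?_)
  simp only
  ring

theorem cmom_eq {n : ℕ} (W : E n → ℝ) (y v : E n) (j : ℕ) :
    cmom (BB n) volume (fun x => Real.exp (-W x)) v y j = tmom W y v j := by
  unfold cmom tmom
  rw [mean_eq]
  unfold lap
  simp only [smul_eq_mul, BB_apply, sub_eq_add_neg, Real.exp_add]
  congr 1
  refine integral_congr_ae (Eventually.of_forall fun x => ?_)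
  simp only
  ring

theorem hasDerivAt_logLap {n : ℕ} {W : E n → ℝ} {c C : ℝ} (h : Reg W c C) (y v : E n) (t : ℝ) :
    HasDerivAt (fun t : ℝ => logLap W (y + t • v)) (tmean W (y + t • v) v) t := by
  have := hasDerivAt_log (expo_exp_neg h) (lap_exp_pos h) y v t
  rw [mean_eq] at this
  simpa only [logLap_eq] using this

theorem hasDerivAt_tmean {n : ℕ} {W : E n → ℝ} {c C : ℝ} (h : Reg W c C) (y v : E n) (t : ℝ) :
    HasDerivAt (fun t : ℝ => tmean W (y + t • v) v) (tmom W (y + t • v) v 2) t := by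
  have := hasDerivAt_mean (expo_exp_neg h) (lap_exp_pos h) y v t
  simpa only [mean_eq, cmom_eq] using this

theorem hasDerivAt_tmom_two {n : ℕ} {W : E n → ℝ} {c C : ℝ} (h : Reg W c C) (y v : E n) (t : ℝ) :
    HasDerivAt (fun t : ℝ => tmom W (y + t • v) v 2) (tmom W (y + t • v) v 3) t := by
  have := hasDerivAt_cmom_two (expo_exp_neg h) (lap_exp_pos h) y v t
  simpa only [cmom_eq] using this

/-- (LD) second line derivative = variance -/
theorem iteratedDeriv_two_logLap {n : ℕ} {W : E n → ℝ} {c C : ℝ} (h : Reg W c C) (y v : E n) (t : ℝ) :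
    iteratedDeriv 2 (fun t : ℝ => logLap W (y + t • v)) t = tmom W (y + t • v) v 2 := by
  rw [iteratedDeriv_succ', show deriv (fun t : ℝ => logLap W (y + t • v)) = fun t : ℝ => tmean W (y + t • v) v
    from funext fun t => (hasDerivAt_logLap h y v t).deriv, iteratedDeriv_one]
  exact (hasDerivAt_tmean h y v t).deriv

/-- (LD) third line derivative = third central moment -/
theorem iteratedDeriv_three_logLap {n : ℕ} {W : E n → ℝ} {c C : ℝ} (h : Reg W c C) (y v : E n) (t : ℝ) :
    iteratedDeriv 3 (fun t : ℝ => logLap W (y + t • v)) t = tmom W (y + t • v) v 3 := by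
  rw [iteratedDeriv_succ', show deriv (fun t : ℝ => logLap W (y + t • v)) = fun t : ℝ => tmean W (y + t • v) v
    from funext fun t => (hasDerivAt_logLap h y v t).deriv, iteratedDeriv_succ',
    show deriv (fun t : ℝ => tmean W (y + t • v) v) = fun t : ℝ => tmom W (y + t • v) v 2
    from funext fun t => (hasDerivAt_tmean h y v t).deriv, iteratedDeriv_one]
  exact (hasDerivAt_tmom_two h y v t).deriv

end Vale.Agent.P227.M.Lap
end

section

/-! # P227/M/SC: real estimates for the third and fourth derivatives of the two-point average. -/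

namespace Vale.Agent.P227.M.SC

theorem abs_mul2 {a b A B : ℝ} (ha : |a| ≤ A) (hb : |b| ≤ B) : |a * b| ≤ A * B := by
  rw [abs_mul]
  exact mul_le_mul ha hb (abs_nonneg _) ((abs_nonneg _).trans ha)

theorem abs_mul3 {a b c A B C : ℝ} (ha : |a| ≤ A) (hb : |b| ≤ B) (hc : |c| ≤ C) :
    |a * b * c| ≤ A * B * C := abs_mul2 (abs_mul2 ha hb) hc

theorem abs_mul4 {a b c d A B C D : ℝ} (ha : |a| ≤ A) (hb : |b| ≤ B) (hc : |c| ≤ C)
    (hd : |d| ≤ D) : |a * b * c * d| ≤ A * B * C * D := abs_mul2 (abs_mul3 ha hb hc) hd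

theorem q_bd {P Q : ℝ} (hP0 : 0 ≤ P) (hP1 : P ≤ 1) (hQ : Q = P * (1 - P)) :
    0 ≤ Q ∧ Q ≤ 1 / 4 := by
  subst hQ
  constructor
  · exact mul_nonneg hP0 (by linarith)
  · nlinarith [sq_nonneg (P - 1 / 2)]

theorem q_abs {P Q : ℝ} (hP0 : 0 ≤ P) (hP1 : P ≤ 1) (hQ : Q = P * (1 - P)) :
    |Q| ≤ 1 / 4 := by
  have h := q_bd hP0 hP1 hQ
  rw [abs_of_nonneg h.1]
  exact h.2

theorem r_abs {P Q R : ℝ} (hP0 : 0 ≤ P) (hP1 : P ≤ 1) (hQ : Q = P * (1 - P))
    (hR : R = Q * (1 - 2 * P)) : |R| ≤ 1 / 4 := by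
  have h1 : |1 - 2 * P| ≤ 1 := by
    rw [abs_le]
    constructor <;> linarith
  have h2 := abs_mul2 (q_abs hP0 hP1 hQ) h1
  rw [hR]
  linarith

theorem s_abs {P Q : ℝ} (hP0 : 0 ≤ P) (hP1 : P ≤ 1) (hQ : Q = P * (1 - P)) :
    |Q * (6 * Q - 1)| ≤ 1 / 4 := by
  have h := q_bd hP0 hP1 hQ
  have h1 : |6 * Q - 1| ≤ 1 := by
    rw [abs_le]
    constructor <;> linarith [h.1, h.2]
  have h2 := abs_mul2 (q_abs hP0 hP1 hQ) h1
  linarith

theorem conv_abs {P g f T : ℝ} (hP0 : 0 ≤ P) (hP1 : P ≤ 1) (hg : |g| ≤ T) (hf : |f| ≤ T) :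
    |g + P * (f - g)| ≤ T := by
  rw [abs_le] at hg hf ⊢
  have h0 : 0 ≤ 1 - P := by linarith
  have e1 := mul_le_mul_of_nonneg_left hg.1 h0
  have e2 := mul_le_mul_of_nonneg_left hg.2 h0
  have e3 := mul_le_mul_of_nonneg_left hf.1 hP0
  have e4 := mul_le_mul_of_nonneg_left hf.2 hP0
  constructor <;> linarith

/-- third order estimate -/
theorem r3 {P Q R δ b C3 n1 n2 n3 f g d1 d2 d3 d21 d32 d31 : ℝ}
    (hP0 : 0 ≤ P) (hP1 : P ≤ 1) (hQ : Q = P * (1 - P)) (hR : R = Q * (1 - 2 * P))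
    (_hδ0 : 0 ≤ δ) (_hδ1 : δ ≤ 1) (_hb : 0 ≤ b) (_hC3 : 0 ≤ C3)
    (_hn1 : 0 ≤ n1) (_hn2 : 0 ≤ n2) (_hn3 : 0 ≤ n3)
    (h1 : |d1| ≤ 2 * δ * (b * n1)) (h2 : |d2| ≤ 2 * δ * (b * n2))
    (h3 : |d3| ≤ 2 * δ * (b * n3))
    (h21 : |d21| ≤ 2 * δ * (C3 * (n1 * n2)))
    (h32 : |d32| ≤ 2 * δ * (C3 * (n2 * n3)))
    (h31 : |d31| ≤ 2 * δ * (C3 * (n1 * n3)))
    (hg : |g| ≤ C3 * (n1 * n2 * n3)) (hf : |f| ≤ C3 * (n1 * n2 * n3)) :
    |g + P * (f - g) - Q * (d3 * d21 + d32 * d1 + d2 * d31) + R * (d3 * d2 * d1)|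
      ≤ (C3 * (1 + 3 * b * δ ^ 2) + 2 * b ^ 3 * δ ^ 3) * (n1 * n2 * n3) := by
  have e0 := abs_le.1 (conv_abs hP0 hP1 hg hf)
  have hq := q_abs hP0 hP1 hQ
  have hr := r_abs hP0 hP1 hQ hR
  have e1 := abs_le.1 (abs_mul3 hq h3 h21)
  have e2 := abs_le.1 (abs_mul3 hq h32 h1)
  have e3 := abs_le.1 (abs_mul3 hq h2 h31)
  have e4 := abs_le.1 (abs_mul4 hr h3 h2 h1)
  rw [abs_le]
  constructor
  · linarith [e0.1, e0.2, e1.1, e1.2, e2.1, e2.2, e3.1, e3.2, e4.1, e4.2]
  · linarith [e0.1, e0.2, e1.1, e1.2, e2.1, e2.2, e3.1, e3.2, e4.1, e4.2]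

/-- fourth order estimate -/
theorem r4 {P Q R δ b C3 C4 n1 n2 n3 n4 f g d1 d2 d3 d4 d21 d32 d31 d41 d42 d43
      d321 d421 d431 d432 : ℝ}
    (hP0 : 0 ≤ P) (hP1 : P ≤ 1) (hQ : Q = P * (1 - P)) (hR : R = Q * (1 - 2 * P))
    (hδ0 : 0 ≤ δ) (hδ1 : δ ≤ 1) (_hb : 0 ≤ b) (hC3 : 0 ≤ C3) (_hC4 : 0 ≤ C4)
    (hn1 : 0 ≤ n1) (hn2 : 0 ≤ n2) (hn3 : 0 ≤ n3) (hn4 : 0 ≤ n4)
    (h1 : |d1| ≤ 2 * δ * (b * n1)) (h2 : |d2| ≤ 2 * δ * (b * n2))
    (h3 : |d3| ≤ 2 * δ * (b * n3)) (h4 : |d4| ≤ 2 * δ * (b * n4))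
    (h21 : |d21| ≤ 2 * δ * (C3 * (n1 * n2)))
    (h31 : |d31| ≤ 2 * δ * (C3 * (n1 * n3)))
    (h32 : |d32| ≤ 2 * δ * (C3 * (n2 * n3)))
    (h41 : |d41| ≤ 2 * δ * (C3 * (n1 * n4)))
    (h42 : |d42| ≤ 2 * δ * (C3 * (n2 * n4)))
    (h43 : |d43| ≤ 2 * δ * (C3 * (n3 * n4)))
    (h321 : |d321| ≤ 2 * δ * (C4 * (n1 * n2 * n3)))
    (h421 : |d421| ≤ 2 * δ * (C4 * (n1 * n2 * n4)))
    (h431 : |d431| ≤ 2 * δ * (C4 * (n1 * n3 * n4)))
    (h432 : |d432| ≤ 2 * δ * (C4 * (n2 * n3 * n4)))
    (hg : |g| ≤ C4 * (n1 * n2 * n3 * n4)) (hf : |f| ≤ C4 * (n1 * n2 * n3 * n4)) :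
    |g + P * (f - g) - Q * (d4 * d321 + d3 * d421 + d1 * d432 + d2 * d431)
        - Q * (d43 * d21 + d32 * d41 + d42 * d31)
        + R * (d4 * d3 * d21 + d4 * d32 * d1 + d4 * d2 * d31 + d43 * d2 * d1
          + d3 * d42 * d1 + d3 * d2 * d41)
        + Q * (6 * Q - 1) * (d4 * d3 * d2 * d1)|
      ≤ (C4 * (1 + 4 * b * δ ^ 2) + δ ^ 2 * (3 * C3 ^ 2 + 12 * C3 * b ^ 2 + 4 * b ^ 4))
        * (n1 * n2 * n3 * n4) := by
  have e0 := abs_le.1 (conv_abs hP0 hP1 hg hf)
  have hq := q_abs hP0 hP1 hQ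
  have hr := r_abs hP0 hP1 hQ hR
  have hs := s_abs hP0 hP1 hQ
  have a1 := abs_le.1 (abs_mul3 hq h4 h321)
  have a2 := abs_le.1 (abs_mul3 hq h3 h421)
  have a3 := abs_le.1 (abs_mul3 hq h1 h432)
  have a4 := abs_le.1 (abs_mul3 hq h2 h431)
  have b1 := abs_le.1 (abs_mul3 hq h43 h21)
  have b2 := abs_le.1 (abs_mul3 hq h32 h41)
  have b3 := abs_le.1 (abs_mul3 hq h42 h31)
  have c1 := abs_le.1 (abs_mul4 hr h4 h3 h21)
  have c2 := abs_le.1 (abs_mul4 hr h4 h32 h1)
  have c3 := abs_le.1 (abs_mul4 hr h4 h2 h31)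
  have c4 := abs_le.1 (abs_mul4 hr h43 h2 h1)
  have c5 := abs_le.1 (abs_mul4 hr h3 h42 h1)
  have c6 := abs_le.1 (abs_mul4 hr h3 h2 h41)
  have s1 := abs_le.1 (abs_mul2 hs (abs_mul4 h4 h3 h2 h1))
  have hN : 0 ≤ n1 * n2 * n3 * n4 := by positivity
  have hδ3 : δ ^ 3 ≤ δ ^ 2 := pow_le_pow_of_le_one hδ0 hδ1 (by norm_num)
  have hδ4 : δ ^ 4 ≤ δ ^ 2 := pow_le_pow_of_le_one hδ0 hδ1 (by norm_num)
  have k1 : δ ^ 3 * (C3 * b ^ 2 * (n1 * n2 * n3 * n4))
      ≤ δ ^ 2 * (C3 * b ^ 2 * (n1 * n2 * n3 * n4)) :=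
    mul_le_mul_of_nonneg_right hδ3 (by positivity)
  have k2 : δ ^ 4 * (b ^ 4 * (n1 * n2 * n3 * n4)) ≤ δ ^ 2 * (b ^ 4 * (n1 * n2 * n3 * n4)) :=
    mul_le_mul_of_nonneg_right hδ4 (by positivity)
  rw [abs_le]
  constructor
  · linarith [e0.1, a1.2, a2.2, a3.2, a4.2, b1.2, b2.2, b3.2, c1.1, c2.1, c3.1, c4.1, c5.1,
      c6.1, s1.1, k1, k2]
  · linarith [e0.2, a1.1, a2.1, a3.1, a4.1, b1.1, b2.1, b3.1, c1.2, c2.2, c3.2, c4.2, c5.2,
      c6.2, s1.2, k1, k2]

end Vale.Agent.P227.M.SC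
end

section

/-! # Essential self-adjointness, part 3: the tested equation -/

open MeasureTheory Filter Topology
open scoped ContDiff

namespace Vale.Agent.P227.M.LIN.E456

open Vale.Agent.P227.M Vale.Agent.P227.Moll

variable {n : ℕ} {r : E n → ℝ} {A : E n → Fin n → Fin n → ℝ}

lemma pd_mo {ρ : E n → ℝ} (hρ : LocallyIntegrable ρ volume) {g : E n → ℝ} (hg : Test g) (i : Fin n) :
    pd i (Vale.Agent.P227.Moll.mo ρ g) = Vale.Agent.P227.Moll.mo ρ (pd i g) := by
  funext x
  unfold pd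
  rw [fderiv_mo' hρ (hg.1.of_le (by simp)) hg.2]

lemma integrable_mul_test {p g : E n → ℝ} (hp : Integrable p) (hg : Continuous g)
    (hc : HasCompactSupport g) : Integrable (fun x => p x * g x) := by
  obtain ⟨B, hB⟩ := hc.exists_bound_of_continuous hg
  exact Integrable.mul_bdd (c := B) hp hg.aestronglyMeasurable (Eventually.of_forall hB)

lemma integrable_cont_test {p g : E n → ℝ} (hp : Continuous p) (hg : Continuous g)
    (hc : HasCompactSupport g) : Integrable (fun x => p x * g x) :=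
  (hp.mul hg).integrable_of_hasCompactSupport hc.mul_left

/-- the tested equation -/
lemma test_eq (D : Dat r A) {R ε : ℝ} (hε : 0 < ε) (hε1 : ε ≤ 1) {f : E n → ℝ}
    (hf : MemLp f 2 (volume : Measure (E n)))
    (h0 : ∀ x, x ∉ Metric.closedBall (0 : E n) (R + 2) → f x = 0)
    (heq : ∀ F : E n → ℝ, Test F → (∀ x, x ∉ Metric.closedBall (0 : E n) (R + 1) → F x = 0) →
      ∫ x, f x * (r x * F x - (∑ i, ∑ j, A x i j * pd i (pd j F) x) + ∑ j, r x * x j * pd j F x) = 0)
    {G : E n → ℝ} (hG : Test G) (hGR : ∀ x, x ∉ Metric.closedBall (0 : E n) R → G x = 0) :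
    ∫ x, (Vale.Agent.P227.Moll.mo (stdM ε) (fun y => f y * r y) x * G x +
      ∑ j, (err r A (stdM ε) f j x + ∑ i, A x i j * pd i (Vale.Agent.P227.Moll.mo (stdM ε) f) x) * pd j G x) = 0 := by
  have hη : IsMol ε (stdM ε : E n → ℝ) := stdM_isMol hε
  have hηl : LocallyIntegrable (stdM ε : E n → ℝ) volume := hη.contDiff.continuous.locallyIntegrable
  have hfl := locInt hf
  have hrc : ∀ j : Fin n, Continuous (fun y : E n => r y * y j) := fun j =>
    D.rcont.mul (cont_coord j)
  have ip : ∀ w : E n → ℝ, Continuous w → Integrable (fun y => f y * w y) := fun w hw =>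
    integrable_of_ball (memLp_mul hf h0 hw) (R := R + 2) (fun x hx => by rw [h0 x hx, zero_mul])
  have hF : Test (Vale.Agent.P227.Moll.mo (stdM ε) G) := test_mo hη (test_loc hG) hG.2
  have hFR : ∀ x, x ∉ Metric.closedBall (0 : E n) (R + 1) → Vale.Agent.P227.Moll.mo (stdM ε) G x = 0 := by
    intro x hx
    simp only [Metric.mem_closedBall, dist_zero_right, not_le] at hx
    unfold Vale.Agent.P227.Moll.mo
    rw [← integral_zero (E n) ℝ]
    refine integral_congr_ae (Eventually.of_forall fun y => ?_)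
    simp only []
    by_cases hy : y ∈ Metric.closedBall (0 : E n) R
    · simp only [Metric.mem_closedBall, dist_zero_right] at hy
      rw [hη.supp (x - y), zero_smul]
      have := norm_sub_norm_le x y
      linarith
    · rw [hGR y hy, smul_zero]
  have e0 := heq _ hF hFR
  have hG1 : ∀ j, Test (pd j G) := fun j => test_pd hG j
  have hG2 : ∀ i j, Test (pd i (pd j G)) := fun i j => test_pd (hG1 j) i
  have ej : ∀ j, pd j (Vale.Agent.P227.Moll.mo (stdM ε) G) = Vale.Agent.P227.Moll.mo (stdM ε) (pd j G) := fun j => pd_mo hηl hG j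
  have eij : ∀ i j, pd i (pd j (Vale.Agent.P227.Moll.mo (stdM ε) G)) = Vale.Agent.P227.Moll.mo (stdM ε) (pd i (pd j G)) := fun i j => by
    rw [ej, pd_mo hηl (hG1 j)]
  have tmo : ∀ g : E n → ℝ, Test g → Test (Vale.Agent.P227.Moll.mo (stdM ε) g) := fun g hg =>
    test_mo hη (test_loc hg) hg.2
  -- the integrals
  have J0 : Integrable (fun x => f x * r x * Vale.Agent.P227.Moll.mo (stdM ε) G x) :=
    integrable_mul_test (ip r D.rcont) hF.1.continuous hF.2
  have J2 : ∀ i j, Integrable (fun x => f x * A x i j * Vale.Agent.P227.Moll.mo (stdM ε) (pd i (pd j G)) x) := fun i j =>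
    integrable_mul_test (ip _ (D.acont i j)) (tmo _ (hG2 i j)).1.continuous (tmo _ (hG2 i j)).2
  have J1 : ∀ j, Integrable (fun x => f x * (r x * x j) * Vale.Agent.P227.Moll.mo (stdM ε) (pd j G) x) := fun j =>
    integrable_mul_test (ip _ (hrc j)) (tmo _ (hG1 j)).1.continuous (tmo _ (hG1 j)).2
  have e1 : (∫ x, f x * r x * Vale.Agent.P227.Moll.mo (stdM ε) G x)
      - (∑ i, ∑ j, ∫ x, f x * A x i j * Vale.Agent.P227.Moll.mo (stdM ε) (pd i (pd j G)) x)
      + ∑ j, ∫ x, f x * (r x * x j) * Vale.Agent.P227.Moll.mo (stdM ε) (pd j G) x = 0 := by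
    rw [← e0]
    have s2 : (∑ i, ∑ j, ∫ x, f x * A x i j * Vale.Agent.P227.Moll.mo (stdM ε) (pd i (pd j G)) x) =
        ∫ x, ∑ i, ∑ j, f x * A x i j * Vale.Agent.P227.Moll.mo (stdM ε) (pd i (pd j G)) x := by
      rw [integral_finsetSum _ (fun i _ => integrable_finsetSum _ (fun j _ => J2 i j))]
      refine Finset.sum_congr rfl fun i _ => ?_
      rw [integral_finsetSum _ (fun j _ => J2 i j)]
    have s1 : (∑ j, ∫ x, f x * (r x * x j) * Vale.Agent.P227.Moll.mo (stdM ε) (pd j G) x) =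
        ∫ x, ∑ j, f x * (r x * x j) * Vale.Agent.P227.Moll.mo (stdM ε) (pd j G) x := by
      rw [integral_finsetSum _ (fun j _ => J1 j)]
    have I2 : Integrable (fun x => ∑ i, ∑ j, f x * A x i j * Vale.Agent.P227.Moll.mo (stdM ε) (pd i (pd j G)) x) :=
      integrable_finsetSum _ (fun i _ => integrable_finsetSum _ (fun j _ => J2 i j))
    have I1 : Integrable (fun x => ∑ j, f x * (r x * x j) * Vale.Agent.P227.Moll.mo (stdM ε) (pd j G) x) :=
      integrable_finsetSum _ (fun j _ => J1 j)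
    have J02 : Integrable (fun x => f x * r x * Vale.Agent.P227.Moll.mo (stdM ε) G x -
        ∑ i, ∑ j, f x * A x i j * Vale.Agent.P227.Moll.mo (stdM ε) (pd i (pd j G)) x) := J0.sub I2
    rw [s2, s1, ← integral_sub J0 I2, ← integral_add J02 I1]
    refine integral_congr_ae (Eventually.of_forall fun x => ?_)
    simp only [eij]
    simp only [ej]
    rw [mul_add, mul_sub, Finset.mul_sum, Finset.mul_sum]
    congr 1
    · congr 1
      · ring
      · refine Finset.sum_congr rfl fun i _ => ?_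
        rw [Finset.mul_sum]
        refine Finset.sum_congr rfl fun j _ => ?_
        ring
    · refine Finset.sum_congr rfl fun j _ => ?_
      ring
  have sw : ∀ w : E n → ℝ, Continuous w → ∀ g : E n → ℝ, Test g →
      ∫ x, f x * w x * Vale.Agent.P227.Moll.mo (stdM ε) g x = ∫ x, Vale.Agent.P227.Moll.mo (stdM ε) (fun y => f y * w y) x * g x :=
    fun w hw g hg => mo_swap hη.contDiff.continuous hη.hcs (stdM_even ε) (ip w hw) hg.1.continuous
      hg.2
  have hq : ∀ w : E n → ℝ, Continuous w → ContDiff ℝ ∞ (Vale.Agent.P227.Moll.mo (stdM ε) (fun y => f y * w y)) :=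
    fun w hw => contDiff_mo hη.contDiff hη.hcs (loc_mul hfl hw)
  have hpdc : ∀ (u : E n → ℝ), ContDiff ℝ ∞ u → ∀ i, Continuous (pd i u) := fun u hu i =>
    (hu.continuous_fderiv (by simp)).clm_apply continuous_const
  have ib : ∀ i j, ∫ x, Vale.Agent.P227.Moll.mo (stdM ε) (fun y => f y * A y i j) x * pd i (pd j G) x =
      - ∫ x, pd i (Vale.Agent.P227.Moll.mo (stdM ε) (fun y => f y * A y i j)) x * pd j G x := fun i j =>
    ibp ((hq _ (D.acont i j)).of_le (by simp)) ((hG1 j).1.of_le (by simp)) (hG1 j).2 (ei i)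
  have e2 : (∫ x, Vale.Agent.P227.Moll.mo (stdM ε) (fun y => f y * r y) x * G x)
      + (∑ j, ∑ i, ∫ x, pd i (Vale.Agent.P227.Moll.mo (stdM ε) (fun y => f y * A y i j)) x * pd j G x)
      + ∑ j, ∫ x, Vale.Agent.P227.Moll.mo (stdM ε) (fun y => f y * (r y * y j)) x * pd j G x = 0 := by
    rw [← e1, sw r D.rcont G hG]
    have s2 : (∑ i, ∑ j, ∫ x, f x * A x i j * Vale.Agent.P227.Moll.mo (stdM ε) (pd i (pd j G)) x) =
        - ∑ j, ∑ i, ∫ x, pd i (Vale.Agent.P227.Moll.mo (stdM ε) (fun y => f y * A y i j)) x * pd j G x := by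
      rw [Finset.sum_comm, ← Finset.sum_neg_distrib]
      refine Finset.sum_congr rfl fun j _ => ?_
      rw [← Finset.sum_neg_distrib]
      refine Finset.sum_congr rfl fun i _ => ?_
      rw [sw _ (D.acont i j) _ (hG2 i j), ib]
    have s1 : (∑ j, ∫ x, f x * (r x * x j) * Vale.Agent.P227.Moll.mo (stdM ε) (pd j G) x) =
        ∑ j, ∫ x, Vale.Agent.P227.Moll.mo (stdM ε) (fun y => f y * (r y * y j)) x * pd j G x :=
      Finset.sum_congr rfl fun j _ => sw _ (hrc j) _ (hG1 j)
    rw [s2, s1]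
    ring
  -- put together
  have K0 : Integrable (fun x => Vale.Agent.P227.Moll.mo (stdM ε) (fun y => f y * r y) x * G x) :=
    integrable_cont_test (hq r D.rcont).continuous hG.1.continuous hG.2
  have K2 : ∀ j i, Integrable
      (fun x => pd i (Vale.Agent.P227.Moll.mo (stdM ε) (fun y => f y * A y i j)) x * pd j G x) := fun j i =>
    integrable_cont_test (hpdc _ (hq _ (D.acont i j)) i) (hG1 j).1.continuous (hG1 j).2
  have K1 : ∀ j, Integrable
      (fun x => Vale.Agent.P227.Moll.mo (stdM ε) (fun y => f y * (r y * y j)) x * pd j G x) := fun j =>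
    integrable_cont_test (hq _ (hrc j)).continuous (hG1 j).1.continuous (hG1 j).2
  have s2 : (∑ j, ∑ i, ∫ x, pd i (Vale.Agent.P227.Moll.mo (stdM ε) (fun y => f y * A y i j)) x * pd j G x) =
      ∫ x, ∑ j, ∑ i, pd i (Vale.Agent.P227.Moll.mo (stdM ε) (fun y => f y * A y i j)) x * pd j G x := by
    rw [integral_finsetSum _ (fun j _ => integrable_finsetSum _ (fun i _ => K2 j i))]
    refine Finset.sum_congr rfl fun j _ => ?_
    rw [integral_finsetSum _ (fun i _ => K2 j i)]
  have s1 : (∑ j, ∫ x, Vale.Agent.P227.Moll.mo (stdM ε) (fun y => f y * (r y * y j)) x * pd j G x) =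
      ∫ x, ∑ j, Vale.Agent.P227.Moll.mo (stdM ε) (fun y => f y * (r y * y j)) x * pd j G x := by
    rw [integral_finsetSum _ (fun j _ => K1 j)]
  have I2 : Integrable (fun x => ∑ j, ∑ i,
      pd i (Vale.Agent.P227.Moll.mo (stdM ε) (fun y => f y * A y i j)) x * pd j G x) :=
    integrable_finsetSum _ (fun j _ => integrable_finsetSum _ (fun i _ => K2 j i))
  have I1 : Integrable (fun x => ∑ j, Vale.Agent.P227.Moll.mo (stdM ε) (fun y => f y * (r y * y j)) x * pd j G x) :=
    integrable_finsetSum _ (fun j _ => K1 j)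
  have K02 : Integrable (fun x => Vale.Agent.P227.Moll.mo (stdM ε) (fun y => f y * r y) x * G x +
      ∑ j, ∑ i, pd i (Vale.Agent.P227.Moll.mo (stdM ε) (fun y => f y * A y i j)) x * pd j G x) := K0.add I2
  rw [← e2, s2, s1, ← integral_add K0 I2, ← integral_add K02 I1]
  refine integral_congr_ae (Eventually.of_forall fun x => ?_)
  simp only []
  rw [add_assoc, ← Finset.sum_add_distrib]
  congr 1
  refine Finset.sum_congr rfl fun j _ => ?_
  unfold err
  rw [Finset.sum_sub_distrib, ← Finset.sum_mul]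
  ring

end Vale.Agent.P227.M.LIN.E456
end

section

/-! # Essential self-adjointness, part 4: the local inequality and the conclusion -/

open MeasureTheory Filter Topology
open scoped ContDiff

namespace Vale.Agent.P227.M.LIN.E456

open Vale.Agent.P227.M Vale.Agent.P227.Moll

variable {n : ℕ} {r : E n → ℝ} {A : E n → Fin n → Fin n → ℝ}

lemma esa_alg (a : Fin n → Fin n → ℝ) (hs : ∀ i j, a i j = a j i) {m : ℝ} (hm : 0 < m)
    (hlow : ∀ v : Fin n → ℝ, m * ∑ i, v i ^ 2 ≤ ∑ i, ∑ j, a i j * v i * v j)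
    (e H z' : Fin n → ℝ) (z h : ℝ) (hz : |z| ≤ 1) :
    -(1 / (4 * m)) * (∑ j, e j * e j) + (∑ j, e j * (z * z' j * h))
      - (∑ i, ∑ j, a i j * z' i * z' j) * h * h ≤
    ∑ j, (e j + ∑ i, a i j * H i) * (2 * z * z' j * h + z ^ 2 * H j) := by
  obtain ⟨Z, hZ⟩ : ∃ Z : Fin n → ℝ, ∀ j, Z j = z' j * h + z * H j := ⟨_, fun j => rfl⟩
  have s1 : ∑ j, ∑ i, a i j * (z' i * Z j) = ∑ j, ∑ i, a i j * (Z i * z' j) := by
    rw [Finset.sum_comm]
    refine Finset.sum_congr rfl fun i _ => Finset.sum_congr rfl fun j _ => ?_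
    rw [hs]; ring
  have e1 : ∑ j, (e j + ∑ i, a i j * H i) * (2 * z * z' j * h + z ^ 2 * H j) =
      (∑ j, e j * (z * Z j)) + (∑ j, e j * (z * z' j * h)) + (∑ j, ∑ i, a i j * (Z i * Z j))
      + h * (∑ j, ∑ i, a i j * (Z i * z' j)) - h * (∑ j, ∑ i, a i j * (z' i * Z j))
      - h * h * (∑ j, ∑ i, a i j * (z' i * z' j)) := by
    simp only [Finset.mul_sum, ← Finset.sum_add_distrib, ← Finset.sum_sub_distrib]
    refine Finset.sum_congr rfl fun j _ => ?_
    rw [add_mul, Finset.sum_mul]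
    have e2 : ∑ i, a i j * H i * (2 * z * z' j * h + z ^ 2 * H j) =
        (∑ i, a i j * (Z i * Z j)) + (∑ i, h * (a i j * (Z i * z' j)))
        - (∑ i, h * (a i j * (z' i * Z j))) - ∑ i, h * h * (a i j * (z' i * z' j)) := by
      simp only [← Finset.sum_add_distrib, ← Finset.sum_sub_distrib]
      refine Finset.sum_congr rfl fun i _ => ?_
      rw [hZ, hZ]; ring
    rw [e2, hZ j]
    ring
  have s2 : ∑ j, ∑ i, a i j * (Z i * Z j) = ∑ i, ∑ j, a i j * Z i * Z j := by
    rw [Finset.sum_comm]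
    refine Finset.sum_congr rfl fun i _ => Finset.sum_congr rfl fun j _ => ?_
    ring
  have s3 : ∑ j, ∑ i, a i j * (z' i * z' j) = ∑ i, ∑ j, a i j * z' i * z' j := by
    rw [Finset.sum_comm]
    refine Finset.sum_congr rfl fun i _ => Finset.sum_congr rfl fun j _ => ?_
    ring
  have h1 := hlow Z
  have h2 : -(1 / (4 * m)) * (∑ j, e j * e j) ≤ (∑ j, e j * (z * Z j)) + m * ∑ i, Z i ^ 2 := by
    rw [Finset.mul_sum, Finset.mul_sum, ← Finset.sum_add_distrib]
    refine Finset.sum_le_sum fun j _ => ?_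
    have hz2 : z ^ 2 ≤ 1 := by
      have := sq_abs z
      nlinarith [abs_nonneg z]
    have h3 : 0 ≤ (2 * m * Z j + z * e j) ^ 2 := sq_nonneg _
    have h4 : z ^ 2 * e j ^ 2 ≤ 1 * e j ^ 2 := mul_le_mul_of_nonneg_right hz2 (sq_nonneg _)
    have h5 : -(1 / (4 * m)) * (e j * e j) = (1 / (4 * m)) * (-(e j ^ 2)) := by ring
    have h6 : e j * (z * Z j) + m * Z j ^ 2 =
        (1 / (4 * m)) * ((2 * m * Z j + z * e j) ^ 2 - z ^ 2 * e j ^ 2) := by
      field_simp
      ring
    rw [h5, h6]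
    refine mul_le_mul_of_nonneg_left ?_ (by positivity)
    nlinarith
  rw [e1, s1, s2, s3]
  nlinarith

lemma pd_zero_of_ball {g : E n → ℝ} {R : ℝ}
    (h0 : ∀ x, x ∉ Metric.closedBall (0 : E n) R → g x = 0) (i : Fin n) :
    ∀ x, x ∉ Metric.closedBall (0 : E n) R → pd i g x = 0 := by
  intro x hx
  have ho : IsOpen (Metric.closedBall (0 : E n) R)ᶜ := Metric.isClosed_closedBall.isOpen_compl
  have h1 : g =ᶠ[𝓝 x] fun _ => (0 : ℝ) := by
    filter_upwards [ho.mem_nhds hx] with y hy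
    exact h0 y hy
  unfold pd
  rw [h1.fderiv_eq]
  simp

/-- the local inequality -/
theorem local_ineq (D : Dat r A) {R m : ℝ} (hm : 0 < m)
    (hlow : ∀ x ∈ Metric.closedBall (0 : E n) R, ∀ v : Fin n → ℝ,
      m * ∑ i, v i ^ 2 ≤ ∑ i, ∑ j, A x i j * v i * v j)
    {f : E n → ℝ} (hf : MemLp f 2 (volume : Measure (E n)))
    (h0 : ∀ x, x ∉ Metric.closedBall (0 : E n) (R + 2) → f x = 0)
    (heq : ∀ F : E n → ℝ, Test F → (∀ x, x ∉ Metric.closedBall (0 : E n) (R + 1) → F x = 0) →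
      ∫ x, f x * (r x * F x - (∑ i, ∑ j, A x i j * pd i (pd j F) x) + ∑ j, r x * x j * pd j F x) = 0)
    {ζ : E n → ℝ} (hζ : Test ζ) (hζR : ∀ x, x ∉ Metric.closedBall (0 : E n) R → ζ x = 0)
    (hζ1 : ∀ x, |ζ x| ≤ 1) :
    ∫ x, (f x * r x) * (ζ x ^ 2 * f x) ≤
      ∫ x, ((∑ i, ∑ j, A x i j * pd i ζ x * pd j ζ x) * f x) * f x := by
  have hk1 : ∀ k : ℕ, 1 / ((k : ℝ) + 1) ≤ 1 := by
    intro k
    rw [div_le_one (by positivity)]
    have := Nat.cast_nonneg (α := ℝ) k
    linarith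
  have hk0 : ∀ k : ℕ, 0 < 1 / ((k : ℝ) + 1) := fun k => by positivity
  have hz' : ∀ j, Test (pd j ζ) := fun j => test_pd hζ j
  -- sequences
  have hp : MemLp (fun x => f x * r x) 2 (volume : Measure (E n)) := memLp_mul hf h0 D.rcont
  have L0 := L2t.moll hp
  have Lf := L2t.moll hf
  have bd : ∀ w : E n → ℝ, Continuous w → HasCompactSupport w → ∃ B : ℝ, ∀ x, |w x| ≤ B := by
    intro w hw hc
    obtain ⟨B, hB⟩ := hc.exists_bound_of_continuous hw
    exact ⟨B, hB⟩
  have c2 : Continuous (fun x => ζ x ^ 2) := hζ.1.continuous.pow 2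
  have cs2 : HasCompactSupport (fun x => ζ x ^ 2) := by
    have h1 : HasCompactSupport (fun x => ζ x * ζ x) := hζ.2.mul_left
    simpa only [sq] using h1
  obtain ⟨B2, hB2⟩ := bd _ c2 cs2
  have L2 := Lf.bmul c2.aestronglyMeasurable hB2
  have c3 : ∀ j, Continuous (fun x => ζ x * pd j ζ x) := fun j =>
    hζ.1.continuous.mul (hz' j).1.continuous
  have cs3 : ∀ j, HasCompactSupport (fun x => ζ x * pd j ζ x) := fun j => (hz' j).2.mul_left
  have L3 : ∀ j, L2t (fun k x => (ζ x * pd j ζ x) * Vale.Agent.P227.Moll.mo (seqM k) f x)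
      (fun x => (ζ x * pd j ζ x) * f x) := fun j => by
    obtain ⟨B3, hB3⟩ := bd _ (c3 j) (cs3 j)
    exact Lf.bmul (c3 j).aestronglyMeasurable hB3
  have cq : Continuous (fun x => ∑ i, ∑ j, A x i j * pd i ζ x * pd j ζ x) :=
    continuous_finsetSum _ fun i _ => continuous_finsetSum _ fun j _ =>
      ((D.acont i j).mul (hz' i).1.continuous).mul (hz' j).1.continuous
  have csq : HasCompactSupport (fun x => ∑ i, ∑ j, A x i j * pd i ζ x * pd j ζ x) := by
    refine HasCompactSupport.intro (isCompact_closedBall (0 : E n) R) fun x hx => ?_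
    refine Finset.sum_eq_zero fun i _ => Finset.sum_eq_zero fun j _ => ?_
    rw [pd_zero_of_ball hζR j x hx, mul_zero]
  obtain ⟨Bq, hBq⟩ := bd _ cq csq
  have Lq := Lf.bmul cq.aestronglyMeasurable hBq
  have Le : ∀ j, L2t (fun k => (Metric.closedBall (0 : E n) R).indicator (err r A (seqM k) f j))
      (fun _ => 0) := fun j => err_lim D R hf h0 j
  -- the limits
  have T0 := L0.lim_mul L2
  have T1 : Tendsto (fun k => ∑ j, ∫ x, (Metric.closedBall (0 : E n) R).indicator
      (err r A (seqM k) f j) x * (Metric.closedBall (0 : E n) R).indicator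
      (err r A (seqM k) f j) x) atTop (𝓝 (∑ _j : Fin n, ∫ _x : E n, (0 : ℝ) * 0)) :=
    tendsto_finsetSum _ fun j _ => (Le j).lim_mul (Le j)
  have T2 : Tendsto (fun k => ∑ j, ∫ x, (Metric.closedBall (0 : E n) R).indicator
      (err r A (seqM k) f j) x * ((ζ x * pd j ζ x) * Vale.Agent.P227.Moll.mo (seqM k) f x)) atTop
      (𝓝 (∑ j : Fin n, ∫ x : E n, (0 : ℝ) * ((ζ x * pd j ζ x) * f x))) :=
    tendsto_finsetSum _ fun j _ => (Le j).lim_mul (L3 j)
  have T3 := Lq.lim_mul Lf
  have T : Tendsto (fun k => (∫ x, Vale.Agent.P227.Moll.mo (seqM k) (fun x => f x * r x) x *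
        (ζ x ^ 2 * Vale.Agent.P227.Moll.mo (seqM k) f x))
      + -(1 / (4 * m)) * (∑ j, ∫ x, (Metric.closedBall (0 : E n) R).indicator
        (err r A (seqM k) f j) x * (Metric.closedBall (0 : E n) R).indicator
        (err r A (seqM k) f j) x)
      + (∑ j, ∫ x, (Metric.closedBall (0 : E n) R).indicator
        (err r A (seqM k) f j) x * ((ζ x * pd j ζ x) * Vale.Agent.P227.Moll.mo (seqM k) f x))
      - ∫ x, ((∑ i, ∑ j, A x i j * pd i ζ x * pd j ζ x) * Vale.Agent.P227.Moll.mo (seqM k) f x) * Vale.Agent.P227.Moll.mo (seqM k) f x)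
      atTop (𝓝 ((∫ x, (f x * r x) * (ζ x ^ 2 * f x))
        + -(1 / (4 * m)) * (∑ _j : Fin n, ∫ _x : E n, (0 : ℝ) * 0)
        + (∑ j : Fin n, ∫ x : E n, (0 : ℝ) * ((ζ x * pd j ζ x) * f x))
        - ∫ x, ((∑ i, ∑ j, A x i j * pd i ζ x * pd j ζ x) * f x) * f x)) :=
    ((T0.add (T1.const_mul _)).add T2).sub T3
  have hle : ∀ k : ℕ, (∫ x, Vale.Agent.P227.Moll.mo (seqM k) (fun x => f x * r x) x *
        (ζ x ^ 2 * Vale.Agent.P227.Moll.mo (seqM k) f x))
      + -(1 / (4 * m)) * (∑ j, ∫ x, (Metric.closedBall (0 : E n) R).indicator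
        (err r A (seqM k) f j) x * (Metric.closedBall (0 : E n) R).indicator
        (err r A (seqM k) f j) x)
      + (∑ j, ∫ x, (Metric.closedBall (0 : E n) R).indicator
        (err r A (seqM k) f j) x * ((ζ x * pd j ζ x) * Vale.Agent.P227.Moll.mo (seqM k) f x))
      - ∫ x, ((∑ i, ∑ j, A x i j * pd i ζ x * pd j ζ x) * Vale.Agent.P227.Moll.mo (seqM k) f x) * Vale.Agent.P227.Moll.mo (seqM k) f x
      ≤ 0 := by
    intro k
    have hη : IsMol (1 / ((k : ℝ) + 1)) (seqM k : E n → ℝ) := seqM_isMol k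
    have hh : ContDiff ℝ ∞ (Vale.Agent.P227.Moll.mo (seqM k) f) := contDiff_mo hη.contDiff hη.hcs (locInt hf)
    have hG : Test (fun x => ζ x ^ 2 * Vale.Agent.P227.Moll.mo (seqM k) f x) := ⟨(hζ.1.pow 2).mul hh, cs2.mul_right⟩
    have hGR : ∀ x, x ∉ Metric.closedBall (0 : E n) R → ζ x ^ 2 * Vale.Agent.P227.Moll.mo (seqM k) f x = 0 := by
      intro x hx
      rw [hζR x hx]; ring
    have hE := test_eq D (hk0 k) (hk1 k) hf h0 heq hG hGR
    have hdG : ∀ j x, pd j (fun x => ζ x ^ 2 * Vale.Agent.P227.Moll.mo (seqM k) f x) x =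
        2 * ζ x * pd j ζ x * Vale.Agent.P227.Moll.mo (seqM k) f x + ζ x ^ 2 * pd j (Vale.Agent.P227.Moll.mo (seqM k) f) x := by
      intro j x
      have a1 : HasFDerivAt ζ (fderiv ℝ ζ x) x := ((hζ.1.differentiable (by simp)) x).hasFDerivAt
      have a2 : HasFDerivAt (Vale.Agent.P227.Moll.mo (seqM k) f) (fderiv ℝ (Vale.Agent.P227.Moll.mo (seqM k) f) x) x :=
        ((hh.differentiable (by simp)) x).hasFDerivAt
      have a3 := ((a1.pow 2).mul a2).fderiv
      have a4 : fderiv ℝ (fun x => ζ x ^ 2 * Vale.Agent.P227.Moll.mo (seqM k) f x) x = _ := a3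
      unfold pd
      rw [a4]
      simp
      ring
    have m0 : MemLp (Vale.Agent.P227.Moll.mo (seqM k) (fun x => f x * r x)) 2 (volume : Measure (E n)) := L0.mem k
    have mf : MemLp (Vale.Agent.P227.Moll.mo (seqM k) f) 2 (volume : Measure (E n)) := Lf.mem k
    have I0 : Integrable (fun x => Vale.Agent.P227.Moll.mo (seqM k) (fun x => f x * r x) x *
        (ζ x ^ 2 * Vale.Agent.P227.Moll.mo (seqM k) f x)) := m0.integrable_mul (L2.mem k)
    have I1 : ∀ j, Integrable (fun x => (Metric.closedBall (0 : E n) R).indicator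
        (err r A (seqM k) f j) x * (Metric.closedBall (0 : E n) R).indicator
        (err r A (seqM k) f j) x) := fun j => ((Le j).mem k).integrable_mul ((Le j).mem k)
    have I2 : ∀ j, Integrable (fun x => (Metric.closedBall (0 : E n) R).indicator
        (err r A (seqM k) f j) x * ((ζ x * pd j ζ x) * Vale.Agent.P227.Moll.mo (seqM k) f x)) := fun j =>
      ((Le j).mem k).integrable_mul ((L3 j).mem k)
    have I3 : Integrable (fun x => ((∑ i, ∑ j, A x i j * pd i ζ x * pd j ζ x) *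
        Vale.Agent.P227.Moll.mo (seqM k) f x) * Vale.Agent.P227.Moll.mo (seqM k) f x) := (Lq.mem k).integrable_mul mf
    have S1 : Integrable (fun x => -(1 / (4 * m)) * ∑ j, (Metric.closedBall (0 : E n) R).indicator
        (err r A (seqM k) f j) x * (Metric.closedBall (0 : E n) R).indicator
        (err r A (seqM k) f j) x) := (integrable_finsetSum _ fun j _ => I1 j).const_mul _
    have S2 : Integrable (fun x => ∑ j, (Metric.closedBall (0 : E n) R).indicator
        (err r A (seqM k) f j) x * ((ζ x * pd j ζ x) * Vale.Agent.P227.Moll.mo (seqM k) f x)) :=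
      integrable_finsetSum _ fun j _ => I2 j
    have I01 : Integrable (fun x => Vale.Agent.P227.Moll.mo (seqM k) (fun x => f x * r x) x *
        (ζ x ^ 2 * Vale.Agent.P227.Moll.mo (seqM k) f x) + -(1 / (4 * m)) * ∑ j,
        (Metric.closedBall (0 : E n) R).indicator
        (err r A (seqM k) f j) x * (Metric.closedBall (0 : E n) R).indicator
        (err r A (seqM k) f j) x) := I0.add S1
    have I012 : Integrable (fun x => Vale.Agent.P227.Moll.mo (seqM k) (fun x => f x * r x) x *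
        (ζ x ^ 2 * Vale.Agent.P227.Moll.mo (seqM k) f x) + -(1 / (4 * m)) * (∑ j,
        (Metric.closedBall (0 : E n) R).indicator
        (err r A (seqM k) f j) x * (Metric.closedBall (0 : E n) R).indicator
        (err r A (seqM k) f j) x) + ∑ j, (Metric.closedBall (0 : E n) R).indicator
        (err r A (seqM k) f j) x * ((ζ x * pd j ζ x) * Vale.Agent.P227.Moll.mo (seqM k) f x)) := I01.add S2
    rw [← integral_finsetSum _ (fun j _ => I1 j), ← integral_finsetSum _ (fun j _ => I2 j),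
      ← integral_const_mul, ← integral_add I0 S1, ← integral_add I01 S2, ← integral_sub I012 I3]
    rw [← hE]
    have hpc : Continuous (Vale.Agent.P227.Moll.mo (seqM k) (fun x => f x * r x)) :=
      (contDiff_mo hη.contDiff hη.hcs (locInt hp)).continuous
    have hIG : Integrable (fun x => Vale.Agent.P227.Moll.mo (stdM (1 / ((k : ℝ) + 1))) (fun y => f y * r y) x *
        (ζ x ^ 2 * Vale.Agent.P227.Moll.mo (seqM k) f x) + ∑ j, (err r A (stdM (1 / ((k : ℝ) + 1))) f j x +
        ∑ i, A x i j * pd i (Vale.Agent.P227.Moll.mo (stdM (1 / ((k : ℝ) + 1))) f) x) *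
        pd j (fun x => ζ x ^ 2 * Vale.Agent.P227.Moll.mo (seqM k) f x) x) := by
      refine Integrable.add (integrable_cont_test hpc hG.1.continuous hG.2) ?_
      refine integrable_finsetSum _ fun j _ => ?_
      refine integrable_cont_test ?_ (test_pd hG j).1.continuous (test_pd hG j).2
      refine (err_cont D hη (locInt hf) j).add ?_
      refine continuous_finsetSum _ fun i _ => (D.acont i j).mul ?_
      exact (hh.continuous_fderiv (by simp)).clm_apply continuous_const
    refine integral_mono (I012.sub I3) hIG fun x => ?_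
    simp only [hdG]
    by_cases hx : x ∈ Metric.closedBall (0 : E n) R
    · simp only [Set.indicator_of_mem hx]
      have := esa_alg (A x) (D.symm x) hm (hlow x hx) (fun j => err r A (seqM k) f j x)
        (fun i => pd i (Vale.Agent.P227.Moll.mo (seqM k) f) x) (fun i => pd i ζ x) (ζ x) (Vale.Agent.P227.Moll.mo (seqM k) f x) (hζ1 x)
      simp only [seqM] at this ⊢
      linarith
    · simp only [Set.indicator_of_notMem hx, hζR x hx, pd_zero_of_ball hζR _ x hx]
      simp
  have hfin := le_of_tendsto T (Eventually.of_forall hle)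
  simp only [mul_zero, zero_mul, integral_zero, Finset.sum_const_zero, add_zero] at hfin
  linarith

end Vale.Agent.P227.M.LIN.E456
end

section

/-! # Essential self-adjointness, part 5: cut-offs and the abstract conclusion -/

open MeasureTheory Filter Topology
open scoped ContDiff

namespace Vale.Agent.P227.M.LIN.E456

open Vale.Agent.P227.M Vale.Agent.P227.Moll

variable {n : ℕ} {r : E n → ℝ} {A : E n → Fin n → Fin n → ℝ}

/-- the reference cut-off -/
noncomputable def chi0 (n : ℕ) : ContDiffBump (0 : E n) := ⟨1, 2, by norm_num, by norm_num⟩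

/-- the cut-off at radius `R` -/
noncomputable def cutR (n : ℕ) (R : ℝ) (x : E n) : ℝ := chi0 n (R⁻¹ • x)

lemma cutR_test {R : ℝ} (hR : 0 < R) : Test (cutR n R) := by
  refine ⟨(chi0 n).contDiff.comp (contDiff_const_smul _), ?_⟩
  exact (chi0 n).hasCompactSupport.comp_homeomorph (Homeomorph.smulOfNeZero R⁻¹ (inv_ne_zero hR.ne'))

lemma cutR_nonneg (R : ℝ) (x : E n) : 0 ≤ cutR n R x := (chi0 n).nonneg

lemma cutR_le_one (R : ℝ) (x : E n) : cutR n R x ≤ 1 := (chi0 n).le_one

lemma cutR_one {R : ℝ} (hR : 0 < R) {x : E n} (hx : ‖x‖ ≤ R) : cutR n R x = 1 := by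
  refine (chi0 n).one_of_mem_closedBall ?_
  simp only [Metric.mem_closedBall, dist_zero_right, norm_smul, norm_inv,
    Real.norm_of_nonneg hR.le, chi0]
  rw [inv_mul_eq_div, div_le_one hR]
  exact hx

lemma cutR_zero {R : ℝ} (hR : 0 < R) {x : E n} (hx : x ∉ Metric.closedBall (0 : E n) (2 * R)) :
    cutR n R x = 0 := by
  refine (chi0 n).zero_of_le_dist ?_
  simp only [Metric.mem_closedBall, dist_zero_right, not_le] at hx
  simp only [dist_zero_right, norm_smul, norm_inv, Real.norm_of_nonneg hR.le, chi0]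
  rw [inv_mul_eq_div, le_div_iff₀ hR]
  exact hx.le

lemma cutR_pd (n : ℕ) : ∃ L : ℝ, 0 ≤ L ∧ ∀ R : ℝ, 0 < R → ∀ x i, |pd i (cutR n R) x| ≤ L / R := by
  have hc : Continuous (fderiv ℝ (chi0 n : E n → ℝ)) :=
    (chi0 n).contDiff (n := 1).continuous_fderiv (by simp)
  obtain ⟨L, hL⟩ := ((chi0 n).hasCompactSupport.fderiv ℝ).exists_bound_of_continuous hc
  refine ⟨|L|, abs_nonneg _, fun R hR x i => ?_⟩
  have h2 : HasFDerivAt (fun x : E n => R⁻¹ • x) (R⁻¹ • ContinuousLinearMap.id ℝ (E n)) x :=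
    (hasFDerivAt_id x).const_smul R⁻¹
  have h3 : HasFDerivAt (chi0 n : E n → ℝ) (fderiv ℝ (chi0 n : E n → ℝ) (R⁻¹ • x)) (R⁻¹ • x) :=
    (((chi0 n).contDiff (n := 1)).differentiable (by simp) _).hasFDerivAt
  have h5 : fderiv ℝ (cutR n R) x = _ := (h3.comp x h2).fderiv
  unfold pd
  rw [h5]
  simp only [ContinuousLinearMap.comp_smul, ContinuousLinearMap.comp_id,
    _root_.smul_apply, smul_eq_mul, abs_mul, abs_inv, abs_of_pos hR]
  have h6 := (fderiv ℝ (chi0 n : E n → ℝ) (R⁻¹ • x)).le_opNorm (ei i)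
  rw [norm_ei, mul_one] at h6
  rw [inv_mul_eq_div]
  have h7 : |fderiv ℝ (chi0 n : E n → ℝ) (R⁻¹ • x) (ei i)| ≤ |L| :=
    (h6.trans (hL _)).trans (le_abs_self L)
  gcongr

/-- abstract essential self-adjointness -/
theorem esa_core (D : Dat r A) (rpos : ∀ x, 0 < r x) {c C : ℝ} (hc : 0 < c) (hC : 0 ≤ C)
    (hlow : ∀ x, ∀ v : Fin n → ℝ, c * r x * ∑ i, v i ^ 2 ≤ ∑ i, ∑ j, A x i j * v i * v j)
    (hup : ∀ x, ∀ v : Fin n → ℝ, ∑ i, ∑ j, A x i j * v i * v j ≤ C * r x * ∑ i, v i ^ 2)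
    {h : E n → ℝ} (hm : AEStronglyMeasurable h volume) (hi : Integrable (fun x => h x ^ 2 * r x))
    (heq : ∀ F : E n → ℝ, Test F →
      ∫ x, h x * (r x * F x - (∑ i, ∑ j, A x i j * pd i (pd j F) x) + ∑ j, r x * x j * pd j F x) = 0) :
    h =ᵐ[volume] 0 := by
  obtain ⟨L, hL0, hL⟩ := cutR_pd n
  set N : ℝ := ∫ x, h x ^ 2 * r x with hN
  -- the local estimate
  have key : ∀ R : ℝ, 0 < R →
      ∫ x, cutR n R x ^ 2 * (h x ^ 2 * r x) ≤ C * (n * (L / R) ^ 2) * N := by
    intro R hR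
    set f : E n → ℝ := (Metric.closedBall (0 : E n) (2 * R + 2)).indicator h with hf
    have hB : MeasurableSet (Metric.closedBall (0 : E n) (2 * R + 2)) :=
      Metric.isClosed_closedBall.measurableSet
    have hfm : AEStronglyMeasurable f volume := hm.indicator hB
    have f0 : ∀ x, x ∉ Metric.closedBall (0 : E n) (2 * R + 2) → f x = 0 := fun x hx =>
      Set.indicator_of_notMem hx _
    have f1 : ∀ x ∈ Metric.closedBall (0 : E n) (2 * R + 2), f x = h x := fun x hx =>
      Set.indicator_of_mem hx _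
    have hne : (Metric.closedBall (0 : E n) (2 * R + 2)).Nonempty :=
      ⟨0, by simp only [Metric.mem_closedBall, dist_self]; positivity⟩
    obtain ⟨x0, hx0, hmin⟩ := (isCompact_closedBall (0 : E n) (2 * R + 2)).exists_isMinOn hne
      D.rcont.continuousOn
    have hr0 := rpos x0
    have hfL : MemLp f 2 (volume : Measure (E n)) := by
      refine (memLp_two_iff_integrable_sq_norm hfm).mpr ?_
      refine (hi.const_mul (r x0)⁻¹).mono' (hfm.norm.pow 2) (Eventually.of_forall fun x => ?_)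
      rw [Real.norm_of_nonneg (by positivity), Real.norm_eq_abs, sq_abs]
      by_cases hx : x ∈ Metric.closedBall (0 : E n) (2 * R + 2)
      · rw [f1 x hx]
        have h1 : r x0 ≤ r x := hmin hx
        rw [inv_mul_eq_div, le_div_iff₀ hr0]
        exact mul_le_mul_of_nonneg_left h1 (sq_nonneg _)
      · rw [f0 x hx]
        have := rpos x
        have h9 : (0 : ℝ) ^ 2 = 0 := by norm_num
        rw [h9]
        positivity
    have hsub : Metric.closedBall (0 : E n) (2 * R) ⊆ Metric.closedBall (0 : E n) (2 * R + 2) :=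
      Metric.closedBall_subset_closedBall (by linarith)
    have hsub1 : Metric.closedBall (0 : E n) (2 * R + 1) ⊆ Metric.closedBall (0 : E n) (2 * R + 2) :=
      Metric.closedBall_subset_closedBall (by linarith)
    have heq' : ∀ F : E n → ℝ, Test F →
        (∀ x, x ∉ Metric.closedBall (0 : E n) (2 * R + 1) → F x = 0) →
        ∫ x, f x * (r x * F x - (∑ i, ∑ j, A x i j * pd i (pd j F) x)
          + ∑ j, r x * x j * pd j F x) = 0 := by
      intro F hF hF0
      rw [← heq F hF]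
      refine integral_congr_ae (Eventually.of_forall fun x => ?_)
      by_cases hx : x ∈ Metric.closedBall (0 : E n) (2 * R + 2)
      · simp only [f1 x hx]
      · have hx1 : x ∉ Metric.closedBall (0 : E n) (2 * R + 1) := fun hc => hx (hsub1 hc)
        have p1 := fun j => pd_zero_of_ball hF0 j
        have p2 := fun i j => pd_zero_of_ball (p1 j) i
        simp only [hF0 x hx1, p1 _ x hx1, p2 _ _ x hx1]
        simp
    have hloc := local_ineq D (R := 2 * R) (m := c * r x0) (by positivity) (fun x hx v => by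
      refine le_trans ?_ (hlow x v)
      have h1 : r x0 ≤ r x := hmin (hsub hx)
      have h2 : 0 ≤ ∑ i, v i ^ 2 := Finset.sum_nonneg fun i _ => sq_nonneg _
      gcongr) hfL f0 heq' (ζ := cutR n R) (cutR_test hR) (fun x hx => cutR_zero hR hx)
      (fun x => by rw [abs_of_nonneg (cutR_nonneg R x)]; exact cutR_le_one R x)
    have e1 : ∫ x, (f x * r x) * (cutR n R x ^ 2 * f x) =
        ∫ x, cutR n R x ^ 2 * (h x ^ 2 * r x) := by
      refine integral_congr_ae (Eventually.of_forall fun x => ?_)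
      by_cases hx : x ∈ Metric.closedBall (0 : E n) (2 * R + 2)
      · simp only [f1 x hx]; ring
      · have hx1 : x ∉ Metric.closedBall (0 : E n) (2 * R) := fun hc => hx (hsub hc)
        simp only [cutR_zero hR hx1]; ring
    rw [e1] at hloc
    refine hloc.trans ?_
    have hpt : ∀ x, ((∑ i, ∑ j, A x i j * pd i (cutR n R) x * pd j (cutR n R) x) * f x) * f x ≤
        C * (n * (L / R) ^ 2) * (h x ^ 2 * r x) := by
      intro x
      have hrx := rpos x
      have h1 := hup x (fun i => pd i (cutR n R) x)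
      have h2 : ∑ i, (pd i (cutR n R) x) ^ 2 ≤ n * (L / R) ^ 2 := by
        calc ∑ i, (pd i (cutR n R) x) ^ 2 ≤ ∑ _i : Fin n, (L / R) ^ 2 := by
              refine Finset.sum_le_sum fun i _ => ?_
              rw [← sq_abs]
              exact pow_le_pow_left₀ (abs_nonneg _) (hL R hR x i) 2
          _ = n * (L / R) ^ 2 := by simp
      have h3 : C * r x * ∑ i, (pd i (cutR n R) x) ^ 2 ≤ C * r x * (n * (L / R) ^ 2) :=
        mul_le_mul_of_nonneg_left h2 (by positivity)
      have h4 : f x ^ 2 ≤ h x ^ 2 := by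
        by_cases hx : x ∈ Metric.closedBall (0 : E n) (2 * R + 2)
        · rw [f1 x hx]
        · rw [f0 x hx]
          have h9 : (0 : ℝ) ^ 2 = 0 := by norm_num
          rw [h9]
          positivity
      calc ((∑ i, ∑ j, A x i j * pd i (cutR n R) x * pd j (cutR n R) x) * f x) * f x
          = (∑ i, ∑ j, A x i j * pd i (cutR n R) x * pd j (cutR n R) x) * f x ^ 2 := by ring
        _ ≤ (C * r x * (n * (L / R) ^ 2)) * f x ^ 2 :=
            mul_le_mul_of_nonneg_right (h1.trans h3) (sq_nonneg _)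
        _ ≤ (C * r x * (n * (L / R) ^ 2)) * h x ^ 2 :=
            mul_le_mul_of_nonneg_left h4 (by positivity)
        _ = _ := by ring
    rw [hN, ← integral_const_mul]
    have hqm : AEStronglyMeasurable (fun x => ((∑ i, ∑ j, A x i j * pd i (cutR n R) x *
        pd j (cutR n R) x) * f x) * f x) volume := by
      have cq : Continuous (fun x => ∑ i, ∑ j, A x i j * pd i (cutR n R) x * pd j (cutR n R) x) :=
        continuous_finsetSum _ fun i _ => continuous_finsetSum _ fun j _ =>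
          ((D.acont i j).mul (test_pd (cutR_test hR) i).1.continuous).mul
            (test_pd (cutR_test hR) j).1.continuous
      exact (cq.aestronglyMeasurable.mul hfm).mul hfm
    refine integral_mono_of_nonneg ?_ (hi.const_mul _) (Eventually.of_forall hpt)
    refine Eventually.of_forall fun x => ?_
    have hrx := rpos x
    have h1 := hlow x (fun i => pd i (cutR n R) x)
    have h2 : 0 ≤ ∑ i, ∑ j, A x i j * pd i (cutR n R) x * pd j (cutR n R) x := by
      refine le_trans ?_ h1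
      have : 0 ≤ ∑ i, (pd i (cutR n R) x) ^ 2 := Finset.sum_nonneg fun i _ => sq_nonneg _
      positivity
    show 0 ≤ ((∑ i, ∑ j, A x i j * pd i (cutR n R) x * pd j (cutR n R) x) * f x) * f x
    rw [mul_assoc]
    exact mul_nonneg h2 (mul_self_nonneg _)
  -- the limit
  have T1 : Tendsto (fun k : ℕ => ∫ x, cutR n ((k : ℝ) + 1) x ^ 2 * (h x ^ 2 * r x)) atTop
      (𝓝 (∫ x, h x ^ 2 * r x)) := by
    refine tendsto_integral_of_dominated_convergence (fun x => h x ^ 2 * r x) ?_ hi ?_ ?_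
    · intro k
      exact ((cutR_test (n := n) (show 0 < (k : ℝ) + 1 by positivity)).1.continuous.pow
        2).aestronglyMeasurable.mul hi.1
    · intro k
      refine Eventually.of_forall fun x => ?_
      have hrx := rpos x
      have h1 := cutR_nonneg ((k : ℝ) + 1) x
      have h2 := cutR_le_one ((k : ℝ) + 1) x
      rw [Real.norm_of_nonneg (by positivity)]
      have h3 : cutR n ((k : ℝ) + 1) x ^ 2 ≤ 1 := pow_le_one₀ h1 h2
      have h4 : 0 ≤ h x ^ 2 * r x := by positivity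
      nlinarith
    · refine Eventually.of_forall fun x => ?_
      refine tendsto_const_nhds.congr' ?_
      filter_upwards [eventually_ge_atTop ⌈‖x‖⌉₊] with k hk
      have h1 : ‖x‖ ≤ (k : ℝ) + 1 := by
        have := Nat.le_of_ceil_le hk
        linarith
      rw [cutR_one (by positivity) h1]
      ring
  have T2 : Tendsto (fun k : ℕ => C * (n * (L / ((k : ℝ) + 1)) ^ 2) * N) atTop (𝓝 0) := by
    have h1 : Tendsto (fun k : ℕ => L / ((k : ℝ) + 1)) atTop (𝓝 0) :=
      tendsto_const_div_atTop_nhds_zero_nat L |>.comp (tendsto_add_atTop_nat 1) |>.congr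
        fun k => by simp
    have h2 := (((h1.pow 2).const_mul (n : ℝ)).const_mul C).mul_const N
    simpa using h2
  have hN0 : N ≤ 0 := le_of_tendsto_of_tendsto' T1 T2 fun k => key _ (by positivity)
  have hz : (fun x => h x ^ 2 * r x) =ᵐ[volume] 0 := by
    refine (integral_eq_zero_iff_of_nonneg_ae (Eventually.of_forall fun x => ?_) hi).1 ?_
    · have hrx := rpos x
      show 0 ≤ h x ^ 2 * r x
      positivity
    · refine le_antisymm hN0 (integral_nonneg fun x => ?_)
      have hrx := rpos x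
      positivity
  filter_upwards [hz] with x hx
  have hrx := rpos x
  simp only [Pi.zero_apply, mul_eq_zero, ne_eq, OfNat.ofNat_ne_zero, not_false_eq_true,
    pow_eq_zero_iff] at hx ⊢
  rcases hx with hx | hx
  · exact hx
  · exact absurd hx hrx.ne'

end Vale.Agent.P227.M.LIN.E456
end

section

/-! # P227/M/LIN: kernel bounds for the second Friedrichs step (helper479). -/

open MeasureTheory Filter Metric Set
open scoped Topology

namespace Vale.Agent.P227.M.LIN

/-- reference bump, radii `1, 2` -/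
noncomputable def bp0 (n : ℕ) : ContDiffBump (0 : E n) := ⟨1, 2, one_pos, one_lt_two⟩

lemma ker_bp_apply {n : ℕ} (m : ℕ) (x : E n) : (bp n m) x = (bp0 n) ((dl m / 2)⁻¹ • x) := by
  rw [ContDiffBump.apply, ContDiffBump.apply]
  have hd := dl_pos m
  have h1 : (bp n m).rOut / (bp n m).rIn = 2 := by
    show dl m / (dl m / 2) = 2
    field_simp
  have h2 : (bp0 n).rOut / (bp0 n).rIn = 2 := by
    show (2 : ℝ) / 1 = 2
    norm_num
  rw [h1, h2]
  congr 1
  show (dl m / 2)⁻¹ • (x - 0) = (1 : ℝ)⁻¹ • ((dl m / 2)⁻¹ • x - 0)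
  simp

lemma ker_rk_zero {n : ℕ} (m : ℕ) {x : E n} (hx : dl m ≤ ‖x‖) : rk m x = 0 := by
  have h : x ∉ Function.support ((bp n m).normed volume) := by
    rw [ContDiffBump.support_normed_eq]
    intro h
    rw [mem_ball_zero_iff] at h
    exact absurd h (not_lt.2 hx)
  simpa [rk] using h

lemma ker_rk_cont {n : ℕ} (m : ℕ) : Continuous (rk (n := n) m) := (bp n m).continuous_normed

theorem ker_bounds (n : ℕ) : ∃ C0 : ℝ, 0 < C0 ∧ ∀ m : ℕ, (∀ x : E n, 0 ≤ rk m x ∧ rk m x ≤ C0 * (dl m ^ n)⁻¹) ∧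
    (∀ x y : E n, |rk m x - rk m y| ≤ C0 * (dl m ^ n)⁻¹ * (dl m)⁻¹ * ‖x - y‖) := by
  obtain ⟨L, hL⟩ := ContDiff.lipschitzWith_of_hasCompactSupport (n := 1) (bp0 n).hasCompactSupport
    ((bp0 n).contDiff) one_ne_zero
  set ω : ℝ := volume.real (ball (0 : E n) 1) with hω
  have hωpos : 0 < ω := by
    rw [hω, measureReal_def]
    exact ENNReal.toReal_pos (measure_ball_pos volume _ one_pos).ne' measure_ball_lt_top.ne
  refine ⟨2 ^ n / ω * (2 * L + 1), by positivity, fun m => ?_⟩
  have hd := dl_pos m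
  have hI : (dl m / 2) ^ n * ω ≤ ∫ x : E n, (bp n m) x := by
    have := (bp n m).measure_closedBall_le_integral (μ := volume)
    rw [Measure.addHaar_real_closedBall volume _ (bp n m).rIn_pos.le, finrank_euclideanSpace_fin] at this
    exact this
  have hIpos : 0 < ∫ x : E n, (bp n m) x := lt_of_lt_of_le (by positivity) hI
  have hIinv : (∫ x : E n, (bp n m) x)⁻¹ ≤ 2 ^ n / ω * (dl m ^ n)⁻¹ := by
    rw [inv_le_comm₀ hIpos (by positivity)]
    refine le_trans (le_of_eq ?_) hI
    rw [div_pow]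
    field_simp
  have hrk : ∀ x : E n, rk m x = (bp n m) x * (∫ x : E n, (bp n m) x)⁻¹ := by
    intro x
    rw [rk, ContDiffBump.normed_def, div_eq_mul_inv]
  constructor
  · intro x
    refine ⟨(bp n m).nonneg_normed x, ?_⟩
    rw [hrk]
    calc (bp n m) x * (∫ x : E n, (bp n m) x)⁻¹ ≤ 1 * (2 ^ n / ω * (dl m ^ n)⁻¹) := by
          exact mul_le_mul (bp n m).le_one hIinv (by positivity) (by norm_num)
      _ ≤ 2 ^ n / ω * (2 * L + 1) * (dl m ^ n)⁻¹ := by
          have h3 : (0 : ℝ) ≤ 2 ^ n / ω * (dl m ^ n)⁻¹ := by positivity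
          have h4 : (0 : ℝ) ≤ L := L.2
          nlinarith [mul_nonneg h3 h4]
  · intro x y
    rw [hrk, hrk, ← sub_mul, abs_mul, ker_bp_apply, ker_bp_apply, abs_of_pos (inv_pos.2 hIpos)]
    have h1 : |(bp0 n) ((dl m / 2)⁻¹ • x) - (bp0 n) ((dl m / 2)⁻¹ • y)| ≤ L * (2 * (dl m)⁻¹ * ‖x - y‖) := by
      have := hL.dist_le_mul ((dl m / 2)⁻¹ • x) ((dl m / 2)⁻¹ • y)
      rw [Real.dist_eq, dist_eq_norm, ← smul_sub, norm_smul, Real.norm_eq_abs,
        abs_of_pos (by positivity : 0 < (dl m / 2)⁻¹)] at this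
      refine this.trans (le_of_eq ?_)
      rw [inv_div]
      ring
    calc |(bp0 n) ((dl m / 2)⁻¹ • x) - (bp0 n) ((dl m / 2)⁻¹ • y)| * (∫ x : E n, (bp n m) x)⁻¹
        ≤ (L * (2 * (dl m)⁻¹ * ‖x - y‖)) * (2 ^ n / ω * (dl m ^ n)⁻¹) := by
          refine mul_le_mul h1 hIinv (by positivity) ?_
          have h4 : (0 : ℝ) ≤ L := L.2
          positivity
      _ ≤ 2 ^ n / ω * (2 * L + 1) * (dl m ^ n)⁻¹ * (dl m)⁻¹ * ‖x - y‖ := by
          have h3 : (0 : ℝ) ≤ 2 ^ n / ω * (dl m ^ n)⁻¹ * (dl m)⁻¹ * ‖x - y‖ := by positivity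
          nlinarith [h3]

lemma av_eq {n : ℕ} (m : ℕ) (g : E n → ℝ) (x : E n) :
    av m g x = (dl m ^ n)⁻¹ * ∫ y in ball x (2 * dl m), g y := by
  unfold av
  congr 1
  rw [← integral_indicator measurableSet_ball, ← integral_indicator measurableSet_ball,
    ← integral_sub_left_eq_self _ volume x]
  refine integral_congr_ae (Eventually.of_forall fun t => ?_)
  simp only [indicator, mem_ball, dist_eq_norm, sub_zero, sub_sub_cancel]
  rw [norm_sub_rev x t]

lemma mo_eq {n : ℕ} (m : ℕ) (g : E n → ℝ) (x : E n) : mo m g x = ∫ y, rk m (x - y) * g y := by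
  unfold mo
  rw [← integral_sub_left_eq_self _ volume x]
  simp

lemma av_nonneg {n : ℕ} (m : ℕ) {g : E n → ℝ} (hg : ∀ x, 0 ≤ g x) (x : E n) : 0 ≤ av m g x := by
  rw [av_eq]
  have hd := dl_pos m
  exact mul_nonneg (by positivity) (integral_nonneg fun y => hg y)

/-- basic integral bound -/
lemma int_bd {n : ℕ} (m : ℕ) (x : E n) {Φ g : E n → ℝ} {A : ℝ} (hg : Continuous g)
    (h1 : ∀ y, 2 * dl m ≤ ‖x - y‖ → Φ y = 0) (h2 : ∀ y, |Φ y| ≤ A * |g y|) :
    |∫ y, Φ y| ≤ A * ∫ y in ball x (2 * dl m), |g y| := by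
  have hint : IntegrableOn (fun y => A * |g y|) (ball x (2 * dl m)) :=
    ((continuous_const.mul hg.abs).continuousOn.integrableOn_compact (isCompact_closedBall x (2 * dl m))).mono_set
      ball_subset_closedBall
  have : ‖∫ y, Φ y‖ ≤ ∫ y, (ball x (2 * dl m)).indicator (fun y => A * |g y|) y := by
    refine norm_integral_le_of_norm_le (hint.integrable_indicator measurableSet_ball)
      (Eventually.of_forall fun y => ?_)
    by_cases hy : y ∈ ball x (2 * dl m)
    · rw [indicator_of_mem hy]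
      exact h2 y
    · rw [indicator_of_notMem hy, h1 y ?_, norm_zero]
      rw [mem_ball, dist_comm, dist_eq_norm, not_lt] at hy
      exact hy
  rw [integral_indicator measurableSet_ball, integral_const_mul] at this
  exact this

lemma rk_mul_int {n : ℕ} (m : ℕ) {g : E n → ℝ} (hg : Continuous g) (x : E n) :
    Integrable (fun y => rk m (x - y) * g y) := by
  refine Continuous.integrable_of_hasCompactSupport
    (((ker_rk_cont m).comp (continuous_const.sub continuous_id)).mul hg) ?_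
  refine HasCompactSupport.intro (isCompact_closedBall x (dl m)) (fun y hy => ?_)
  rw [mem_closedBall, dist_comm, dist_eq_norm, not_le] at hy
  rw [ker_rk_zero m hy.le, zero_mul]

theorem mo_bound (n : ℕ) : ∃ C0 : ℝ, 0 < C0 ∧ ∀ (m : ℕ) (g : E n → ℝ), Continuous g → ∀ x,
    |mo m g x| ≤ C0 * av m (fun y => |g y|) x := by
  obtain ⟨C0, hC0, hk⟩ := ker_bounds n
  refine ⟨C0, hC0, fun m g hg x => ?_⟩
  have hd := dl_pos m
  rw [mo_eq, av_eq, ← mul_assoc]
  refine int_bd m x hg (fun y hy => ?_) (fun y => ?_)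
  · rw [ker_rk_zero m (by linarith), zero_mul]
  · rw [abs_mul, abs_of_nonneg ((hk m).1 _).1]
    exact mul_le_mul_of_nonneg_right ((hk m).1 _).2 (abs_nonneg _)

lemma ker_norm_ei {n : ℕ} (b : Fin n) : ‖(ei b : E n)‖ = 1 := by
  simp [ei]

lemma step_norm {n : ℕ} (b : Fin n) (t : ℝ) (x : E n) : ‖x + t • ei b - x‖ = |t| := by
  rw [add_sub_cancel_left, norm_smul, ker_norm_ei, mul_one, Real.norm_eq_abs]

theorem mo_locB (n : ℕ) : ∃ C0 : ℝ, 0 < C0 ∧ ∀ (m : ℕ) (g : E n → ℝ), Continuous g → ∀ x b,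
    LocB b (mo m g) x (C0 * (dl m)⁻¹ * av m (fun y => |g y|) x) := by
  obtain ⟨C0, hC0, hk⟩ := ker_bounds n
  refine ⟨C0, hC0, fun m g hg x b => ?_⟩
  have hd := dl_pos m
  intro ε hε
  filter_upwards [Metric.ball_mem_nhds (0 : ℝ) hd] with t ht
  rw [mem_ball, Real.dist_eq, sub_zero] at ht
  have hst := step_norm b t x
  set x' := x + t • ei b with hx'
  have key : |mo m g x' - mo m g x| ≤ (C0 * (dl m ^ n)⁻¹ * (dl m)⁻¹ * |t|) * ∫ y in ball x (2 * dl m), |g y| := by
    rw [mo_eq, mo_eq, ← integral_sub (rk_mul_int m hg x') (rk_mul_int m hg x)]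
    refine int_bd m x hg (fun y hy => ?_) (fun y => ?_)
    · have h1 : dl m ≤ ‖x' - y‖ := by
        have h2 : ‖x - y‖ ≤ ‖x' - y‖ + ‖x' - x‖ := by
          have : x - y = (x' - y) - (x' - x) := by abel
          rw [this]
          exact norm_sub_le _ _
        linarith [hst]
      rw [ker_rk_zero m h1, ker_rk_zero m (by linarith : dl m ≤ ‖x - y‖)]
      ring
    · rw [← sub_mul, abs_mul]
      refine mul_le_mul_of_nonneg_right ?_ (abs_nonneg _)
      have := (hk m).2 (x' - y) (x - y)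
      rwa [sub_sub_sub_cancel_right, hst] at this
  have hav : 0 ≤ av m (fun y => |g y|) x := av_nonneg m (fun y => abs_nonneg _) x
  calc |mo m g x' - mo m g x| ≤ (C0 * (dl m ^ n)⁻¹ * (dl m)⁻¹ * |t|) * ∫ y in ball x (2 * dl m), |g y| := key
    _ = (C0 * (dl m)⁻¹ * av m (fun y => |g y|) x) * |t| := by rw [av_eq]; ring
    _ ≤ (C0 * (dl m)⁻¹ * av m (fun y => |g y|) x + ε) * |t| := by
        refine mul_le_mul_of_nonneg_right (by linarith) (abs_nonneg _)

lemma cm_eq {n : ℕ} (m : ℕ) {a G : E n → ℝ} (ha : Continuous a) (hG : Continuous G) (x : E n) :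
    cm m a G x = ∫ y, rk m (x - y) * ((a x - a y) * G y) := by
  unfold cm
  have h2 : Integrable (fun y => rk m (x - y) * (a y * G y)) := rk_mul_int m (ha.mul hG) x
  rw [mo_eq, mo_eq, ← integral_const_mul, ← integral_sub ((rk_mul_int m hG x).const_mul _) h2]
  refine integral_congr_ae (Eventually.of_forall fun y => ?_)
  simp only []
  ring

theorem cm_bound (n : ℕ) : ∃ C0 : ℝ, 0 < C0 ∧ ∀ (m : ℕ) (a G : E n → ℝ) (K : ℝ), 0 ≤ K → Lp a K → Continuous a → Continuous G → ∀ x,
    |cm m a G x| ≤ C0 * K * av m (fun y => |G y|) x := by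
  obtain ⟨C0, hC0, hk⟩ := ker_bounds n
  refine ⟨C0, hC0, fun m a G K hK hL ha hG x => ?_⟩
  have hd := dl_pos m
  have hd1 := dl_le_one m
  rw [cm_eq m ha hG, av_eq]
  have : |∫ y, rk m (x - y) * ((a x - a y) * G y)| ≤ (C0 * K * (dl m ^ n)⁻¹) * ∫ y in ball x (2 * dl m), |G y| := by
    refine int_bd m x hG (fun y hy => ?_) (fun y => ?_)
    · rw [ker_rk_zero m (by linarith), zero_mul]
    · by_cases hy : dl m ≤ ‖x - y‖
      · rw [ker_rk_zero m hy, zero_mul, abs_zero]
        positivity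
      · rw [not_le] at hy
        rw [abs_mul, abs_mul, abs_of_nonneg ((hk m).1 _).1]
        have h1 : |a x - a y| ≤ K := by
          refine (hL x y).trans ?_
          nlinarith
        calc rk m (x - y) * (|a x - a y| * |G y|) ≤ (C0 * (dl m ^ n)⁻¹) * (K * |G y|) := by
              refine mul_le_mul ((hk m).1 _).2 (mul_le_mul_of_nonneg_right h1 (abs_nonneg _)) (by positivity) (by positivity)
          _ = C0 * K * (dl m ^ n)⁻¹ * |G y| := by ring
  refine this.trans (le_of_eq ?_)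
  ring

theorem cm_locB (n : ℕ) : ∃ C0 : ℝ, 0 < C0 ∧ ∀ (m : ℕ) (a G : E n → ℝ) (K : ℝ), 0 ≤ K → Lp a K → Continuous a → Continuous G → ∀ x b,
    LocB b (cm m a G) x (C0 * K * av m (fun y => |G y|) x) := by
  obtain ⟨C0, hC0, hk⟩ := ker_bounds n
  refine ⟨3 * C0, by positivity, fun m a G K hK hL ha hG x b => ?_⟩
  have hd := dl_pos m
  intro ε hε
  filter_upwards [Metric.ball_mem_nhds (0 : ℝ) hd] with t ht
  rw [mem_ball, Real.dist_eq, sub_zero] at ht
  have hst := step_norm b t x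
  set x' := x + t • ei b with hx'
  have key : |cm m a G x' - cm m a G x| ≤ (3 * C0 * K * (dl m ^ n)⁻¹ * |t|) * ∫ y in ball x (2 * dl m), |G y| := by
    have i1 : ∀ z : E n, Integrable (fun y => rk m (z - y) * ((a z - a y) * G y)) := fun z =>
      rk_mul_int m ((continuous_const.sub ha).mul hG) z
    rw [cm_eq m ha hG, cm_eq m ha hG, ← integral_sub (i1 x') (i1 x)]
    refine int_bd m x hG (fun y hy => ?_) (fun y => ?_)
    · have h1 : dl m ≤ ‖x' - y‖ := by
        have h2 : ‖x - y‖ ≤ ‖x' - y‖ + ‖x' - x‖ := by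
          have : x - y = (x' - y) - (x' - x) := by abel
          rw [this]
          exact norm_sub_le _ _
        linarith [hst]
      rw [ker_rk_zero m h1, ker_rk_zero m (by linarith : dl m ≤ ‖x - y‖)]
      ring
    · by_cases hy : 2 * dl m ≤ ‖x - y‖
      · have h1 : dl m ≤ ‖x' - y‖ := by
          have h2 : ‖x - y‖ ≤ ‖x' - y‖ + ‖x' - x‖ := by
            have : x - y = (x' - y) - (x' - x) := by abel
            rw [this]
            exact norm_sub_le _ _
          linarith [hst]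
        rw [ker_rk_zero m h1, ker_rk_zero m (by linarith : dl m ≤ ‖x - y‖), zero_mul, zero_mul, sub_zero, abs_zero]
        positivity
      · rw [not_le] at hy
        have e : rk m (x' - y) * ((a x' - a y) * G y) - rk m (x - y) * ((a x - a y) * G y) =
            ((rk m (x' - y) - rk m (x - y)) * (a x - a y) + rk m (x' - y) * (a x' - a x)) * G y := by ring
        rw [e, abs_mul]
        refine mul_le_mul_of_nonneg_right ?_ (abs_nonneg _)
        have h1 := (hk m).2 (x' - y) (x - y)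
        rw [sub_sub_sub_cancel_right, hst] at h1
        have h2 : |a x - a y| ≤ K * (2 * dl m) := (hL x y).trans (mul_le_mul_of_nonneg_left hy.le hK)
        have h3 : |a x' - a x| ≤ K * |t| := by
          have := hL x' x
          rwa [hst] at this
        have h4 := (hk m).1 (x' - y)
        calc |(rk m (x' - y) - rk m (x - y)) * (a x - a y) + rk m (x' - y) * (a x' - a x)|
            ≤ |rk m (x' - y) - rk m (x - y)| * |a x - a y| + |rk m (x' - y)| * |a x' - a x| := by
              refine (abs_add_le _ _).trans ?_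
              rw [abs_mul, abs_mul]
          _ ≤ (C0 * (dl m ^ n)⁻¹ * (dl m)⁻¹ * |t|) * (K * (2 * dl m)) + (C0 * (dl m ^ n)⁻¹) * (K * |t|) := by
              rw [abs_of_nonneg h4.1]
              refine add_le_add (mul_le_mul h1 h2 (abs_nonneg _) (by positivity))
                (mul_le_mul h4.2 h3 (abs_nonneg _) (by positivity))
          _ = 3 * C0 * K * (dl m ^ n)⁻¹ * |t| := by
              field_simp
              ring
  have hav : 0 ≤ av m (fun y => |G y|) x := av_nonneg m (fun y => abs_nonneg _) x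
  calc |cm m a G x' - cm m a G x| ≤ (3 * C0 * K * (dl m ^ n)⁻¹ * |t|) * ∫ y in ball x (2 * dl m), |G y| := key
    _ = (3 * C0 * K * av m (fun y => |G y|) x) * |t| := by rw [av_eq]; ring
    _ ≤ (3 * C0 * K * av m (fun y => |G y|) x + ε) * |t| := by
        refine mul_le_mul_of_nonneg_right (by linarith) (abs_nonneg _)

end Vale.Agent.P227.M.LIN
end

section

/-! # P227/M/LIN: calculus of the local Lipschitz bounds `LocB`. -/

open MeasureTheory Filter Metric Set
open scoped Topology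

namespace Vale.Agent.P227.M.LIN

theorem LocB.mono {n : ℕ} {b : Fin n} {f : E n → ℝ} {x : E n} {K K' : ℝ} (hf : LocB b f x K)
    (h : K ≤ K') : LocB b f x K' := by
  intro ε hε
  filter_upwards [hf ε hε] with t ht
  exact ht.trans (mul_le_mul_of_nonneg_right (by linarith) (abs_nonneg t))

theorem LocB.add {n : ℕ} {b : Fin n} {f g : E n → ℝ} {x : E n} {K K' : ℝ} (hf : LocB b f x K) (hg : LocB b g x K') :
    LocB b (fun y => f y + g y) x (K + K') := by
  intro ε hε
  filter_upwards [hf (ε / 2) (by positivity), hg (ε / 2) (by positivity)] with t h1 h2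
  have e : f (x + t • ei b) + g (x + t • ei b) - (f x + g x) =
      (f (x + t • ei b) - f x) + (g (x + t • ei b) - g x) := by ring
  rw [e]
  calc |(f (x + t • ei b) - f x) + (g (x + t • ei b) - g x)|
      ≤ |f (x + t • ei b) - f x| + |g (x + t • ei b) - g x| := abs_add_le _ _
    _ ≤ (K + ε / 2) * |t| + (K' + ε / 2) * |t| := add_le_add h1 h2
    _ = (K + K' + ε) * |t| := by ring

theorem LocB.neg {n : ℕ} {b : Fin n} {f : E n → ℝ} {x : E n} {K : ℝ} (hf : LocB b f x K) :
    LocB b (fun y => - f y) x K := by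
  intro ε hε
  filter_upwards [hf ε hε] with t ht
  have e : - f (x + t • ei b) - - f x = - (f (x + t • ei b) - f x) := by ring
  rw [e, abs_neg]
  exact ht

theorem LocB.sub {n : ℕ} {b : Fin n} {f g : E n → ℝ} {x : E n} {K K' : ℝ} (hf : LocB b f x K) (hg : LocB b g x K') :
    LocB b (fun y => f y - g y) x (K + K') := by
  have := hf.add hg.neg
  simpa [sub_eq_add_neg] using this

theorem LocB.const_mul {n : ℕ} {b : Fin n} {f : E n → ℝ} {x : E n} {K : ℝ} (a : ℝ) (hf : LocB b f x K) :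
    LocB b (fun y => a * f y) x (|a| * K) := by
  intro ε hε
  have ha : 0 < |a| + 1 := by positivity
  filter_upwards [hf (ε / (|a| + 1)) (by positivity)] with t ht
  have e : a * f (x + t • ei b) - a * f x = a * (f (x + t • ei b) - f x) := by ring
  rw [e, abs_mul]
  calc |a| * |f (x + t • ei b) - f x| ≤ |a| * ((K + ε / (|a| + 1)) * |t|) :=
        mul_le_mul_of_nonneg_left ht (abs_nonneg a)
    _ = (|a| * K + |a| * (ε / (|a| + 1))) * |t| := by ring
    _ ≤ (|a| * K + ε) * |t| := by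
        refine mul_le_mul_of_nonneg_right ?_ (abs_nonneg t)
        have : |a| * (ε / (|a| + 1)) ≤ ε := by
          rw [mul_div_assoc', div_le_iff₀ ha]
          nlinarith [abs_nonneg a]
        linarith

theorem LocB.const {n : ℕ} (b : Fin n) (a : ℝ) (x : E n) : LocB b (fun _ => a) x 0 := by
  intro ε hε
  filter_upwards with t
  rw [sub_self, abs_zero, zero_add]
  positivity

theorem LocB.sum {n : ℕ} {b : Fin n} {ι : Type*} (s : Finset ι) {f : ι → E n → ℝ} {x : E n} {K : ι → ℝ}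
    (hf : ∀ i ∈ s, LocB b (f i) x (K i)) : LocB b (fun y => ∑ i ∈ s, f i y) x (∑ i ∈ s, K i) := by
  classical
  induction s using Finset.induction_on with
  | empty => simpa using LocB.const b 0 x
  | insert i s hi ih =>
    have h1 := hf i (Finset.mem_insert_self i s)
    have h2 := ih (fun j hj => hf j (Finset.mem_insert_of_mem hj))
    have h3 := h1.add h2
    simpa only [Finset.sum_insert hi] using h3

theorem LocB.mul {n : ℕ} {b : Fin n} {f g : E n → ℝ} {x : E n} {K K' : ℝ} (hf : LocB b f x K) (hg : LocB b g x K')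
    (hK : 0 ≤ K) (hK' : 0 ≤ K') : LocB b (fun y => f y * g y) x (|f x| * K' + |g x| * K) := by
  intro ε hε
  set D : ℝ := |f x| + |g x| + (K + 1) * (K' + 1) with hD
  have hDpos : 0 < D := by
    have h1 := abs_nonneg (f x)
    have h2 := abs_nonneg (g x)
    have h3 : 0 < (K + 1) * (K' + 1) := by positivity
    linarith
  set η : ℝ := min 1 (ε / D) with hη
  have hη0 : 0 < η := lt_min one_pos (by positivity)
  have hη1 : η ≤ 1 := min_le_left _ _
  have hηD : η * D ≤ ε := by
    have : η ≤ ε / D := min_le_right _ _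
    calc η * D ≤ ε / D * D := mul_le_mul_of_nonneg_right this hDpos.le
      _ = ε := by field_simp
  have hsmall : ∀ᶠ t in 𝓝 (0 : ℝ), |t| ≤ η := by
    have : Tendsto (fun t : ℝ => |t|) (𝓝 0) (𝓝 |0|) := (continuous_abs).tendsto 0
    rw [abs_zero] at this
    filter_upwards [this.eventually (gt_mem_nhds hη0)] with t ht
    exact ht.le
  filter_upwards [hf η hη0, hg η hη0, hsmall] with t h1 h2 h3
  have e : f (x + t • ei b) * g (x + t • ei b) - f x * g x =
      (f (x + t • ei b) - f x) * (g (x + t • ei b) - g x) + f x * (g (x + t • ei b) - g x)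
        + g x * (f (x + t • ei b) - f x) := by ring
  have ht0 := abs_nonneg t
  have hf0 := abs_nonneg (f x)
  have hg0 := abs_nonneg (g x)
  rw [e]
  have a1 : |(f (x + t • ei b) - f x) * (g (x + t • ei b) - g x)| ≤ (K + 1) * (K' + 1) * η * |t| := by
    rw [abs_mul]
    calc |f (x + t • ei b) - f x| * |g (x + t • ei b) - g x|
        ≤ ((K + η) * |t|) * ((K' + η) * |t|) :=
          mul_le_mul h1 h2 (abs_nonneg _) (by positivity)
      _ ≤ ((K + 1) * |t|) * ((K' + 1) * η) := by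
          refine mul_le_mul ?_ ?_ (by positivity) (by positivity)
          · exact mul_le_mul_of_nonneg_right (by linarith) ht0
          · exact mul_le_mul (by linarith) h3 ht0 (by positivity)
      _ = (K + 1) * (K' + 1) * η * |t| := by ring
  have a2 : |f x * (g (x + t • ei b) - g x)| ≤ |f x| * ((K' + η) * |t|) := by
    rw [abs_mul]
    exact mul_le_mul_of_nonneg_left h2 hf0
  have a3 : |g x * (f (x + t • ei b) - f x)| ≤ |g x| * ((K + η) * |t|) := by
    rw [abs_mul]
    exact mul_le_mul_of_nonneg_left h1 hg0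
  calc |(f (x + t • ei b) - f x) * (g (x + t • ei b) - g x) + f x * (g (x + t • ei b) - g x)
        + g x * (f (x + t • ei b) - f x)|
      ≤ |(f (x + t • ei b) - f x) * (g (x + t • ei b) - g x) + f x * (g (x + t • ei b) - g x)|
        + |g x * (f (x + t • ei b) - f x)| := abs_add_le _ _
    _ ≤ |(f (x + t • ei b) - f x) * (g (x + t • ei b) - g x)| + |f x * (g (x + t • ei b) - g x)|
        + |g x * (f (x + t • ei b) - f x)| := by
          have := abs_add_le ((f (x + t • ei b) - f x) * (g (x + t • ei b) - g x))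
            (f x * (g (x + t • ei b) - g x))
          linarith
    _ ≤ (K + 1) * (K' + 1) * η * |t| + |f x| * ((K' + η) * |t|) + |g x| * ((K + η) * |t|) := by
          linarith
    _ = (|f x| * K' + |g x| * K + η * D) * |t| := by rw [hD]; ring
    _ ≤ (|f x| * K' + |g x| * K + ε) * |t| :=
          mul_le_mul_of_nonneg_right (by linarith) ht0

/-- the directional derivative along the line -/
theorem LocB.hasDerivAt_line {n : ℕ} {f : E n → ℝ} {x : E n} (b : Fin n) (hf : DifferentiableAt ℝ f x) :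
    HasDerivAt (fun t : ℝ => f (x + t • ei b)) (pd b f x) 0 := by
  have h1 : HasFDerivAt f (fderiv ℝ f x) (x + (0 : ℝ) • ei b) := by
    rw [zero_smul, add_zero]
    exact hf.hasFDerivAt
  have h2 : HasDerivAt (fun t : ℝ => x + t • (ei b : E n)) (ei b) 0 := by
    have := ((hasDerivAt_id (0 : ℝ)).smul_const (ei b : E n)).const_add x
    simpa using this
  exact h1.comp_hasDerivAt 0 h2

theorem LocB.of_diff {n : ℕ} {b : Fin n} {f : E n → ℝ} {x : E n} (hf : DifferentiableAt ℝ f x) :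
    LocB b f x |pd b f x| := by
  intro ε hε
  have h := LocB.hasDerivAt_line b hf
  have h2 := (hasDerivAt_iff_isLittleO.mp h).def hε
  filter_upwards [h2] with t ht
  simp only [sub_zero, zero_smul, add_zero, smul_eq_mul, Real.norm_eq_abs] at ht
  have e : f (x + t • ei b) - f x = (f (x + t • ei b) - f x - t * pd b f x) + t * pd b f x := by ring
  rw [e]
  calc |(f (x + t • ei b) - f x - t * pd b f x) + t * pd b f x|
      ≤ |f (x + t • ei b) - f x - t * pd b f x| + |t * pd b f x| := abs_add_le _ _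
    _ ≤ ε * |t| + |t| * |pd b f x| := by rw [abs_mul]; linarith
    _ = (|pd b f x| + ε) * |t| := by ring

theorem LocB.pd_le {n : ℕ} {b : Fin n} {f : E n → ℝ} {x : E n} {K : ℝ} (hf : LocB b f x K) (hK : 0 ≤ K) :
    |pd b f x| ≤ K := by
  by_cases hd : DifferentiableAt ℝ f x
  · have h := LocB.hasDerivAt_line b hd
    have hs := h.tendsto_slope_zero
    simp only [zero_add, zero_smul, add_zero, smul_eq_mul] at hs
    refine le_of_forall_pos_le_add (fun ε hε => ?_)
    have habs : Tendsto (fun t : ℝ => |t⁻¹ * (f (x + t • ei b) - f x)|) (𝓝[≠] 0) (𝓝 |pd b f x|) := hs.abs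
    refine le_of_tendsto habs ?_
    have h1 : ∀ᶠ t in 𝓝[≠] (0 : ℝ), |f (x + t • ei b) - f x| ≤ (K + ε) * |t| :=
      (hf ε hε).filter_mono nhdsWithin_le_nhds
    have h2 : ∀ᶠ t in 𝓝[≠] (0 : ℝ), t ≠ 0 := eventually_mem_nhdsWithin
    filter_upwards [h1, h2] with t h3 h4
    have ht : 0 < |t| := abs_pos.mpr h4
    rw [abs_mul, abs_inv, inv_mul_le_iff₀ ht]
    linarith
  · unfold pd
    rw [fderiv_zero_of_not_differentiableAt hd]
    simpa using hK

theorem LocB.norm_ei_one {n : ℕ} (b : Fin n) : ‖(ei b : E n)‖ = 1 := by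
  simp [ei]

theorem LocB.of_lp {n : ℕ} {b : Fin n} {f : E n → ℝ} {K : ℝ} (hf : Lp f K) (x : E n) :
    LocB b f x K := by
  intro ε hε
  filter_upwards with t
  have h := hf (x + t • ei b) x
  have e : ‖x + t • ei b - x‖ = |t| := by
    rw [add_sub_cancel_left, norm_smul, LocB.norm_ei_one, mul_one, Real.norm_eq_abs]
  rw [e] at h
  exact h.trans (mul_le_mul_of_nonneg_right (by linarith) (abs_nonneg t))

theorem LocB.congr {n : ℕ} {b : Fin n} {f g : E n → ℝ} {x : E n} {K : ℝ}
    (hfg : ∀ᶠ y in 𝓝 x, f y = g y) (hf : LocB b f x K) : LocB b g x K := by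
  intro ε hε
  have hc : Tendsto (fun t : ℝ => x + t • (ei b : E n)) (𝓝 0) (𝓝 x) := by
    have : Continuous (fun t : ℝ => x + t • (ei b : E n)) := by fun_prop
    have h := this.tendsto 0
    simpa using h
  filter_upwards [hf ε hε, hc.eventually hfg] with t ht h1
  rw [← h1, ← hfg.self_of_nhds]
  exact ht

end Vale.Agent.P227.M.LIN
end

section

/-! # P227/M/LIN: algebra of `Lop` for `StmtH1` (owner: helper47). -/

open MeasureTheory Filter Metric Set
open scoped Topology

namespace Vale.Agent.P227.M.LIN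

namespace Alg47

variable {n : ℕ}

lemma test_pd {f : E n → ℝ} (hf : Test f) (a : Fin n) : Test (pd a f) :=
  ⟨contDiff_pd_top hf.1 a, hf.2.fderiv_apply (𝕜 := ℝ) (ei a)⟩

lemma diff {f : E n → ℝ} (hf : Test f) : Differentiable ℝ f := hf.1.differentiable (by simp)

lemma pd_mul {f g : E n → ℝ} (hf : Differentiable ℝ f) (hg : Differentiable ℝ g) (a : Fin n) (x : E n) :
    pd a (fun z => f z * g z) x = pd a f x * g x + f x * pd a g x := by
  unfold pd
  rw [fderiv_fun_mul (hf x) (hg x)]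
  simp
  ring

lemma pd_add {f g : E n → ℝ} (hf : Differentiable ℝ f) (hg : Differentiable ℝ g) (a : Fin n) (x : E n) :
    pd a (fun z => f z + g z) x = pd a f x + pd a g x := by
  unfold pd
  rw [fderiv_fun_add (hf x) (hg x)]
  simp

lemma test_mul {f g : E n → ℝ} (hf : Test f) (hg : Test g) : Test (fun z => f z * g z) :=
  ⟨hf.1.mul hg.1, hg.2.mul_left⟩

lemma hess_mul {f g : E n → ℝ} (hf : Test f) (hg : Test g) (x : E n) (i j : Fin n) :
    hess (fun z => f z * g z) x i j = hess f x i j * g x + pd j f x * pd i g x + pd i f x * pd j g x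
      + f x * hess g x i j := by
  have h1 : pd j (fun z => f z * g z) = fun x => pd j f x * g x + f x * pd j g x := by
    funext y; exact pd_mul (diff hf) (diff hg) j y
  have h2 : hess (fun z => f z * g z) x i j = pd i (pd j (fun z => f z * g z)) x := rfl
  rw [h2, h1, pd_add (diff (test_mul (test_pd hf j) hg)) (diff (test_mul hf (test_pd hg j))),
    pd_mul (diff (test_pd hf j)) (diff hg), pd_mul (diff hf) (diff (test_pd hg j))]
  show hess f x i j * g x + pd j f x * pd i g x + (pd i f x * pd j g x + f x * hess g x i j) = _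
  ring

lemma hess_add {f g : E n → ℝ} (hf : Test f) (hg : Test g) (x : E n) (i j : Fin n) :
    hess (fun z => f z + g z) x i j = hess f x i j + hess g x i j := by
  have h1 : pd j (fun z => f z + g z) = fun x => pd j f x + pd j g x := by
    funext y; exact pd_add (diff hf) (diff hg) j y
  have h2 : hess (fun z => f z + g z) x i j = pd i (pd j (fun z => f z + g z)) x := rfl
  rw [h2, h1, pd_add (diff (test_pd hf j)) (diff (test_pd hg j))]
  rfl

/-! ### mollification -/

lemma rkc (m : ℕ) : Continuous (rk m : E n → ℝ) := (bp n m).continuous_normed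

lemma rks (m : ℕ) : HasCompactSupport (rk m : E n → ℝ) := (bp n m).hasCompactSupport_normed

lemma integ (m : ℕ) {g : E n → ℝ} (hg : Continuous g) (x : E n) :
    Integrable (fun t => rk m t * g (x - t)) :=
  ((rkc m).mul (hg.comp (continuous_const.sub continuous_id))).integrable_of_hasCompactSupport
    (rks m).mul_right

lemma mo_hasFDerivAt (m : ℕ) {g : E n → ℝ} (hg : Test g) (x : E n) :
    HasFDerivAt (mo m g) (∫ t, rk m t • fderiv ℝ g (x - t)) x := by
  have hfd := hg.1.continuous_fderiv (by simp)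
  obtain ⟨C, hC⟩ := (hg.2.fderiv (𝕜 := ℝ)).exists_bound_of_continuous hfd
  refine hasFDerivAt_integral_of_dominated_of_fderiv_le (F := fun x t => rk m t * g (x - t))
    (F' := fun x t => rk m t • fderiv ℝ g (x - t)) (bound := fun t => |rk m t| * C)
    (s := Set.univ) (x₀ := x) Filter.univ_mem ?_ ?_ ?_ ?_ ?_ ?_
  · exact Filter.Eventually.of_forall fun y => (integ m hg.1.continuous y).aestronglyMeasurable
  · exact integ m hg.1.continuous x
  · have h1 : Continuous fun t : E n => fderiv ℝ g (x - t) := hfd.comp (by fun_prop)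
    exact ((rkc m).smul h1).aestronglyMeasurable
  · refine Filter.Eventually.of_forall fun t y _ => ?_
    rw [norm_smul]
    exact mul_le_mul_of_nonneg_left (hC _) (norm_nonneg _)
  · exact (((rkc m).integrable_of_hasCompactSupport (rks m)).abs).mul_const C
  · refine Filter.Eventually.of_forall fun t y _ => ?_
    have h1 : HasFDerivAt g (fderiv ℝ g (y - t)) (y - t) := (diff hg _).hasFDerivAt
    have h2 : HasFDerivAt (fun y : E n => g (y - t)) (fderiv ℝ g (y - t)) y := by
      have h3 : HasFDerivAt (fun y : E n => y - t) (ContinuousLinearMap.id ℝ (E n)) y :=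
        (hasFDerivAt_id y).sub_const t
      have := h1.comp y h3
      rwa [ContinuousLinearMap.comp_id] at this
    exact h2.const_mul (rk m t)

lemma pd_mo47 (m : ℕ) {g : E n → ℝ} (hg : Test g) (a : Fin n) : pd a (mo m g) = mo m (pd a g) := by
  funext x
  have h := (mo_hasFDerivAt m hg x).fderiv
  show fderiv ℝ (mo m g) x (ei a) = _
  rw [h, ContinuousLinearMap.integral_apply]
  · rfl
  · have hfd := hg.1.continuous_fderiv (by simp)
    have h2 : Continuous fun t : E n => fderiv ℝ g (x - t) := hfd.comp (by fun_prop)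
    exact ((rkc m).smul h2).integrable_of_hasCompactSupport (rks m).smul_right

lemma mo_sub47 (m : ℕ) {f g : E n → ℝ} (hf : Continuous f) (hg : Continuous g) (x : E n) :
    mo m (fun y => f y - g y) x = mo m f x - mo m g x := by
  unfold mo
  rw [← integral_sub (integ m hf x) (integ m hg x)]
  refine integral_congr_ae (Eventually.of_forall fun t => ?_)
  simp only; ring

lemma mo_sum47 {ι : Type*} (s : Finset ι) (m : ℕ) {f : ι → E n → ℝ} (hf : ∀ i, Continuous (f i)) (x : E n) :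
    mo m (fun y => ∑ i ∈ s, f i y) x = ∑ i ∈ s, mo m (f i) x := by
  unfold mo
  rw [← integral_finsetSum _ (fun i _ => integ m (hf i) x)]
  refine integral_congr_ae (Eventually.of_forall fun t => ?_)
  simp only [Finset.mul_sum]

lemma hess_mo (m : ℕ) {g : E n → ℝ} (hg : Test g) (x : E n) (i j : Fin n) :
    hess (mo m g) x i j = mo m (fun y => hess g y i j) x := by
  have h2 : hess (mo m g) x i j = pd i (pd j (mo m g)) x := rfl
  rw [h2, pd_mo47 m hg, pd_mo47 m (test_pd hg j)]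
  rfl

lemma Lp_mul {a g : E n → ℝ} {A K B K' : ℝ} (ha : ∀ x, |a x| ≤ A) (hal : Lp a K)
    (hg : ∀ x, |g x| ≤ B) (hgl : Lp g K') : Lp (fun x => a x * g x) (A * K' + B * K) := by
  intro x y
  have hA : 0 ≤ A := (abs_nonneg _).trans (ha x)
  have hB : 0 ≤ B := (abs_nonneg _).trans (hg x)
  have h1 : a x * g x - a y * g y = a x * (g x - g y) + g y * (a x - a y) := by ring
  rw [h1]
  refine (abs_add_le _ _).trans ?_
  rw [abs_mul, abs_mul]
  have h2 := mul_le_mul (ha x) (hgl x y) (abs_nonneg _) hA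
  have h3 := mul_le_mul (hg y) (hal x y) (abs_nonneg _) hB
  calc _ ≤ A * (K' * ‖x - y‖) + B * (K * ‖x - y‖) := add_le_add h2 h3
    _ = _ := by ring

lemma Lp_sum {ι : Type*} (s : Finset ι) {f : ι → E n → ℝ} (h : ∀ i, ∃ K, Lp (f i) K) :
    ∃ K, Lp (fun x => ∑ i ∈ s, f i x) K := by
  choose K hK using h
  refine ⟨∑ i ∈ s, K i, fun x y => ?_⟩
  rw [← Finset.sum_sub_distrib, Finset.sum_mul]
  refine (Finset.abs_sum_le_sum_abs _ _).trans (Finset.sum_le_sum fun i _ => hK i x y)

lemma Lp_test {f : E n → ℝ} (hf : Test f) : ∃ K, Lp f K := by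
  obtain ⟨K, hK⟩ := ContDiff.lipschitzWith_of_hasCompactSupport hf.2 (hf.1.of_le (m := 1) (by exact_mod_cast le_top)) one_ne_zero
  refine ⟨K, fun x y => ?_⟩
  have := hK.dist_le_mul x y
  rwa [Real.dist_eq, dist_eq_norm] at this

lemma bdd_test {f : E n → ℝ} (hf : Test f) : ∃ B, ∀ x, |f x| ≤ B :=
  hf.2.exists_bound_of_continuous hf.1.continuous

end Alg47

open Alg47

/-- product rule -/
theorem Lop_mul {n : ℕ} {ψ V : E n → ℝ} {c C M : ℝ} (hM : MM ψ V c C M) {χ f : E n → ℝ} (hχ : Test χ) (hf : Test f) (x : E n) :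
    Lop ψ (fun z => χ z * f z) x = χ x * Lop ψ f x + f x * Lop ψ χ x
      + 2 * ∑ i, ∑ j, tau ψ x i j * pd i χ x * pd j f x := by
  unfold Lop
  simp only [hess_mul hχ hf, pd_mul (diff hχ) (diff hf)]
  have h1 : ∑ i, ∑ j, tau ψ x i j * (pd j χ x * pd i f x) = ∑ i, ∑ j, tau ψ x i j * (pd i χ x * pd j f x) := by
    rw [Finset.sum_comm]
    refine Finset.sum_congr rfl fun i _ => Finset.sum_congr rfl fun j _ => ?_
    rw [Loc.tau_symm hM x j i]
  have h2 : ∑ i, ∑ j, tau ψ x i j * (hess χ x i j * f x + pd j χ x * pd i f x + pd i χ x * pd j f x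
      + χ x * hess f x i j) = f x * (∑ i, ∑ j, tau ψ x i j * hess χ x i j)
      + (∑ i, ∑ j, tau ψ x i j * (pd j χ x * pd i f x)) + (∑ i, ∑ j, tau ψ x i j * (pd i χ x * pd j f x))
      + χ x * (∑ i, ∑ j, tau ψ x i j * hess f x i j) := by
    simp only [Finset.mul_sum, ← Finset.sum_add_distrib]
    refine Finset.sum_congr rfl fun i _ => Finset.sum_congr rfl fun j _ => ?_
    ring
  have h3 : ∑ i, x i * (pd i χ x * f x + χ x * pd i f x) =
      f x * (∑ i, x i * pd i χ x) + χ x * (∑ i, x i * pd i f x) := by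
    simp only [Finset.mul_sum, ← Finset.sum_add_distrib]
    refine Finset.sum_congr rfl fun i _ => ?_
    ring
  have h4 : ∑ i, ∑ j, tau ψ x i j * pd i χ x * pd j f x = ∑ i, ∑ j, tau ψ x i j * (pd i χ x * pd j f x) := by
    refine Finset.sum_congr rfl fun i _ => Finset.sum_congr rfl fun j _ => ?_
    ring
  rw [h2, h3, h1, h4]
  ring

/-- (in its own namespace: `TopA.lean` has `LIN.Lop_add`) -/
theorem Alg47.Lop_add {n : ℕ} (ψ : E n → ℝ) {χ f : E n → ℝ} (hχ : Test χ) (hf : Test f) (x : E n) :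
    Lop ψ (fun z => χ z + f z) x = Lop ψ χ x + Lop ψ f x := by
  unfold Lop
  simp only [hess_add hχ hf, pd_add (diff hχ) (diff hf), mul_add, Finset.sum_add_distrib]
  ring

/-- `L (mo m d) = mo m (L d) + commutators` -/
theorem Lop_mo {n : ℕ} {ψ V : E n → ℝ} {c C M : ℝ} (hM : MM ψ V c C M) {d : E n → ℝ} (hd : Test d) (m : ℕ) (x : E n) :
    Lop ψ (mo m d) x = mo m (Lop ψ d) x
      + (∑ i, ∑ j, cm m (fun y => tau ψ y i j) (fun y => hess d y i j) x)
      - ∑ i, cm m (fun y => y i) (pd i d) x := by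
  have hτ : ∀ i j, Continuous fun y => tau ψ y i j := fun i j => Loc.tau_continuous hM i j
  have hh : ∀ i j, Continuous fun y => hess d y i j := fun i j =>
    (test_pd (test_pd hd j) i).1.continuous
  have hp : ∀ i, Continuous (pd i d) := fun i => (test_pd hd i).1.continuous
  have hL : mo m (Lop ψ d) x = (∑ i, ∑ j, mo m (fun y => tau ψ y i j * hess d y i j) x)
      - ∑ i, mo m (fun y => y i * pd i d y) x := by
    have h1 : mo m (Lop ψ d) x = mo m (fun y => (∑ i, ∑ j, tau ψ y i j * hess d y i j) - ∑ i, y i * pd i d y) x := rfl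
    have h2 : ∀ i, Continuous fun y : E n => ∑ j, tau ψ y i j * hess d y i j := fun i =>
      continuous_finsetSum _ fun j _ => (hτ i j).mul (hh i j)
    have h3 : ∀ i, Continuous fun y : E n => y i * pd i d y := fun i => by
      have := hp i
      fun_prop
    rw [h1, mo_sub47 m (continuous_finsetSum _ fun i _ => h2 i) (continuous_finsetSum _ fun i _ => h3 i),
      mo_sum47 _ m h2, mo_sum47 _ m h3]
    congr 1
    refine Finset.sum_congr rfl fun i _ => ?_
    exact mo_sum47 _ m (f := fun j y => tau ψ y i j * hess d y i j) (fun j => (hτ i j).mul (hh i j)) x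
  rw [hL]
  unfold Lop cm
  simp only [hess_mo m hd, pd_mo47 m hd, Finset.sum_sub_distrib]
  ring

/-- support and regularity of `L f` -/
theorem Lop_lip {n : ℕ} {ψ V : E n → ℝ} {c C M : ℝ} (hM : MM ψ V c C M) {f : E n → ℝ} (hf : Test f) :
    Continuous (Lop ψ f) ∧ HasCompactSupport (Lop ψ f) ∧ ∃ K, Lp (Lop ψ f) K := by
  have hτ : ∀ i j, Continuous fun y => tau ψ y i j := fun i j => Loc.tau_continuous hM i j
  have hh : ∀ i j, Test fun y => hess f y i j := fun i j => test_pd (test_pd hf j) i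
  have hp : ∀ i, Test (pd i f) := fun i => test_pd hf i
  refine ⟨?_, ?_, ?_⟩
  · unfold Lop
    refine Continuous.sub ?_ ?_
    · exact continuous_finsetSum _ fun i _ => continuous_finsetSum _ fun j _ =>
        (hτ i j).mul (hh i j).1.continuous
    · refine continuous_finsetSum _ fun i _ => ?_
      have := (hp i).1.continuous
      fun_prop
  · refine HasCompactSupport.intro hf.2.isCompact ?_
    intro x hx
    have h0 : ∀ i, pd i f x = 0 := by
      intro i
      have : x ∉ tsupport (pd i f) := fun h => hx (tsupport_fderiv_apply_subset ℝ (ei i) h)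
      exact image_eq_zero_of_notMem_tsupport this
    have h1 : ∀ i j, hess f x i j = 0 := by
      intro i j
      have h2 : x ∉ tsupport (pd i (pd j f)) := fun h =>
        hx (tsupport_fderiv_apply_subset ℝ (ei j) (tsupport_fderiv_apply_subset ℝ (ei i) h))
      have h3 : pd i (pd j f) x = 0 := image_eq_zero_of_notMem_tsupport h2
      exact h3
    unfold Lop
    simp [h0, h1]
  · have h1 : ∀ i j, ∃ K, Lp (fun x => tau ψ x i j * hess f x i j) K := by
      intro i j
      obtain ⟨B, hB⟩ := bdd_test (hh i j)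
      obtain ⟨K, hK⟩ := Lp_test (hh i j)
      exact ⟨_, Lp_mul (fun x => Loc.tau_bdd hM x i j) (fun x y => Loc.tau_lip hM x y i j) hB hK⟩
    have h2 : ∀ i, ∃ K, Lp (fun x => x i * pd i f x) K := by
      intro i
      refine Lp_test ⟨?_, (hp i).2.mul_left⟩
      have := (hp i).1
      have h3 : ContDiff ℝ (⊤ : ℕ∞) fun x : E n => x i :=
        (EuclideanSpace.proj i : E n →L[ℝ] ℝ).contDiff
      exact h3.mul this
    obtain ⟨K1, hK1⟩ := Lp_sum Finset.univ (fun i => Lp_sum Finset.univ (h1 i))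
    obtain ⟨K2, hK2⟩ := Lp_sum Finset.univ h2
    refine ⟨K1 + K2, fun x y => ?_⟩
    have h4 := hK1 x y
    have h5 := hK2 x y
    unfold Lop
    rw [add_mul]
    have h6 : ∀ a b c d : ℝ, (a - b) - (c - d) = (a - c) - (b - d) := by intros; ring
    rw [h6]
    exact (abs_sub _ _).trans (add_le_add h4 h5)

end Vale.Agent.P227.M.LIN
end

section

/-! # P227/M/LIN: weighted `L²` bound of the averages `av`, and the log-Lipschitz bound of `Nice` potentials. -/

open MeasureTheory Filter Metric Set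
open scoped Topology

namespace Vale.Agent.P227.M.LIN

/-- Cauchy-Schwarz on a set of finite measure -/
theorem sq_setIntegral_le {α : Type*} [MeasurableSpace α] {μ : Measure α} [IsFiniteMeasure μ] {u : α → ℝ}
    (h1 : Integrable u μ) (h2 : Integrable (fun t => u t ^ 2) μ) :
    (∫ t, u t ∂μ) ^ 2 ≤ μ.real univ * ∫ t, u t ^ 2 ∂μ := by
  have h3 : ∀ s : ℝ, 0 ≤ (∫ t, u t ^ 2 ∂μ) - 2 * s * (∫ t, u t ∂μ) + s ^ 2 * μ.real univ := by
    intro s
    have e : ∫ t, (u t - s) ^ 2 ∂μ
        = (∫ t, u t ^ 2 ∂μ) - 2 * s * (∫ t, u t ∂μ) + s ^ 2 * μ.real univ := by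
      have e1 : ∀ t, (u t - s) ^ 2 = (u t ^ 2 - (2 * s) * u t) + s ^ 2 := fun t => by ring
      have i3 : Integrable (fun t => (2 * s) * u t) μ := h1.const_mul _
      have i4 : Integrable (fun t => u t ^ 2 - (2 * s) * u t) μ := h2.sub i3
      rw [integral_congr_ae (Eventually.of_forall e1), integral_add i4 (integrable_const _),
        integral_sub h2 i3, integral_const_mul, integral_const, smul_eq_mul]
      ring
    rw [← e]
    exact integral_nonneg fun t => sq_nonneg _
  set m := μ.real univ with hm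
  set a := ∫ t, u t ∂μ
  set b := ∫ t, u t ^ 2 ∂μ
  have hm0 : 0 ≤ m := measureReal_nonneg
  rcases hm0.eq_or_lt with h0 | h0
  · have ha : a = 0 := by
      by_contra hne
      have h4 := h3 ((b + 1) / (2 * a))
      rw [← h0] at h4
      have : 2 * ((b + 1) / (2 * a)) * a = b + 1 := by field_simp
      rw [this] at h4
      linarith
    rw [ha, ← h0]
    simp
  · have h4 := h3 (a / m)
    have h5 : b - 2 * (a / m) * a + (a / m) ^ 2 * m = b - a ^ 2 / m := by field_simp; ring
    rw [h5] at h4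
    have h6 : a ^ 2 / m ≤ b := by linarith
    rw [div_le_iff₀ h0] at h6
    linarith

theorem av_continuous {n : ℕ} (m : ℕ) {g : E n → ℝ} (hg : Continuous g) (hs : HasCompactSupport g) :
    Continuous (av m g) := by
  obtain ⟨B, hB⟩ := hs.exists_bound_of_continuous hg
  unfold av
  refine continuous_const.mul ?_
  refine continuous_of_dominated (bound := fun _ => B) (fun x => ?_) (fun x => ?_) ?_ ?_
  · exact (hg.comp (continuous_const.sub continuous_id)).aestronglyMeasurable
  · exact Eventually.of_forall fun t => hB _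
  · exact integrableOn_const (measure_ball_lt_top.ne)
  · exact Eventually.of_forall fun t => hg.comp (continuous_id.sub continuous_const)

/-- weighted `L²` bound of the averages, constant independent of `R` -/
theorem av_L2 {n : ℕ} {V : E n → ℝ} (hV : Continuous V)
    (hVl : ∃ A : ℝ, ∀ x y : E n, ‖x - y‖ ≤ 2 → |V x - V y| ≤ A * (1 + ‖x‖) * ‖x - y‖) :
    ∃ C2 : ℝ, 0 < C2 ∧ ∀ R : ℝ, ∃ m0 : ℕ, ∀ m ≥ m0, ∀ g : E n → ℝ, Continuous g → HasCompactSupport g →
      Integrable (fun x => (closedBall (0 : E n) R).indicator (fun x => (av m (fun y => |g y|) x) ^ 2 * Real.exp (-V x)) x) ∧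
      ∫ x in closedBall (0 : E n) R, (av m (fun y => |g y|) x) ^ 2 * Real.exp (-V x)
        ≤ C2 * ∫ x, g x ^ 2 * Real.exp (-V x) := by
  obtain ⟨A, hA⟩ := hVl
  -- volume of the unit ball
  set ω : ℝ := (volume (ball (0 : E n) 1)).toReal with hω
  have hω0 : 0 ≤ ω := ENNReal.toReal_nonneg
  refine ⟨Real.exp 1 * (2 ^ n * ω) ^ 2 + 1, by positivity, fun R => ?_⟩
  -- choice of `m0`
  have hlim : Tendsto (fun m => |A| * (1 + |R|) * (2 * dl m)) atTop (𝓝 0) := by
    have := (dl_tendsto.const_mul 2).const_mul (|A| * (1 + |R|))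
    simpa using this
  obtain ⟨m0, hm0⟩ := (hlim.eventually (ge_mem_nhds (show (0 : ℝ) < 1 by norm_num))).exists_forall_of_atTop
  refine ⟨m0, fun m hm g hg hs => ?_⟩
  have hδ := dl_pos m
  have hδ1 := dl_le_one m
  set δ := dl m with hδd
  have hsmall : |A| * (1 + |R|) * (2 * δ) ≤ 1 := hm0 m hm
  set u : E n → ℝ := fun y => |g y| with hu
  have huc : Continuous u := hg.abs
  have hus : HasCompactSupport u := hs.comp_left (g := fun r : ℝ => |r|) abs_zero
  have hav := av_continuous m huc hus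
  have hexp : Continuous fun x => Real.exp (-V x) := (hV.neg).rexp
  have hcont : Continuous fun x => (av m u x) ^ 2 * Real.exp (-V x) := (hav.pow 2).mul hexp
  have hint : IntegrableOn (fun x => (av m u x) ^ 2 * Real.exp (-V x)) (closedBall (0 : E n) R) :=
    hcont.continuousOn.integrableOn_compact (isCompact_closedBall _ _)
  refine ⟨(integrable_indicator_iff measurableSet_closedBall).2 hint, ?_⟩
  -- measure of the ball of radius `2 δ`
  have hvol : (volume (ball (0 : E n) (2 * δ))).toReal = (2 * δ) ^ n * ω := by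
    rw [Measure.addHaar_ball_of_pos volume (0 : E n) (by positivity : (0 : ℝ) < 2 * δ),
      ENNReal.toReal_mul, ENNReal.toReal_ofReal (by positivity), finrank_euclideanSpace_fin]
  have hfin : IsFiniteMeasure (volume.restrict (ball (0 : E n) (2 * δ))) :=
    ⟨by rw [Measure.restrict_apply_univ]; exact measure_ball_lt_top⟩
  have hureal : (volume.restrict (ball (0 : E n) (2 * δ))).real univ = (2 * δ) ^ n * ω := by
    rw [← hvol, measureReal_def, Measure.restrict_apply_univ]
  have hsq : ∀ y, u y ^ 2 = g y ^ 2 := fun y => sq_abs _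
  -- pointwise bound
  have hpt : ∀ x, (av m u x) ^ 2 ≤ (δ ^ n)⁻¹ * (2 ^ n * ω) * ∫ t in ball (0 : E n) (2 * δ), g (x - t) ^ 2 := by
    intro x
    have c1 : Continuous fun t => u (x - t) := huc.comp (continuous_const.sub continuous_id)
    have i1 : IntegrableOn (fun t => u (x - t)) (ball (0 : E n) (2 * δ)) :=
      (c1.continuousOn.integrableOn_compact (isCompact_closedBall _ _)).mono_set ball_subset_closedBall
    have i2 : IntegrableOn (fun t => u (x - t) ^ 2) (ball (0 : E n) (2 * δ)) :=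
      ((c1.pow 2).continuousOn.integrableOn_compact (isCompact_closedBall _ _)).mono_set ball_subset_closedBall
    have h1 := sq_setIntegral_le i1 i2
    rw [hureal] at h1
    have h2 : (av m u x) ^ 2 = ((δ ^ n)⁻¹) ^ 2 * (∫ t in ball (0 : E n) (2 * δ), u (x - t)) ^ 2 := by
      unfold av; rw [mul_pow]
    have h3 : ∀ t, u (x - t) ^ 2 = g (x - t) ^ 2 := fun t => hsq _
    simp only [h3] at h1
    rw [h2]
    have hδn : (0 : ℝ) < δ ^ n := by positivity
    calc ((δ ^ n)⁻¹) ^ 2 * (∫ t in ball (0 : E n) (2 * δ), u (x - t)) ^ 2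
        ≤ ((δ ^ n)⁻¹) ^ 2 * ((2 * δ) ^ n * ω * ∫ t in ball (0 : E n) (2 * δ), g (x - t) ^ 2) := by gcongr
      _ = (δ ^ n)⁻¹ * (2 ^ n * ω) * ∫ t in ball (0 : E n) (2 * δ), g (x - t) ^ 2 := by
        rw [mul_pow]; field_simp
  -- the double integral
  set F : E n → E n → ℝ := fun x t => g (x - t) ^ 2 * Real.exp (-V x) with hF
  have hFc : Continuous (Function.uncurry F) := by
    have : Continuous fun p : E n × E n => g (p.1 - p.2) ^ 2 * Real.exp (-V p.1) :=
      ((hg.comp (continuous_fst.sub continuous_snd)).pow 2).mul (hexp.comp continuous_fst)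
    exact this
  have hFi : Integrable (Function.uncurry F) ((volume.restrict (closedBall (0 : E n) R)).prod
      (volume.restrict (ball (0 : E n) (2 * δ)))) := by
    rw [Measure.prod_restrict]
    have h1 : IntegrableOn (Function.uncurry F) (closedBall (0 : E n) R ×ˢ closedBall (0 : E n) (2 * δ))
        (volume.prod volume) :=
      hFc.continuousOn.integrableOn_compact ((isCompact_closedBall _ _).prod (isCompact_closedBall _ _))
    exact h1.mono_set (prod_mono_right ball_subset_closedBall)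
  have hI0 : 0 ≤ ∫ x, g x ^ 2 * Real.exp (-V x) := integral_nonneg fun x => by positivity
  have hgc : Continuous fun x => g x ^ 2 * Real.exp (-V x) := (hg.pow 2).mul hexp
  have hgs : HasCompactSupport fun x => g x ^ 2 * Real.exp (-V x) := by
    have : HasCompactSupport fun x => g x ^ 2 := hs.comp_left (g := fun r : ℝ => r ^ 2) (by simp)
    exact this.mul_right
  have hgi : Integrable fun x => g x ^ 2 * Real.exp (-V x) := hgc.integrable_of_hasCompactSupport hgs
  -- inner bound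
  have hinner : ∀ t ∈ ball (0 : E n) (2 * δ), ∫ x in closedBall (0 : E n) R, F x t
      ≤ Real.exp 1 * ∫ x, g x ^ 2 * Real.exp (-V x) := by
    intro t ht
    rw [mem_ball_zero_iff] at ht
    have hti : Integrable fun x => g (x - t) ^ 2 * Real.exp (-V (x - t)) := hgi.comp_sub_right t
    have hshift : ∫ x, g (x - t) ^ 2 * Real.exp (-V (x - t)) = ∫ x, g x ^ 2 * Real.exp (-V x) :=
      integral_sub_right_eq_self (fun x => g x ^ 2 * Real.exp (-V x)) t
    rw [← hshift, ← integral_const_mul]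
    have hle : ∫ x in closedBall (0 : E n) R, F x t
        ≤ ∫ x in closedBall (0 : E n) R, Real.exp 1 * (g (x - t) ^ 2 * Real.exp (-V (x - t))) := by
      refine setIntegral_mono_on ?_ (hti.const_mul _).integrableOn measurableSet_closedBall ?_
      · have : Continuous fun x => F x t :=
          ((hg.comp (continuous_id.sub continuous_const)).pow 2).mul hexp
        exact this.continuousOn.integrableOn_compact (isCompact_closedBall _ _)
      · intro x hx
        rw [mem_closedBall_zero_iff] at hx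
        have hR : ‖x‖ ≤ |R| := hx.trans (le_abs_self R)
        have h1 := hA x (x - t) (by
          rw [sub_sub_cancel]
          linarith)
        rw [sub_sub_cancel] at h1
        have h2 : A * (1 + ‖x‖) * ‖t‖ ≤ |A| * (1 + |R|) * (2 * δ) := by
          have := le_abs_self A
          have h3 : 0 ≤ |A| := abs_nonneg A
          calc A * (1 + ‖x‖) * ‖t‖ ≤ |A| * (1 + ‖x‖) * ‖t‖ := by gcongr
            _ ≤ |A| * (1 + |R|) * (2 * δ) := by gcongr
        have h3 : -V x ≤ 1 + -V (x - t) := by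
          have h4 := (abs_le.1 (h1.trans (h2.trans hsmall))).1
          linarith
        have h5 : Real.exp (-V x) ≤ Real.exp 1 * Real.exp (-V (x - t)) := by
          rw [← Real.exp_add]
          exact Real.exp_le_exp.2 h3
        have h6 : 0 ≤ g (x - t) ^ 2 := sq_nonneg _
        simp only [hF]
        calc g (x - t) ^ 2 * Real.exp (-V x) ≤ g (x - t) ^ 2 * (Real.exp 1 * Real.exp (-V (x - t))) := by gcongr
          _ = Real.exp 1 * (g (x - t) ^ 2 * Real.exp (-V (x - t))) := by ring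
    refine hle.trans ?_
    exact setIntegral_le_integral (hti.const_mul _) (Eventually.of_forall fun x => by positivity)
  have hswap : ∫ x in closedBall (0 : E n) R, (∫ t in ball (0 : E n) (2 * δ), F x t)
      = ∫ t in ball (0 : E n) (2 * δ), (∫ x in closedBall (0 : E n) R, F x t) :=
    integral_integral_swap hFi
  have hdouble : ∫ t in ball (0 : E n) (2 * δ), (∫ x in closedBall (0 : E n) R, F x t)
      ≤ (2 * δ) ^ n * ω * (Real.exp 1 * ∫ x, g x ^ 2 * Real.exp (-V x)) := by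
    have h1 : ∫ t in ball (0 : E n) (2 * δ), (∫ x in closedBall (0 : E n) R, F x t)
        ≤ ∫ t in ball (0 : E n) (2 * δ), (Real.exp 1 * ∫ x, g x ^ 2 * Real.exp (-V x)) := by
      refine setIntegral_mono_on hFi.integral_prod_right (integrableOn_const measure_ball_lt_top.ne)
        measurableSet_ball hinner
    refine h1.trans (le_of_eq ?_)
    rw [setIntegral_const, measureReal_def, hvol, smul_eq_mul]
  have hδn : (0 : ℝ) < δ ^ n := by positivity
  have hF1 : Integrable (fun x => ∫ t in ball (0 : E n) (2 * δ), F x t) (volume.restrict (closedBall (0 : E n) R)) :=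
    hFi.integral_prod_left
  calc ∫ x in closedBall (0 : E n) R, (av m u x) ^ 2 * Real.exp (-V x)
      ≤ ∫ x in closedBall (0 : E n) R, (δ ^ n)⁻¹ * (2 ^ n * ω) * ∫ t in ball (0 : E n) (2 * δ), F x t := by
        refine setIntegral_mono_on hint (hF1.const_mul _) measurableSet_closedBall fun x _ => ?_
        have h1 := mul_le_mul_of_nonneg_right (hpt x) (Real.exp_pos (-V x)).le
        refine h1.trans (le_of_eq ?_)
        rw [mul_assoc ((δ ^ n)⁻¹ * (2 ^ n * ω)), ← integral_mul_const]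
    _ = (δ ^ n)⁻¹ * (2 ^ n * ω) * ∫ t in ball (0 : E n) (2 * δ), (∫ x in closedBall (0 : E n) R, F x t) := by
        rw [integral_const_mul, hswap]
    _ ≤ (δ ^ n)⁻¹ * (2 ^ n * ω) * ((2 * δ) ^ n * ω * (Real.exp 1 * ∫ x, g x ^ 2 * Real.exp (-V x))) := by gcongr
    _ = Real.exp 1 * (2 ^ n * ω) ^ 2 * ∫ x, g x ^ 2 * Real.exp (-V x) := by
        rw [mul_pow]; field_simp
    _ ≤ (Real.exp 1 * (2 ^ n * ω) ^ 2 + 1) * ∫ x, g x ^ 2 * Real.exp (-V x) := by
        gcongr
        linarith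

/-- the hypothesis of `av_L2` for `Nice` potentials -/
theorem nice_lip {n : ℕ} {V : E n → ℝ} {c C : ℝ} (hV : Nice V c C) :
    ∃ A : ℝ, ∀ x y : E n, ‖x - y‖ ≤ 2 → |V x - V y| ≤ A * (1 + ‖x‖) * ‖x - y‖ := by
  obtain ⟨B, hB⟩ := hV.bdd 2 le_rfl
  have hB0 : 0 ≤ B := (norm_nonneg _).trans (hB 0)
  have hd : ∀ x, DifferentiableAt ℝ V x := fun x => (hV.smooth.differentiable (by simp)) x
  have hd2 : ∀ x, DifferentiableAt ℝ (fderiv ℝ V) x := fun x =>
    ((hV.smooth.fderiv_right (m := (⊤ : ℕ∞)) (by simp)).differentiable (by simp)) x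
  have hn : ∀ x, ‖fderiv ℝ (fderiv ℝ V) x‖ ≤ B := by
    intro x
    rw [← norm_iteratedFDeriv_one, norm_iteratedFDeriv_fderiv]
    exact hB x
  have hlip : ∀ x, ‖fderiv ℝ V x‖ ≤ ‖fderiv ℝ V 0‖ + B * ‖x‖ := by
    intro x
    have h1 := Convex.norm_image_sub_le_of_norm_fderiv_le (𝕜 := ℝ) (f := fderiv ℝ V) (fun z _ => hd2 z)
      (fun z _ => hn z) convex_univ (mem_univ (0 : E n)) (mem_univ x)
    rw [sub_zero] at h1
    have h2 := norm_le_norm_add_norm_sub' (fderiv ℝ V x) (fderiv ℝ V 0)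
    linarith
  refine ⟨‖fderiv ℝ V 0‖ + 2 * B, fun x y hxy => ?_⟩
  have hseg : ∀ z ∈ segment ℝ x y, ‖fderiv ℝ V z‖ ≤ (‖fderiv ℝ V 0‖ + 2 * B) * (1 + ‖x‖) := by
    intro z hz
    have h1 : ‖z‖ ≤ ‖x‖ + 2 := by
      have h2 := norm_sub_le_of_mem_segment hz
      have h3 : ‖z‖ ≤ ‖x‖ + ‖z - x‖ := norm_le_norm_add_norm_sub' z x
      have h4 : ‖y - x‖ ≤ 2 := by rw [norm_sub_rev]; exact hxy
      linarith
    have h2 := hlip z
    have h3 := norm_nonneg (fderiv ℝ V 0)
    have h4 := norm_nonneg x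
    nlinarith [mul_le_mul_of_nonneg_left h1 hB0, mul_nonneg h3 h4, mul_nonneg hB0 h4]
  have h1 := Convex.norm_image_sub_le_of_norm_fderiv_le (𝕜 := ℝ) (f := V) (fun z _ => hd z)
    hseg (convex_segment x y) (right_mem_segment ℝ x y) (left_mem_segment ℝ x y)
  rw [Real.norm_eq_abs] at h1
  exact h1

end Vale.Agent.P227.M.LIN
end

section

/-! # P227/M/LIN: the commutator `L ∂_b F` (owner: helper717). -/

open MeasureTheory Filter Metric Set
open scoped Topology

namespace Vale.Agent.P227.M.LIN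

/-- Rademacher for `Lp` functions (own copy) -/
private lemma lip_ae' {n : ℕ} {g : E n → ℝ} {K : ℝ} (hg : Lp g K) : ∀ᵐ x, DifferentiableAt ℝ g x := by
  have h : LipschitzWith (Real.toNNReal K) g := by
    refine LipschitzWith.of_dist_le_mul fun x y => ?_
    rw [Real.dist_eq, dist_eq_norm]
    refine (hg x y).trans ?_
    gcongr
    exact Real.le_coe_toNNReal K
  exact h.ae_differentiableAt

/-- a Lipschitz function has bounded partial derivatives -/
private lemma abs_pd_le_of_Lp {n : ℕ} {g : E n → ℝ} {K : ℝ} (hK : 0 ≤ K) (hg : Lp g K) (b : Fin n) (x : E n) :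
    |pd b g x| ≤ K := by
  have h : LipschitzWith (Real.toNNReal K) g := by
    refine LipschitzWith.of_dist_le_mul fun x y => ?_
    rw [Real.dist_eq, dist_eq_norm]
    refine (hg x y).trans ?_
    gcongr
    exact Real.le_coe_toNNReal K
  have h1 : ‖fderiv ℝ g x‖ ≤ K := by
    have := norm_fderiv_le_of_lipschitz ℝ h (x₀ := x)
    rwa [Real.coe_toNNReal K hK] at this
  exact (abs_pd_le_norm g x b).trans h1

/-- pointwise form of the commutator formula -/
theorem pd_Lop {n : ℕ} {ψ F : E n → ℝ} (hF : ContDiff ℝ (⊤ : ℕ∞) F) {x : E n}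
    (hx : ∀ i j, DifferentiableAt ℝ (fun y => tau ψ y i j) x) (b : Fin n) :
    pd b (Lop ψ F) x = Lop ψ (pd b F) x + (∑ i, ∑ j, pd b (fun y => tau ψ y i j) x * hess F x i j)
      - pd b F x := by
  have hH : ∀ i j, DifferentiableAt ℝ (fun y => hess F y i j) x := fun i j =>
    ((contDiff_hess_top hF i j).differentiable (by simp)).differentiableAt
  have hP : ∀ i, DifferentiableAt ℝ (pd i F) x := fun i =>
    ((contDiff_pd_top hF i).differentiable (by simp)).differentiableAt
  have hX : ∀ i : Fin n, HasFDerivAt (fun y : E n => y i) (EuclideanSpace.proj i : E n →L[ℝ] ℝ) x := fun i =>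
    (EuclideanSpace.proj i : E n →L[ℝ] ℝ).hasFDerivAt
  have hd : HasFDerivAt (Lop ψ F)
      ((∑ i, ∑ j, (tau ψ x i j • fderiv ℝ (fun y => hess F y i j) x
        + hess F x i j • fderiv ℝ (fun y => tau ψ y i j) x))
        - ∑ i, (x i • fderiv ℝ (pd i F) x + pd i F x • (EuclideanSpace.proj i : E n →L[ℝ] ℝ))) x := by
    unfold Lop
    refine HasFDerivAt.sub ?_ ?_
    · refine HasFDerivAt.fun_sum fun i _ => HasFDerivAt.fun_sum fun j _ => ?_
      exact (hx i j).hasFDerivAt.mul (hH i j).hasFDerivAt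
    · refine HasFDerivAt.fun_sum fun i _ => ?_
      exact (hX i).mul (hP i).hasFDerivAt
  have hsym : ∀ i j, pd b (fun y => hess F y i j) x = hess (pd b F) x i j := by
    intro i j
    have h1 : hess F = fun y i j => pd i (pd j F) y := rfl
    have e1 : ∀ y, pd j (pd b F) y = pd b (pd j F) y := fun y =>
      hess_symm (hF.of_le (by norm_cast)) y j b
    have e2 : pd j (pd b F) = pd b (pd j F) := funext e1
    show pd b (pd i (pd j F)) x = pd i (pd j (pd b F)) x
    rw [e2]
    exact hess_symm ((contDiff_pd_top hF j).of_le (by norm_cast)) x b i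
  have hsym1 : ∀ i, pd b (pd i F) x = pd i (pd b F) x := fun i =>
    hess_symm (hF.of_le (by norm_cast)) x b i
  have e0 : pd b (Lop ψ F) x = (∑ i, ∑ j, (tau ψ x i j * pd b (fun y => hess F y i j) x
        + hess F x i j * pd b (fun y => tau ψ y i j) x))
        - ∑ i, (x i * pd b (pd i F) x + pd i F x * (ei b : E n) i) := by
    have := hd.fderiv
    unfold pd at this ⊢
    rw [this]
    simp only [_root_.sub_apply, _root_.sum_apply, _root_.add_apply, _root_.smul_apply, smul_eq_mul]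
    rfl
  rw [e0]
  have e3 : ∑ i, (x i * pd b (pd i F) x + pd i F x * (ei b : E n) i) =
      (∑ i, x i * pd i (pd b F) x) + pd b F x := by
    rw [Finset.sum_add_distrib]
    congr 1
    · exact Finset.sum_congr rfl fun i _ => by rw [hsym1]
    · simp [ei_apply]
  have e4 : ∑ i, ∑ j, (tau ψ x i j * pd b (fun y => hess F y i j) x
        + hess F x i j * pd b (fun y => tau ψ y i j) x) =
      (∑ i, ∑ j, tau ψ x i j * hess (pd b F) x i j)
        + ∑ i, ∑ j, pd b (fun y => tau ψ y i j) x * hess F x i j := by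
    rw [← Finset.sum_add_distrib]
    refine Finset.sum_congr rfl fun i _ => ?_
    rw [← Finset.sum_add_distrib]
    refine Finset.sum_congr rfl fun j _ => ?_
    rw [hsym, mul_comm (hess F x i j)]
  rw [e3, e4]
  unfold Lop
  ring

/-- the statement, from the Lipschitz bound of `τ` -/
theorem Lop_pd_of {n : ℕ} {ψ : E n → ℝ}
    (hT : ∃ T : ℝ, 0 < T ∧ ∀ i j, Lp (fun x => tau ψ x i j) T) :
    ∃ T : ℝ, 0 < T ∧ ∀ F : E n → ℝ, Test F → ∀ᵐ x, ∀ b, |Lop ψ (pd b F) x| ≤
      |pd b (Lop ψ F) x| + T * (∑ i, ∑ j, |hess F x i j|) + |pd b F x| := by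
  obtain ⟨T, hT0, hT⟩ := hT
  refine ⟨T, hT0, fun F hF => ?_⟩
  have hae : ∀ᵐ x, ∀ i j, DifferentiableAt ℝ (fun y => tau ψ y i j) x := by
    rw [ae_all_iff]; intro i
    rw [ae_all_iff]; intro j
    exact lip_ae' (hT i j)
  filter_upwards [hae] with x hx b
  have h := pd_Lop (ψ := ψ) hF.1 hx b
  have e : Lop ψ (pd b F) x = pd b (Lop ψ F) x
      - (∑ i, ∑ j, pd b (fun y => tau ψ y i j) x * hess F x i j) + pd b F x := by
    rw [h]; ring
  have hb : |∑ i, ∑ j, pd b (fun y => tau ψ y i j) x * hess F x i j| ≤ T * ∑ i, ∑ j, |hess F x i j| := by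
    rw [Finset.mul_sum]
    refine (Finset.abs_sum_le_sum_abs _ _).trans (Finset.sum_le_sum fun i _ => ?_)
    rw [Finset.mul_sum]
    refine (Finset.abs_sum_le_sum_abs _ _).trans (Finset.sum_le_sum fun j _ => ?_)
    rw [abs_mul]
    exact mul_le_mul_of_nonneg_right (abs_pd_le_of_Lp hT0.le (hT i j) b x) (abs_nonneg _)
  rw [e]
  calc |pd b (Lop ψ F) x - (∑ i, ∑ j, pd b (fun y => tau ψ y i j) x * hess F x i j) + pd b F x|
      ≤ |pd b (Lop ψ F) x - (∑ i, ∑ j, pd b (fun y => tau ψ y i j) x * hess F x i j)| + |pd b F x| :=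
        abs_add_le _ _
    _ ≤ (|pd b (Lop ψ F) x| + |∑ i, ∑ j, pd b (fun y => tau ψ y i j) x * hess F x i j|) + |pd b F x| := by
        gcongr
        exact abs_sub _ _
    _ ≤ _ := by linarith

/-- COM: the commutator `L ∂_b F` -/
theorem Lop_pd {n : ℕ} {ψ V : E n → ℝ} {c C M : ℝ} (hM : MM ψ V c C M) :
    ∃ T : ℝ, 0 < T ∧ ∀ F : E n → ℝ, Test F → ∀ᵐ x, ∀ b, |Lop ψ (pd b F) x| ≤
      |pd b (Lop ψ F) x| + T * (∑ i, ∑ j, |hess F x i j|) + |pd b F x| := by
  have hM0 : ∀ i j, ∃ K : ℝ, Lp (fun x => tau ψ x i j) K := fun i j => ⟨_, fun x y => Loc.tau_lip hM x y i j⟩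
  choose K hK using hM0
  refine Lop_pd_of ⟨1 + ∑ i, ∑ j, |K i j|, ?_, fun i j x y => (hK i j x y).trans ?_⟩
  · have : 0 ≤ ∑ i, ∑ j, |K i j| := Finset.sum_nonneg fun i _ => Finset.sum_nonneg fun j _ => abs_nonneg _
    linarith
  · refine mul_le_mul_of_nonneg_right ?_ (norm_nonneg _)
    have h1 : |K i j| ≤ ∑ j, |K i j| := Finset.single_le_sum (f := fun j => |K i j|) (fun j _ => abs_nonneg _) (Finset.mem_univ j)
    have h2 : ∑ j, |K i j| ≤ ∑ i, ∑ j, |K i j| :=
      Finset.single_le_sum (f := fun i => ∑ j, |K i j|) (fun i _ => Finset.sum_nonneg fun j _ => abs_nonneg _) (Finset.mem_univ i)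
    linarith [le_abs_self (K i j)]

end Vale.Agent.P227.M.LIN
end
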