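import Mathlib
import Vale.Agent.P227.Defs
import Vale.Agent.P227.Bd3.B1
import Vale.Agent.P227.Bd3.B2
import Vale.Agent.P227.Bd3.B3

set_option linter.all false

section

/-! # P227/M: the chain of the blocks. -/

open MeasureTheory

namespace Vale.Agent.P227.M

/-- the logarithmic Brunn-Minkowski inequality for all origin-symmetric convex bodies -/
def StmtQ1 : Prop := ∀ (n : ℕ) (K L : Set (EuclideanSpace ℝ (Fin n))) (t : ℝ), 0 < n →
  Vale.Agent.P227.SymConvexBody K → Vale.Agent.P227.SymConvexBody L → 0 ≤ t → t ≤ 1 →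
    (volume K).toReal ^ (1 - t) * (volume L).toReal ^ t ≤
      (volume (Vale.Agent.P227.logComb t K L)).toReal

/-- the chain SC → MM, ID, LIN → LOC → END -/
theorem q1_of_blocks (hSC : StmtSC) (hMM : StmtSC → StmtMM) (hStein : StmtStein) (hIBP : StmtIBP)
    (hDiv : StmtDiv) (hKey : StmtKey) (hLin : StmtLin)
    (hLoc : StmtStein → StmtIBP → StmtDiv → StmtKey → StmtLin → StmtMM → StmtLocal)
    (hEnd : StmtLocal → StmtQ1) : StmtQ1 :=
  hEnd (hLoc hStein hIBP hDiv hKey hLin (hMM hSC))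

end Vale.Agent.P227.M
end

section

/-! # P227/M, block LK: small relative entropy implies closeness in total variation -/

open MeasureTheory Set Filter Topology

namespace Vale.Agent.P227.M.LK

/-- if `∫ (W - V) e^{-V} ≤ η²` for two probability densities `e^{-V}`, `e^{-W}`, then
`|∫ F e^{-W} - ∫ F e^{-V}| ≤ 2 M η` for `|F| ≤ M` -/
theorem abs_sub_le_of_KL {α : Type*} [MeasurableSpace α] {μ : Measure α} {V W F : α → ℝ} {M η : ℝ}
    (hη : 0 < η) (hV : Integrable (fun x => Real.exp (-V x)) μ) (hW : Integrable (fun x => Real.exp (-W x)) μ)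
    (hV1 : ∫ x, Real.exp (-V x) ∂μ = 1) (hW1 : ∫ x, Real.exp (-W x) ∂μ = 1)
    (hKi : Integrable (fun x => (W x - V x) * Real.exp (-V x)) μ)
    (hK : ∫ x, (W x - V x) * Real.exp (-V x) ∂μ ≤ η ^ 2)
    (hF : AEStronglyMeasurable F μ) (hM : 0 ≤ M) (hFM : ∀ x, |F x| ≤ M) :
    |(∫ x, F x * Real.exp (-W x) ∂μ) - ∫ x, F x * Real.exp (-V x) ∂μ| ≤ 2 * M * η := by
  have hFW : Integrable (fun x => F x * Real.exp (-W x)) μ := by
    refine (hW.const_mul M).mono' (hF.mul hW.aestronglyMeasurable) (Eventually.of_forall fun x => ?_)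
    rw [Real.norm_eq_abs, abs_mul, abs_of_pos (Real.exp_pos _)]
    exact mul_le_mul_of_nonneg_right (hFM x) (Real.exp_pos _).le
  have hFV : Integrable (fun x => F x * Real.exp (-V x)) μ := by
    refine (hV.const_mul M).mono' (hF.mul hV.aestronglyMeasurable) (Eventually.of_forall fun x => ?_)
    rw [Real.norm_eq_abs, abs_mul, abs_of_pos (Real.exp_pos _)]
    exact mul_le_mul_of_nonneg_right (hFM x) (Real.exp_pos _).le
  rw [← integral_sub hFW hFV, ← Real.norm_eq_abs]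
  -- the dominating function
  have i1 : Integrable (fun x => Real.exp (-W x) - Real.exp (-V x)) μ := hW.sub hV
  have i2 : Integrable (fun x => Real.exp (-W x) - Real.exp (-V x) + (W x - V x) * Real.exp (-V x)) μ := i1.add hKi
  have i3 : Integrable (fun x => Real.exp (-W x) + Real.exp (-V x)) μ := hW.add hV
  have i4 : Integrable (fun x => (1 / η) * (Real.exp (-W x) - Real.exp (-V x) + (W x - V x) * Real.exp (-V x))
      + (η / 2) * (Real.exp (-W x) + Real.exp (-V x))) μ := (i2.const_mul _).add (i3.const_mul _)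
  have hpt : ∀ x, ‖F x * Real.exp (-W x) - F x * Real.exp (-V x)‖ ≤ M * ((1 / η) * (Real.exp (-W x) - Real.exp (-V x)
      + (W x - V x) * Real.exp (-V x)) + (η / 2) * (Real.exp (-W x) + Real.exp (-V x))) := by
    intro x
    rw [Real.norm_eq_abs, ← mul_sub, abs_mul]
    have h0 : 0 < Real.exp (-V x) := Real.exp_pos _
    set p := Real.exp (-(W x - V x) / 2) with hp
    have hp0 : 0 < p := Real.exp_pos _
    have h1 : Real.exp (-W x) = p ^ 2 * Real.exp (-V x) := by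
      rw [hp, ← Real.exp_nat_mul, ← Real.exp_add]
      congr 1
      push_cast
      ring
    have h2 : 1 - (W x - V x) / 2 ≤ p := by
      have := Real.add_one_le_exp (-(W x - V x) / 2)
      linarith
    have h3 : (p - 1) ^ 2 ≤ p ^ 2 - 1 + (W x - V x) := by nlinarith
    have h4 : |Real.exp (-W x) - Real.exp (-V x)| = |p - 1| * (p + 1) * Real.exp (-V x) := by
      rw [h1, show p ^ 2 * Real.exp (-V x) - Real.exp (-V x) = (p - 1) * (p + 1) * Real.exp (-V x) by ring,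
        abs_mul, abs_mul, abs_of_pos h0, abs_of_pos (by linarith : 0 < p + 1)]
    have h5 : |p - 1| * (p + 1) ≤ (1 / η) * (p - 1) ^ 2 + (η / 4) * (p + 1) ^ 2 := by
      have h6 : 0 ≤ (|p - 1| / η - (p + 1) / 2) ^ 2 := sq_nonneg _
      have h7 : (|p - 1| / η - (p + 1) / 2) ^ 2 * η = (1 / η) * (p - 1) ^ 2 + (η / 4) * (p + 1) ^ 2 - |p - 1| * (p + 1) := by
        have : |p - 1| ^ 2 = (p - 1) ^ 2 := sq_abs _
        field_simp
        rw [← this]
        ring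
      have h8 := mul_nonneg h6 hη.le
      linarith
    have h9 : (p + 1) ^ 2 ≤ 2 * (p ^ 2 + 1) := by nlinarith [sq_nonneg (p - 1)]
    have h10 : |p - 1| * (p + 1) ≤ (1 / η) * (p ^ 2 - 1 + (W x - V x)) + (η / 2) * (p ^ 2 + 1) := by
      have e1 : (1 / η) * (p - 1) ^ 2 ≤ (1 / η) * (p ^ 2 - 1 + (W x - V x)) :=
        mul_le_mul_of_nonneg_left h3 (by positivity)
      have e2 : (η / 4) * (p + 1) ^ 2 ≤ (η / 4) * (2 * (p ^ 2 + 1)) := mul_le_mul_of_nonneg_left h9 (by positivity)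
      linarith
    have h11 : |Real.exp (-W x) - Real.exp (-V x)| ≤ (1 / η) * (Real.exp (-W x) - Real.exp (-V x)
        + (W x - V x) * Real.exp (-V x)) + (η / 2) * (Real.exp (-W x) + Real.exp (-V x)) := by
      rw [h4, h1]
      calc |p - 1| * (p + 1) * Real.exp (-V x)
          ≤ ((1 / η) * (p ^ 2 - 1 + (W x - V x)) + (η / 2) * (p ^ 2 + 1)) * Real.exp (-V x) :=
            mul_le_mul_of_nonneg_right h10 h0.le
        _ = _ := by ring
    exact mul_le_mul (hFM x) h11 (abs_nonneg _) hM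
  have h1 := norm_integral_le_of_norm_le (i4.const_mul M) (Eventually.of_forall hpt)
  refine h1.trans ?_
  have h2 : ∫ x, M * ((1 / η) * (Real.exp (-W x) - Real.exp (-V x)
      + (W x - V x) * Real.exp (-V x)) + (η / 2) * (Real.exp (-W x) + Real.exp (-V x))) ∂μ
      = M * ((1 / η) * (1 - 1 + ∫ x, (W x - V x) * Real.exp (-V x) ∂μ) + (η / 2) * (1 + 1)) := by
    rw [integral_const_mul, integral_add (i2.const_mul _) (i3.const_mul _), integral_const_mul, integral_const_mul,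
      integral_add i1 hKi, integral_sub hW hV, integral_add hW hV, hV1, hW1]
  rw [h2]
  have h3 : (1 / η) * ∫ x, (W x - V x) * Real.exp (-V x) ∂μ ≤ η := by
    calc (1 / η) * ∫ x, (W x - V x) * Real.exp (-V x) ∂μ ≤ (1 / η) * η ^ 2 :=
          mul_le_mul_of_nonneg_left hK (by positivity)
      _ = η := by field_simp
  have h4 : (1 / η) * (1 - 1 + ∫ x, (W x - V x) * Real.exp (-V x) ∂μ) + (η / 2) * (1 + 1) ≤ 2 * η := by
    rw [sub_self, zero_add]
    linarith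
  calc M * ((1 / η) * (1 - 1 + ∫ x, (W x - V x) * Real.exp (-V x) ∂μ) + (η / 2) * (1 + 1)) ≤ M * (2 * η) :=
        mul_le_mul_of_nonneg_left h4 hM
    _ = 2 * M * η := by ring

end Vale.Agent.P227.M.LK
end

section

/-! # P227/M/MX: the limit `k → ∞`, pointwise in `x`-space -/

open MeasureTheory Set Filter Topology

namespace Vale.Agent.P227.M.MX

section Ident

variable {E : Type*} [NormedAddCommGroup E] [InnerProductSpace ℝ E] [FiniteDimensional ℝ E]
  [MeasurableSpace E] [BorelSpace E]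

/-- identification of the limit potential -/
theorem ident {V Wi : E → ℝ} (hV : Continuous V) (hWi : Continuous Wi) {W : ℕ → E → ℝ} {β : ℕ → ℝ}
    (hVi : Integrable fun x => Real.exp (-V x)) (hWint : ∀ j, Integrable fun x => Real.exp (-W j x))
    (hlim : ∀ x, Tendsto (fun j => W j x - β j) atTop (𝓝 (Wi x)))
    {η : ℕ → ℝ} (hη : Tendsto η atTop (𝓝 0))
    (hL : ∀ j, ∫ x, |Real.exp (-W j x) - Real.exp (-V x)| ≤ η j) :
    ∃ t, ∀ x, V x = Wi x + t := by
  have h1 : Tendsto (fun j => eLpNorm ((fun x => Real.exp (-W j x)) - fun x => Real.exp (-V x)) 1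
      (volume : Measure E)) atTop (𝓝 0) := by
    have h2 : ∀ j, eLpNorm ((fun x => Real.exp (-W j x)) - fun x => Real.exp (-V x)) 1 (volume : Measure E)
        ≤ ENNReal.ofReal (η j) := by
      intro j
      rw [eLpNorm_one_eq_lintegral_enorm]
      have h3 := ofReal_integral_norm_eq_lintegral_enorm ((hWint j).sub hVi)
      rw [← h3]
      refine ENNReal.ofReal_le_ofReal ?_
      exact hL j
    have h4 : Tendsto (fun j => ENNReal.ofReal (η j)) atTop (𝓝 0) := by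
      have := (ENNReal.continuous_ofReal.tendsto 0).comp hη
      rw [ENNReal.ofReal_zero] at this
      exact this
    exact tendsto_of_tendsto_of_tendsto_of_le_of_le tendsto_const_nhds h4 (fun j => bot_le) h2
  have h5 : TendstoInMeasure (volume : Measure E) (fun j x => Real.exp (-W j x)) atTop (fun x => Real.exp (-V x)) :=
    tendstoInMeasure_of_tendsto_eLpNorm one_ne_zero (fun j => (hWint j).aestronglyMeasurable)
      hVi.aestronglyMeasurable h1
  obtain ⟨ns, hns, hae⟩ := h5.exists_seq_tendsto_ae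
  have hae2 : ∀ᵐ x ∂(volume : Measure E), Tendsto (fun i => β (ns i)) atTop (𝓝 (V x - Wi x)) := by
    filter_upwards [hae] with x hx
    have h6 : Tendsto (fun i => W (ns i) x) atTop (𝓝 (V x)) := by
      have h7 := (Real.continuousAt_log (Real.exp_pos (-V x)).ne').tendsto.comp hx
      have h8 : Tendsto (fun i => -(Real.log (Real.exp (-W (ns i) x)))) atTop (𝓝 (-Real.log (Real.exp (-V x)))) := h7.neg
      simpa using h8
    have h9 := h6.sub ((hlim x).comp hns.tendsto_atTop)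
    refine h9.congr fun i => ?_
    simp
  obtain ⟨x1, hx1⟩ := hae2.exists
  refine ⟨V x1 - Wi x1, ?_⟩
  have h10 : (fun x => V x - Wi x) =ᵐ[volume] fun _ => V x1 - Wi x1 := by
    filter_upwards [hae2] with x hx
    exact tendsto_nhds_unique hx hx1
  have h11 := Measure.eq_of_ae_eq h10 (hV.sub hWi) continuous_const
  intro x
  have := congrFun h11 x
  linarith

end Ident

/-- Taylor on `[0,1]` -/
theorem tay_low (g g1 g2 : ℝ → ℝ) (h1 : ∀ t, HasDerivAt g (g1 t) t) (h2 : ∀ t, HasDerivAt g1 (g2 t) t)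
    (q : ℝ) (hq : ∀ t ∈ Icc (0 : ℝ) 1, q ≤ g2 t) : g 0 + g1 0 + q / 2 ≤ g 1 := by
  have hd : ∀ t, HasDerivAt (fun t => g1 t - q * t) (g2 t - q) t := fun t => by
    simpa using (h2 t).fun_sub ((hasDerivAt_id t).const_mul q)
  have hm : MonotoneOn (fun t => g1 t - q * t) (Icc 0 1) := by
    refine monotoneOn_of_deriv_nonneg (convex_Icc 0 1) ?_ ?_ ?_
    · exact fun t _ => (hd t).continuousAt.continuousWithinAt
    · exact fun t _ => (hd t).differentiableAt.differentiableWithinAt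
    · intro t ht
      rw [interior_Icc] at ht
      rw [(hd t).deriv]
      have := hq t (Ioo_subset_Icc_self ht)
      linarith
  have hk : ∀ t, HasDerivAt (fun t => g t - g1 0 * t - q / 2 * t ^ 2) (g1 t - g1 0 - q * t) t := by
    intro t
    have h := ((h1 t).fun_sub ((hasDerivAt_id t).const_mul (g1 0))).fun_sub
      (((hasDerivAt_id t).pow 2).const_mul (q / 2))
    refine h.congr_deriv ?_
    simp
    ring
  have hmono : MonotoneOn (fun t => g t - g1 0 * t - q / 2 * t ^ 2) (Icc 0 1) := by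
    refine monotoneOn_of_deriv_nonneg (convex_Icc 0 1) ?_ ?_ ?_
    · exact fun t _ => (hk t).continuousAt.continuousWithinAt
    · exact fun t _ => (hk t).differentiableAt.differentiableWithinAt
    · intro t ht
      rw [interior_Icc] at ht
      rw [(hk t).deriv]
      have h3 := hm (left_mem_Icc.mpr zero_le_one) (Ioo_subset_Icc_self ht) ht.1.le
      simp only [mul_zero, sub_zero] at h3
      linarith
  have h5 := hmono (left_mem_Icc.mpr zero_le_one) (right_mem_Icc.mpr zero_le_one) zero_le_one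
  simp only [mul_zero, sub_zero] at h5
  norm_num at h5
  linarith

theorem tay_up (g g1 g2 : ℝ → ℝ) (h1 : ∀ t, HasDerivAt g (g1 t) t) (h2 : ∀ t, HasDerivAt g1 (g2 t) t)
    (q : ℝ) (hq : ∀ t ∈ Icc (0 : ℝ) 1, g2 t ≤ q) : g 1 ≤ g 0 + g1 0 + q / 2 := by
  have h := tay_low (fun t => - g t) (fun t => - g1 t) (fun t => - g2 t) (fun t => (h1 t).neg)
    (fun t => (h2 t).neg) (-q) (fun t ht => neg_le_neg (hq t ht))
  linarith

variable {n : ℕ}

/-- gradient vector -/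
noncomputable def gv (f : E n → ℝ) (x : E n) : E n := (InnerProductSpace.toDual ℝ (E n)).symm (fderiv ℝ f x)

theorem inner_gv (f : E n → ℝ) (x u : E n) : inner ℝ u (gv f x) = fderiv ℝ f x u := by
  rw [real_inner_comm]
  unfold gv
  exact InnerProductSpace.toDual_symm_apply

/-- Hessian as a linear map -/
noncomputable def hv (f : E n → ℝ) (x : E n) : E n →L[ℝ] E n :=
  LinearMap.toContinuousLinearMap
    { toFun := fun u => (InnerProductSpace.toDual ℝ (E n)).symm (fderiv ℝ (fderiv ℝ f) x u)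
      map_add' := by intro u v; simp
      map_smul' := by intro r u; simp }

theorem inner_hv (f : E n → ℝ) (x u v : E n) : inner ℝ (hv f x u) v = fderiv ℝ (fderiv ℝ f) x u v := by
  have h : hv f x u = (InnerProductSpace.toDual ℝ (E n)).symm (fderiv ℝ (fderiv ℝ f) x u) := rfl
  rw [h]
  exact InnerProductSpace.toDual_symm_apply

theorem det_hv {f : E n → ℝ} (hf : ContDiff ℝ 2 f) (x : E n) : (hv f x).det = (hess f x).det := by
  have h1 : LinearMap.toMatrix (EuclideanSpace.basisFun (Fin n) ℝ).toBasis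
      (EuclideanSpace.basisFun (Fin n) ℝ).toBasis (hv f x : E n →ₗ[ℝ] E n) = (hess f x).transpose := by
    ext i j
    rw [LinearMap.toMatrix_apply, Matrix.transpose_apply, RL983.hess_apply hf]
    have h2 := inner_hv f x (ei j) (ei i)
    rw [← h2]
    have h3 : inner ℝ (hv f x (ei j)) (ei i) = (hv f x (ei j)) i := by
      rw [ei, ei, EuclideanSpace.inner_single_right]
      simp
    rw [h3]
    simp [ei]
  rw [ContinuousLinearMap.det, ← LinearMap.det_toMatrix (EuclideanSpace.basisFun (Fin n) ℝ).toBasis, h1,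
    Matrix.det_transpose]

theorem loc_eq {k : ℝ} (hk : 0 < k) (c : E n → ℝ) (x0 u : E n) :
    loc k c x0 (gv c x0) u = k * (c (x0 + (Real.sqrt k)⁻¹ • u) - c x0 - fderiv ℝ c x0 ((Real.sqrt k)⁻¹ • u)) := by
  unfold loc
  have hr : 0 < Real.sqrt k := Real.sqrt_pos.2 hk
  have hrr : Real.sqrt k * Real.sqrt k = k := Real.mul_self_sqrt hk.le
  rw [inner_gv, map_smul, smul_eq_mul]
  have h3 : k * ((Real.sqrt k)⁻¹ * fderiv ℝ c x0 u) = Real.sqrt k * fderiv ℝ c x0 u := by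
    nth_rewrite 1 [← hrr]
    field_simp
  linear_combination h3

theorem loc_low {k : ℝ} (hk : 0 < k) {c : E n → ℝ} {a b : ℝ} (hc : Reg c a b) (x0 u : E n) :
    a / 2 * ‖u‖ ^ 2 ≤ loc k c x0 (gv c x0) u := by
  rw [loc_eq hk]
  have h1 := RL983.reg_low hc x0 ((Real.sqrt k)⁻¹ • u)
  have h2 : ‖(Real.sqrt k)⁻¹ • u‖ ^ 2 = k⁻¹ * ‖u‖ ^ 2 := by
    rw [norm_smul, mul_pow, norm_inv, Real.norm_eq_abs, abs_of_nonneg (Real.sqrt_nonneg k), inv_pow, Real.sq_sqrt hk.le]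
  rw [h2] at h1
  have h3 : a / 2 * ‖u‖ ^ 2 = k * (a / 2 * (k⁻¹ * ‖u‖ ^ 2)) := by field_simp
  rw [h3]
  exact mul_le_mul_of_nonneg_left (by linarith) hk.le

theorem loc_up {k : ℝ} (hk : 0 < k) {c : E n → ℝ} {a b : ℝ} (hc : Reg c a b) (x0 u : E n) :
    loc k c x0 (gv c x0) u ≤ b / 2 * ‖u‖ ^ 2 := by
  rw [loc_eq hk]
  have h1 := RL983.reg_up hc x0 ((Real.sqrt k)⁻¹ • u)
  have h2 : ‖(Real.sqrt k)⁻¹ • u‖ ^ 2 = k⁻¹ * ‖u‖ ^ 2 := by
    rw [norm_smul, mul_pow, norm_inv, Real.norm_eq_abs, abs_of_nonneg (Real.sqrt_nonneg k), inv_pow, Real.sq_sqrt hk.le]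
  rw [h2] at h1
  have h3 : b / 2 * ‖u‖ ^ 2 = k * (b / 2 * (k⁻¹ * ‖u‖ ^ 2)) := by field_simp
  rw [h3]
  exact mul_le_mul_of_nonneg_left (by linarith) hk.le

/-- second-order Taylor with Lipschitz Hessian -/
theorem taylor2 {c : E n → ℝ} (hc : ContDiff ℝ 2 c) {L : ℝ}
    (hL : ∀ x y, ‖fderiv ℝ (fderiv ℝ c) x - fderiv ℝ (fderiv ℝ c) y‖ ≤ L * ‖x - y‖) (hL0 : 0 ≤ L) (x h : E n) :
    |c (x + h) - c x - fderiv ℝ c x h - 1 / 2 * fderiv ℝ (fderiv ℝ c) x h h| ≤ L / 2 * ‖h‖ ^ 3 := by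
  have hq : ∀ t ∈ Icc (0 : ℝ) 1, |fderiv ℝ (fderiv ℝ c) (x + t • h) h h - fderiv ℝ (fderiv ℝ c) x h h| ≤ L * ‖h‖ ^ 3 := by
    intro t ht
    have h1 : fderiv ℝ (fderiv ℝ c) (x + t • h) h h - fderiv ℝ (fderiv ℝ c) x h h
        = (fderiv ℝ (fderiv ℝ c) (x + t • h) - fderiv ℝ (fderiv ℝ c) x) h h := by
      simp
    rw [h1, ← Real.norm_eq_abs]
    have h2 := hL (x + t • h) x
    have h3 : ‖x + t • h - x‖ ≤ ‖h‖ := by
      rw [add_sub_cancel_left, norm_smul, Real.norm_eq_abs, abs_of_nonneg ht.1]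
      have := norm_nonneg h
      nlinarith [ht.2]
    calc ‖(fderiv ℝ (fderiv ℝ c) (x + t • h) - fderiv ℝ (fderiv ℝ c) x) h h‖
        ≤ ‖(fderiv ℝ (fderiv ℝ c) (x + t • h) - fderiv ℝ (fderiv ℝ c) x) h‖ * ‖h‖ := ContinuousLinearMap.le_opNorm _ _
      _ ≤ (‖fderiv ℝ (fderiv ℝ c) (x + t • h) - fderiv ℝ (fderiv ℝ c) x‖ * ‖h‖) * ‖h‖ :=
          mul_le_mul_of_nonneg_right (ContinuousLinearMap.le_opNorm _ _) (norm_nonneg _)
      _ ≤ ((L * ‖h‖) * ‖h‖) * ‖h‖ := by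
          refine mul_le_mul_of_nonneg_right (mul_le_mul_of_nonneg_right ?_ (norm_nonneg _)) (norm_nonneg _)
          exact h2.trans (mul_le_mul_of_nonneg_left h3 hL0)
      _ = L * ‖h‖ ^ 3 := by ring
  have h4 := tay_low (fun t => c (x + t • h)) _ _ (RL983.line1 hc x h) (RL983.line2 hc x h)
    (fderiv ℝ (fderiv ℝ c) x h h - L * ‖h‖ ^ 3) (fun t ht => by
      have := (abs_le.1 (hq t ht)).1
      linarith)
  have h5 := tay_up (fun t => c (x + t • h)) _ _ (RL983.line1 hc x h) (RL983.line2 hc x h)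
    (fderiv ℝ (fderiv ℝ c) x h h + L * ‖h‖ ^ 3) (fun t ht => by
      have := (abs_le.1 (hq t ht)).2
      linarith)
  simp only [zero_smul, add_zero, one_smul] at h4 h5
  rw [abs_le]
  constructor <;> linarith

theorem loc_approx {k : ℝ} (hk : 0 < k) {c : E n → ℝ} (hc : ContDiff ℝ 2 c) {L : ℝ}
    (hL : ∀ x y, ‖fderiv ℝ (fderiv ℝ c) x - fderiv ℝ (fderiv ℝ c) y‖ ≤ L * ‖x - y‖) (hL0 : 0 ≤ L) (x0 u : E n) :
    |loc k c x0 (gv c x0) u - 1 / 2 * fderiv ℝ (fderiv ℝ c) x0 u u| ≤ L / 2 * ‖u‖ ^ 3 * (Real.sqrt k)⁻¹ := by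
  have hr : 0 < Real.sqrt k := Real.sqrt_pos.2 hk
  have hrr : Real.sqrt k * Real.sqrt k = k := Real.mul_self_sqrt hk.le
  have h1 := taylor2 hc hL hL0 x0 ((Real.sqrt k)⁻¹ • u)
  have h2 : loc k c x0 (gv c x0) u - 1 / 2 * fderiv ℝ (fderiv ℝ c) x0 u u
      = k * (c (x0 + (Real.sqrt k)⁻¹ • u) - c x0 - fderiv ℝ c x0 ((Real.sqrt k)⁻¹ • u)
        - 1 / 2 * fderiv ℝ (fderiv ℝ c) x0 ((Real.sqrt k)⁻¹ • u) ((Real.sqrt k)⁻¹ • u)) := by
    rw [loc_eq hk]
    have h3 : fderiv ℝ (fderiv ℝ c) x0 ((Real.sqrt k)⁻¹ • u) ((Real.sqrt k)⁻¹ • u)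
        = k⁻¹ * fderiv ℝ (fderiv ℝ c) x0 u u := by
      have h5 : (Real.sqrt k)⁻¹ * (Real.sqrt k)⁻¹ = k⁻¹ := by rw [← mul_inv, hrr]
      simp only [map_smul, smul_apply, smul_eq_mul]
      rw [← mul_assoc, h5]
    rw [h3]
    field_simp
  rw [h2, abs_mul, abs_of_pos hk]
  have h4 : L / 2 * ‖u‖ ^ 3 * (Real.sqrt k)⁻¹ = k * (L / 2 * ‖(Real.sqrt k)⁻¹ • u‖ ^ 3) := by
    rw [norm_smul, norm_inv, Real.norm_eq_abs, abs_of_pos hr]
    nth_rewrite 2 [← hrr]
    field_simp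
  rw [h4]
  exact mul_le_mul_of_nonneg_left h1 hk.le

/-- **the pointwise limit of the level-`k` potentials** -/
theorem limit_pt {c : ℕ → E n → ℝ} {k : ℕ → ℝ} {ψ : E n → ℝ} {a b L : ℝ} (ha : 0 < a) (hb : 0 < b)
    (hL0 : 0 ≤ L) (hk : ∀ j, 1 ≤ k j) (hkl : Tendsto k atTop atTop) (hc : ∀ j, Reg (c j) a b)
    (hLip : ∀ j x y, ‖fderiv ℝ (fderiv ℝ (c j)) x - fderiv ℝ (fderiv ℝ (c j)) y‖ ≤ L * ‖x - y‖)
    (hψ : ContDiff ℝ 2 ψ)
    (h0 : ∀ x, Tendsto (fun j => c j x - c j 0) atTop (𝓝 (ψ x)))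
    (h1 : ∀ x, Tendsto (fun j => fderiv ℝ (c j) x) atTop (𝓝 (fderiv ℝ ψ x)))
    (h2 : ∀ x, Tendsto (fun j => fderiv ℝ (fderiv ℝ (c j)) x) atTop (𝓝 (fderiv ℝ (fderiv ℝ ψ) x))) (x0 : E n) :
    Tendsto (fun j => k j * c j x0 - LK.Q (k j) (LK.phi (k j) (c j)) x0 + c j 0) atTop
      (𝓝 ((∑ i, x0 i * pd i ψ x0) - ψ x0 - Real.log (hess ψ x0).det)) := by
  have hk0 : ∀ j, 0 < k j := fun j => lt_of_lt_of_le one_pos (hk j)
  have hcc : ∀ j, ContDiff ℝ 2 (c j) := fun j => RL983.reg_c2 (hc j)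
  have hcm : ∀ j, Measurable (c j) := fun j => (hc j).smooth.continuous.measurable
  have hlm : ∀ j, Measurable (loc (k j) (c j) x0 (gv (c j) x0)) := by
    intro j
    unfold loc
    have h1 : Measurable fun u : E n => (inner ℝ u (gv (c j) x0) : ℝ) := (continuous_id.inner continuous_const).measurable
    have h2 : Measurable fun u : E n => x0 + (Real.sqrt (k j))⁻¹ • u := by fun_prop
    exact ((((hcm j).comp h2).const_mul _).sub measurable_const).sub (h1.const_mul _)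
  have hinvr : Tendsto (fun j => (Real.sqrt (k j))⁻¹) atTop (𝓝 0) :=
    (Real.tendsto_sqrt_atTop.comp hkl).inv_tendsto_atTop
  have happ : ∀ (x u v : E n), Tendsto (fun j => fderiv ℝ (fderiv ℝ (c j)) x u v) atTop (𝓝 (fderiv ℝ (fderiv ℝ ψ) x u v)) := by
    intro x u v
    have e1 := ((ContinuousLinearMap.apply ℝ (E n →L[ℝ] ℝ) u).continuous.tendsto _).comp (h2 x)
    have e2 := ((ContinuousLinearMap.apply ℝ ℝ v).continuous.tendsto _).comp e1
    exact e2
  have hloc : ∀ u, Tendsto (fun j => loc (k j) (c j) x0 (gv (c j) x0) u) atTop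
      (𝓝 (1 / 2 * inner ℝ (hv ψ x0 u) u)) := by
    intro u
    rw [inner_hv]
    have e1 : Tendsto (fun j => 1 / 2 * fderiv ℝ (fderiv ℝ (c j)) x0 u u) atTop
        (𝓝 (1 / 2 * fderiv ℝ (fderiv ℝ ψ) x0 u u)) := (happ x0 u u).const_mul _
    have e2 : Tendsto (fun j => loc (k j) (c j) x0 (gv (c j) x0) u - 1 / 2 * fderiv ℝ (fderiv ℝ (c j)) x0 u u)
        atTop (𝓝 0) := by
      refine squeeze_zero_norm (a := fun j => L / 2 * ‖u‖ ^ 3 * (Real.sqrt (k j))⁻¹) (fun j => ?_) ?_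
      · rw [Real.norm_eq_abs]
        exact loc_approx (hk0 j) (hcc j) (hLip j) hL0 x0 u
      · simpa using hinvr.const_mul (L / 2 * ‖u‖ ^ 3)
    have e3 := e2.add e1
    rw [zero_add] at e3
    refine e3.congr fun j => ?_
    ring
  have hsym : ∀ v w, inner ℝ (hv ψ x0 v) w = inner ℝ (hv ψ x0 w) v := by
    intro v w
    rw [inner_hv, inner_hv]
    have hs : IsSymmSndFDerivAt ℝ ψ x0 := hψ.contDiffAt.isSymmSndFDerivAt (by simp)
    exact hs v w
  have hpos : ∀ v, a * ‖v‖ ^ 2 ≤ inner ℝ (hv ψ x0 v) v := by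
    intro v
    rw [inner_hv]
    refine ge_of_tendsto' (happ x0 v v) fun j => ?_
    have := (hc j).lower x0 v
    rwa [RL983.qf_hess (hcc j)] at this
  obtain ⟨hgd, hd0⟩ := gauss_det ha hsym hpos
  have hKO := tendsto_KO ha hb hk hkl hlm (g := fun u => 1 / 2 * inner ℝ (hv ψ x0 u) u)
    (((hv ψ x0).continuous.inner continuous_id).measurable.const_mul _)
    (fun j u => loc_low (hk0 j) (hc j) x0 u) (fun j u => loc_up (hk0 j) (hc j) x0 u) hloc x0
  rw [hgd] at hKO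
  have hlogK : Tendsto (fun j => Real.log (KO (k j) x0 (loc (k j) (c j) x0 (gv (c j) x0)))) atTop
      (𝓝 (Real.log (hess ψ x0).det)) := by
    have e1 := (Real.continuousAt_log (abs_ne_zero.2 hd0)).tendsto.comp hKO
    rw [Real.log_abs, det_hv hψ] at e1
    exact e1
  have hlk : Tendsto (fun j => Real.log (Real.sqrt (k j)) / k j) atTop (𝓝 0) := by
    have e1 : Tendsto (fun x : ℝ => Real.log x ^ 1 / (1 * x + 0)) atTop (𝓝 0) :=
      Real.tendsto_pow_log_div_mul_add_atTop 1 0 1 one_ne_zero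
    have e2 := (e1.comp hkl).const_mul (1 / 2)
    rw [mul_zero] at e2
    refine e2.congr fun j => ?_
    simp only [Function.comp, pow_one, one_mul, add_zero]
    rw [Real.log_sqrt (hk0 j).le]
    ring
  have hin : Tendsto (fun j => inner ℝ x0 (gv (c j) x0)) atTop (𝓝 (∑ i, x0 i * pd i ψ x0)) := by
    rw [← fderiv_eq_sum]
    have e1 := ((ContinuousLinearMap.apply ℝ ℝ x0).continuous.tendsto _).comp (h1 x0)
    refine Tendsto.congr (fun j => ?_) e1
    rw [inner_gv]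
    rfl
  have hfin := ((hin.sub (h0 x0)).sub (hlk.const_mul (Module.finrank ℝ (E n) : ℝ))).sub hlogK
  rw [mul_zero, sub_zero] at hfin
  refine hfin.congr fun j => ?_
  rw [level_eq (hk j) ha hb (hcm j) (fun u => loc_low (hk0 j) (hc j) x0 u) (fun u => loc_up (hk0 j) (hc j) x0 u)]
  ring

end Vale.Agent.P227.M.MX
end

section

set_option linter.unusedSectionVars false

/-!
Compactness leaf: Arzela-Ascoli for sequences with uniform local Lipschitz bounds on a proper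
space, together with the `C^1` and `C^2` versions.
-/

open Set Filter Metric Topology

namespace Vale.Agent.P227.M.AA

section AA0

variable {E F : Type*} [PseudoMetricSpace E] [ProperSpace E]
  [NormedAddCommGroup F]

/-- Uniform local Lipschitz bound for a sequence. -/
def ULip (f : ℕ → E → F) : Prop :=
  ∀ (x₀ : E) (R : ℝ), ∃ L : ℝ, 0 ≤ L ∧ ∀ k, ∀ x ∈ closedBall x₀ R, ∀ y ∈ closedBall x₀ R,
    dist (f k x) (f k y) ≤ L * dist x y

theorem ULip.comp {f : ℕ → E → F} (h : ULip f) (s : ℕ → ℕ) : ULip (fun k => f (s k)) := by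
  intro x₀ R
  obtain ⟨L, hL, h1⟩ := h x₀ R
  exact ⟨L, hL, fun k => h1 (s k)⟩

/-- pointwise boundedness from boundedness at one point. -/
theorem bdd_at {f : ℕ → E → F} (hf : ULip f) {x₀ : E} {C : ℝ} (hC : ∀ k, ‖f k x₀‖ ≤ C) (x : E) :
    ∃ C' : ℝ, ∀ k, ‖f k x‖ ≤ C' := by
  obtain ⟨L, hL, h1⟩ := hf x₀ (dist x x₀)
  refine ⟨C + L * dist x x₀, fun k => ?_⟩
  have h2 := h1 k x (mem_closedBall.2 le_rfl) x₀ (mem_closedBall_self dist_nonneg)
  have h3 : ‖f k x‖ ≤ ‖f k x₀‖ + dist (f k x) (f k x₀) := by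
    rw [dist_eq_norm]
    calc ‖f k x‖ = ‖f k x₀ + (f k x - f k x₀)‖ := by congr 1; abel
      _ ≤ _ := norm_add_le _ _
  linarith [hC k]

/-- Locally Lipschitz sequences that converge on a dense set converge everywhere. -/
theorem tendsto_of_dense [CompleteSpace F] {f : ℕ → E → F} (hf : ULip f) {D : Set E} (hD : Dense D)
    (h : ∀ x ∈ D, ∃ a, Tendsto (fun k => f k x) atTop (𝓝 a)) (x : E) :
    ∃ a, Tendsto (fun k => f k x) atTop (𝓝 a) := by
  obtain ⟨L, hL, h1⟩ := hf x 1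
  apply cauchySeq_tendsto_of_complete
  rw [Metric.cauchySeq_iff']
  intro ε hε
  have hδ : 0 < min 1 (ε / (4 * (L + 1))) := by positivity
  obtain ⟨y, hyx, hyD⟩ := hD.inter_open_nonempty (ball x (min 1 (ε / (4 * (L + 1))))) isOpen_ball
    ⟨x, mem_ball_self hδ⟩
  have hy1 : y ∈ closedBall x 1 := by
    rw [mem_closedBall]
    exact (mem_ball.1 hyx).le.trans (min_le_left _ _)
  have hd : L * dist x y ≤ ε / 4 := by
    have h5 : dist x y ≤ ε / (4 * (L + 1)) := by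
      rw [dist_comm]
      exact (mem_ball.1 hyx).le.trans (min_le_right _ _)
    calc L * dist x y ≤ (L + 1) * (ε / (4 * (L + 1))) := by gcongr; linarith
      _ = ε / 4 := by field_simp
  obtain ⟨a, ha⟩ := h y hyD
  obtain ⟨N, hN⟩ := (Metric.tendsto_atTop.1 ha) (ε / 4) (by positivity)
  refine ⟨N, fun n hn => ?_⟩
  have e1 := h1 n x (mem_closedBall_self zero_le_one) y hy1
  have e2 := h1 N y hy1 x (mem_closedBall_self zero_le_one)
  have e3 := hN n hn
  have e4 := hN N le_rfl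
  rw [dist_comm y x] at e2
  calc dist (f n x) (f N x) ≤ dist (f n x) (f n y) + dist (f n y) a + dist a (f N y)
        + dist (f N y) (f N x) := by
        have t1 := dist_triangle (f n x) (f n y) (f N x)
        have t2 := dist_triangle (f n y) a (f N x)
        have t3 := dist_triangle a (f N y) (f N x)
        linarith
    _ < ε / 4 + ε / 4 + ε / 4 + ε / 4 := by
        rw [dist_comm a (f N y)]
        linarith
    _ = ε := by ring

/-- Limits of locally uniformly Lipschitz sequences satisfy the same bounds. -/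
theorem lim_lip {f : ℕ → E → F} {g : E → F} (hg : ∀ x, Tendsto (fun k => f k x) atTop (𝓝 (g x)))
    {s : Set E} {L : ℝ} (h : ∀ k, ∀ x ∈ s, ∀ y ∈ s, dist (f k x) (f k y) ≤ L * dist x y) :
    ∀ x ∈ s, ∀ y ∈ s, dist (g x) (g y) ≤ L * dist x y := by
  intro x hx y hy
  exact le_of_tendsto ((hg x).dist (hg y)) (Eventually.of_forall fun k => h k x hx y hy)

/-- Pointwise convergence of a locally uniformly Lipschitz sequence is uniform on balls. -/
theorem unif_ball {f : ℕ → E → F} (hf : ULip f) {g : E → F}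
    (hg : ∀ x, Tendsto (fun k => f k x) atTop (𝓝 (g x))) (x₀ : E) (R : ℝ) :
    TendstoUniformlyOn f g atTop (closedBall x₀ R) := by
  obtain ⟨L, hL, h1⟩ := hf x₀ R
  have hgL := lim_lip hg h1
  rw [Metric.tendstoUniformlyOn_iff]
  intro ε hε
  have hδ : 0 < ε / (4 * (L + 1)) := by positivity
  obtain ⟨t, htsub, htfin, htcov⟩ :=
    (isCompact_closedBall x₀ R).finite_cover_balls hδ
  have hev : ∀ᶠ k in atTop, ∀ c ∈ t, dist (f k c) (g c) < ε / 4 := by
    rw [eventually_all_finite htfin]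
    intro c _
    exact (hg c).eventually (Metric.ball_mem_nhds (g c) (by positivity))
  filter_upwards [hev] with k hk x hx
  obtain ⟨c, hc, hxc⟩ := mem_iUnion₂.1 (htcov hx)
  have hcb : c ∈ closedBall x₀ R := htsub hc
  have hd : L * dist x c ≤ ε / 4 := by
    calc L * dist x c ≤ (L + 1) * (ε / (4 * (L + 1))) := by
          have := (mem_ball.1 hxc).le
          gcongr
          linarith
      _ = ε / 4 := by field_simp
  have e1 := h1 k x hx c hcb
  have e2 := hgL x hx c hcb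
  have e3 := hk c hc
  have t1 := dist_triangle (g x) (g c) (f k x)
  have t2 := dist_triangle (g c) (f k c) (f k x)
  rw [dist_comm (g c) (f k c), dist_comm (f k c) (f k x)] at t2
  linarith

theorem locUnif {f : ℕ → E → F} (hf : ULip f) {g : E → F}
    (hg : ∀ x, Tendsto (fun k => f k x) atTop (𝓝 (g x))) :
    TendstoLocallyUniformly f g atTop := by
  intro u hu x
  refine ⟨closedBall x 1, closedBall_mem_nhds x one_pos, ?_⟩
  exact unif_ball hf hg x 1 u hu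

theorem lim_continuous {f : ℕ → E → F} (hf : ULip f) {g : E → F}
    (hg : ∀ x, Tendsto (fun k => f k x) atTop (𝓝 (g x))) : Continuous g := by
  rw [continuous_iff_continuousAt]
  intro x
  obtain ⟨L, hL, h1⟩ := hf x 1
  have hgL := lim_lip hg h1
  have h2 : LipschitzOnWith ⟨L, hL⟩ g (closedBall x 1) :=
    LipschitzOnWith.of_dist_le_mul fun x hx y hy => hgL x hx y hy
  exact h2.continuousOn.continuousAt (closedBall_mem_nhds x one_pos)

/-- **Arzela-Ascoli** for sequences with uniform local Lipschitz bounds. -/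
theorem arzela_seq [ProperSpace F] {f : ℕ → E → F} (hf : ULip f) {x₀ : E} {C : ℝ} (hC : ∀ k, ‖f k x₀‖ ≤ C) :
    ∃ s : ℕ → ℕ, StrictMono s ∧ ∃ g : E → F, Continuous g ∧
      (∀ x, Tendsto (fun k => f (s k) x) atTop (𝓝 (g x))) ∧
      TendstoLocallyUniformly (fun k => f (s k)) g atTop := by
  have : Nonempty E := ⟨x₀⟩
  let D : ℕ → E := TopologicalSpace.denseSeq E
  choose B hB using fun i => bdd_at hf hC (D i)
  have hK : IsCompact (Set.pi univ fun i => closedBall (0 : F) (B i)) :=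
    isCompact_univ_pi fun i => isCompact_closedBall 0 (B i)
  have hmem : ∀ k, (fun i => f k (D i)) ∈ Set.pi univ fun i => closedBall (0 : F) (B i) := by
    intro k i _
    rw [mem_closedBall_zero_iff]
    exact hB i k
  obtain ⟨a, -, s, hs, hlim⟩ := hK.tendsto_subseq hmem
  rw [tendsto_pi_nhds] at hlim
  have hpt : ∀ x, ∃ a, Tendsto (fun k => f (s k) x) atTop (𝓝 a) := by
    refine tendsto_of_dense (hf.comp s) (TopologicalSpace.denseRange_denseSeq E) ?_
    rintro _ ⟨i, rfl⟩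
    exact ⟨a i, hlim i⟩
  choose g hg using hpt
  exact ⟨s, hs, g, lim_continuous (hf.comp s) hg, hg, locUnif (hf.comp s) hg⟩

end AA0

section AA1

variable {E F : Type*} [NormedAddCommGroup E] [NormedSpace ℝ E] [FiniteDimensional ℝ E]
  [NormedAddCommGroup F] [NormedSpace ℝ F] [FiniteDimensional ℝ F]

/-- The derivative bound gives a uniform local Lipschitz bound. -/
theorem ULip.of_deriv {f : ℕ → E → F} {f' : ℕ → E → E →L[ℝ] F}
    (hd : ∀ k x, HasFDerivAt (f k) (f' k x) x)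
    (hb : ∀ (x₀ : E) (R : ℝ), ∃ B : ℝ, ∀ k, ∀ x ∈ closedBall x₀ R, ‖f' k x‖ ≤ B) : ULip f := by
  intro x₀ R
  obtain ⟨B, hB⟩ := hb x₀ R
  refine ⟨max B 0, le_max_right _ _, fun k x hx y hy => ?_⟩
  rw [dist_eq_norm, dist_eq_norm]
  exact (convex_closedBall x₀ R).norm_image_sub_le_of_norm_hasFDerivWithin_le
    (fun z _ => (hd k z).hasFDerivWithinAt) (fun z hz => (hB k z hz).trans (le_max_left _ _)) hy hx

theorem ULip.bdd_ball {f : ℕ → E → F} (hf : ULip f) {x₀ : E} {C : ℝ} (hC : ∀ k, ‖f k x₀‖ ≤ C)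
    (x₁ : E) (R : ℝ) : ∃ B : ℝ, ∀ k, ∀ x ∈ closedBall x₁ R, ‖f k x‖ ≤ B := by
  have : ProperSpace E := FiniteDimensional.proper ℝ E
  have : ProperSpace F := FiniteDimensional.proper ℝ F
  obtain ⟨C1, hC1⟩ := bdd_at hf hC x₁
  obtain ⟨L, hL, h1⟩ := hf x₁ (max R 0)
  refine ⟨C1 + L * max R 0, fun k x hx => ?_⟩
  have hx' : x ∈ closedBall x₁ (max R 0) := closedBall_subset_closedBall (le_max_left _ _) hx
  have h2 := h1 k x hx' x₁ (mem_closedBall_self (le_max_right _ _))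
  have h3 : ‖f k x‖ ≤ ‖f k x₁‖ + dist (f k x) (f k x₁) := by
    rw [dist_eq_norm]
    calc ‖f k x‖ = ‖f k x₁ + (f k x - f k x₁)‖ := by congr 1; abel
      _ ≤ _ := norm_add_le _ _
  have h4 : L * dist x x₁ ≤ L * max R 0 := by
    gcongr
    exact mem_closedBall.1 hx'
  linarith [hC1 k]

/-- **`C^1` Arzela-Ascoli.** -/
theorem c1_seq {f : ℕ → E → F} {f' : ℕ → E → E →L[ℝ] F}
    (hd : ∀ k x, HasFDerivAt (f k) (f' k x) x) (hf' : ULip f') {x₀ : E} {C C' : ℝ}
    (hC : ∀ k, ‖f k x₀‖ ≤ C) (hC' : ∀ k, ‖f' k x₀‖ ≤ C') :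
    ∃ s : ℕ → ℕ, StrictMono s ∧ ∃ (g : E → F) (g' : E → E →L[ℝ] F),
      (∀ x, HasFDerivAt g (g' x) x) ∧ Continuous g' ∧
      (∀ x, Tendsto (fun k => f (s k) x) atTop (𝓝 (g x))) ∧
      (∀ x, Tendsto (fun k => f' (s k) x) atTop (𝓝 (g' x))) ∧
      TendstoLocallyUniformly (fun k => f (s k)) g atTop ∧
      TendstoLocallyUniformly (fun k => f' (s k)) g' atTop := by
  have : ProperSpace E := FiniteDimensional.proper ℝ E
  have : ProperSpace F := FiniteDimensional.proper ℝ F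
  have : ProperSpace (E →L[ℝ] F) := FiniteDimensional.proper ℝ _
  have hf : ULip f := ULip.of_deriv hd fun x₁ R => hf'.bdd_ball hC' x₁ R
  obtain ⟨s1, hs1, g', hg'c, hg', hg'l⟩ := arzela_seq hf' hC'
  obtain ⟨s2, hs2, g, hgc, hg, hgl⟩ := arzela_seq (hf.comp s1) (C := C) fun k => hC (s1 k)
  have hg2 : ∀ x, Tendsto (fun k => f' (s1 (s2 k)) x) atTop (𝓝 (g' x)) :=
    fun x => (hg' x).comp hs2.tendsto_atTop
  have hgl2 : TendstoLocallyUniformly (fun k => f' (s1 (s2 k))) g' atTop :=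
    locUnif (hf'.comp fun k => s1 (s2 k)) hg2
  refine ⟨fun k => s1 (s2 k), hs1.comp hs2, g, g', fun x => ?_, hg'c, hg, hg2, hgl, hgl2⟩
  exact hasFDerivAt_of_tendstoLocallyUniformlyOn isOpen_univ
    (tendstoLocallyUniformlyOn_univ.2 hgl2) (fun k y _ => hd _ y) (fun y _ => hg y) (mem_univ x)

/-- **`C^2` Arzela-Ascoli.** -/
theorem c2_seq {f : ℕ → E → F} {f' : ℕ → E → E →L[ℝ] F} {f'' : ℕ → E → E →L[ℝ] E →L[ℝ] F}
    (hd : ∀ k x, HasFDerivAt (f k) (f' k x) x) (hd' : ∀ k x, HasFDerivAt (f' k) (f'' k x) x)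
    (hf'' : ULip f'') {x₀ : E} {C C' C'' : ℝ}
    (hC : ∀ k, ‖f k x₀‖ ≤ C) (hC' : ∀ k, ‖f' k x₀‖ ≤ C') (hC'' : ∀ k, ‖f'' k x₀‖ ≤ C'') :
    ∃ s : ℕ → ℕ, StrictMono s ∧ ∃ (g : E → F) (g' : E → E →L[ℝ] F)
      (g'' : E → E →L[ℝ] E →L[ℝ] F),
      (∀ x, HasFDerivAt g (g' x) x) ∧ (∀ x, HasFDerivAt g' (g'' x) x) ∧ Continuous g'' ∧
      (∀ x, Tendsto (fun k => f (s k) x) atTop (𝓝 (g x))) ∧
      (∀ x, Tendsto (fun k => f' (s k) x) atTop (𝓝 (g' x))) ∧
      (∀ x, Tendsto (fun k => f'' (s k) x) atTop (𝓝 (g'' x))) ∧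
      TendstoLocallyUniformly (fun k => f (s k)) g atTop ∧
      TendstoLocallyUniformly (fun k => f' (s k)) g' atTop ∧
      TendstoLocallyUniformly (fun k => f'' (s k)) g'' atTop := by
  have : ProperSpace E := FiniteDimensional.proper ℝ E
  have : ProperSpace F := FiniteDimensional.proper ℝ F
  have : ProperSpace (E →L[ℝ] F) := FiniteDimensional.proper ℝ _
  have hf' : ULip f' := ULip.of_deriv hd' fun x₁ R => hf''.bdd_ball hC'' x₁ R
  obtain ⟨s1, hs1, g', g'', hgg, hg''c, hg', hg'', hl', hl''⟩ := c1_seq hd' hf'' hC' hC''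
  obtain ⟨s2, hs2, g, g2', hg, -, hgt, hg2, hgl, -⟩ :=
    c1_seq (fun k x => hd (s1 k) x) (hf'.comp s1) (C := C) (C' := C') (fun k => hC (s1 k))
      (fun k => hC' (s1 k))
  have hg't : ∀ x, Tendsto (fun k => f' (s1 (s2 k)) x) atTop (𝓝 (g' x)) :=
    fun x => (hg' x).comp hs2.tendsto_atTop
  have heq : g2' = g' := by
    funext x
    exact tendsto_nhds_unique (hg2 x) (hg't x)
  subst heq
  have hg''t : ∀ x, Tendsto (fun k => f'' (s1 (s2 k)) x) atTop (𝓝 (g'' x)) :=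
    fun x => (hg'' x).comp hs2.tendsto_atTop
  exact ⟨fun k => s1 (s2 k), hs1.comp hs2, g, g2', g'', hg, hgg, hg''c, hgt, hg't, hg''t, hgl,
    locUnif (hf'.comp fun k => s1 (s2 k)) hg't, locUnif (hf''.comp fun k => s1 (s2 k)) hg''t⟩

/-- Lipschitz limits: if all `f k` are globally `L`-Lipschitz then so is the limit. -/
theorem lim_lipschitz {f : ℕ → E → F} {g : E → F}
    (hg : ∀ x, Tendsto (fun k => f k x) atTop (𝓝 (g x))) {L : ℝ}
    (h : ∀ k x y, ‖f k x - f k y‖ ≤ L * ‖x - y‖) (x y : E) : ‖g x - g y‖ ≤ L * ‖x - y‖ :=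
  le_of_tendsto ((hg x).sub (hg y)).norm (Eventually.of_forall fun k => h k x y)

end AA1

end Vale.Agent.P227.M.AA
end

section

/-! # P227/M/MX: `StmtMM` from `StmtSC` and the regularity of the log-Laplace transform -/

open MeasureTheory Set Filter Topology

namespace Vale.Agent.P227.M.MX

section L1

variable {E : Type*} [NormedAddCommGroup E] [InnerProductSpace ℝ E] [FiniteDimensional ℝ E]
  [MeasurableSpace E] [BorelSpace E]

theorem l1_of_KL {V W : E → ℝ} {η : ℝ} (hη : 0 < η) (hVm : Measurable V) (hWm : Measurable W)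
    (hV : Integrable (fun x => Real.exp (-V x))) (hW : Integrable (fun x => Real.exp (-W x)))
    (hV1 : ∫ x, Real.exp (-V x) = 1) (hW1 : ∫ x, Real.exp (-W x) = 1)
    (hKi : Integrable (fun x => (W x - V x) * Real.exp (-V x)))
    (hK : ∫ x, (W x - V x) * Real.exp (-V x) ≤ η ^ 2) :
    ∫ x, |Real.exp (-W x) - Real.exp (-V x)| ≤ 2 * η := by
  classical
  set F : E → ℝ := fun x => if Real.exp (-V x) ≤ Real.exp (-W x) then 1 else -1 with hF
  have hFm : Measurable F := by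
    refine Measurable.ite (measurableSet_le (Real.measurable_exp.comp hVm.neg) (Real.measurable_exp.comp hWm.neg))
      measurable_const measurable_const
  have hF1 : ∀ x, |F x| ≤ 1 := by
    intro x
    simp only [hF]
    split_ifs <;> simp
  have h1 := LK.abs_sub_le_of_KL hη hV hW hV1 hW1 hKi hK hFm.aestronglyMeasurable zero_le_one hF1
  have hFW : Integrable (fun x => F x * Real.exp (-W x)) := by
    refine (hW.const_mul 1).mono' (hFm.aestronglyMeasurable.mul hW.aestronglyMeasurable) (Eventually.of_forall fun x => ?_)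
    rw [Real.norm_eq_abs, abs_mul, abs_of_pos (Real.exp_pos _)]
    exact mul_le_mul_of_nonneg_right (hF1 x) (Real.exp_pos _).le
  have hFV : Integrable (fun x => F x * Real.exp (-V x)) := by
    refine (hV.const_mul 1).mono' (hFm.aestronglyMeasurable.mul hV.aestronglyMeasurable) (Eventually.of_forall fun x => ?_)
    rw [Real.norm_eq_abs, abs_mul, abs_of_pos (Real.exp_pos _)]
    exact mul_le_mul_of_nonneg_right (hF1 x) (Real.exp_pos _).le
  rw [← integral_sub hFW hFV] at h1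
  have h2 : (fun x => F x * Real.exp (-W x) - F x * Real.exp (-V x)) = fun x => |Real.exp (-W x) - Real.exp (-V x)| := by
    ext x
    simp only [hF]
    split_ifs with h
    · rw [abs_of_nonneg (sub_nonneg.2 h)]
      ring
    · rw [abs_of_neg (sub_neg.2 (not_le.1 h))]
      ring
  rw [h2] at h1
  calc _ ≤ _ := le_abs_self _
    _ ≤ _ := h1
    _ = _ := by ring

end L1

variable {n : ℕ}

theorem pd_add_const (f : E n → ℝ) (t : ℝ) (i : Fin n) : pd i (fun x => f x + t) = pd i f := by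
  funext x
  unfold pd
  rw [fderiv_add_const]

theorem hess_add_const (f : E n → ℝ) (t : ℝ) : hess (fun x => f x + t) = hess f := by
  funext x i j
  unfold hess
  rw [pd_add_const]

theorem nice_add_const {V : E n → ℝ} {c C : ℝ} (hV : Nice V c C) (t : ℝ) : Nice (fun x => V x + t) c C where
  c_pos := hV.c_pos
  smooth := hV.smooth.add contDiff_const
  lower x v := by rw [hess_add_const]; exact hV.lower x v
  upper x v := by rw [hess_add_const]; exact hV.upper x v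
  bdd k hk := by
    obtain ⟨B, hB⟩ := hV.bdd k hk
    refine ⟨B, fun x => ?_⟩
    have hi : (k : WithTop ℕ∞) ≤ (⊤ : ℕ∞) := by exact_mod_cast le_top
    have e : (fun x => V x + t) = V + fun _ => t := rfl
    rw [e, iteratedFDeriv_add_apply (hV.smooth.of_le hi).contDiffAt contDiff_const.contDiffAt,
      iteratedFDeriv_const_of_ne (by omega)]
    simpa using hB x
  even x := by simp only [hV.even]

theorem hess_det_ne {ψ : E n → ℝ} (hψ : ContDiff ℝ 2 ψ) {a : ℝ} (ha : 0 < a) (x : E n)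
    (hlow : ∀ v, a * ‖v‖ ^ 2 ≤ fderiv ℝ (fderiv ℝ ψ) x v v) : (hess ψ x).det ≠ 0 := by
  rw [← det_hv hψ]
  refine (gauss_det ha (fun v w => ?_) (fun v => ?_)).2
  · rw [inner_hv, inner_hv]
    have hs : IsSymmSndFDerivAt ℝ ψ x := hψ.contDiffAt.isSymmSndFDerivAt (by simp)
    exact hs v w
  · rw [inner_hv]
    exact hlow v

/-- norm of a symmetric form from its quadratic form -/
theorem norm_le_of_quad {B : E n →L[ℝ] E n →L[ℝ] ℝ} (hs : ∀ u v, B u v = B v u) {C : ℝ} (hC : 0 ≤ C)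
    (h0 : ∀ v, 0 ≤ B v v) (h1 : ∀ v, B v v ≤ C * ‖v‖ ^ 2) : ‖B‖ ≤ C := by
  have hcs : ∀ u v, (B u v) ^ 2 ≤ B u u * B v v := by
    intro u v
    have key : ∀ t : ℝ, 0 ≤ B v v * (t * t) + 2 * B u v * t + B u u := by
      intro t
      have h2 := h0 (u + t • v)
      simp only [map_add, map_smul, add_apply, smul_apply, smul_eq_mul] at h2
      rw [hs v u] at h2
      linarith
    have h3 := discrim_le_zero key
    unfold discrim at h3
    nlinarith
  refine ContinuousLinearMap.opNorm_le_bound _ hC fun u => ?_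
  refine ContinuousLinearMap.opNorm_le_bound _ (by positivity) fun v => ?_
  rw [Real.norm_eq_abs]
  refine abs_le_of_sq_le_sq ?_ (by positivity)
  calc (B u v) ^ 2 ≤ B u u * B v v := hcs u v
    _ ≤ (C * ‖u‖ ^ 2) * (C * ‖v‖ ^ 2) := mul_le_mul (h1 u) (h1 v) (h0 v) (by positivity)
    _ = (C * ‖u‖ * ‖v‖) ^ 2 := by ring

/-- Hessians in the class are uniformly Lipschitz -/
theorem cls_lip {c0 C0 m k : ℝ} {c : E n → ℝ} (hC0 : 0 < C0) (hk : 1 ≤ k) (hm : 0 ≤ m)
    (h : LK.B136.Cls c0 C0 m k c) (x y : E n) :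
    ‖fderiv ℝ (fderiv ℝ c) x - fderiv ℝ (fderiv ℝ c) y‖
      ≤ (9 / 2 * (2 * m * Real.sqrt (2 * C0) ^ 3)) * ‖x - y‖ := by
  have hk0 : 0 < k := by linarith
  have h1 := LK.B136.selfConc_mul (h.reg' hk0) h.sc (lam := 1 / k) (by positivity)
  have e1 : (fun x => 1 / k * (k * c x)) = c := by
    funext x
    field_simp
  have e2 : m / Real.sqrt k / Real.sqrt (1 / k) = m := by
    have hsq : 0 < Real.sqrt k := Real.sqrt_pos.2 hk0
    rw [one_div, Real.sqrt_inv]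
    field_simp
  rw [e1, e2] at h1
  have hc3 : ContDiff ℝ 3 c := LK.B136.smooth_three h.reg.smooth
  have hup : C0 * (k + 1) / k ≤ 2 * C0 := by
    rw [div_le_iff₀ hk0]
    nlinarith
  have h2 : ∀ x v : E n, |iteratedDeriv 3 (fun t : ℝ => c (x + t • v)) 0| ≤ 2 * m * Real.sqrt (2 * C0) ^ 3 * ‖v‖ ^ 3 := by
    intro x v
    have h3 := LK.B136.Reg.l2_upper h.reg x v
    have h4 := LK.B136.Reg.l2_nonneg h.reg x v
    have h5 := h1 x v
    unfold LK.B136.l2 at h3 h4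
    rw [LK.B136.rpow_th h4] at h5
    have h6 : Real.sqrt (iteratedDeriv 2 (fun t : ℝ => c (x + t • v)) 0) ≤ Real.sqrt (2 * C0) * ‖v‖ := by
      refine Real.sqrt_le_iff.2 ⟨by positivity, ?_⟩
      rw [mul_pow, Real.sq_sqrt (by positivity)]
      exact h3.trans (mul_le_mul_of_nonneg_right hup (by positivity))
    calc _ ≤ _ := h5
      _ ≤ 2 * m * (Real.sqrt (2 * C0) * ‖v‖) ^ 3 :=
        mul_le_mul_of_nonneg_left (pow_le_pow_left₀ (Real.sqrt_nonneg _) h6 3) (by positivity)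
      _ = _ := by ring
  have h7 := SC.Pol.hess_lipschitz hc3 (by positivity) h2
  have h8 := h7.dist_le_mul x y
  rw [dist_eq_norm, dist_eq_norm, Real.coe_toNNReal _ (by positivity)] at h8
  exact h8

theorem hess_lip_of {g : E n → ℝ} (hgC : ContDiff ℝ 2 g) {L : ℝ} {x y : E n}
    (h1 : ‖fderiv ℝ (fderiv ℝ g) x - fderiv ℝ (fderiv ℝ g) y‖ ≤ L * ‖x - y‖) (i j : Fin n) :
    |hess g x i j - hess g y i j| ≤ L * ‖x - y‖ := by
  rw [RL983.hess_apply hgC, RL983.hess_apply hgC]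
  have h2 : fderiv ℝ (fderiv ℝ g) x (ei i) (ei j) - fderiv ℝ (fderiv ℝ g) y (ei i) (ei j)
      = (fderiv ℝ (fderiv ℝ g) x - fderiv ℝ (fderiv ℝ g) y) (ei i) (ei j) := by
    simp
  rw [h2, ← Real.norm_eq_abs]
  calc _ ≤ ‖(fderiv ℝ (fderiv ℝ g) x - fderiv ℝ (fderiv ℝ g) y) (ei i)‖ * ‖(ei j : E n)‖ :=
        ContinuousLinearMap.le_opNorm _ _
    _ ≤ (‖fderiv ℝ (fderiv ℝ g) x - fderiv ℝ (fderiv ℝ g) y‖ * ‖(ei i : E n)‖) * ‖(ei j : E n)‖ :=
        mul_le_mul_of_nonneg_right (ContinuousLinearMap.le_opNorm _ _) (norm_nonneg _)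
    _ = ‖fderiv ℝ (fderiv ℝ g) x - fderiv ℝ (fderiv ℝ g) y‖ := by rw [norm_ei, norm_ei]; ring
    _ ≤ _ := h1

theorem mm_pos (hSC : StmtSC) (hR : LK.B136.LogLapReg) {V : E n → ℝ} {c0 C0 : ℝ} (hV : Nice V c0 C0) (hC0 : 0 < C0)
    (hV1 : ∫ x : E n, Real.exp (-V x) = 1) : ∃ (ψ : E n → ℝ) (M : ℝ), MM ψ V c0 C0 M := by
  have hc0 := hV.c_pos
  obtain ⟨m, hm, H⟩ := LK.B136.exists_cls hSC hR hV hC0
  set k : ℕ → ℝ := fun j => max 1 (m ^ 2) + j with hkdef
  have hk1 : ∀ j, 1 ≤ k j := fun j => by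
    have := le_max_left 1 (m ^ 2)
    have h2 : (0 : ℝ) ≤ j := Nat.cast_nonneg j
    simp only [hkdef]
    linarith
  have hmk : ∀ j, m ^ 2 ≤ k j := fun j => by
    have := le_max_right 1 (m ^ 2)
    have h2 : (0 : ℝ) ≤ j := Nat.cast_nonneg j
    simp only [hkdef]
    linarith
  have hk0 : ∀ j, 0 < k j := fun j => lt_of_lt_of_le one_pos (hk1 j)
  have hkl : Tendsto k atTop atTop := tendsto_atTop_add_const_left _ _ tendsto_natCast_atTop_atTop
  have key : ∀ j : ℕ, ∃ c : E n → ℝ, LK.B136.Cls c0 C0 m (k j) c ∧ LK.B136.Cls c0 C0 m (k j) (LK.B136.TK V (k j) c) ∧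
      LK.KL V (k j) c ≤ (1 / ((j : ℝ) + 1)) ^ 2 := by
    intro j
    obtain ⟨h1, h2, h3⟩ := H (k j) (hk0 j) (hmk j)
    have hi : ∀ {f : E n → ℝ}, Gr f → Integrable fun x : E n => f x * Real.exp (-V x) := fun hf =>
      hV.toReg.integrable_gr hf
    have hkj := hk0 j
    obtain ⟨c, hc, hKL⟩ := LK.exists_KL_le (V := V) (k := k j) (a := c0 * (k j + 1) / k j)
      (b := C0 * (k j + 1) / k j) (a' := k j / ((k j + 1) * C0)) hkj (by positivity) (by positivity)
      (by positivity) (fun c : E n → ℝ => LK.B136.Cls c0 C0 m (k j) c) _ h1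
      (fun c hc => by rw [← LK.B136.TK_eq_T]; exact h2 c hc) (fun c hc => hc.good hR hC0 hkj)
      hV.toReg.integrable_exp hV1 (hi hV.toReg.gr) (hi (Gr.norm.pow 2)) (ε := (1 / ((j : ℝ) + 1)) ^ 2) (by positivity)
    exact ⟨c, hc, h2 c hc, hKL⟩
  choose c hc hcT hKL using key
  have hG : ∀ j, LK.Good (k j) (c0 * (k j + 1) / k j) (C0 * (k j + 1) / k j) (k j / ((k j + 1) * C0)) (c j) :=
    fun j => (hc j).good hR hC0 (hk0 j)
  have hpa : ∀ j, 0 < c0 * (k j + 1) / k j := fun j => by have := hk0 j; positivity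
  have hpa' : ∀ j, 0 < k j / ((k j + 1) * C0) := fun j => by have := hk0 j; positivity
  have hWi : ∀ j, Integrable fun x : E n => Real.exp (-LK.W (k j) (c j) x) := fun j =>
    (hG j).integrable_exp_neg_W (hk0 j) (hpa j) (hpa' j)
  have hW1 : ∀ j, ∫ x : E n, Real.exp (-LK.W (k j) (c j) x) = 1 := fun j =>
    (hG j).integral_W (hk0 j) (hpa j) (hpa' j)
  have hWV : ∀ j x, LK.W (k j) (c j) x - V x
      = k j * c j x - k j * LK.B136.TK V (k j) (c j) x + Real.log (LK.Z (k j) (c j)) := by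
    intro j x
    rw [LK.B136.TK_eq_T]
    unfold LK.W LK.T
    have := (hk0 j).ne'
    field_simp
    ring
  have hKi : ∀ j, Integrable fun x : E n => (LK.W (k j) (c j) x - V x) * Real.exp (-V x) := by
    intro j
    refine hV.toReg.integrable_gr (f := fun x => LK.W (k j) (c j) x - V x) ?_
    have e : (fun x => LK.W (k j) (c j) x - V x) = fun x =>
        (k j * c j x - k j * LK.B136.TK V (k j) (c j) x) + Real.log (LK.Z (k j) (c j)) := by
      funext x
      rw [hWV]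
    rw [e]
    exact (((hc j).reg.gr.const_mul _).sub ((hcT j).reg.gr.const_mul _)).add (Gr.const _)
  have hVc : Continuous V := hV.toReg.cont
  have hWc : ∀ j, Measurable (LK.W (k j) (c j)) := by
    intro j
    have e : LK.W (k j) (c j) = fun x =>
        (k j * c j x - k j * LK.B136.TK V (k j) (c j) x) + Real.log (LK.Z (k j) (c j)) + V x := by
      funext x
      rw [← hWV]
      ring
    rw [e]
    exact (((((hc j).reg.cont.measurable.const_mul _).sub ((hcT j).reg.cont.measurable.const_mul _)).add_const _).add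
      hVc.measurable)
  have hL1 : ∀ j : ℕ, ∫ x : E n, |Real.exp (-LK.W (k j) (c j) x) - Real.exp (-V x)| ≤ 2 * (1 / ((j : ℝ) + 1)) := fun j =>
    l1_of_KL (by positivity) hVc.measurable (hWc j) hV.toReg.integrable_exp (hWi j) hV1 (hW1 j) (hKi j) (hKL j)
  -- uniform bounds
  have hup : ∀ j, C0 * (k j + 1) / k j ≤ 2 * C0 := fun j => by
    have := hk1 j
    rw [div_le_iff₀ (hk0 j)]
    nlinarith
  have hlo : ∀ j, c0 ≤ c0 * (k j + 1) / k j := fun j => by
    rw [le_div_iff₀ (hk0 j)]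
    nlinarith
  have hreg : ∀ j, Reg (c j) c0 (2 * C0) := fun j => LK.B136.reg_mono (hc j).reg hc0 (hlo j) (hup j)
  set L := 9 / 2 * (2 * m * Real.sqrt (2 * C0) ^ 3) with hLdef
  have hL0 : 0 ≤ L := by positivity
  have hLip : ∀ j x y, ‖fderiv ℝ (fderiv ℝ (c j)) x - fderiv ℝ (fderiv ℝ (c j)) y‖ ≤ L * ‖x - y‖ := fun j x y =>
    cls_lip hC0 (hk1 j) hm (hc j) x y
  have hC2 : ∀ j, ContDiff ℝ 2 (c j) := fun j => RL983.reg_c2 (hc j).reg
  have hd1 : ∀ j, Differentiable ℝ (c j) := fun j => (hC2 j).differentiable (by norm_num)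
  have hd2 : ∀ j, Differentiable ℝ (fderiv ℝ (c j)) := fun j =>
    ((hC2 j).fderiv_right (m := 1) (by norm_num)).differentiable (by norm_num)
  have hquad : ∀ j x v, c0 * ‖v‖ ^ 2 ≤ fderiv ℝ (fderiv ℝ (c j)) x v v ∧
      fderiv ℝ (fderiv ℝ (c j)) x v v ≤ C0 * (k j + 1) / k j * ‖v‖ ^ 2 := by
    intro j x v
    have h1 := (hreg j).lower x v
    have h2 := (hc j).reg.upper x v
    rw [RL983.qf_hess (hC2 j)] at h1 h2
    exact ⟨h1, h2⟩
  obtain ⟨s, hs, g, g', g'', hg, hg', hg''c, hgt, hg't, hg''t, -, -, -⟩ :=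
    AA.c2_seq (f := fun j x => c j x - c j 0) (f' := fun j => fderiv ℝ (c j)) (f'' := fun j => fderiv ℝ (fderiv ℝ (c j)))
      (fun j x => (hd1 j x).hasFDerivAt.sub_const _) (fun j x => (hd2 j x).hasFDerivAt)
      (fun x₀ R => ⟨L, hL0, fun j x _ y _ => by
        rw [dist_eq_norm, dist_eq_norm]
        exact hLip j x y⟩) (x₀ := (0 : E n)) (C := 0) (C' := 0) (C'' := 2 * C0)
      (fun j => by simp) (fun j => by
        show ‖fderiv ℝ (c j) 0‖ ≤ 0
        rw [LK.B136.fderiv_zero_of_even (hd1 j) (hc j).even, norm_zero]) (fun j => by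
        refine norm_le_of_quad (fun u v => ?_) (by positivity) (fun v => ?_) (fun v => ?_)
        · have hs : IsSymmSndFDerivAt ℝ (c j) 0 := (hC2 j).contDiffAt.isSymmSndFDerivAt (by simp)
          exact hs u v
        · exact le_trans (by positivity) (hquad j 0 v).1
        · exact (hquad j 0 v).2.trans (mul_le_mul_of_nonneg_right (hup j) (by positivity)))
  have e1 : fderiv ℝ g = g' := funext fun x => (hg x).fderiv
  have e2 : fderiv ℝ g' = g'' := funext fun x => (hg' x).fderiv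
  have hgC : ContDiff ℝ 2 g := by
    have h1' : ContDiff ℝ 1 g' := contDiff_one_iff_hasFDerivAt.2 ⟨g'', hg''c, hg'⟩
    have h2' : ContDiff ℝ ((1 : ℕ) + 1) g := by
      rw [contDiff_succ_iff_fderiv]
      refine ⟨fun x => (hg x).differentiableAt, fun h => ?_, ?_⟩
      · exact absurd h (by simp)
      · rw [e1]
        exact_mod_cast h1'
    exact_mod_cast h2'
  have hgt1 : ∀ x, Tendsto (fun j => fderiv ℝ (c (s j)) x) atTop (𝓝 (fderiv ℝ g x)) := fun x => by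
    rw [e1]; exact hg't x
  have hgt2 : ∀ x, Tendsto (fun j => fderiv ℝ (fderiv ℝ (c (s j))) x) atTop (𝓝 (fderiv ℝ (fderiv ℝ g) x)) := fun x => by
    rw [e1, e2]; exact hg''t x
  have happ : ∀ (x u v : E n), Tendsto (fun j => fderiv ℝ (fderiv ℝ (c (s j))) x u v) atTop (𝓝 (fderiv ℝ (fderiv ℝ g) x u v)) := by
    intro x u v
    have e1 := ((ContinuousLinearMap.apply ℝ (E n →L[ℝ] ℝ) u).continuous.tendsto _).comp (hgt2 x)
    have e2 := ((ContinuousLinearMap.apply ℝ ℝ v).continuous.tendsto _).comp e1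
    exact e2
  have hglow : ∀ x v, c0 * ‖v‖ ^ 2 ≤ fderiv ℝ (fderiv ℝ g) x v v := fun x v =>
    ge_of_tendsto' (happ x v v) fun j => (hquad (s j) x v).1
  have hks : Tendsto (fun j => k (s j)) atTop atTop := hkl.comp hs.tendsto_atTop
  have hgup : ∀ x v, fderiv ℝ (fderiv ℝ g) x v v ≤ C0 * ‖v‖ ^ 2 := by
    intro x v
    have h1 : Tendsto (fun j => C0 * (k (s j) + 1) / k (s j) * ‖v‖ ^ 2) atTop (𝓝 (C0 * ‖v‖ ^ 2)) := by
      have h2 : Tendsto (fun j => (C0 + C0 * (k (s j))⁻¹) * ‖v‖ ^ 2) atTop (𝓝 ((C0 + C0 * 0) * ‖v‖ ^ 2)) :=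
        (tendsto_const_nhds.add (hks.inv_tendsto_atTop.const_mul C0)).mul_const _
      rw [mul_zero, add_zero] at h2
      refine h2.congr fun j => ?_
      have := (hk0 (s j)).ne'
      field_simp
    exact le_of_tendsto_of_tendsto' (happ x v v) h1 fun j => (hquad (s j) x v).2
  have hlim := limit_pt (c := fun j => c (s j)) (k := fun j => k (s j)) (ψ := g) hc0 (by positivity : 0 < 2 * C0) hL0
    (fun j => hk1 (s j)) hks (fun j => hreg (s j)) (fun j => hLip (s j)) hgC hgt hgt1 hgt2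
  have hdet : ∀ x, (hess g x).det ≠ 0 := fun x => hess_det_ne hgC hc0 x (hglow x)
  have hWcont : Continuous fun x => (∑ i, x i * pd i g x) - g x - Real.log (hess g x).det := by
    have h1 : ∀ i, Continuous (pd i g) := fun i =>
      (contDiff_pd (k := 1) hgC (by norm_num) i).continuous
    have h2 : Continuous fun x => (hess g x).det := by
      refine Continuous.matrix_det ?_
      refine continuous_matrix fun i j => ?_
      exact continuous_hess hgC i j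
    have h3 : Continuous fun x : E n => ∑ i, x i * pd i g x :=
      continuous_finsetSum _ fun i _ => (by fun_prop : Continuous fun x : E n => x i).mul (h1 i)
    exact (h3.sub hgC.continuous).sub (h2.log hdet)
  obtain ⟨t, ht⟩ := ident (W := fun j => LK.W (k (s j)) (c (s j)))
    (β := fun j => Real.log (LK.Z (k (s j)) (c (s j))) - c (s j) 0) (η := fun j => 2 * (1 / ((s j : ℝ) + 1)))
    hVc hWcont hV.toReg.integrable_exp (fun j => hWi (s j)) (fun x => by
      refine (hlim x).congr fun j => ?_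
      unfold LK.W
      ring) (by
      have h1 : Tendsto (fun j : ℕ => 1 / ((j : ℝ) + 1)) atTop (𝓝 0) := tendsto_one_div_add_atTop_nhds_zero_nat
      have h2 := (h1.comp hs.tendsto_atTop).const_mul 2
      rw [mul_zero] at h2
      exact h2) (fun j => hL1 (s j))
  refine ⟨fun x => g x + (-t), L, ?_⟩
  refine ⟨hc0, hgC.add contDiff_const, fun x => ?_, fun x v => ?_, fun x v => ?_, fun i j x y => ?_, fun x => ?_⟩
  · have h1 := hgt (-x)
    have h2 : Tendsto (fun j => c (s j) (-x) - c (s j) 0) atTop (𝓝 (g x)) := by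
      refine (hgt x).congr fun j => ?_
      rw [(hc (s j)).even]
    rw [tendsto_nhds_unique h1 h2]
  · rw [hess_add_const, RL983.qf_hess hgC]
    exact hglow x v
  · rw [hess_add_const, RL983.qf_hess hgC]
    exact hgup x v
  · rw [hess_add_const]
    exact hess_lip_of hgC (AA.lim_lipschitz (f := fun j => fderiv ℝ (fderiv ℝ (c (s j)))) hgt2
      (fun j => hLip (s j)) x y) i j
  · simp only [pd_add_const, hess_add_const]
    rw [ht x]
    ring

/-- **`StmtMM` from the self-concordance theorem.** -/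
theorem stmtMM_of (hSC : StmtSC) (hR : LK.B136.LogLapReg) : StmtMM := by
  intro n V c0 C0 hV
  rcases Nat.eq_zero_or_pos n with hn | hn
  · subst hn
    refine ⟨fun x => -V x, 0, ⟨hV.c_pos, (RL983.reg_c2 hV.toReg).neg, fun x => by rw [hV.even], fun x v => ?_,
      fun x v => ?_, fun i => i.elim0, fun x => ?_⟩⟩
    · have : v = 0 := Subsingleton.elim _ _
      subst this
      simp [qf]
    · have : v = 0 := Subsingleton.elim _ _
      subst this
      simp [qf]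
    · simp
  · have hC0 : 0 < C0 := by
      have h1 := hV.lower 0 (ei ⟨0, hn⟩)
      have h2 := hV.upper 0 (ei ⟨0, hn⟩)
      rw [norm_ei] at h1 h2
      have := hV.c_pos
      linarith
    have hI : 0 < ∫ x : E n, Real.exp (-V x) := hV.toReg.Z_pos
    have hV' := nice_add_const hV (Real.log (∫ x : E n, Real.exp (-V x)))
    have h1 : ∫ x : E n, Real.exp (-(V x + Real.log (∫ x : E n, Real.exp (-V x)))) = 1 := by
      have e : (fun x : E n => Real.exp (-(V x + Real.log (∫ x : E n, Real.exp (-V x)))))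
          = fun x => Real.exp (-V x) * (∫ x : E n, Real.exp (-V x))⁻¹ := by
        funext x
        rw [neg_add, Real.exp_add, Real.exp_neg (Real.log _), Real.exp_log hI]
      rw [e, integral_mul_const, mul_inv_cancel₀ hI.ne']
    obtain ⟨ψ, M, h⟩ := mm_pos hSC hR hV' hC0 h1
    refine ⟨fun x => ψ x + Real.log (∫ x : E n, Real.exp (-V x)), M, ⟨h.c_pos, h.C2.add contDiff_const,
      fun x => by rw [h.even], fun x v => ?_, fun x v => ?_, fun i j x y => ?_, fun x => ?_⟩⟩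
    · rw [hess_add_const]; exact h.lower x v
    · rw [hess_add_const]; exact h.upper x v
    · rw [hess_add_const]; exact h.lip i j x y
    · have h2 := h.ma x
      simp only [pd_add_const, hess_add_const]
      linarith

end Vale.Agent.P227.M.MX
end

section

/-! # `Reg W c C → Reg (logLap W) C⁻¹ c⁻¹` -/

open MeasureTheory Set Real
open scoped Topology RealInnerProductSpace

namespace Vale.Agent.P227.M.RegLap

variable {n : ℕ}

theorem rg_C2' {W : E n → ℝ} (h : ContDiff ℝ (⊤ : ℕ∞) W) : ContDiff ℝ 2 W := by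
  simpa using contDiff_infty.1 h 2

theorem rg_C2 {W : E n → ℝ} {c C : ℝ} (h : Reg W c C) : ContDiff ℝ 2 W := rg_C2' h.smooth

/-- quadratic lower bound -/
theorem rg_GW {W : E n → ℝ} {c C : ℝ} (h : Reg W c C) :
    GW W (c / 4) (‖fderiv ℝ W 0‖ ^ 2 / c - W 0) := by
  have hc := h.c_pos
  refine ⟨by positivity, h.smooth.continuous, fun x => ?_⟩
  have h1 := rl_taylor_lower (rg_C2 h) h.lower 0 x
  rw [zero_add] at h1
  have h2 : -(‖fderiv ℝ W 0‖ * ‖x‖) ≤ fderiv ℝ W 0 x := by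
    have := (fderiv ℝ W 0).le_opNorm x
    rw [Real.norm_eq_abs] at this
    exact (abs_le.1 this).1
  have h3 : ‖fderiv ℝ W 0‖ * ‖x‖ ≤ c / 4 * ‖x‖ ^ 2 + ‖fderiv ℝ W 0‖ ^ 2 / c := by
    have h4 : 0 ≤ (c * ‖x‖ / 2 - ‖fderiv ℝ W 0‖) ^ 2 / c := by positivity
    have h5 : (c * ‖x‖ / 2 - ‖fderiv ℝ W 0‖) ^ 2 / c =
        c / 4 * ‖x‖ ^ 2 - ‖fderiv ℝ W 0‖ * ‖x‖ + ‖fderiv ℝ W 0‖ ^ 2 / c := by
      field_simp
      ring
    linarith
  linarith

/-- critical point of `W - ⟪·, y⟫` -/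
theorem rg_crit {W : E n → ℝ} {c C : ℝ} (h : Reg W c C) (y : E n) :
    ∃ p : E n, ∀ z, fderiv ℝ W p z = ⟪z, y⟫ := by
  have hc := h.c_pos
  have hg := rg_GW h
  set b := ‖fderiv ℝ W 0‖ ^ 2 / c - W 0 with hb
  have hcont : Continuous (fun x => W x - ⟪x, y⟫) :=
    h.smooth.continuous.sub (continuous_id.inner continuous_const)
  have hlow : ∀ x, ‖x‖ - (b + (‖y‖ + 1) ^ 2 / c) ≤ W x - ⟪x, y⟫ := by
    intro x
    have h1 := hg.lower x
    have h2 : ⟪x, y⟫ ≤ ‖x‖ * ‖y‖ := real_inner_le_norm x y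
    have h4 : 0 ≤ (c * ‖x‖ / 2 - (‖y‖ + 1)) ^ 2 / c := by positivity
    have h5 : (c * ‖x‖ / 2 - (‖y‖ + 1)) ^ 2 / c =
        c / 4 * ‖x‖ ^ 2 - (‖y‖ + 1) * ‖x‖ + (‖y‖ + 1) ^ 2 / c := by
      field_simp
      ring
    nlinarith
  have hlim : Filter.Tendsto (fun x => W x - ⟪x, y⟫) (Filter.cocompact (E n)) Filter.atTop := by
    refine Filter.tendsto_atTop_mono hlow ?_
    exact Filter.tendsto_atTop_add_const_right _ _ tendsto_norm_cocompact_atTop
  obtain ⟨p, hp⟩ := hcont.exists_forall_le hlim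
  refine ⟨p, fun z => ?_⟩
  have hmin : IsLocalMin (fun x => W x - ⟪x, y⟫) p := Filter.Eventually.of_forall hp
  have hd : HasFDerivAt (fun x => W x - ⟪x, y⟫) (fderiv ℝ W p - innerSL ℝ y) p := by
    have h1 : HasFDerivAt W (fderiv ℝ W p) p :=
      ((rg_C2 h).differentiable (by norm_num) p).hasFDerivAt
    have h2 : HasFDerivAt (fun x : E n => ⟪x, y⟫) (innerSL ℝ y) p := by
      have := (innerSL ℝ y).hasFDerivAt (x := p)
      refine this.congr_of_eventuallyEq (Filter.Eventually.of_forall fun x => ?_)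
      simp [real_inner_comm]
    exact h1.sub h2
  have h0 := hmin.hasFDerivAt_eq_zero hd
  have h1 : (fderiv ℝ W p - innerSL ℝ y) z = 0 := by rw [h0]; rfl
  have h2 : (innerSL ℝ y) z = ⟪z, y⟫ := by simp [real_inner_comm]
  have h3 : (fderiv ℝ W p - innerSL ℝ y) z = fderiv ℝ W p z - (innerSL ℝ y) z := rfl
  rw [h3, h2] at h1
  linarith

/-- the potential recentred at the critical point -/
noncomputable def rc (W : E n → ℝ) (p y z : E n) : ℝ := W (p + z) - W p - ⟪z, y⟫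

theorem rg_rc_lower {W : E n → ℝ} {c C : ℝ} (h : Reg W c C) {p y : E n}
    (hp : ∀ z, fderiv ℝ W p z = ⟪z, y⟫) (z : E n) : c / 2 * ‖z‖ ^ 2 ≤ rc W p y z := by
  have := rl_taylor_lower (rg_C2 h) h.lower p z
  rw [hp] at this
  unfold rc
  linarith

theorem rg_rc_upper {W : E n → ℝ} {c C : ℝ} (h : Reg W c C) {p y : E n}
    (hp : ∀ z, fderiv ℝ W p z = ⟪z, y⟫) (z : E n) : rc W p y z ≤ C / 2 * ‖z‖ ^ 2 := by
  have := rl_taylor_upper (rg_C2 h) h.upper p z
  rw [hp] at this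
  unfold rc
  linarith

theorem rg_rc_GW {W : E n → ℝ} {c C : ℝ} (h : Reg W c C) {p y : E n}
    (hp : ∀ z, fderiv ℝ W p z = ⟪z, y⟫) : GW (rc W p y) (c / 2) 0 := by
  refine ⟨half_pos h.c_pos, ?_, fun z => by rw [sub_zero]; exact rg_rc_lower h hp z⟩
  unfold rc
  exact ((h.smooth.continuous.comp (continuous_const.add continuous_id)).sub continuous_const).sub
    (continuous_id.inner continuous_const)

/-- the constant weight has polynomial growth -/
theorem rg_one_pgr : PGr (fun _ : E n => (1 : ℝ)) :=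
  ⟨continuous_const, 0, 1, fun x => by simp⟩

theorem rg_pow_pgr (k : ℕ) : PGr (fun x : E n => ‖x‖ ^ k) := by
  refine ⟨by fun_prop, k, 1, fun x => ?_⟩
  rw [one_mul, Real.norm_of_nonneg (by positivity)]
  exact pow_le_pow_left₀ (norm_nonneg _) (by linarith) k

theorem rg_lapI_one {W : E n → ℝ} (y : E n) :
    lapI W (fun _ => (1 : ℝ)) y = ∫ x, Real.exp (⟪x, y⟫ - W x) := by
  simp [lapI]

theorem rg_int {W : E n → ℝ} {a b : ℝ} (hW : GW W a b) (y : E n) :
    Integrable (fun x => Real.exp (⟪x, y⟫ - W x)) := by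
  simpa using ra_integrable hW rg_one_pgr y

theorem rg_pos {W : E n → ℝ} {a b : ℝ} (hW : GW W a b) (y : E n) :
    0 < ∫ x, Real.exp (⟪x, y⟫ - W x) := integral_exp_pos (rg_int hW y)

/-- smoothness -/
theorem rg_smooth {W : E n → ℝ} {a b : ℝ} (hW : GW W a b) :
    ContDiff ℝ (⊤ : ℕ∞) (logLap W) := by
  have h1 : ContDiff ℝ (⊤ : ℕ∞) (lapI W (fun _ => (1 : ℝ))) := lapI_contDiff hW rg_one_pgr
  have h2 : logLap W = fun y => Real.log (lapI W (fun _ => (1 : ℝ)) y) := by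
    funext y
    rw [rg_lapI_one]
    rfl
  rw [h2]
  exact h1.log fun y => by
    rw [rg_lapI_one]
    exact (rg_pos hW y).ne'

/-- recentring -/
theorem rg_shift {W : E n → ℝ} {c C : ℝ} (h : Reg W c C) {p y : E n}
    (hp : ∀ z, fderiv ℝ W p z = ⟪z, y⟫) (k : E n) :
    logLap W (y + k) = (⟪p, k⟫ + (⟪p, y⟫ - W p)) +
      (Real.log ∘ lapI (rc W p y) (fun _ => (1 : ℝ))) k := by
  have h1 : ∫ x, Real.exp (⟪x, y + k⟫ - W x) =
      Real.exp (⟪p, k⟫ + (⟪p, y⟫ - W p)) * ∫ z, Real.exp (⟪z, k⟫ - rc W p y z) := by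
    rw [← integral_add_left_eq_self (fun x => Real.exp (⟪x, y + k⟫ - W x)) p,
      ← integral_const_mul]
    refine integral_congr_ae (ae_of_all _ fun z => ?_)
    simp only
    rw [← Real.exp_add]
    congr 1
    unfold rc
    rw [inner_add_left, inner_add_right, inner_add_right]
    ring
  have h2 := rg_pos (rg_rc_GW h hp) k
  rw [Function.comp_apply, rg_lapI_one]
  unfold logLap
  rw [h1, Real.log_mul (Real.exp_pos _).ne' h2.ne', Real.log_exp]

/-- all derivatives of `log` are bounded on a compact interval of `(0, ∞)` -/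
theorem rg_log_bdd {m0 M0 : ℝ} (hm : 0 < m0) (k : ℕ) :
    ∃ B : ℝ, 0 ≤ B ∧ ∀ i ≤ k, ∀ t ∈ Icc m0 M0, ‖iteratedFDerivWithin ℝ i Real.log (Ioi 0) t‖ ≤ B := by
  have hcd : ContDiffOn ℝ (⊤ : ℕ∞) Real.log (Ioi 0) := by
    intro t ht
    exact (contDiffAt_id.log (ne_of_gt ht)).contDiffWithinAt
  have h1 : ∀ i : ℕ, ∃ B : ℝ, ∀ t ∈ Icc m0 M0, ‖iteratedFDerivWithin ℝ i Real.log (Ioi 0) t‖ ≤ B := by
    intro i
    have hc : ContinuousOn (iteratedFDerivWithin ℝ i Real.log (Ioi 0)) (Ioi 0) :=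
      hcd.continuousOn_iteratedFDerivWithin (by exact_mod_cast le_top) (uniqueDiffOn_Ioi 0)
    obtain ⟨B, hB⟩ := (isCompact_Icc (a := m0) (b := M0)).exists_bound_of_continuousOn
      (hc.mono fun t ht => lt_of_lt_of_le hm ht.1)
    exact ⟨B, hB⟩
  choose B hB using h1
  refine ⟨∑ i ∈ Finset.range (k + 1), |B i|, Finset.sum_nonneg fun i _ => abs_nonneg _,
    fun i hi t ht => ?_⟩
  refine (hB i t ht).trans ((le_abs_self _).trans ?_)
  exact Finset.single_le_sum (f := fun i => |B i|) (fun j _ => abs_nonneg _)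
    (Finset.mem_range.2 (Nat.lt_succ_of_le hi))

/-- the derivatives of order `≥ 2` of an affine function vanish -/
theorem rg_affine (p : E n) (d : ℝ) {k : ℕ} (hk : 2 ≤ k) (x : E n) :
    iteratedFDeriv ℝ k (fun z : E n => ⟪p, z⟫ + d) x = 0 := by
  obtain ⟨m, rfl⟩ : ∃ m, k = m + 2 := ⟨k - 2, by omega⟩
  rw [← norm_eq_zero]
  have h1 : fderiv ℝ (fun z : E n => ⟪p, z⟫ + d) = fun _ => innerSL ℝ p := by
    funext z
    have : HasFDerivAt (fun z : E n => ⟪p, z⟫ + d) (innerSL ℝ p) z := by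
      have := (innerSL ℝ p).hasFDerivAt (x := z)
      simpa using this.add_const d
    exact this.fderiv
  rw [show m + 2 = (m + 1) + 1 from rfl, ← norm_iteratedFDeriv_fderiv, h1,
    iteratedFDeriv_const_of_ne (by omega)]
  simp

theorem rg_bdd {W : E n → ℝ} {c C : ℝ} (h : Reg W c C) {k : ℕ} (hk : 2 ≤ k) :
    ∃ B : ℝ, ∀ y, ‖iteratedFDeriv ℝ k (logLap W) y‖ ≤ B := by
  have hc := h.c_pos
  -- reference integrals
  have hgw : ∀ {s : ℝ}, 0 < s → GW (fun z : E n => s / 2 * ‖z‖ ^ 2) (s / 2) 0 := by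
    intro s hs
    exact ⟨half_pos hs, by fun_prop, fun x => by simp⟩
  have hC : 0 < max C 1 := lt_max_of_lt_right one_pos
  set m0 := ∫ z : E n, Real.exp (⟪z, (0 : E n)⟫ - (max C 1) / 2 * ‖z‖ ^ 2) with hm0
  set M0 := ∫ z : E n, Real.exp (⟪z, (0 : E n)⟫ - c / 2 * ‖z‖ ^ 2) with hM0
  have hm0p : 0 < m0 := rg_pos (hgw hC) 0
  obtain ⟨Bl, hBl0, hBl⟩ := rg_log_bdd (M0 := M0) hm0p k
  set μ : ℕ → ℝ := fun i => ∫ z : E n, Real.exp (⟪z, (0 : E n)⟫ - c / 2 * ‖z‖ ^ 2) * (‖z‖ ^ i * ‖(1 : ℝ)‖)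
    with hμ
  have hμ0 : ∀ i, 0 ≤ μ i := fun i => integral_nonneg fun z => by positivity
  set D := 1 + ∑ i ∈ Finset.range (k + 1), μ i with hD
  have hD1 : 1 ≤ D := by
    have := Finset.sum_nonneg (s := Finset.range (k + 1)) fun i _ => hμ0 i
    linarith
  refine ⟨(k.factorial : ℝ) * Bl * D ^ k, fun y => ?_⟩
  obtain ⟨p, hp⟩ := rg_crit h y
  have hrc := rg_rc_GW h hp
  have hZs : ContDiff ℝ (⊤ : ℕ∞) (lapI (rc W p y) (fun _ => (1 : ℝ))) := lapI_contDiff hrc rg_one_pgr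
  have hZpos : ∀ z, 0 < lapI (rc W p y) (fun _ => (1 : ℝ)) z := fun z => by
    rw [rg_lapI_one]; exact rg_pos hrc z
  -- the value at zero
  have hval : lapI (rc W p y) (fun _ => (1 : ℝ)) 0 ∈ Icc m0 M0 := by
    rw [rg_lapI_one]
    constructor
    · refine integral_mono (rg_int (hgw hC) 0) (rg_int hrc 0) fun z => Real.exp_le_exp.2 ?_
      have h1 := rg_rc_upper h hp z
      have h2 : C / 2 * ‖z‖ ^ 2 ≤ (max C 1) / 2 * ‖z‖ ^ 2 := by
        have := le_max_left C 1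
        gcongr
      linarith
    · refine integral_mono (rg_int hrc 0) (rg_int (hgw hc) 0) fun z => Real.exp_le_exp.2 ?_
      have h1 := rg_rc_lower h hp z
      linarith
  -- the derivatives at zero
  have hder : ∀ i, 1 ≤ i → i ≤ k →
      ‖iteratedFDeriv ℝ i (lapI (rc W p y) (fun _ => (1 : ℝ))) 0‖ ≤ D ^ i := by
    intro i hi hik
    refine (lapI_iterated_le hrc i _ rg_one_pgr 0).trans ?_
    have h1 : ∫ x, Real.exp (⟪x, (0 : E n)⟫ - rc W p y x) * (‖x‖ ^ i * ‖(1 : ℝ)‖) ≤ μ i := by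
      have e1 : ∀ (U : E n → ℝ), (fun x : E n => Real.exp (⟪x, (0 : E n)⟫ - U x) * (‖x‖ ^ i * ‖(1 : ℝ)‖)) =
          fun x => Real.exp (⟪x, (0 : E n)⟫ - U x) • (‖x‖ ^ i) := by
        intro U
        funext x
        simp
      refine integral_mono ?_ ?_ fun z => ?_
      · rw [e1]
        exact ra_integrable hrc (rg_pow_pgr i) 0
      · rw [e1 (fun z => c / 2 * ‖z‖ ^ 2)]
        exact ra_integrable (hgw hc) (rg_pow_pgr i) 0
      · refine mul_le_mul_of_nonneg_right (Real.exp_le_exp.2 ?_) (by positivity)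
        have h1 := rg_rc_lower h hp z
        linarith
    have h2 : μ i ≤ D := by
      have := Finset.single_le_sum (f := μ) (s := Finset.range (k + 1)) (fun j _ => hμ0 j)
        (Finset.mem_range.2 (Nat.lt_succ_of_le hik))
      linarith
    have h3 : D ≤ D ^ i := le_self_pow₀ hD1 (by omega)
    exact (h1.trans h2).trans h3
  have hcomp := norm_iteratedFDeriv_comp_le' (𝕜 := ℝ) (g := Real.log)
    (f := lapI (rc W p y) (fun _ => (1 : ℝ))) (n := k) (N := (⊤ : ℕ∞)) (t := Ioi 0)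
    (by rintro _ ⟨z, rfl⟩; exact hZpos z) (uniqueDiffOn_Ioi 0)
    (fun t ht => (contDiffAt_id.log (ne_of_gt ht)).contDiffWithinAt) hZs
    (by exact_mod_cast le_top) 0 (C := Bl) (D := D)
    (fun i hi => hBl i hi _ hval) hder
  -- transfer
  have hfun : (fun z => logLap W (y + z)) = (fun z : E n => ⟪p, z⟫ + (⟪p, y⟫ - W p)) +
      (Real.log ∘ lapI (rc W p y) (fun _ => (1 : ℝ))) := by
    funext z
    exact rg_shift h hp z
  have h1 : iteratedFDeriv ℝ k (logLap W) y = iteratedFDeriv ℝ k (fun z => logLap W (y + z)) 0 := by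
    rw [iteratedFDeriv_comp_add_left, add_zero]
  have haff : ContDiffAt ℝ k (fun z : E n => ⟪p, z⟫ + (⟪p, y⟫ - W p)) 0 :=
    (ContDiff.add (contDiff_const.inner ℝ contDiff_id) contDiff_const).contDiffAt
  have hlog : ContDiffAt ℝ k (Real.log ∘ lapI (rc W p y) (fun _ => (1 : ℝ))) 0 := by
    have h2 := hZs.log fun z => (hZpos z).ne'
    exact (h2.of_le (by exact_mod_cast le_top)).contDiffAt
  rw [h1, hfun, iteratedFDeriv_add_apply haff hlog, rg_affine p _ hk, zero_add]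
  exact hcomp

/-- Prekopa: upper Hessian bound of the log-Laplace transform as convexity -/
theorem rg_upper {W : E n → ℝ} {c C : ℝ} (h : Reg W c C) :
    ConvexOn ℝ univ (fun y : E n => c⁻¹ / 2 * ‖y‖ ^ 2 - logLap W y) := by
  have hc := h.c_pos
  set F : E n → E n → ℝ := fun x y =>
    (W x - c / 2 * ‖x‖ ^ 2) + c / 2 * ‖x - c⁻¹ • y‖ ^ 2 with hF
  have hid : ∀ x y : E n, ⟪x, y⟫ - W x = c⁻¹ / 2 * ‖y‖ ^ 2 + -F x y := by
    intro x y
    simp only [hF]
    rw [norm_sub_sq_real, inner_smul_right, norm_smul, Real.norm_of_nonneg (by positivity)]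
    field_simp
    ring
  have hconv : ConvexOn ℝ univ (fun p : E n × E n => F p.1 p.2) := by
    have h1 := (rl_convex_lower (rg_C2 h) h.lower).comp_linearMap
      (LinearMap.fst ℝ (E n) (E n))
    have h2 : ConvexOn ℝ univ (fun x : E n => c / 2 * ‖x‖ ^ 2) := LKHB.convex_sqE (by positivity)
    have h3 := h2.comp_linearMap (LinearMap.fst ℝ (E n) (E n) - c⁻¹ • LinearMap.snd ℝ (E n) (E n))
    exact h1.add h3
  have hint : ∀ y, Integrable (fun x => Real.exp (-F x y)) := by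
    intro y
    have h1 := (rg_int (rg_GW h) y).mul_const (Real.exp (-(c⁻¹ / 2 * ‖y‖ ^ 2)))
    refine h1.congr (ae_of_all _ fun x => ?_)
    simp only
    rw [← Real.exp_add, hid]
    congr 1
    ring
  refine (LKHB.prekopaE F hconv hint).congr fun y _ => ?_
  have h1 : ∫ x, Real.exp (⟪x, y⟫ - W x) =
      Real.exp (c⁻¹ / 2 * ‖y‖ ^ 2) * ∫ x, Real.exp (-F x y) := by
    rw [← integral_const_mul]
    refine integral_congr_ae (ae_of_all _ fun x => ?_)
    simp only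
    rw [hid, Real.exp_add]
  unfold logLap
  rw [h1, Real.log_mul (Real.exp_pos _).ne' (integral_exp_pos (hint y)).ne', Real.log_exp]
  ring

/-- Hoelder: lower Hessian bound of the log-Laplace transform as convexity -/
theorem rg_lower {W : E n → ℝ} {c C : ℝ} (hC : 0 < C) (h : Reg W c C) :
    ConvexOn ℝ univ (fun y : E n => logLap W y - C⁻¹ / 2 * ‖y‖ ^ 2) := by
  set G : E n → E n → ℝ := fun z y =>
    (C / 2 * ‖z + C⁻¹ • y‖ ^ 2 - W (z + C⁻¹ • y)) - C / 2 * ‖z‖ ^ 2 with hG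
  have hid : ∀ z y : E n, ⟪z + C⁻¹ • y, y⟫ - W (z + C⁻¹ • y) = C⁻¹ / 2 * ‖y‖ ^ 2 + G z y := by
    intro z y
    simp only [hG]
    rw [norm_add_sq_real, inner_add_left, inner_smul_left, inner_smul_right,
      real_inner_self_eq_norm_sq, norm_smul, Real.norm_of_nonneg (by positivity)]
    simp only [conj_trivial]
    field_simp
    ring
  have hconv : ∀ z, ConvexOn ℝ univ (G z) := by
    intro z
    have h1 := rl_convex_upper (rg_C2 h) h.upper
    have h2 : ConvexOn ℝ univ (fun y : E n => C / 2 * ‖z + C⁻¹ • y‖ ^ 2 - W (z + C⁻¹ • y)) := by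
      have h3 := (h1.translate_right z).comp_linearMap (C⁻¹ • (LinearMap.id : E n →ₗ[ℝ] E n))
      exact h3
    refine (h2.add_const (-(C / 2 * ‖z‖ ^ 2))).congr fun y _ => ?_
    simp only [hG, Pi.add_apply]
    ring
  have hint0 : ∀ y, Integrable (fun z : E n => Real.exp (⟪z + C⁻¹ • y, y⟫ - W (z + C⁻¹ • y))) :=
    fun y => (rg_int (rg_GW h) y).comp_add_right (C⁻¹ • y)
  have hint : ∀ y, Integrable (fun z => Real.exp (G z y)) := by
    intro y
    have h1 := (hint0 y).mul_const (Real.exp (-(C⁻¹ / 2 * ‖y‖ ^ 2)))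
    refine h1.congr (ae_of_all _ fun z => ?_)
    simp only
    rw [← Real.exp_add, hid]
    congr 1
    ring
  refine (LKHB.holder_convex (volume : Measure (E n)) G hconv hint).congr fun y _ => ?_
  have h1 : ∫ x, Real.exp (⟪x, y⟫ - W x) =
      Real.exp (C⁻¹ / 2 * ‖y‖ ^ 2) * ∫ z, Real.exp (G z y) := by
    rw [← integral_add_right_eq_self (fun x => Real.exp (⟪x, y⟫ - W x)) (C⁻¹ • y),
      ← integral_const_mul]
    refine integral_congr_ae (ae_of_all _ fun z => ?_)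
    simp only
    rw [hid, Real.exp_add]
  unfold logLap
  rw [h1, Real.log_mul (Real.exp_pos _).ne' (integral_exp_pos (hint y)).ne', Real.log_exp]
  ring

end Vale.Agent.P227.M.RegLap

namespace Vale.Agent.P227.M

/-- the log-Laplace transform of a regular potential is regular -/
theorem reg_logLap {n : ℕ} {W : E n → ℝ} {c C : ℝ} (hC : 0 < C) (h : Reg W c C) :
    Reg (logLap W) C⁻¹ c⁻¹ where
  c_pos := inv_pos.2 hC
  smooth := RegLap.rg_smooth (RegLap.rg_GW h)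
  lower := RegLap.rl_lower_of_convex
    (RegLap.rg_C2' (RegLap.rg_smooth (RegLap.rg_GW h))) (RegLap.rg_lower hC h)
  upper := RegLap.rl_upper_of_convex
    (RegLap.rg_C2' (RegLap.rg_smooth (RegLap.rg_GW h))) (RegLap.rg_upper h)
  bdd := fun _ hk => RegLap.rg_bdd h hk

end Vale.Agent.P227.M

namespace Vale.Agent.P227.M

end Vale.Agent.P227.M
end

section

/-! # P227/M/MX: `StmtSC → StmtMM` -/

namespace Vale.Agent.P227.M.MX

theorem logLapReg : LK.B136.LogLapReg := fun _ _ _ _ hC h => reg_logLap hC h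

/-- **existence of the moment map potential from the self-concordance theorem** -/
theorem stmtMM_of_sc (hSC : StmtSC) : StmtMM := stmtMM_of hSC logLapReg

end Vale.Agent.P227.M.MX
end

section

/-! # P227/M/ID: a.e. differentiability and total symmetry of `∑_a τ_da ∂_a τ_bc` (helper294) -/

open MeasureTheory
open scoped Topology NNReal

namespace Vale.Agent.P227.M.B294

variable {n : ℕ} {ψ V : E n → ℝ} {c C M : ℝ}

lemma lipW_of {f : E n → ℝ} {K : ℝ} (hf : ∀ x y, |f x - f y| ≤ K * ‖x - y‖) :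
    LipschitzWith (Real.toNNReal K) f := by
  refine LipschitzWith.of_dist_le_mul fun x y => ?_
  rw [Real.dist_eq, dist_eq_norm]
  exact (hf x y).trans (mul_le_mul_of_nonneg_right (Real.le_coe_toNNReal _) (norm_nonneg _))

lemma tau_lipW (h : MM ψ V c C M) (i j : Fin n) :
    LipschitzWith (Real.toNNReal (n * (n * (c⁻¹ * M * c⁻¹)))) (fun x => tau ψ x i j) :=
  lipW_of (tau_lip h i j)

lemma hess_lipW (h : MM ψ V c C M) (i j : Fin n) :
    LipschitzWith (Real.toNNReal M) (fun x => hess ψ x i j) :=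
  lipW_of (h.lip i j)

/-- points where `τ` and `D²ψ` are differentiable -/
def Good (ψ : E n → ℝ) (x : E n) : Prop :=
  (∀ i j, DifferentiableAt ℝ (fun z => tau ψ z i j) x) ∧
    (∀ i j, DifferentiableAt ℝ (fun z => hess ψ z i j) x)

lemma ae_good (h : MM ψ V c C M) : ∀ᵐ x, Good ψ x := by
  have h1 : ∀ᵐ x, ∀ i j, DifferentiableAt ℝ (fun z => tau ψ z i j) x := by
    rw [ae_all_iff]
    intro i
    rw [ae_all_iff]
    intro j
    exact (tau_lipW h i j).ae_differentiableAt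
  have h2 : ∀ᵐ x, ∀ i j, DifferentiableAt ℝ (fun z => hess ψ z i j) x := by
    rw [ae_all_iff]
    intro i
    rw [ae_all_iff]
    intro j
    exact (hess_lipW h i j).ae_differentiableAt
  filter_upwards [h1, h2] with x hx1 hx2
  exact ⟨hx1, hx2⟩

lemma fderiv_eq_sum' (f : E n → ℝ) (z : E n) :
    fderiv ℝ f z = ∑ k, pd k f z • (EuclideanSpace.proj k : E n →L[ℝ] ℝ) := by
  refine ContinuousLinearMap.ext fun v => ?_
  rw [fderiv_apply_eq]
  simp [mul_comm]

/-- symmetry of the second derivative at a point where the first derivatives are differentiable -/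
lemma pd_comm_of {f : E n → ℝ} {x : E n} (hf : Differentiable ℝ f)
    (hx : ∀ k, DifferentiableAt ℝ (pd k f) x) (a k : Fin n) :
    pd a (pd k f) x = pd k (pd a f) x := by
  have hd : DifferentiableAt ℝ (fderiv ℝ f) x := by
    have e : fderiv ℝ f = fun z => ∑ k, pd k f z • (EuclideanSpace.proj k : E n →L[ℝ] ℝ) :=
      funext fun z => fderiv_eq_sum' f z
    rw [e]
    exact DifferentiableAt.fun_sum fun k _ => (hx k).smul_const _
  have hs := second_derivative_symmetric_of_eventually (𝕜 := ℝ) (f := f) (f' := fderiv ℝ f)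
    (f'' := fderiv ℝ (fderiv ℝ f) x) (x := x)
    (Filter.Eventually.of_forall fun y => (hf y).hasFDerivAt) hd.hasFDerivAt (ei a) (ei k)
  have key : ∀ p q : Fin n, pd p (pd q f) x = fderiv ℝ (fderiv ℝ f) x (ei p) (ei q) := by
    intro p q
    unfold pd
    have := (hd.hasFDerivAt.clm_apply (hasFDerivAt_const (ei q) x)).fderiv
    rw [this]
    simp
  rw [key, key, hs]

/-- third derivatives of `ψ` at a good point -/
lemma third_symm (h : MM ψ V c C M) {x : E n} (hx : Good ψ x) (a k j : Fin n) :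
    pd a (fun z => hess ψ z k j) x = pd k (fun z => hess ψ z a j) x := by
  exact pd_comm_of (f := pd j ψ) (differentiable_pd h.C2 j) (fun k => hx.2 k j) a k

/-- derivative of the inverse matrix -/
lemma pd_tau (h : MM ψ V c C M) {x : E n} (hx : Good ψ x) (a i l : Fin n) :
    pd a (fun z => tau ψ z i l) x
      = -∑ k, ∑ j, tau ψ x i k * pd a (fun z => hess ψ z k j) x * tau ψ x j l := by
  have h1 : ∀ j, ∑ k, pd a (fun z => tau ψ z i k) x * hess ψ x k j
      = -∑ k, tau ψ x i k * pd a (fun z => hess ψ z k j) x := by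
    intro j
    have e : (fun z => ∑ k, tau ψ z i k * hess ψ z k j) = fun _ => (1 : Matrix (Fin n) (Fin n) ℝ) i j := by
      funext z
      have := congrFun (congrFun (tau_mul_hess h z) i) j
      rw [Matrix.mul_apply] at this
      exact this
    have h2 : pd a (fun z => ∑ k, tau ψ z i k * hess ψ z k j) x = 0 := by
      rw [e]
      simp [pd]
    rw [pd_sum (f := fun k z => tau ψ z i k * hess ψ z k j) a
      fun k _ => (hx.1 i k).mul (hx.2 k j)] at h2
    simp only [pd_mul a (hx.1 i _) (hx.2 _ j), Finset.sum_add_distrib] at h2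
    linarith
  have h3 : pd a (fun z => tau ψ z i l) x
      = ∑ j, (∑ k, pd a (fun z => tau ψ z i k) x * hess ψ x k j) * tau ψ x j l := by
    have e : ∀ k, ∑ j, hess ψ x k j * tau ψ x j l = (1 : Matrix (Fin n) (Fin n) ℝ) k l := by
      intro k
      have := congrFun (congrFun (hess_mul_tau h x) k) l
      rw [Matrix.mul_apply] at this
      exact this
    simp only [Finset.sum_mul]
    rw [Finset.sum_comm]
    simp only [mul_assoc, ← Finset.mul_sum, e]
    simp [Matrix.one_apply]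
  rw [h3]
  simp only [h1, neg_mul, Finset.sum_neg_distrib, Finset.sum_mul]
  rw [Finset.sum_comm]

/-- `S d b c = ∑_a τ_da ∂_a τ_bc` -/
noncomputable def Sd (ψ : E n → ℝ) (x : E n) (d b k : Fin n) : ℝ :=
  ∑ a, tau ψ x d a * pd a (fun z => tau ψ z b k) x

lemma Sd_eq (h : MM ψ V c C M) {x : E n} (hx : Good ψ x) (d b k : Fin n) :
    Sd ψ x d b k = -∑ p, ∑ q, ∑ r, tau ψ x d p * tau ψ x b q * tau ψ x k r
      * pd p (fun z => hess ψ z q r) x := by
  unfold Sd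
  simp only [pd_tau h hx, mul_neg, Finset.sum_neg_distrib, Finset.mul_sum]
  congr 1
  refine Finset.sum_congr rfl fun p _ => Finset.sum_congr rfl fun q _ =>
    Finset.sum_congr rfl fun r _ => ?_
  rw [tau_symm h x r k]
  ring

lemma Sd_symm12 (h : MM ψ V c C M) {x : E n} (hx : Good ψ x) (d b k : Fin n) :
    Sd ψ x d b k = Sd ψ x b d k := by
  rw [Sd_eq h hx, Sd_eq h hx, Finset.sum_comm]
  congr 1
  refine Finset.sum_congr rfl fun q _ => Finset.sum_congr rfl fun p _ =>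
    Finset.sum_congr rfl fun r _ => ?_
  rw [third_symm h hx p q r]
  ring

end Vale.Agent.P227.M.B294
end

section

/-! # P227/M/ID: `StmtDiv` (helper294) -/

open MeasureTheory
open scoped Topology NNReal

namespace Vale.Agent.P227.M.B294

variable {n : ℕ} {ψ V : E n → ℝ} {c C M : ℝ}

/-- Lipschitz with compact support -/
def LC (f : E n → ℝ) : Prop := (∃ K : ℝ≥0, LipschitzWith K f) ∧ HasCompactSupport f

lemma LC.gr {f : E n → ℝ} (hf : LC f) : Gr f := Gr.of_test hf.1.choose_spec.continuous hf.2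

lemma LC.zero : LC (fun _ : E n => (0 : ℝ)) :=
  ⟨⟨0, LipschitzWith.const 0⟩, HasCompactSupport.zero⟩

lemma LC.add {f g : E n → ℝ} (hf : LC f) (hg : LC g) : LC (fun x => f x + g x) := by
  obtain ⟨⟨K, hK⟩, hs⟩ := hf
  obtain ⟨⟨L, hL⟩, ht⟩ := hg
  exact ⟨⟨K + L, hK.add hL⟩, hs.add ht⟩

lemma LC.sum {ι : Type*} (s : Finset ι) {f : ι → E n → ℝ} (hf : ∀ i ∈ s, LC (f i)) :
    LC (fun x => ∑ i ∈ s, f i x) := by
  classical
  induction s using Finset.induction_on with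
  | empty => simpa using LC.zero (n := n)
  | insert a s ha ih =>
    have h := (hf a (Finset.mem_insert_self a s)).add
      (ih fun i hi => hf i (Finset.mem_insert_of_mem hi))
    simpa [Finset.sum_insert ha] using h

lemma LC.of_test {f : E n → ℝ} (hf : Test f) : LC f :=
  ⟨(hf.1.lipschitzWith_of_hasCompactSupport hf.2 (by simp)), hf.2⟩

/-- product of a test function and a bounded Lipschitz function -/
lemma LC.mul {f g : E n → ℝ} (hf : LC f) {K : ℝ≥0} (hg : LipschitzWith K g) {B : ℝ}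
    (hB : ∀ x, |g x| ≤ B) : LC (fun x => f x * g x) := by
  obtain ⟨⟨L, hL⟩, hs⟩ := hf
  refine ⟨?_, hs.mul_right⟩
  obtain ⟨A, hA⟩ := hL.continuous.bounded_above_of_compact_support hs
  have hA0 : 0 ≤ A := (norm_nonneg _).trans (hA 0)
  have hB0 : 0 ≤ B := (abs_nonneg _).trans (hB 0)
  refine ⟨_, lipW_of (K := A * K + B * L) fun x y => ?_⟩
  have e : f x * g x - f y * g y = f x * (g x - g y) + g y * (f x - f y) := by ring
  rw [e]
  have h1 : |g x - g y| ≤ K * ‖x - y‖ := by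
    have := hg.dist_le_mul x y
    rwa [Real.dist_eq, dist_eq_norm] at this
  have h2 : |f x - f y| ≤ L * ‖x - y‖ := by
    have := hL.dist_le_mul x y
    rwa [Real.dist_eq, dist_eq_norm] at this
  calc |f x * (g x - g y) + g y * (f x - f y)|
      ≤ |f x| * |g x - g y| + |g y| * |f x - f y| := by
        refine (abs_add_le _ _).trans ?_
        rw [abs_mul, abs_mul]
    _ ≤ A * (K * ‖x - y‖) + B * (L * ‖x - y‖) := by
        refine add_le_add (mul_le_mul (hA x) h1 (abs_nonneg _) hA0)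
          (mul_le_mul (hB y) h2 (abs_nonneg _) hB0)
    _ = _ := by ring

lemma LC.core (h : MM ψ V c C M) {G : E n → ℝ} (hG : LC G) (a : Fin n) :
    ∫ x, (∑ b, tau ψ x a b * pd b G x) * Real.exp (-(V x))
      = ∫ x, (x a * G x) * Real.exp (-(V x)) :=
  core_lip h a G hG.1.choose_spec hG.2

lemma abs_pd_lip {f : E n → ℝ} {K : ℝ≥0} (hf : LipschitzWith K f) (x : E n) (i : Fin n) :
    |pd i f x| ≤ K := by
  have h1 := (fderiv ℝ f x).le_opNorm (ei i)
  rw [norm_ei, mul_one, Real.norm_eq_abs] at h1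
  exact h1.trans (norm_fderiv_le_of_lipschitz ℝ hf)

lemma integrable_lip (hV : Nice V c C) {f : E n → ℝ} (hf : Gr f) {G : E n → ℝ} {K : ℝ≥0}
    (hG : LipschitzWith K G) (a : Fin n) :
    Integrable (fun x => (f x * pd a G x) * Real.exp (-(V x))) := by
  have h1 := hV.toReg.integrable_gr (hf.abs.const_mul (K : ℝ))
  refine h1.mono' ?_ (Filter.Eventually.of_forall fun x => ?_)
  · refine ((hf.cont.measurable.mul (measurable_fderiv_apply_const ℝ G (ei a))).mul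
      (Real.continuous_exp.comp hV.smooth.continuous.neg).measurable).aestronglyMeasurable
  · rw [norm_mul, Real.norm_eq_abs, Real.norm_eq_abs, Real.abs_exp, abs_mul]
    refine mul_le_mul_of_nonneg_right ?_ (Real.exp_pos _).le
    rw [mul_comm]
    exact mul_le_mul_of_nonneg_right (abs_pd_lip hG x a) (abs_nonneg _)

lemma LC.integrable (hV : Nice V c C) {f G : E n → ℝ} (hf : Gr f) (hG : LC G) (a : Fin n) :
    Integrable (fun x => (f x * pd a G x) * Real.exp (-(V x))) :=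
  integrable_lip hV hf hG.1.choose_spec a

lemma LC.integrable_core (hV : Nice V c C) (h : MM ψ V c C M) {G : E n → ℝ} (hG : LC G)
    (a : Fin n) :
    Integrable (fun x => (∑ b, tau ψ x a b * pd b G x) * Real.exp (-(V x))) := by
  simp only [Finset.sum_mul]
  exact integrable_finsetSum _ fun b _ => hG.integrable hV (gr_tau h a b) b

lemma s3 (f : Fin n → Fin n → Fin n → ℝ) :
    ∑ a, ∑ b, ∑ k, f a b k = ∑ b, ∑ k, ∑ a, f a b k := by
  rw [Finset.sum_comm]
  exact Finset.sum_congr rfl fun b _ => Finset.sum_comm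

lemma s4 (f : Fin n → Fin n → Fin n → Fin n → ℝ) :
    ∑ d, ∑ a, ∑ b, ∑ k, f d a b k = ∑ b, ∑ k, ∑ a, ∑ d, f d a b k := by
  have h1 : ∑ d, ∑ a, ∑ b, ∑ k, f d a b k = ∑ d, ∑ b, ∑ k, ∑ a, f d a b k :=
    Finset.sum_congr rfl fun d _ => s3 _
  rw [h1, s3]
  exact Finset.sum_congr rfl fun b _ => Finset.sum_congr rfl fun k _ => Finset.sum_comm

/-- the auxiliary fields `G_d = ∑ W_b τ_bk F_kd` -/
noncomputable def Gd (ψ W F : E n → ℝ) (d : Fin n) (x : E n) : ℝ :=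
  ∑ b, ∑ k, (pd b W x * hess F x k d) * tau ψ x b k

lemma test_hess {F : E n → ℝ} (hF : Test F) (i j : Fin n) : Test (fun x => hess F x i j) :=
  test_pd (test_pd hF j) i

lemma test_mulW {F W : E n → ℝ} (hF : Test F) (hW : ContDiff ℝ (⊤ : ℕ∞) W) (b k d : Fin n) :
    Test (fun x => pd b W x * hess F x k d) :=
  ⟨(contDiff_pd_top hW b).mul (test_hess hF k d).1, (test_hess hF k d).2.mul_left⟩

lemma LC_Gd (h : MM ψ V c C M) {F W : E n → ℝ} (hF : Test F) (hW : ContDiff ℝ (⊤ : ℕ∞) W)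
    (d : Fin n) : LC (Gd ψ W F d) :=
  LC.sum _ fun b _ => LC.sum _ fun k _ =>
    (LC.of_test (test_mulW hF hW b k d)).mul (tau_lipW h b k) (fun x => abs_tau_le h x b k)

lemma third_test {F : E n → ℝ} (hF : Test F) (x : E n) (a k d : Fin n) :
    pd a (fun z => hess F z k d) x = pd k (fun z => hess F z a d) x :=
  hess_symm (f := pd d F) ((test_pd hF d).1.of_le (by norm_cast)) x a k

lemma pd_Gd {x : E n} (hx : Good ψ x) {F W : E n → ℝ} (hF : Test F)
    (hW : ContDiff ℝ (⊤ : ℕ∞) W) (a d : Fin n) :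
    pd a (Gd ψ W F d) x = ∑ b, ∑ k, (hess W x a b * hess F x k d * tau ψ x b k
      + pd b W x * pd a (fun z => hess F z k d) x * tau ψ x b k
      + pd b W x * hess F x k d * pd a (fun z => tau ψ z b k) x) := by
  have hWd : ∀ b, Differentiable ℝ (pd b W) := fun b =>
    (contDiff_pd_top hW b).differentiable (by norm_num)
  have hFd : ∀ k, Differentiable ℝ (fun z => hess F z k d) := fun k => tDiff (test_hess hF k d)
  have hWF : ∀ b k, DifferentiableAt ℝ (fun z => pd b W z * hess F z k d) x := fun b k =>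
    (hWd b x).mul (hFd k x)
  have hall : ∀ b k, DifferentiableAt ℝ (fun z => (pd b W z * hess F z k d) * tau ψ z b k) x :=
    fun b k => (hWF b k).mul (hx.1 b k)
  unfold Gd
  rw [pd_sum (f := fun b z => ∑ k, (pd b W z * hess F z k d) * tau ψ z b k) a
    fun b _ => DifferentiableAt.fun_sum fun k _ => hall b k]
  refine Finset.sum_congr rfl fun b _ => ?_
  rw [pd_sum (f := fun k z => (pd b W z * hess F z k d) * tau ψ z b k) a fun k _ => hall b k]
  refine Finset.sum_congr rfl fun k _ => ?_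
  rw [B294.pd_mul a (hWF b k) (hx.1 b k), B294.pd_mul a (hWd b x) (hFd k x)]
  have e : pd a (pd b W) x = hess W x a b := rfl
  rw [e]
  ring

lemma pd_LF {x : E n} (hx : Good ψ x) {F : E n → ℝ} (hF : Test F) (a : Fin n) :
    pd a (fun z => Lop ψ F z + F z) x
      = (∑ i, ∑ j, (tau ψ x i j * pd a (fun z => hess F z i j) x
        + pd a (fun z => tau ψ z i j) x * hess F x i j)) - ∑ i, x i * hess F x a i := by
  have hFd : ∀ i j, Differentiable ℝ (fun z => hess F z i j) := fun i j => tDiff (test_hess hF i j)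
  have hF1 : ∀ i, Differentiable ℝ (pd i F) := fun i => tDiff (test_pd hF i)
  have hc : ∀ i, Differentiable ℝ (fun z : E n => z i) := fun i =>
    (EuclideanSpace.proj i : E n →L[ℝ] ℝ).differentiable
  have hd1 : ∀ i j, DifferentiableAt ℝ (fun z => tau ψ z i j * hess F z i j) x := fun i j =>
    (hx.1 i j).mul (hFd i j x)
  have hd1s : DifferentiableAt ℝ (fun z => ∑ i, ∑ j, tau ψ z i j * hess F z i j) x :=
    DifferentiableAt.fun_sum fun i _ => DifferentiableAt.fun_sum fun j _ => hd1 i j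
  have hd2 : ∀ i, DifferentiableAt ℝ (fun z : E n => z i * pd i F z) x := fun i =>
    (hc i x).mul (hF1 i x)
  have hd2s : DifferentiableAt ℝ (fun z : E n => ∑ i, z i * pd i F z) x :=
    DifferentiableAt.fun_sum fun i _ => hd2 i
  have e1 : pd a (fun z => Lop ψ F z + F z) x
      = pd a (fun z => ∑ i, ∑ j, tau ψ z i j * hess F z i j) x
        - pd a (fun z : E n => ∑ i, z i * pd i F z) x + pd a F x := by
    have hder := (hd1s.hasFDerivAt.sub hd2s.hasFDerivAt).add (tDiff hF x).hasFDerivAt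
    have h2 : fderiv ℝ (fun z => Lop ψ F z + F z) x = _ := hder.fderiv
    have h3 : pd a (fun z => Lop ψ F z + F z) x = fderiv ℝ (fun z => Lop ψ F z + F z) x (ei a) := rfl
    rw [h3, h2]
    rfl
  rw [e1]
  rw [pd_sum (f := fun i z => ∑ j, tau ψ z i j * hess F z i j) a
    fun i _ => DifferentiableAt.fun_sum fun j _ => hd1 i j]
  rw [pd_sum (f := fun i (z : E n) => z i * pd i F z) a fun i _ => hd2 i]
  have e2 : ∀ i, pd a (fun z => ∑ j, tau ψ z i j * hess F z i j) x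
      = ∑ j, (tau ψ x i j * pd a (fun z => hess F z i j) x
        + pd a (fun z => tau ψ z i j) x * hess F x i j) := by
    intro i
    rw [pd_sum (f := fun j z => tau ψ z i j * hess F z i j) a fun j _ => hd1 i j]
    exact Finset.sum_congr rfl fun j _ => B294.pd_mul a (hx.1 i j) (hFd i j x)
  have e3 : ∀ i, pd a (fun z : E n => z i * pd i F z) x
      = x i * hess F x a i + (if i = a then 1 else 0) * pd i F x := by
    intro i
    rw [B294.pd_mul a (hc i x) (hF1 i x), pd_coord]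
    rfl
  simp only [e2, e3, Finset.sum_add_distrib]
  simp
  ring

/-- the pointwise identity at good points -/
lemma key_div (h : MM ψ V c C M) {x : E n} (hx : Good ψ x) {F W : E n → ℝ} (hF : Test F)
    (hW : ContDiff ℝ (⊤ : ℕ∞) W) :
    ∑ b, pd b W x * fld ψ (fun z => Lop ψ F z + F z) b x
      = (∑ d, ∑ a, tau ψ x d a * pd a (Gd ψ W F d) x)
        - (hess W x * tau ψ x * hess F x * tau ψ x).trace - ∑ d, x d * Gd ψ W F d x := by
  have hFs : ∀ i j, hess F x i j = hess F x j i := fun i j =>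
    hess_symm (hF.1.of_le (by norm_cast)) x i j
  -- first term
  have T1 : ∑ d, ∑ a, ∑ b, ∑ k, tau ψ x d a * (hess W x a b * hess F x k d * tau ψ x b k)
      = (hess W x * tau ψ x * hess F x * tau ψ x).trace := by
    rw [Matrix.trace]
    simp only [Matrix.diag_apply, Matrix.mul_apply, Finset.sum_mul]
    rw [Finset.sum_comm]
    refine Finset.sum_congr rfl fun a _ => Finset.sum_congr rfl fun d _ => ?_
    rw [Finset.sum_comm]
    refine Finset.sum_congr rfl fun k _ => Finset.sum_congr rfl fun b _ => ?_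
    ring
  have T2 : ∑ d, ∑ a, ∑ b, ∑ k, tau ψ x d a * (pd b W x * pd a (fun z => hess F z k d) x
        * tau ψ x b k)
      = ∑ b, ∑ k, ∑ a, ∑ d, pd b W x * (tau ψ x b k * (tau ψ x a d
        * pd k (fun z => hess F z a d) x)) := by
    rw [s4]
    refine Finset.sum_congr rfl fun b _ => Finset.sum_congr rfl fun k _ =>
      Finset.sum_congr rfl fun a _ => Finset.sum_congr rfl fun d _ => ?_
    rw [third_test hF x a k d, tau_symm h x d a]
    ring
  have T3 : ∑ d, ∑ a, ∑ b, ∑ k, tau ψ x d a * (pd b W x * hess F x k d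
        * pd a (fun z => tau ψ z b k) x)
      = ∑ b, ∑ k, ∑ i, ∑ j, pd b W x * (tau ψ x b k * (pd k (fun z => tau ψ z i j) x
        * hess F x i j)) := by
    have l1 : ∑ d, ∑ a, ∑ b, ∑ k, tau ψ x d a * (pd b W x * hess F x k d
        * pd a (fun z => tau ψ z b k) x) = ∑ d, ∑ b, ∑ k, pd b W x * hess F x k d * Sd ψ x d b k := by
      refine Finset.sum_congr rfl fun d _ => ?_
      rw [s3]
      refine Finset.sum_congr rfl fun b _ => Finset.sum_congr rfl fun k _ => ?_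
      unfold Sd
      rw [Finset.mul_sum]
      exact Finset.sum_congr rfl fun a _ => by ring
    have l2 : ∑ b, ∑ k, ∑ i, ∑ j, pd b W x * (tau ψ x b k * (pd k (fun z => tau ψ z i j) x
        * hess F x i j)) = ∑ b, ∑ i, ∑ j, pd b W x * hess F x i j * Sd ψ x b i j := by
      refine Finset.sum_congr rfl fun b _ => ?_
      rw [s3]
      refine Finset.sum_congr rfl fun i _ => Finset.sum_congr rfl fun j _ => ?_
      unfold Sd
      rw [Finset.mul_sum]
      exact Finset.sum_congr rfl fun a _ => by ring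
    rw [l1, l2, Finset.sum_comm]
    refine Finset.sum_congr rfl fun b _ => Finset.sum_congr rfl fun d _ =>
      Finset.sum_congr rfl fun k _ => ?_
    rw [Sd_symm12 h hx d b k, hFs k d]
  have T4 : ∑ d, x d * Gd ψ W F d x
      = ∑ b, ∑ k, ∑ d, pd b W x * (tau ψ x b k * (x d * hess F x k d)) := by
    unfold Gd
    simp only [Finset.mul_sum]
    rw [s3]
    refine Finset.sum_congr rfl fun b _ => Finset.sum_congr rfl fun k _ =>
      Finset.sum_congr rfl fun d _ => ?_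
    ring
  have R : ∑ d, ∑ a, tau ψ x d a * pd a (Gd ψ W F d) x
      = (hess W x * tau ψ x * hess F x * tau ψ x).trace
        + ∑ b, ∑ k, ∑ a, ∑ d, pd b W x * (tau ψ x b k * (tau ψ x a d
        * pd k (fun z => hess F z a d) x))
        + ∑ b, ∑ k, ∑ i, ∑ j, pd b W x * (tau ψ x b k * (pd k (fun z => tau ψ z i j) x
        * hess F x i j)) := by
    rw [← T1, ← T2, ← T3]
    simp only [pd_Gd hx hF hW, Finset.mul_sum, mul_add, Finset.sum_add_distrib]
  have L : ∑ b, pd b W x * fld ψ (fun z => Lop ψ F z + F z) b x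
      = ∑ b, ∑ k, ∑ a, ∑ d, pd b W x * (tau ψ x b k * (tau ψ x a d
        * pd k (fun z => hess F z a d) x))
        + ∑ b, ∑ k, ∑ i, ∑ j, pd b W x * (tau ψ x b k * (pd k (fun z => tau ψ z i j) x
        * hess F x i j))
        - ∑ b, ∑ k, ∑ d, pd b W x * (tau ψ x b k * (x d * hess F x k d)) := by
    unfold fld
    simp only [pd_LF hx hF, Finset.mul_sum, mul_add, mul_sub, Finset.sum_add_distrib,
      Finset.sum_sub_distrib]
  rw [L, R, T4]
  ring

theorem stmtDiv : StmtDiv := by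
  intro n ψ V c C M hV h F W hF hW
  unfold Ex
  rw [← neg_div]
  congr 1
  have hG : ∀ d, LC (Gd ψ W F d) := fun d => LC_Gd h hF hW d
  have i1 : ∀ d, Integrable (fun x => (∑ a, tau ψ x d a * pd a (Gd ψ W F d) x)
      * Real.exp (-(V x))) := fun d => (hG d).integrable_core hV h d
  have i2 : ∀ d, Integrable (fun x => (x d * Gd ψ W F d x) * Real.exp (-(V x))) := fun d =>
    hV.toReg.integrable_gr ((Gr.coord d).mul (hG d).gr)
  have i3 : Integrable (fun x => (hess W x * tau ψ x * hess F x * tau ψ x).trace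
      * Real.exp (-(V x))) := by
    refine hV.toReg.integrable_gr ?_
    have e : (fun x => (hess W x * tau ψ x * hess F x * tau ψ x).trace)
        = fun x => ∑ a, ∑ d, ∑ k, ∑ b, (hess W x a b * hess F x k d) * (tau ψ x b k * tau ψ x d a) := by
      funext x
      rw [Matrix.trace]
      simp only [Matrix.diag_apply, Matrix.mul_apply, Finset.sum_mul]
      refine Finset.sum_congr rfl fun a _ => Finset.sum_congr rfl fun d _ =>
        Finset.sum_congr rfl fun k _ => Finset.sum_congr rfl fun b _ => ?_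
      ring
    rw [e]
    refine Gr.sum _ fun a _ => Gr.sum _ fun d _ => Gr.sum _ fun k _ => Gr.sum _ fun b _ => ?_
    have ht : Test (fun x => hess W x a b * hess F x k d) :=
      ⟨(contDiff_hess_top hW a b).mul (test_hess hF k d).1, (test_hess hF k d).2.mul_left⟩
    exact (tGr ht).mul ((gr_tau h b k).mul (gr_tau h d a))
  have key : ∀ᵐ x, (∑ b, pd b W x * fld ψ (fun z => Lop ψ F z + F z) b x) * Real.exp (-(V x))
      = ((∑ d, (∑ a, tau ψ x d a * pd a (Gd ψ W F d) x) * Real.exp (-(V x)))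
        - ∑ d, (x d * Gd ψ W F d x) * Real.exp (-(V x)))
        - (hess W x * tau ψ x * hess F x * tau ψ x).trace * Real.exp (-(V x)) := by
    filter_upwards [ae_good h] with x hx
    rw [key_div h hx hF hW, ← Finset.sum_mul, ← Finset.sum_mul]
    ring
  rw [integral_congr_ae key]
  have hs1 : Integrable (fun x => ∑ d, (∑ a, tau ψ x d a * pd a (Gd ψ W F d) x)
      * Real.exp (-(V x))) := integrable_finsetSum _ fun d _ => i1 d
  have hs2 : Integrable (fun x => ∑ d, (x d * Gd ψ W F d x) * Real.exp (-(V x))) :=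
    integrable_finsetSum _ fun d _ => i2 d
  have hs3 : Integrable (fun x => (∑ d, (∑ a, tau ψ x d a * pd a (Gd ψ W F d) x)
      * Real.exp (-(V x))) - ∑ d, (x d * Gd ψ W F d x) * Real.exp (-(V x))) := hs1.sub hs2
  rw [integral_sub hs3 i3, integral_sub hs1 hs2, integral_finsetSum _ fun d _ => i1 d,
    integral_finsetSum _ fun d _ => i2 d, Finset.sum_congr rfl fun d _ => (hG d).core h d]
  ring

end Vale.Agent.P227.M.B294
end

section

/-! # P227/M/LIN/TopC: bounded Lipschitz functions, `L` on test functions, the maps `J`, `A` (helper592). -/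

open MeasureTheory Filter
open scoped Topology

namespace Vale.Agent.P227.M.LIN.T592

variable {n : ℕ} {ψ V : E n → ℝ} {c C M : ℝ}

/-- what we need from `MM` about `τ` -/
structure TauF (ψ : E n → ℝ) (a K : ℝ) : Prop where
  a_pos : 0 < a
  psd : ∀ x, (tau ψ x).PosSemidef
  symm : ∀ x i j, tau ψ x i j = tau ψ x j i
  lower : ∀ x (g : Fin n → ℝ), a * ∑ i, g i ^ 2 ≤ ∑ i, ∑ j, tau ψ x i j * g i * g j
  bdd : ∀ x i j, |tau ψ x i j| ≤ K
  lip : ∀ x y i j, |tau ψ x i j - tau ψ y i j| ≤ K * ‖x - y‖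

/-- bounded Lipschitz functions -/
def BL (f : E n → ℝ) : Prop := ∃ K : ℝ, 0 ≤ K ∧ (∀ x, |f x| ≤ K) ∧ ∀ x y, |f x - f y| ≤ K * ‖x - y‖

theorem BL.add {f g : E n → ℝ} (hf : BL f) (hg : BL g) : BL (fun x => f x + g x) := by
  obtain ⟨K, hK, h1, h2⟩ := hf
  obtain ⟨L, hL, h3, h4⟩ := hg
  refine ⟨K + L, by positivity, fun x => (abs_add_le _ _).trans (add_le_add (h1 x) (h3 x)), fun x y => ?_⟩
  have : f x + g x - (f y + g y) = (f x - f y) + (g x - g y) := by ring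
  rw [this, add_mul]
  exact (abs_add_le _ _).trans (add_le_add (h2 x y) (h4 x y))

theorem BL.mul {f g : E n → ℝ} (hf : BL f) (hg : BL g) : BL (fun x => f x * g x) := by
  obtain ⟨K, hK, h1, h2⟩ := hf
  obtain ⟨L, hL, h3, h4⟩ := hg
  refine ⟨K * L + K * L + K * L, by positivity, fun x => ?_, fun x y => ?_⟩
  · rw [abs_mul]
    have := mul_le_mul (h1 x) (h3 x) (abs_nonneg _) hK
    have h5 : 0 ≤ K * L := by positivity
    linarith
  · have : f x * g x - f y * g y = (f x - f y) * g x + f y * (g x - g y) := by ring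
    rw [this]
    refine (abs_add_le _ _).trans ?_
    rw [abs_mul, abs_mul]
    have e1 : |f x - f y| * |g x| ≤ K * ‖x - y‖ * L :=
      mul_le_mul (h2 x y) (h3 x) (abs_nonneg _) (by positivity)
    have e2 : |f y| * |g x - g y| ≤ K * (L * ‖x - y‖) :=
      mul_le_mul (h1 y) (h4 x y) (abs_nonneg _) hK
    have e3 : 0 ≤ K * L * ‖x - y‖ := by positivity
    nlinarith

theorem BL.neg {f : E n → ℝ} (hf : BL f) : BL (fun x => -f x) := by
  obtain ⟨K, hK, h1, h2⟩ := hf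
  refine ⟨K, hK, fun x => by rw [abs_neg]; exact h1 x, fun x y => ?_⟩
  have : -f x - -f y = -(f x - f y) := by ring
  rw [this, abs_neg]; exact h2 x y

theorem BL.sub {f g : E n → ℝ} (hf : BL f) (hg : BL g) : BL (fun x => f x - g x) := by
  have := hf.add hg.neg
  simpa [sub_eq_add_neg] using this

theorem BL.zero : BL (fun _ : E n => (0 : ℝ)) := ⟨0, le_rfl, by simp, by simp⟩

theorem BL.sum {ι : Type*} (s : Finset ι) {f : ι → E n → ℝ} (hf : ∀ i ∈ s, BL (f i)) :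
    BL (fun x => ∑ i ∈ s, f i x) := by
  classical
  induction s using Finset.induction_on with
  | empty => simpa using BL.zero (n := n)
  | insert a s ha ih =>
    have h := (hf a (Finset.mem_insert_self a s)).add
      (ih fun i hi => hf i (Finset.mem_insert_of_mem hi))
    simpa [Finset.sum_insert ha] using h

theorem BL.of_test {f : E n → ℝ} (hf : Test f) : BL f := by
  obtain ⟨B, hB⟩ := hf.1.continuous.bounded_above_of_compact_support hf.2
  obtain ⟨L, hL⟩ := ContDiff.lipschitzWith_of_hasCompactSupport hf.2 hf.1 (by simp)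
  refine ⟨|B| + L, by positivity, fun x => ?_, fun x y => ?_⟩
  · have := hB x
    rw [Real.norm_eq_abs] at this
    have h2 := le_abs_self B
    have h3 : (0 : ℝ) ≤ L := L.2
    linarith
  · have := hL.dist_le_mul x y
    rw [Real.dist_eq, dist_eq_norm] at this
    have h2 : 0 ≤ |B| * ‖x - y‖ := by positivity
    linarith [add_mul |B| (L : ℝ) ‖x - y‖]

theorem BL.cont {f : E n → ℝ} (hf : BL f) : Continuous f := by
  obtain ⟨K, hK, h1, h2⟩ := hf
  have : LipschitzWith ⟨K, hK⟩ f := LipschitzWith.of_dist_le_mul fun x y => by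
    rw [Real.dist_eq, dist_eq_norm]; exact h2 x y
  exact this.continuous

theorem BL.gr {f : E n → ℝ} (hf : BL f) : Gr f := by
  obtain ⟨K, hK, h1, h2⟩ := id hf
  exact Gr.of_bound hf.cont h1

theorem BL.pd_le {f : E n → ℝ} (hf : BL f) : ∃ K : ℝ, ∀ (b : Fin n) x, |pd b f x| ≤ K := by
  obtain ⟨K, hK, h1, h2⟩ := hf
  have hl : LipschitzWith ⟨K, hK⟩ f := LipschitzWith.of_dist_le_mul fun x y => by
    rw [Real.dist_eq, dist_eq_norm]; exact h2 x y
  refine ⟨K, fun b x => ?_⟩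
  have h3 := norm_fderiv_le_of_lipschitz ℝ hl (x₀ := x)
  exact (abs_pd_le_norm f x b).trans h3

theorem test_coord_mul {f : E n → ℝ} (hf : Test f) (i : Fin n) : Test (fun x => x i * f x) := by
  refine ⟨ContDiff.mul (by fun_prop) hf.1, ?_⟩
  exact hf.2.mul_left (f := fun x : E n => x i)

theorem test_hess {f : E n → ℝ} (hf : Test f) (i j : Fin n) : Test (fun x => hess f x i j) :=
  test_pd (test_pd hf j) i

theorem bl_tau {a K : ℝ} (hτ : TauF ψ a K) (i j : Fin n) : BL (fun x => tau ψ x i j) :=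
  ⟨K, (abs_nonneg _).trans (hτ.bdd 0 i j), fun x => hτ.bdd x i j, fun x y => hτ.lip x y i j⟩

theorem bl_Lop {a K : ℝ} (hτ : TauF ψ a K) {f : E n → ℝ} (hf : Test f) : BL (Lop ψ f) := by
  have h1 : BL (fun x => ∑ i, ∑ j, tau ψ x i j * hess f x i j) :=
    BL.sum _ fun i _ => BL.sum _ fun j _ => (bl_tau hτ i j).mul (BL.of_test (test_hess hf i j))
  have h2 : BL (fun x => ∑ i, x i * pd i f x) :=
    BL.sum _ fun i _ => BL.of_test (test_coord_mul (test_pd hf i) i)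
  exact h1.sub h2

theorem gr_fld {a K : ℝ} (hτ : TauF ψ a K) {f : E n → ℝ} (hf : Test f) (b : Fin n) :
    Gr (fld ψ f b) := by
  have h1 : BL (fun x => ∑ c, tau ψ x b c * pd c f x) :=
    BL.sum _ fun c _ => (bl_tau hτ b c).mul (BL.of_test (test_pd hf c))
  exact h1.gr

/-- embedding of test functions -/
noncomputable def Jm (h : Reg V c C) : TF n →ₗ[ℝ] MeasureTheory.Lp ℝ 2 (mu V) where
  toFun f := (memLp_gr h (gr_test f.2)).toLp f.1
  map_add' f g := by
    rw [← MemLp.toLp_add]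
    rfl
  map_smul' r f := by
    rw [RingHom.id_apply, ← MemLp.toLp_const_smul]
    rfl

/-- `L` as a map into `L²` -/
noncomputable def Am (h : Reg V c C) {a K : ℝ} (hτ : TauF ψ a K) : TF n →ₗ[ℝ] MeasureTheory.Lp ℝ 2 (mu V) where
  toFun f := (memLp_gr h (bl_Lop hτ f.2).gr).toLp (Lop ψ f.1)
  map_add' f g := by
    rw [← MemLp.toLp_add]
    refine MemLp.toLp_congr _ _ (Eventually.of_forall fun x => ?_)
    exact Lop_add f.2 g.2 x
  map_smul' r f := by
    rw [RingHom.id_apply, ← MemLp.toLp_const_smul]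
    refine MemLp.toLp_congr _ _ (Eventually.of_forall fun x => ?_)
    exact Lop_smul f.2 r x

end Vale.Agent.P227.M.LIN.T592
end

section

/-! # P227/M/LIN/TopD: integration by parts, kernels, density in `L²(e^{-V})` (helper592). -/

open MeasureTheory Filter
open scoped Topology

namespace Vale.Agent.P227.M.LIN.T592

variable {n : ℕ} {ψ V : E n → ℝ} {c C M : ℝ}

theorem Ex_mono (h : Reg V c C) {f g : E n → ℝ} (hf : Integrable (fun x => f x * Real.exp (-V x)))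
    (hg : Integrable (fun x => g x * Real.exp (-V x))) (hle : ∀ x, f x ≤ g x) : Ex V f ≤ Ex V g := by
  unfold Ex
  refine div_le_div_of_nonneg_right ?_ h.Z_pos.le
  exact integral_mono hf hg fun x => mul_le_mul_of_nonneg_right (hle x) (Real.exp_pos _).le

theorem Ex_nonneg (h : Reg V c C) {f : E n → ℝ} (hle : ∀ x, 0 ≤ f x) : 0 ≤ Ex V f :=
  div_nonneg (integral_nonneg fun x => mul_nonneg (hle x) (Real.exp_pos _).le) h.Z_pos.le

theorem Ex_const_mul (V : E n → ℝ) (r : ℝ) (f : E n → ℝ) : Ex V (fun x => r * f x) = r * Ex V f := by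
  unfold Ex
  rw [← mul_div_assoc, ← integral_const_mul]
  congr 2
  funext x; ring

theorem Ex_add {f g : E n → ℝ} (hf : Integrable (fun x => f x * Real.exp (-V x)))
    (hg : Integrable (fun x => g x * Real.exp (-V x))) :
    Ex V (fun x => f x + g x) = Ex V f + Ex V g := by
  unfold Ex
  rw [← add_div, ← integral_add hf hg]
  congr 2
  funext x; ring

theorem int_eq_Ex (h : Reg V c C) (f : E n → ℝ) :
    ∫ x, f x * Real.exp (-V x) = (∫ x, Real.exp (-V x)) * Ex V f := by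
  unfold Ex
  rw [mul_div_cancel₀ _ h.Z_pos.ne']

/-- gradient form -/
noncomputable def Gf (ψ f g : E n → ℝ) (x : E n) : ℝ := ∑ b, pd b g x * fld ψ f b x

theorem Gf_symm {a K : ℝ} (hτ : TauF ψ a K) (f g : E n → ℝ) (x : E n) : Gf ψ f g x = Gf ψ g f x := by
  unfold Gf fld
  simp only [Finset.mul_sum]
  rw [Finset.sum_comm]
  refine Finset.sum_congr rfl fun i _ => Finset.sum_congr rfl fun j _ => ?_
  rw [hτ.symm x j i]; ring

theorem Gf_ge {a K : ℝ} (hτ : TauF ψ a K) (f : E n → ℝ) (x : E n) :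
    a * ∑ i, pd i f x ^ 2 ≤ Gf ψ f f x := by
  refine (hτ.lower x (fun i => pd i f x)).trans (le_of_eq ?_)
  unfold Gf fld
  simp only [Finset.mul_sum]
  refine Finset.sum_congr rfl fun i _ => Finset.sum_congr rfl fun j _ => by ring

theorem Gf_nonneg {a K : ℝ} (hτ : TauF ψ a K) (f : E n → ℝ) (x : E n) : 0 ≤ Gf ψ f f x :=
  (mul_nonneg hτ.a_pos.le (Finset.sum_nonneg fun _ _ => sq_nonneg _)).trans (Gf_ge hτ f x)

theorem gr_Gf {a K : ℝ} (hτ : TauF ψ a K) {f g : E n → ℝ} (hf : Test f) (hg : Test g) :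
    Gr (Gf ψ f g) :=
  Gr.sum _ fun b _ => (gr_test (test_pd hg b)).mul (gr_fld hτ hf b)

theorem ibp (hI : StmtIBP) (hN : Nice V c C) (hM : MM ψ V c C M) {u f : E n → ℝ} (hu : Test u)
    (hf : Test f) : ∫ x, Lop ψ u x * f x * Real.exp (-V x) =
      -((∫ x, Real.exp (-V x)) * Ex V (Gf ψ u f)) := by
  have h := hI n ψ V c C M hN hM u f hu hf.1
  have h2 : Ex V (fun x => -(Lop ψ u x) * f x) = -Ex V (fun x => Lop ψ u x * f x) := by
    unfold Ex
    rw [← neg_div, ← integral_neg]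
    congr 2
    funext x; ring
  rw [h2] at h
  have h3 := int_eq_Ex hN.toReg (fun x => Lop ψ u x * f x)
  rw [h3]
  have h4 : Ex V (fun x => Lop ψ u x * f x) = -Ex V (Gf ψ u f) := by
    rw [← neg_eq_iff_eq_neg]; exact h
  rw [h4]; ring

section maps

variable {a K : ℝ} (hI : StmtIBP) (hN : Nice V c C) (hM : MM ψ V c C M) (hτ : TauF ψ a K)
include hI hN hM hτ

theorem inner_A_J (f g : TF n) : inner ℝ (Am hN.toReg hτ f) (Jm hN.toReg g) =
    -((∫ x, Real.exp (-V x)) * Ex V (Gf ψ f.1 g.1)) := by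
  rw [← ibp hI hN hM f.2 g.2]
  exact inner_toLp hN.toReg.cont (memLp_gr hN.toReg (bl_Lop hτ f.2).gr)
    (memLp_gr hN.toReg (gr_test g.2))

theorem inner_J_A (f g : TF n) : inner ℝ (Jm hN.toReg f) (Am hN.toReg hτ g) =
    -((∫ x, Real.exp (-V x)) * Ex V (Gf ψ g.1 f.1)) := by
  rw [real_inner_comm, inner_A_J hI hN hM hτ]

theorem sym_AJ (f g : TF n) : inner ℝ (Am hN.toReg hτ f) (Jm hN.toReg g) =
    inner ℝ (Jm hN.toReg f) (Am hN.toReg hτ g) := by
  rw [inner_A_J hI hN hM hτ, inner_J_A hI hN hM hτ]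
  have : Gf ψ f.1 g.1 = Gf ψ g.1 f.1 := by funext x; exact Gf_symm hτ _ _ x
  rw [this]

theorem neg_AJ (f : TF n) : inner ℝ (Am hN.toReg hτ f) (Jm hN.toReg f) ≤ 0 := by
  rw [inner_A_J hI hN hM hτ]
  have h1 := Ex_nonneg hN.toReg (f := Gf ψ f.1 f.1) (Gf_nonneg hτ f.1)
  have h2 := hN.toReg.Z_pos
  have : 0 ≤ (∫ x, Real.exp (-V x)) * Ex V (Gf ψ f.1 f.1) := by positivity
  linarith

end maps

theorem dense_JA {a K : ℝ} (hE : StmtESA) (hN : Nice V c C) (hM : MM ψ V c C M) (hτ : TauF ψ a K) :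
    DenseRange (fun f : TF n => Jm hN.toReg f - Am hN.toReg hτ f) := by
  have h1 : (LinearMap.range (Jm hN.toReg - Am hN.toReg hτ)).topologicalClosure = ⊤ := by
    rw [Submodule.topologicalClosure_eq_top_iff, Submodule.eq_bot_iff]
    intro h hh
    rw [Submodule.mem_orthogonal'] at hh
    have h2 : (h : E n → ℝ) =ᵐ[volume] 0 := by
      refine hE n ψ V c C M hN hM h (MeasureTheory.Lp.memLp h) fun f hf => ?_
      have h3 := hh ((Jm hN.toReg - Am hN.toReg hτ) ⟨f, hf⟩) (LinearMap.mem_range_self _ _)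
      rw [LinearMap.sub_apply, inner_sub_right] at h3
      have e1 : inner ℝ h (Jm hN.toReg ⟨f, hf⟩) = ∫ x, h x * f x * Real.exp (-V x) :=
        inner_lp_toLp hN.toReg.cont h (memLp_gr hN.toReg (gr_test hf))
      have e2 : inner ℝ h (Am hN.toReg hτ ⟨f, hf⟩) = ∫ x, h x * Lop ψ f x * Real.exp (-V x) :=
        inner_lp_toLp hN.toReg.cont h (memLp_gr hN.toReg (bl_Lop hτ hf).gr)
      rw [e1, e2] at h3
      have i1 : Integrable (fun x => h x * f x * Real.exp (-V x)) := by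
        have := (MeasureTheory.Lp.memLp h).integrable_mul (memLp_gr hN.toReg (gr_test hf))
        exact (integrable_mu hN.toReg.cont _).1 this
      have i2 : Integrable (fun x => h x * Lop ψ f x * Real.exp (-V x)) := by
        have := (MeasureTheory.Lp.memLp h).integrable_mul (memLp_gr hN.toReg (bl_Lop hτ hf).gr)
        exact (integrable_mu hN.toReg.cont _).1 this
      rw [← h3, ← integral_sub i1 i2]
      refine integral_congr_ae (Eventually.of_forall fun x => ?_)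
      ring
    rw [MeasureTheory.Lp.eq_zero_iff_ae_eq_zero]
    exact (mu_ac V).ae_eq h2
  have h2 := Submodule.dense_iff_topologicalClosure_eq_top.2 h1
  have h3 : Set.range (fun f : TF n => Jm hN.toReg f - Am hN.toReg hτ f)
      = ((LinearMap.range (Jm hN.toReg - Am hN.toReg hτ) : Submodule ℝ _) : Set _) := by
    ext y; simp
  rw [DenseRange, h3]
  exact h2

/-- `‖toLp f - h‖² = Z E (f-h)²` -/
theorem normsq_sub (h : Reg V c C) {f : E n → ℝ} (hf : MemLp f 2 (mu V)) (g : MeasureTheory.Lp ℝ 2 (mu V)) :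
    ‖hf.toLp f - g‖ ^ 2 = (∫ x, Real.exp (-V x)) * Ex V (fun x => (f x - g x) ^ 2) := by
  have h1 : hf.toLp f - g = (hf.sub (MeasureTheory.Lp.memLp g)).toLp (f - (g : E n → ℝ)) := by
    rw [MemLp.toLp_sub hf (MeasureTheory.Lp.memLp g), MeasureTheory.Lp.toLp_coeFn]
  rw [h1, normsq_toLp h]
  rfl

theorem normsq_J (h : Reg V c C) (f : TF n) :
    ‖Jm h f‖ ^ 2 = (∫ x, Real.exp (-V x)) * Ex V (fun x => f.1 x ^ 2) :=
  normsq_toLp h (memLp_gr h (gr_test f.2))

theorem normsq_A (h : Reg V c C) {a K : ℝ} (hτ : TauF ψ a K) (f : TF n) :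
    ‖Am h hτ f‖ ^ 2 = (∫ x, Real.exp (-V x)) * Ex V (fun x => Lop ψ f.1 x ^ 2) :=
  normsq_toLp h (memLp_gr h (bl_Lop hτ f.2).gr)

/-- Bochner as an identity in `L²` -/
theorem boch_id {a K : ℝ} (hB : StmtBoch) (hN : Nice V c C) (hM : MM ψ V c C M) (hτ : TauF ψ a K)
    {f : E n → ℝ} (hf : Test f) :
    a ^ 2 * Ex V (fun x => ∑ i, ∑ j, hess f x i j ^ 2) + Ex V (Gf ψ f f)
      ≤ Ex V (fun x => Lop ψ f x ^ 2) := by
  rw [hB n ψ V c C M hN hM f hf]
  refine add_le_add ?_ le_rfl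
  rw [← Ex_const_mul]
  have hgr : Gr (fun x => ∑ i, ∑ j, hess f x i j ^ 2) :=
    Gr.sum _ fun i _ => Gr.sum _ fun j _ => (gr_test (test_hess hf i j)).pow 2
  have hmul : ∀ {A B : E n → Matrix (Fin n) (Fin n) ℝ}, (∀ i j, Gr (fun x => A x i j)) →
      (∀ i j, Gr (fun x => B x i j)) → ∀ i j, Gr (fun x => (A x * B x) i j) := by
    intro A B hA hB i j
    simp only [Matrix.mul_apply]
    exact Gr.sum _ fun k _ => (hA i k).mul (hB k j)
  have gτ : ∀ i j, Gr (fun x => tau ψ x i j) := fun i j => (bl_tau hτ i j).gr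
  have gh : ∀ i j, Gr (fun x => hess f x i j) := fun i j => gr_test (test_hess hf i j)
  have htr : Gr (fun x => (tau ψ x * hess f x * tau ψ x * hess f x).trace) := by
    simp only [Matrix.trace, Matrix.diag]
    exact Gr.sum _ fun i _ => hmul (hmul (hmul gτ gh) gτ) gh i i
  refine Ex_mono hN.toReg (hN.toReg.integrable_gr (hgr.const_mul _)) (hN.toReg.integrable_gr htr)
    fun x => ?_
  refine quad_tensor (tau ψ x) (hess f x) (hτ.psd x) a hτ.a_pos.le (hτ.lower x) ?_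
  exact hess_isSymm (hf.1.of_le (by norm_cast)) x

end Vale.Agent.P227.M.LIN.T592
end

section

/-! # P227/M/LIN/TopE: the two kernel facts (helper592). -/

open MeasureTheory Filter
open scoped Topology

namespace Vale.Agent.P227.M.LIN.T592

variable {n : ℕ} {ψ V : E n → ℝ} {c C M : ℝ}

/-- `J f_m → h` gives `E (f_m - h)² → 0` -/
theorem tendsto_Ex_sub (h : Reg V c C) (g : MeasureTheory.Lp ℝ 2 (mu V)) (f : ℕ → TF n)
    (hf : Tendsto (fun m => Jm h (f m)) atTop (𝓝 g)) :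
    Tendsto (fun m => Ex V (fun x => ((f m).1 x - g x) ^ 2)) atTop (𝓝 0) := by
  have h1 : Tendsto (fun m => ‖Jm h (f m) - g‖ ^ 2 / (∫ x, Real.exp (-V x))) atTop (𝓝 0) := by
    have h2 : Tendsto (fun m => ‖Jm h (f m) - g‖) atTop (𝓝 0) := tendsto_iff_norm_sub_tendsto_zero.1 hf
    have := (h2.pow 2).div_const (∫ x, Real.exp (-V x))
    simpa using this
  refine h1.congr fun m => ?_
  have := normsq_sub h (memLp_gr h (gr_test (f m).2)) g
  rw [div_eq_iff h.Z_pos.ne', mul_comm]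
  exact this

theorem odd_int (hN : Nice V c C) {r g : E n → ℝ} (hr : ∀ x, r (-x) = r x)
    (hg : ∀ x, g (-x) = -g x) : ∫ x, r x * g x * Real.exp (-V x) = 0 := by
  have h1 : ∫ x, r (-x) * g (-x) * Real.exp (-V (-x)) = ∫ x, r x * g x * Real.exp (-V x) :=
    integral_neg_eq_self (fun x => r x * g x * Real.exp (-V x)) volume
  have h2 : ∫ x, r (-x) * g (-x) * Real.exp (-V (-x)) = -∫ x, r x * g x * Real.exp (-V x) := by
    rw [← integral_neg]
    congr 1
    funext x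
    rw [hr, hg, hN.even]; ring
  linarith

variable {a K : ℝ}

theorem ker0 (hC : StmtConst) (hB : StmtBoch) (hN : Nice V c C) (hM : MM ψ V c C M)
    (hτ : TauF ψ a K) {r : E n → ℝ} (hr : Gr r) (hr0 : Ex V r = 0) (h : MeasureTheory.Lp ℝ 2 (mu V))
    (f : ℕ → TF n) (hf : Tendsto (fun m => Jm hN.toReg (f m)) atTop (𝓝 h))
    (hA : Tendsto (fun m => Am hN.toReg hτ (f m)) atTop (𝓝 0)) :
    inner ℝ ((memLp_gr hN.toReg hr).toLp r) h = 0 := by
  have hZ := hN.toReg.Z_pos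
  have t1 : Tendsto (fun m => Ex V (fun x => Lop ψ (f m).1 x ^ 2)) atTop (𝓝 0) := by
    have h2 : Tendsto (fun m => ‖Am hN.toReg hτ (f m)‖ ^ 2 / (∫ x, Real.exp (-V x))) atTop (𝓝 0) := by
      have := (hA.norm.pow 2).div_const (∫ x, Real.exp (-V x))
      simpa using this
    refine h2.congr fun m => ?_
    rw [normsq_A, mul_div_cancel_left₀ _ hZ.ne']
  have t2 : Tendsto (fun m => Ex V (fun x => ∑ i, pd i (f m).1 x ^ 2)) atTop (𝓝 0) := by
    have t3 := t1.const_mul a⁻¹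
    rw [mul_zero] at t3
    refine squeeze_zero (fun m => Ex_nonneg hN.toReg fun x => Finset.sum_nonneg fun _ _ => sq_nonneg _)
      (fun m => ?_) t3
    have h1 := boch_id hB hN hM hτ (f m).2
    have h2 : 0 ≤ a ^ 2 * Ex V (fun x => ∑ i, ∑ j, hess (f m).1 x i j ^ 2) :=
      mul_nonneg (sq_nonneg _) (Ex_nonneg hN.toReg fun x =>
        Finset.sum_nonneg fun _ _ => Finset.sum_nonneg fun _ _ => sq_nonneg _)
    have h3 : a * Ex V (fun x => ∑ i, pd i (f m).1 x ^ 2) ≤ Ex V (Gf ψ (f m).1 (f m).1) := by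
      rw [← Ex_const_mul]
      refine Ex_mono hN.toReg (hN.toReg.integrable_gr ?_)
        (hN.toReg.integrable_gr (gr_Gf hτ (f m).2 (f m).2)) fun x => Gf_ge hτ _ x
      exact (Gr.sum _ fun i _ => (gr_test (test_pd (f m).2 i)).pow 2).const_mul a
    rw [inv_mul_eq_div, le_div_iff₀ hτ.a_pos]
    linarith
  obtain ⟨a0, ha0⟩ := hC n V c C hN (fun m => (f m).1) h (fun m => (f m).2) (MeasureTheory.Lp.memLp h)
    (tendsto_Ex_sub hN.toReg h f hf) t2
  rw [real_inner_comm, inner_lp_toLp hN.toReg.cont]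
  have h1 : ∫ x, h x * r x * Real.exp (-V x) = ∫ x, a0 * (r x * Real.exp (-V x)) := by
    refine integral_congr_ae ?_
    filter_upwards [ha0] with x hx
    rw [hx]; ring
  rw [h1, integral_const_mul, int_eq_Ex hN.toReg, hr0]
  ring

theorem ker1 (hI : StmtIBP) (hAf : StmtAff) (hB : StmtBoch) (hN : Nice V c C) (hM : MM ψ V c C M)
    (hτ : TauF ψ a K) {r : E n → ℝ} (hr : Gr r) (hr0 : Ex V r = 0) (hre : ∀ x, r (-x) = r x)
    (h : MeasureTheory.Lp ℝ 2 (mu V))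
    (f : ℕ → TF n) (hf : Tendsto (fun m => Jm hN.toReg (f m)) atTop (𝓝 h))
    (hA : Tendsto (fun m => Am hN.toReg hτ (f m)) atTop (𝓝 (-h))) :
    inner ℝ ((memLp_gr hN.toReg hr).toLp r) h = 0 := by
  have hZ := hN.toReg.Z_pos
  have t1 : Tendsto (fun m => Ex V (fun x => Lop ψ (f m).1 x ^ 2)) atTop
      (𝓝 (‖h‖ ^ 2 / (∫ x, Real.exp (-V x)))) := by
    have h2 : Tendsto (fun m => ‖Am hN.toReg hτ (f m)‖ ^ 2 / (∫ x, Real.exp (-V x))) atTop
        (𝓝 (‖h‖ ^ 2 / (∫ x, Real.exp (-V x)))) := by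
      have := (hA.norm.pow 2).div_const (∫ x, Real.exp (-V x))
      simpa using this
    refine h2.congr fun m => ?_
    rw [normsq_A, mul_div_cancel_left₀ _ hZ.ne']
  have t2 : Tendsto (fun m => Ex V (Gf ψ (f m).1 (f m).1)) atTop
      (𝓝 (‖h‖ ^ 2 / (∫ x, Real.exp (-V x)))) := by
    have h2 : Tendsto (fun m => -(inner ℝ (Am hN.toReg hτ (f m)) (Jm hN.toReg (f m)) : ℝ)
        / (∫ x, Real.exp (-V x))) atTop (𝓝 (‖h‖ ^ 2 / (∫ x, Real.exp (-V x)))) := by
      have := ((hA.inner hf).neg).div_const (∫ x, Real.exp (-V x))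
      simpa [inner_neg_left, real_inner_self_eq_norm_sq] using this
    refine h2.congr fun m => ?_
    rw [inner_A_J hI hN hM hτ, neg_neg, mul_div_cancel_left₀ _ hZ.ne']
  have t3 : Tendsto (fun m => Ex V (fun x => ∑ i, ∑ j, hess (f m).1 x i j ^ 2)) atTop (𝓝 0) := by
    have t4 := (t1.sub t2).const_mul (a ^ 2)⁻¹
    rw [sub_self, mul_zero] at t4
    refine squeeze_zero (fun m => Ex_nonneg hN.toReg fun x =>
      Finset.sum_nonneg fun _ _ => Finset.sum_nonneg fun _ _ => sq_nonneg _) (fun m => ?_) t4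
    have h1 := boch_id hB hN hM hτ (f m).2
    have ha : 0 < a ^ 2 := pow_pos hτ.a_pos 2
    rw [inv_mul_eq_div, le_div_iff₀ ha]
    linarith
  obtain ⟨a0, b, hb⟩ := hAf n V c C hN (fun m => (f m).1) h (fun m => (f m).2) (MeasureTheory.Lp.memLp h)
    (tendsto_Ex_sub hN.toReg h f hf) t3
  rw [real_inner_comm, inner_lp_toLp hN.toReg.cont]
  have h1 : ∫ x, h x * r x * Real.exp (-V x) =
      ∫ x, (a0 * (r x * Real.exp (-V x)) + ∑ i, b i * (r x * x i * Real.exp (-V x))) := by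
    refine integral_congr_ae ?_
    filter_upwards [hb] with x hx
    rw [hx, add_mul, add_mul, Finset.sum_mul, Finset.sum_mul]
    congr 1
    · ring
    · exact Finset.sum_congr rfl fun i _ => by ring
  have i1 : Integrable (fun x => a0 * (r x * Real.exp (-V x))) :=
    (hN.toReg.integrable_gr hr).const_mul a0
  have i2 : ∀ i, Integrable (fun x : E n => b i * (r x * x i * Real.exp (-V x))) := fun i =>
    (hN.toReg.integrable_gr (hr.mul (Gr.coord i))).const_mul (b i)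
  rw [h1, integral_add i1 (integrable_finsetSum _ fun i _ => i2 i),
    integral_finsetSum _ fun i _ => i2 i, integral_const_mul, int_eq_Ex hN.toReg, hr0]
  have h3 : ∀ i, ∫ x : E n, b i * (r x * x i * Real.exp (-V x)) = 0 := fun i => by
    rw [integral_const_mul, odd_int hN (g := fun x : E n => x i) hre (by simp), mul_zero]
  simp [h3]

end Vale.Agent.P227.M.LIN.T592
end

section

/-! # P227/M/LIN/TopF: assembly of `StmtLin` (helper592). -/

open MeasureTheory Filter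
open scoped Topology

namespace Vale.Agent.P227.M.LIN.T592

variable {n : ℕ} {ψ V : E n → ℝ} {c C M a K : ℝ}

theorem pd_sub' {f g : E n → ℝ} (hf : Differentiable ℝ f) (hg : Differentiable ℝ g) (i : Fin n)
    (x : E n) : pd i (f - g) x = pd i f x - pd i g x := by
  unfold pd
  rw [fderiv_sub (hf x) (hg x)]; rfl

theorem hess_sub' {f g : E n → ℝ} (hf : Test f) (hg : Test g) (i j : Fin n) (x : E n) :
    hess (f - g) x i j = hess f x i j - hess g x i j := by
  unfold hess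
  have : pd j (f - g) = pd j f - pd j g := by
    funext y; exact pd_sub' (test_diff hf) (test_diff hg) j y
  rw [this]
  exact pd_sub' (test_diff (test_pd hf j)) (test_diff (test_pd hg j)) i x

/-- energy bound: everything is controlled by `‖(J-A)f‖²` -/
theorem energy (hI : StmtIBP) (hB : StmtBoch) (hN : Nice V c C) (hM : MM ψ V c C M)
    (hτ : TauF ψ a K) (f : TF n) :
    Ex V (fun x => f.1 x ^ 2 + (∑ i, pd i f.1 x ^ 2) + ∑ i, ∑ j, hess f.1 x i j ^ 2) ≤
      (1 + a⁻¹ + (a ^ 2)⁻¹) / (∫ x, Real.exp (-V x)) * ‖Jm hN.toReg f - Am hN.toReg hτ f‖ ^ 2 := by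
  have hZ := hN.toReg.Z_pos
  have ha := hτ.a_pos
  have g1 : Gr (fun x => f.1 x ^ 2) := (gr_test f.2).pow 2
  have g2 : Gr (fun x => ∑ i, pd i f.1 x ^ 2) := Gr.sum _ fun i _ => (gr_test (test_pd f.2 i)).pow 2
  have g3 : Gr (fun x => ∑ i, ∑ j, hess f.1 x i j ^ 2) :=
    Gr.sum _ fun i _ => Gr.sum _ fun j _ => (gr_test (test_hess f.2 i j)).pow 2
  have e1 : Ex V (fun x => f.1 x ^ 2 + (∑ i, pd i f.1 x ^ 2) + ∑ i, ∑ j, hess f.1 x i j ^ 2) =
      Ex V (fun x => f.1 x ^ 2) + Ex V (fun x => ∑ i, pd i f.1 x ^ 2)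
        + Ex V (fun x => ∑ i, ∑ j, hess f.1 x i j ^ 2) := by
    rw [← Ex_add (hN.toReg.integrable_gr g1) (hN.toReg.integrable_gr g2),
      ← Ex_add (hN.toReg.integrable_gr (g1.add g2)) (hN.toReg.integrable_gr g3)]
  set P := Ex V (fun x => f.1 x ^ 2) with hP
  set Q := Ex V (fun x => Lop ψ f.1 x ^ 2) with hQ
  have hP0 : 0 ≤ P := Ex_nonneg hN.toReg fun x => sq_nonneg _
  have hQ0 : 0 ≤ Q := Ex_nonneg hN.toReg fun x => sq_nonneg _
  have hb := boch_id hB hN hM hτ f.2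
  have h2 : 0 ≤ a ^ 2 * Ex V (fun x => ∑ i, ∑ j, hess f.1 x i j ^ 2) :=
    mul_nonneg (sq_nonneg _) (Ex_nonneg hN.toReg fun x =>
      Finset.sum_nonneg fun _ _ => Finset.sum_nonneg fun _ _ => sq_nonneg _)
  have hG0 : 0 ≤ Ex V (Gf ψ f.1 f.1) := Ex_nonneg hN.toReg (Gf_nonneg hτ f.1)
  have h3 : a * Ex V (fun x => ∑ i, pd i f.1 x ^ 2) ≤ Ex V (Gf ψ f.1 f.1) := by
    rw [← Ex_const_mul]
    exact Ex_mono hN.toReg (hN.toReg.integrable_gr (g2.const_mul a))
      (hN.toReg.integrable_gr (gr_Gf hτ f.2 f.2)) fun x => Gf_ge hτ _ x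
  have b2 : Ex V (fun x => ∑ i, pd i f.1 x ^ 2) ≤ a⁻¹ * Q := by
    rw [inv_mul_eq_div, le_div_iff₀ ha]; linarith
  have b3 : Ex V (fun x => ∑ i, ∑ j, hess f.1 x i j ^ 2) ≤ (a ^ 2)⁻¹ * Q := by
    rw [inv_mul_eq_div, le_div_iff₀ (pow_pos ha 2)]; linarith
  have h4 : (∫ x, Real.exp (-V x)) * P + (∫ x, Real.exp (-V x)) * Q
      ≤ ‖Jm hN.toReg f - Am hN.toReg hτ f‖ ^ 2 := by
    rw [← normsq_J hN.toReg f, ← normsq_A hN.toReg hτ f, @norm_sub_sq_real, real_inner_comm]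
    have := neg_AJ hI hN hM hτ f
    linarith
  rw [e1]
  have h5 : P + Q ≤ ‖Jm hN.toReg f - Am hN.toReg hτ f‖ ^ 2 / (∫ x, Real.exp (-V x)) := by
    rw [le_div_iff₀ hZ]; linarith
  have hk : 0 ≤ 1 + a⁻¹ + (a ^ 2)⁻¹ := by positivity
  calc P + Ex V (fun x => ∑ i, pd i f.1 x ^ 2) + Ex V (fun x => ∑ i, ∑ j, hess f.1 x i j ^ 2)
      ≤ P + a⁻¹ * Q + (a ^ 2)⁻¹ * Q := by linarith
    _ ≤ (1 + a⁻¹ + (a ^ 2)⁻¹) * (P + Q) := by
        have i1 : 0 ≤ a⁻¹ * P := by positivity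
        have i2 : 0 ≤ (a ^ 2)⁻¹ * P := by positivity
        nlinarith
    _ ≤ (1 + a⁻¹ + (a ^ 2)⁻¹) * (‖Jm hN.toReg f - Am hN.toReg hτ f‖ ^ 2 / (∫ x, Real.exp (-V x))) :=
        mul_le_mul_of_nonneg_left h5 hk
    _ = _ := by ring

theorem int_sq_pd (h : Reg V c C) {f : E n → ℝ} (hf : BL f) :
    Integrable (fun x => (∑ b, pd b f x ^ 2) * Real.exp (-V x)) := by
  obtain ⟨K, hK⟩ := hf.pd_le
  have hm : ∀ b : Fin n, Measurable (pd b f) := fun b => measurable_fderiv_apply_const ℝ f (ei b)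
  refine (h.integrable_exp.const_mul (∑ _b : Fin n, K ^ 2)).mono'
    (((Finset.measurable_sum _ fun b _ => (hm b).pow_const 2).mul
      (by have := h.cont; fun_prop)).aestronglyMeasurable) (Eventually.of_forall fun x => ?_)
  rw [Real.norm_eq_abs, abs_of_nonneg
    (mul_nonneg (Finset.sum_nonneg fun _ _ => sq_nonneg _) (Real.exp_pos _).le)]
  refine mul_le_mul_of_nonneg_right (Finset.sum_le_sum fun b _ => ?_) (Real.exp_pos _).le
  exact sq_le_sq' (neg_le_of_abs_le (hK b x)) (le_of_abs_le (hK b x))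

theorem pd_split (hτ : TauF ψ a K) {F w v : E n → ℝ} (hF : Test F) (hw : Test w) (hv : Test v)
    (b : Fin n) (x : E n) :
    pd b (fun z => Lop ψ F z + F z + (w - (2 : ℝ) • v) z) x ^ 2 ≤
      2 * pd b (fun z => F z - Lop ψ F z - w z) x ^ 2 + 8 * (pd b F x - pd b v x) ^ 2 := by
  by_cases hd : DifferentiableAt ℝ (Lop ψ F) x
  · have dF := test_diff hF x
    have dw := test_diff hw x
    have dv := test_diff hv x
    have e1 : pd b (fun z => Lop ψ F z + F z + (w - (2 : ℝ) • v) z) x =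
        pd b (Lop ψ F) x + pd b F x + (pd b w x - 2 * pd b v x) := by
      have h : HasFDerivAt (fun z => Lop ψ F z + F z + (w - (2 : ℝ) • v) z)
          (fderiv ℝ (Lop ψ F) x + fderiv ℝ F x + (fderiv ℝ w x - (2 : ℝ) • fderiv ℝ v x)) x :=
        (hd.hasFDerivAt.add dF.hasFDerivAt).add (dw.hasFDerivAt.sub (dv.hasFDerivAt.const_smul 2))
      unfold pd
      rw [h.fderiv]; rfl
    have e2 : pd b (fun z => F z - Lop ψ F z - w z) x = pd b F x - pd b (Lop ψ F) x - pd b w x := by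
      have h : HasFDerivAt (fun z => F z - Lop ψ F z - w z)
          (fderiv ℝ F x - fderiv ℝ (Lop ψ F) x - fderiv ℝ w x) x :=
        (dF.hasFDerivAt.sub hd.hasFDerivAt).sub dw.hasFDerivAt
      unfold pd
      rw [h.fderiv]; rfl
    rw [e1, e2]
    nlinarith [sq_nonneg ((pd b F x - pd b (Lop ψ F) x - pd b w x) + 2 * (pd b F x - pd b v x))]
  · have hnd : ¬ DifferentiableAt ℝ (fun z => Lop ψ F z + F z + (w - (2 : ℝ) • v) z) x := by
      intro h
      apply hd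
      have h2 : DifferentiableAt ℝ (fun z => (Lop ψ F z + F z + (w - (2 : ℝ) • v) z)
          - (F z + (w - (2 : ℝ) • v) z)) x :=
        h.sub ((test_diff hF x).add ((test_diff hw x).sub ((test_diff hv x).const_smul 2)))
      refine h2.congr_of_eventuallyEq (Eventually.of_forall fun z => ?_)
      ring
    have : pd b (fun z => Lop ψ F z + F z + (w - (2 : ℝ) • v) z) x = 0 := by
      unfold pd
      rw [fderiv_zero_of_not_differentiableAt hnd]; rfl
    rw [this, zero_pow two_ne_zero]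
    positivity

theorem stmtLin_of' (hT : ∀ (n : ℕ) (ψ V : E n → ℝ) (c C M : ℝ), MM ψ V c C M → ∃ a K, TauF ψ a K)
    (hI : StmtIBP) (hE : StmtESA) (hB : StmtBoch) (hC : StmtConst) (hAf : StmtAff) (hH1 : StmtH1)
    (hH : StmtHilb) : StmtLin := by
  intro n ψ V c C M hN hM r hrc hre hrB hr0 ε hε
  obtain ⟨a, K, hτ⟩ := hT n ψ V c C M hM
  have hZ := hN.toReg.Z_pos
  have hr : Gr r := by
    obtain ⟨B, hB'⟩ := hrB
    refine ⟨hrc, |B|, 2, abs_nonneg _, fun x => (hB' x).trans ?_⟩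
    have h1 : B * (1 + ‖x‖ ^ 2) ≤ |B| * (1 + ‖x‖ ^ 2) :=
      mul_le_mul_of_nonneg_right (le_abs_self B) (by positivity)
    refine h1.trans (mul_le_mul_of_nonneg_left ?_ (abs_nonneg _))
    nlinarith [norm_nonneg x]
  set Z := ∫ x, Real.exp (-V x) with hZdef
  have hε' : 0 < Real.sqrt (ε * Z) := Real.sqrt_pos.2 (mul_pos hε hZ)
  obtain ⟨w, v, hv1, hv2⟩ := hH (TF n) (MeasureTheory.Lp ℝ 2 (mu V)) (Jm hN.toReg) (Am hN.toReg hτ)
    (sym_AJ hI hN hM hτ) (neg_AJ hI hN hM hτ) (dense_JA hE hN hM hτ)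
    ((memLp_gr hN.toReg hr).toLp r)
    (fun h f h1 h2 => ker0 hC hB hN hM hτ hr hr0 h f h1 h2)
    (fun h f h1 h2 => ker1 hI hAf hB hN hM hτ hr hr0 hre h f h1 h2) _ hε'
  -- the hypotheses of `StmtH1`
  have t1 : Tendsto (fun i => Ex V (fun x => ((v i).1 x - Lop ψ (v i).1 x - w.1 x) ^ 2))
      atTop (𝓝 0) := by
    have h2 : Tendsto (fun i => ‖(Jm hN.toReg (v i) - Am hN.toReg hτ (v i)) - Jm hN.toReg w‖ ^ 2 / Z)
        atTop (𝓝 0) := by
      have := ((tendsto_iff_norm_sub_tendsto_zero.1 hv1).pow 2).div_const Z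
      simpa using this
    refine h2.congr fun i => ?_
    have e : (Jm hN.toReg (v i) - Am hN.toReg hτ (v i)) - Jm hN.toReg w =
        (((memLp_gr hN.toReg (gr_test (v i).2)).sub (memLp_gr hN.toReg (bl_Lop hτ (v i).2).gr)).sub
          (memLp_gr hN.toReg (gr_test w.2))).toLp ((v i).1 - Lop ψ (v i).1 - w.1) := by
      rw [MemLp.toLp_sub ((memLp_gr hN.toReg (gr_test (v i).2)).sub
          (memLp_gr hN.toReg (bl_Lop hτ (v i).2).gr)) (memLp_gr hN.toReg (gr_test w.2)),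
        MemLp.toLp_sub (memLp_gr hN.toReg (gr_test (v i).2))
          (memLp_gr hN.toReg (bl_Lop hτ (v i).2).gr)]; rfl
    rw [e, normsq_toLp hN.toReg, mul_div_cancel_left₀ _ hZ.ne']
    rfl
  have t2 : ∀ η > 0, ∃ N : ℕ, ∀ i ≥ N, ∀ j ≥ N, Ex V (fun x => ((v i).1 x - (v j).1 x) ^ 2
      + (∑ b, (pd b (v i).1 x - pd b (v j).1 x) ^ 2)
      + ∑ b, ∑ d, (hess (v i).1 x b d - hess (v j).1 x b d) ^ 2) ≤ η := by
    intro η hη
    set κ := (1 + a⁻¹ + (a ^ 2)⁻¹) / Z with hκ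
    have ha := hτ.a_pos
    have hκ0 : 0 < κ := by positivity
    have hcau := hv1.cauchySeq
    have hs : 0 < Real.sqrt (η / κ) := Real.sqrt_pos.2 (div_pos hη hκ0)
    obtain ⟨N, hN'⟩ := Metric.cauchySeq_iff.1 hcau _ hs
    refine ⟨N, fun i hi j hj => ?_⟩
    have h1 := hN' i hi j hj
    rw [dist_eq_norm] at h1
    have h2 : (Jm hN.toReg (v i) - Am hN.toReg hτ (v i)) - (Jm hN.toReg (v j) - Am hN.toReg hτ (v j))
        = Jm hN.toReg (v i - v j) - Am hN.toReg hτ (v i - v j) := by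
      rw [map_sub, map_sub]; abel
    rw [h2] at h1
    have h3 := energy hI hB hN hM hτ (v i - v j)
    have e : (fun x => ((v i).1 x - (v j).1 x) ^ 2
      + (∑ b, (pd b (v i).1 x - pd b (v j).1 x) ^ 2)
      + ∑ b, ∑ d, (hess (v i).1 x b d - hess (v j).1 x b d) ^ 2) =
      (fun x => (v i - v j : TF n).1 x ^ 2 + (∑ b, pd b (v i - v j : TF n).1 x ^ 2)
        + ∑ b, ∑ d, hess (v i - v j : TF n).1 x b d ^ 2) := by
      funext x
      have q1 : (v i - v j : TF n).1 = (v i).1 - (v j).1 := rfl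
      rw [q1]
      simp only [pd_sub' (test_diff (v i).2) (test_diff (v j).2), hess_sub' (v i).2 (v j).2]
      rfl
    rw [e]
    refine h3.trans ?_
    have h4 : ‖Jm hN.toReg (v i - v j) - Am hN.toReg hτ (v i - v j)‖ ^ 2 ≤ η / κ := by
      have := pow_le_pow_left₀ (norm_nonneg _) h1.le 2
      rwa [Real.sq_sqrt (div_pos hη hκ0).le] at this
    calc κ * ‖Jm hN.toReg (v i - v j) - Am hN.toReg hτ (v i - v j)‖ ^ 2 ≤ κ * (η / κ) :=
          mul_le_mul_of_nonneg_left h4 hκ0.le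
      _ = η := by field_simp
  obtain ⟨B, hBB⟩ := hH1 n ψ V c C M hN hM w.1 (fun i => (v i).1) w.2 (fun i => (v i).2) t1 t2
  refine ⟨B, fun δ hδ => ?_⟩
  obtain ⟨F, N, hF, h1, h2, h3⟩ := hBB (δ / 10) (by positivity)
  have hu : Test (w.1 - (2 : ℝ) • (v N).1) := (w - (2 : ℝ) • v N).2
  refine ⟨F, w.1 - (2 : ℝ) • (v N).1, hF, hu, ?_, ?_, h3⟩
  · have h4 := hv2 N
    have h5 : (memLp_gr hN.toReg hr).toLp r + Am hN.toReg hτ (w - (2 : ℝ) • v N) =
        ((memLp_gr hN.toReg hr).add (memLp_gr hN.toReg (bl_Lop hτ hu).gr)).toLp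
          (r + Lop ψ (w.1 - (2 : ℝ) • (v N).1)) := by
      rw [MemLp.toLp_add (memLp_gr hN.toReg hr) (memLp_gr hN.toReg (bl_Lop hτ hu).gr)]; rfl
    rw [h5] at h4
    have h6 := pow_le_pow_left₀ (norm_nonneg _) h4 2
    rw [normsq_toLp hN.toReg, Real.sq_sqrt (mul_pos hε hZ).le] at h6
    have h7 : Ex V (fun x => (r + Lop ψ (w.1 - (2 : ℝ) • (v N).1)) x ^ 2) ≤ ε := by
      have : Z * Ex V (fun x => (r + Lop ψ (w.1 - (2 : ℝ) • (v N).1)) x ^ 2) ≤ Z * ε := by
        rw [mul_comm Z ε]; exact h6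
      exact le_of_mul_le_mul_left this hZ
    refine le_trans (le_of_eq ?_) h7
    congr 1
    funext x
    simp only [Pi.add_apply]
    ring
  · have blF := bl_Lop hτ hF
    have blG : BL (fun z => F z - Lop ψ F z - w.1 z) := ((BL.of_test hF).sub blF).sub (BL.of_test w.2)
    have blH : BL (fun z => Lop ψ F z + F z + (w.1 - (2 : ℝ) • (v N).1) z) :=
      (blF.add (BL.of_test hF)).add (BL.of_test hu)
    have gD : Gr (fun x => ∑ b, (pd b F x - pd b (v N).1 x) ^ 2) :=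
      Gr.sum _ fun b _ => ((gr_test (test_pd hF b)).sub (gr_test (test_pd (v N).2 b))).pow 2
    have iG := int_sq_pd hN.toReg blG
    have iH := int_sq_pd hN.toReg blH
    have iD := hN.toReg.integrable_gr gD
    have iG2 : Integrable (fun x => (2 * ∑ b, pd b (fun z => F z - Lop ψ F z - w.1 z) x ^ 2)
        * Real.exp (-V x)) := by
      refine (iG.const_mul 2).congr (Eventually.of_forall fun x => ?_)
      simp only; ring
    have iD2 := hN.toReg.integrable_gr (gD.const_mul 8)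
    have hle : Ex V (fun x => ∑ b, pd b (fun z => Lop ψ F z + F z + (w.1 - (2 : ℝ) • (v N).1) z) x ^ 2)
        ≤ Ex V (fun x => (2 * ∑ b, pd b (fun z => F z - Lop ψ F z - w.1 z) x ^ 2)
          + 8 * ∑ b, (pd b F x - pd b (v N).1 x) ^ 2) := by
      refine Ex_mono hN.toReg iH ?_ fun x => ?_
      · refine (iG2.add iD2).congr (Eventually.of_forall fun x => ?_)
        simp only [Pi.add_apply]; ring
      · rw [Finset.mul_sum, Finset.mul_sum, ← Finset.sum_add_distrib]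
        exact Finset.sum_le_sum fun b _ => pd_split hτ hF w.2 (v N).2 b x
    rw [Ex_add iG2 iD2, Ex_const_mul, Ex_const_mul] at hle
    have h2N := h2 N le_rfl
    linarith

end Vale.Agent.P227.M.LIN.T592
end

section

/-! # P227/M/LIN/TopG: `τ` facts for the assembly (helper592). -/

open MeasureTheory Filter Matrix
open scoped Topology

namespace Vale.Agent.P227.M.LIN.T592

variable {n : ℕ} {ψ V : E n → ℝ} {c C M : ℝ}

theorem dot_tau (A : Matrix (Fin n) (Fin n) ℝ) (g h : Fin n → ℝ) :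
    g ⬝ᵥ (A *ᵥ h) = ∑ i, ∑ j, A i j * g i * h j := by
  simp only [dotProduct, Matrix.mulVec, Finset.mul_sum]
  refine Finset.sum_congr rfl fun i _ => Finset.sum_congr rfl fun j _ => ?_
  ring

theorem tau_lower (h : MM ψ V c C M) (x : E n) (g : Fin n → ℝ) :
    (max C 1)⁻¹ * ∑ i, g i ^ 2 ≤ ∑ i, ∑ j, tau ψ x i j * g i * g j := by
  set D := max C 1 with hD
  have hD0 : 0 < D := lt_of_lt_of_le one_pos (le_max_right _ _)
  set A := hess ψ x with hA
  have hpd : A.PosDef := Loc.hess_psi_posDef h x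
  have hdet : IsUnit A.det := (Matrix.isUnit_iff_isUnit_det A).1 hpd.isUnit
  set w : Fin n → ℝ := A⁻¹ *ᵥ g with hw
  have hAw : A *ᵥ w = g := by
    rw [hw, Matrix.mulVec_mulVec, Matrix.mul_nonsing_inv _ hdet, Matrix.one_mulVec]
  have hs : ∑ i, ∑ j, tau ψ x i j * g i * g j = g ⬝ᵥ w := (dot_tau _ g g).symm
  have hsym : Aᵀ = A := by
    ext i j; exact hess_symm h.C2 x j i
  have h0 := h.lower x (WithLp.toLp 2 (g - D • w))
  have h0' : 0 ≤ (g - D • w) ⬝ᵥ (A *ᵥ (g - D • w)) := by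
    refine le_trans ?_ (h0.trans (le_of_eq (Loc.qf_eq _ _)))
    have := h.c_pos; positivity
  have hup : g ⬝ᵥ (A *ᵥ g) ≤ D * ∑ i, g i ^ 2 := by
    have h1 := h.upper x (WithLp.toLp 2 g)
    rw [Loc.qf_eq, norm_sq_eq_sum] at h1
    have h2 : C * ∑ i, g i ^ 2 ≤ D * ∑ i, g i ^ 2 :=
      mul_le_mul_of_nonneg_right (le_max_left _ _) (Finset.sum_nonneg fun _ _ => sq_nonneg _)
    exact h1.trans h2
  have hgg : g ⬝ᵥ g = ∑ i, g i ^ 2 := by simp [dotProduct, sq]
  have hwg : w ⬝ᵥ (A *ᵥ g) = ∑ i, g i ^ 2 := by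
    rw [Matrix.dotProduct_mulVec, ← Matrix.mulVec_transpose, hsym, hAw, hgg]
  have hexp : (g - D • w) ⬝ᵥ (A *ᵥ (g - D • w)) =
      g ⬝ᵥ (A *ᵥ g) - 2 * D * (∑ i, g i ^ 2) + D ^ 2 * (g ⬝ᵥ w) := by
    rw [Matrix.mulVec_sub, Matrix.mulVec_smul, hAw]
    simp only [sub_dotProduct, dotProduct_sub, smul_dotProduct, dotProduct_smul, smul_eq_mul, hgg,
      hwg, dotProduct_comm w g]
    ring
  rw [hexp] at h0'
  rw [hs, inv_mul_eq_div, div_le_iff₀ hD0]
  have h5 : D * (∑ i, g i ^ 2) ≤ D * (g ⬝ᵥ w * D) := by nlinarith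
  exact le_of_mul_le_mul_left h5 hD0

theorem tauF_of (n : ℕ) (ψ V : E n → ℝ) (c C M : ℝ) (h : MM ψ V c C M) : ∃ a K, TauF ψ a K := by
  refine ⟨(max C 1)⁻¹, 1 / c + |(n : ℝ) ^ 2 * (1 / c) ^ 2 * M|, ?_⟩
  have hc := h.c_pos
  refine ⟨by positivity, fun x => (Loc.tau_posDef h x).posSemidef, fun x i j => Loc.tau_symm h x i j,
    fun x g => tau_lower h x g, fun x i j => ?_, fun x y i j => ?_⟩
  · exact (Loc.tau_bdd h x i j).trans (le_add_of_nonneg_right (abs_nonneg _))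
  · refine (Loc.tau_lip h x y i j).trans (mul_le_mul_of_nonneg_right ?_ (norm_nonneg _))
    refine (le_abs_self _).trans (le_add_of_nonneg_left (by positivity))

/-- **assembly of block LIN** -/
theorem stmtLin_of (hI : StmtIBP) (hE : StmtESA) (hB : StmtBoch) (hC : StmtConst) (hAf : StmtAff)
    (hH1 : StmtH1) (hH : StmtHilb) : StmtLin :=
  stmtLin_of' tauF_of hI hE hB hC hAf hH1 hH

end Vale.Agent.P227.M.LIN.T592
end

section

/-! # P227/M/LIN/Most: `StmtLin` from the two remaining leaves (helper592). -/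

namespace Vale.Agent.P227.M.LIN

/-- `StmtLin` from ESA and the second Friedrichs step -/
theorem stmtLin_of_two (hE : StmtESA) (hH1 : StmtH1) : StmtLin :=
  T592.stmtLin_of B294.stmtIBP hE stmtBoch stmtConst stmtAff hH1 stmtHilb

end Vale.Agent.P227.M.LIN
end

section

/-! # P227/M/Loc/Ineq: the inequality for fixed test functions `F`, `u` -/

open MeasureTheory

namespace Vale.Agent.P227.M.Loc

variable {n : ℕ} {ψ V : E n → ℝ} {c C M : ℝ}

/-! ### pointwise -/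

theorem pt_trace (h : MM ψ V c C M) {W F : E n → ℝ} (hW : Piece W) (hF : Test F) (ρ : ℝ) (x : E n) :
    0 ≤ ρ ^ 2 * (hess W x * tau ψ x).trace - 2 * ρ * (hess W x * tau ψ x * hess F x * tau ψ x).trace
      + (hess W x * tau ψ x * hess F x * tau ψ x * hess F x * tau ψ x).trace := by
  have hF2 : ContDiff ℝ 2 F := hF.1.of_le (by norm_cast)
  refine trace_square_nonneg (posSemidef_of_qf (hess_symm hW.C2 x) (hW.psd x))
    (tau_posDef h x).posSemidef ?_ ρ
  ext i j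
  simp [hess_symm hF2 x i j]

theorem pt_vec {W : E n → ℝ} (hW : Piece W) (ρ : ℝ) (x : E n) (s : Fin n → ℝ) :
    0 ≤ ρ ^ 2 * qf (hess W x) x - 2 * ρ * (∑ b, (∑ i, hess W x b i * x i) * s b)
      + ∑ a, ∑ b, hess W x a b * s a * s b := by
  have h := hW.psd x (WithLp.toLp 2 (fun i => ρ * x i - s i))
  have e1 : ∑ b, (∑ i, hess W x b i * x i) * s b = ∑ a, ∑ b, hess W x a b * x b * s a := by
    refine Finset.sum_congr rfl fun a _ => ?_
    rw [Finset.sum_mul]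
  have e2 : ∑ a, ∑ b, hess W x a b * x b * s a = ∑ a, ∑ b, hess W x a b * x a * s b := by
    rw [Finset.sum_comm]
    refine Finset.sum_congr rfl fun a _ => Finset.sum_congr rfl fun b _ => ?_
    rw [hess_symm hW.C2 x b a]
  have e3 : qf (hess W x) (WithLp.toLp 2 (fun i => ρ * x i - s i))
      = ρ ^ 2 * qf (hess W x) x - ρ * (∑ a, ∑ b, hess W x a b * x b * s a)
        - ρ * (∑ a, ∑ b, hess W x a b * x a * s b) + ∑ a, ∑ b, hess W x a b * s a * s b := by
    simp only [qf, Finset.mul_sum, ← Finset.sum_sub_distrib, ← Finset.sum_add_distrib]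
    refine Finset.sum_congr rfl fun a _ => Finset.sum_congr rfl fun b _ => ?_
    ring
  rw [e3, e2] at h
  rw [e1, e2]
  linarith

/-! ### growth of matrix valued functions -/

/-- all entries are of polynomial growth -/
def GmM (A : E n → Matrix (Fin n) (Fin n) ℝ) : Prop := ∀ i j, Gm (fun x => A x i j)

theorem GmM.mul {A B : E n → Matrix (Fin n) (Fin n) ℝ} (hA : GmM A) (hB : GmM B) :
    GmM (fun x => A x * B x) := fun i j => by
  simp only [Matrix.mul_apply]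
  exact Gm.fsum fun k => (hA i k).mul (hB k j)

theorem GmM.trace {A : E n → Matrix (Fin n) (Fin n) ℝ} (hA : GmM A) : Gm (fun x => (A x).trace) := by
  simp only [Matrix.trace, Matrix.diag_apply]
  exact Gm.fsum fun k => hA k k

theorem gmM_hess {W : E n → ℝ} (hW : Piece W) : GmM (hess W) := fun i j => Gm.of_gr (hW.gr_hess i j)

theorem gmM_hessT {F : E n → ℝ} (hF : Test F) : GmM (hess F) := fun i j => Gm.of_gr (BL.of_test (test_hess hF i j)).gr

theorem gmM_tau (h : MM ψ V c C M) : GmM (tau ψ) := fun i j => Gm.of_gr (bl_tau h i j).gr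

theorem gm_qf {W : E n → ℝ} (hW : Piece W) : Gm (fun x => qf (hess W x) x) :=
  Gm.fsum fun i => Gm.fsum fun j => ((gmM_hess hW i j).mul (Gm.coord i)).mul (Gm.coord j)

theorem gm_rad {W : E n → ℝ} (hW : Piece W) : Gm (rad W) :=
  Gm.fsum fun i => (Gm.coord i).mul (Gm.of_gr (hW.gr_pd i))

theorem gm_Lop (h : MM ψ V c C M) {u : E n → ℝ} (hu : Test u) : Gm (Lop ψ u) :=
  Gm.of_gr (bl_Lop h hu).gr

/-! ### the abbreviations -/

/-- `h = LF + F + u` -/
noncomputable def hh (ψ F u : E n → ℝ) (z : E n) : ℝ := Lop ψ F z + F z + u z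

theorem bl_LF (h : MM ψ V c C M) {F : E n → ℝ} (hF : Test F) : BL (fun z => Lop ψ F z + F z) :=
  (bl_Lop h hF).add (BL.of_test hF)

theorem bl_hh (h : MM ψ V c C M) {F u : E n → ℝ} (hF : Test F) (hu : Test u) : BL (hh ψ F u) :=
  (bl_LF h hF).add (BL.of_test hu)

/-- one piece: `E tr (HτNτ) + E ⟨Hx, s⟩ = E (-Lu) g - E ⟨∇W, τ∇h⟩` -/
theorem one_piece (hibp : StmtIBP) (hdiv : StmtDiv) (hV : Nice V c C) (h : MM ψ V c C M)
    {W F u : E n → ℝ} (hW : Piece W) (hF : Test F) (hu : Test u) :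
    Ex V (fun x => (hess W x * tau ψ x * hess F x * tau ψ x).trace)
      + Ex V (fun x => ∑ b, (∑ i, hess W x b i * x i) * fld ψ u b x)
      = - Ex V (fun x => Lop ψ u x * rad W x)
        - Ex V (fun x => ∑ b, pd b W x * fld ψ (hh ψ F u) b x) := by
  have hR : Reg V c C := hV.toReg
  have hsu : ∀ b, Gm (fld ψ u b) := fun b => gm_fld h (BL.of_test hu) b
  have hpW : ∀ b, Gm (pd b W) := fun b => Gm.of_gr (hW.gr_pd b)
  have h1 := hibp n ψ V c C M hV h u (rad W) hu (rad_smooth hW.smooth)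
  have h2 := hdiv n ψ V c C M hV h F W hF hW.smooth
  have e1 : Ex V (fun x => -(Lop ψ u x) * rad W x) = - Ex V (fun x => Lop ψ u x * rad W x) := by
    rw [← Ex_neg]
    simp only [neg_mul]
  have e2 : Ex V (fun x => ∑ b, pd b (rad W) x * fld ψ u b x)
      = Ex V (fun x => ∑ b, pd b W x * fld ψ u b x)
        + Ex V (fun x => ∑ b, (∑ i, hess W x b i * x i) * fld ψ u b x) := by
    rw [← Ex_add hR (Gm.fsum fun b => (hpW b).mul (hsu b))
      (Gm.fsum fun b => (Gm.fsum fun i => (gmM_hess hW b i).mul (Gm.coord i)).mul (hsu b))]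
    congr 1
    funext x
    rw [← Finset.sum_add_distrib]
    refine Finset.sum_congr rfl fun b _ => ?_
    rw [pd_rad hW.smooth]
    ring
  have e3 : Ex V (fun x => ∑ b, pd b W x * fld ψ (hh ψ F u) b x)
      = Ex V (fun x => ∑ b, pd b W x * fld ψ (fun z => Lop ψ F z + F z) b x)
        + Ex V (fun x => ∑ b, pd b W x * fld ψ u b x) := by
    rw [← Ex_add hR (Gm.fsum fun b => (hpW b).mul (gm_fld h (bl_LF h hF) b))
      (Gm.fsum fun b => (hpW b).mul (hsu b))]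
    refine Ex_congr_ae ?_
    filter_upwards [fld_add_ae (ψ := ψ) (bl_LF h hF) (hu.1.differentiable (by simp))] with x hx
    rw [← Finset.sum_add_distrib]
    refine Finset.sum_congr rfl fun b _ => ?_
    rw [← mul_add, ← hx b]
    rfl
  rw [e1, e2] at h1
  rw [e3, h2]
  linarith

/-- the function `f = ∑ ρ_j ⟨x, ∇W_j⟩` -/
noncomputable def ff {J : ℕ} (W : Fin J → E n → ℝ) (ρ : Fin J → ℝ) (x : E n) : ℝ :=
  ∑ j, ρ j * ∑ i, x i * pd i (W j) x

theorem gm_ff {J : ℕ} {W : Fin J → E n → ℝ} (hW : ∀ j, Piece (W j)) (ρ : Fin J → ℝ) :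
    Gm (ff W ρ) := Gm.fsum fun j => (gm_rad (hW j)).const_mul (ρ j)

/-- the two error terms -/
theorem main_ineq (hst : StmtStein) (hibp : StmtIBP) (hdiv : StmtDiv) (hkey : StmtKey)
    (hV : Nice V c C) (h : MM ψ V c C M) {J : ℕ} {W : Fin J → E n → ℝ}
    (hW : ∀ j, Piece (W j)) (hVW : V = fun x => ∑ j, W j x) (ρ : Fin J → ℝ)
    {F u : E n → ℝ} (hF : Test F) (hu : Test u) :
    0 ≤ (∑ j, ρ j ^ 2 * Ex V (fun x => (∑ i, x i * pd i (W j) x) + qf (hess (W j) x) x))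
      + 2 * Ex V (fun x => Lop ψ u x * ff W ρ x) + Ex V (fun x => (Lop ψ u x) ^ 2)
      + 2 * Ex V (fun x => ∑ b, (∑ j, ρ j * pd b (W j) x) * fld ψ (hh ψ F u) b x)
      + 2 * Ex V (fun x => ∑ b, fld ψ (hh ψ F u) b x * Lop ψ (pd b F) x) := by
  have hR : Reg V c C := hV.toReg
  have hsu : ∀ b, Gm (fld ψ u b) := fun b => gm_fld h (BL.of_test hu) b
  have hsh : ∀ b, Gm (fld ψ (hh ψ F u) b) := fun b => gm_fld h (bl_hh h hF hu) b
  have hpW : ∀ j b, Gm (pd b (W j)) := fun j b => Gm.of_gr ((hW j).gr_pd b)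
  have gT := gmM_tau h
  have gN := gmM_hessT hF
  have gH : ∀ j, GmM (hess (W j)) := fun j => gmM_hess (hW j)
  -- trace part
  have hA : ∀ j, 0 ≤ ρ j ^ 2 * Ex V (fun x => (hess (W j) x * tau ψ x).trace)
      - 2 * ρ j * Ex V (fun x => (hess (W j) x * tau ψ x * hess F x * tau ψ x).trace)
      + Ex V (fun x => (hess (W j) x * tau ψ x * hess F x * tau ψ x * hess F x * tau ψ x).trace) :=
    fun j => by
      have g1 := ((gH j).mul gT).trace
      have g2 := ((((gH j).mul gT).mul gN).mul gT).trace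
      have g3 := ((((((gH j).mul gT).mul gN).mul gT).mul gN).mul gT).trace
      have h0 := Ex_nonneg hR fun x => pt_trace h (hW j) hF (ρ j) x
      rw [Ex_add hR ((g1.const_mul _).sub (g2.const_mul _)) g3,
        Ex_sub hR (g1.const_mul _) (g2.const_mul _), Ex_const_mul, Ex_const_mul] at h0
      exact h0
  have hB : ∀ j, 0 ≤ ρ j ^ 2 * Ex V (fun x => qf (hess (W j) x) x)
      - 2 * ρ j * Ex V (fun x => ∑ b, (∑ i, hess (W j) x b i * x i) * fld ψ u b x)
      + Ex V (fun x => ∑ a, ∑ b, hess (W j) x a b * fld ψ u a x * fld ψ u b x) :=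
    fun j => by
      have g1 := gm_qf (hW j)
      have g2 : Gm (fun x => ∑ b, (∑ i, hess (W j) x b i * x i) * fld ψ u b x) :=
        Gm.fsum fun b => (Gm.fsum fun i => (gH j b i).mul (Gm.coord i)).mul (hsu b)
      have g3 : Gm (fun x => ∑ a, ∑ b, hess (W j) x a b * fld ψ u a x * fld ψ u b x) :=
        Gm.fsum fun a => Gm.fsum fun b => ((gH j a b).mul (hsu a)).mul (hsu b)
      have h0 := Ex_nonneg hR fun x => pt_vec (hW j) (ρ j) x (fun b => fld ψ u b x)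
      rw [Ex_add hR ((g1.const_mul _).sub (g2.const_mul _)) g3,
        Ex_sub hR (g1.const_mul _) (g2.const_mul _), Ex_const_mul, Ex_const_mul] at h0
      exact h0
  -- sums of the last terms
  have hHV : ∀ x, hess V x = ∑ j, hess (W j) x := fun x => by
    rw [hVW]
    exact hess_sum (fun j => (hW j).smooth) x
  have hC1 : Ex V (fun x => (hess V x * tau ψ x * hess F x * tau ψ x * hess F x * tau ψ x).trace)
      = ∑ j, Ex V (fun x =>
        (hess (W j) x * tau ψ x * hess F x * tau ψ x * hess F x * tau ψ x).trace) := by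
    rw [← Ex_sum hR _ fun j _ => ((((((gH j).mul gT).mul gN).mul gT).mul gN).mul gT).trace]
    congr 1
    funext x
    rw [hHV x]
    simp only [Finset.sum_mul, Matrix.trace_sum]
  have hC2 : Ex V (fun x => ∑ a, ∑ b, hess V x a b * fld ψ u a x * fld ψ u b x)
      = ∑ j, Ex V (fun x => ∑ a, ∑ b, hess (W j) x a b * fld ψ u a x * fld ψ u b x) := by
    rw [← Ex_sum hR _ fun j _ => Gm.fsum fun a => Gm.fsum fun b => ((gH j a b).mul (hsu a)).mul (hsu b)]
    congr 1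
    funext x
    rw [hHV x]
    simp only [Matrix.sum_apply, Finset.sum_mul]
    calc _ = ∑ a, ∑ j, ∑ b, hess (W j) x a b * fld ψ u a x * fld ψ u b x :=
          Finset.sum_congr rfl fun a _ => Finset.sum_comm
      _ = _ := Finset.sum_comm
  have hK := hkey n ψ V c C M hV h F u hF hu
  rw [hC1, hC2] at hK
  -- linear terms
  have hD : Ex V (fun x => Lop ψ u x * ff W ρ x)
      = ∑ j, ρ j * Ex V (fun x => Lop ψ u x * rad (W j) x) := by
    have : ∀ j, ρ j * Ex V (fun x => Lop ψ u x * rad (W j) x)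
        = Ex V (fun x => ρ j * (Lop ψ u x * rad (W j) x)) := fun j => (Ex_const_mul _ _).symm
    rw [Finset.sum_congr rfl fun j _ => this j,
      ← Ex_sum hR _ fun j _ => ((gm_Lop h hu).mul (gm_rad (hW j))).const_mul _]
    congr 1
    funext x
    simp only [ff, Finset.mul_sum, rad]
    refine Finset.sum_congr rfl fun j _ => Finset.sum_congr rfl fun i _ => ?_
    ring
  have hE : Ex V (fun x => ∑ b, (∑ j, ρ j * pd b (W j) x) * fld ψ (hh ψ F u) b x)
      = ∑ j, ρ j * Ex V (fun x => ∑ b, pd b (W j) x * fld ψ (hh ψ F u) b x) := by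
    have : ∀ j, ρ j * Ex V (fun x => ∑ b, pd b (W j) x * fld ψ (hh ψ F u) b x)
        = Ex V (fun x => ρ j * (∑ b, pd b (W j) x * fld ψ (hh ψ F u) b x)) :=
      fun j => (Ex_const_mul _ _).symm
    rw [Finset.sum_congr rfl fun j _ => this j,
      ← Ex_sum hR _ fun j _ => (Gm.fsum fun b => (hpW j b).mul (hsh b)).const_mul _]
    congr 1
    funext x
    simp only [Finset.sum_mul, Finset.mul_sum]
    rw [Finset.sum_comm]
    refine Finset.sum_congr rfl fun j _ => Finset.sum_congr rfl fun i _ => ?_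
    ring
  have hF' : ∀ j, ρ j ^ 2 * Ex V (fun x => (∑ i, x i * pd i (W j) x) + qf (hess (W j) x) x)
      = ρ j ^ 2 * Ex V (fun x => (hess (W j) x * tau ψ x).trace)
        + ρ j ^ 2 * Ex V (fun x => qf (hess (W j) x) x) := fun j => by
    have h1 : Ex V (fun x => (∑ i, x i * pd i (W j) x) + qf (hess (W j) x) x)
        = Ex V (rad (W j)) + Ex V (fun x => qf (hess (W j) x) x) :=
      Ex_add hR (gm_rad (hW j)) (gm_qf (hW j))
    rw [hst n ψ V c C M hV h (W j) (hW j), h1, mul_add]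
    rfl
  have hj : ∀ j, 0 ≤ ρ j ^ 2 * Ex V (fun x => (∑ i, x i * pd i (W j) x) + qf (hess (W j) x) x)
      + 2 * (ρ j * Ex V (fun x => Lop ψ u x * rad (W j) x))
      + 2 * (ρ j * Ex V (fun x => ∑ b, pd b (W j) x * fld ψ (hh ψ F u) b x))
      + Ex V (fun x => (hess (W j) x * tau ψ x * hess F x * tau ψ x * hess F x * tau ψ x).trace)
      + Ex V (fun x => ∑ a, ∑ b, hess (W j) x a b * fld ψ u a x * fld ψ u b x) := fun j => by
    have h1 := hA j
    have h2 := hB j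
    have h3 := one_piece hibp hdiv hV h (hW j) hF hu
    rw [hF' j]
    have h4 : ρ j * (Ex V (fun x => (hess (W j) x * tau ψ x * hess F x * tau ψ x).trace)
      + Ex V (fun x => ∑ b, (∑ i, hess (W j) x b i * x i) * fld ψ u b x))
      = ρ j * (- Ex V (fun x => Lop ψ u x * rad (W j) x)
        - Ex V (fun x => ∑ b, pd b (W j) x * fld ψ (hh ψ F u) b x)) := by rw [h3]
    rw [mul_add, mul_sub, mul_neg] at h4
    linarith
  have hs := Finset.sum_nonneg fun j (_ : j ∈ Finset.univ) => hj j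
  simp only [Finset.sum_add_distrib, ← Finset.mul_sum] at hs
  rw [hD, hE]
  have hhk : Ex V (fun x => ∑ b, fld ψ (fun z => Lop ψ F z + F z + u z) b x * Lop ψ (pd b F) x)
      = Ex V (fun x => ∑ b, fld ψ (hh ψ F u) b x * Lop ψ (pd b F) x) := rfl
  rw [hhk] at hK
  linarith

end Vale.Agent.P227.M.Loc
end

section

/-! # P227/M/Loc/Main: the block LOC -/

open MeasureTheory

namespace Vale.Agent.P227.M.Loc

variable {n : ℕ} {ψ V : E n → ℝ} {c C M : ℝ}

theorem young {t : ℝ} (ht : 0 < t) (a b : ℝ) : 2 * (a * b) ≤ t * a ^ 2 + b ^ 2 / t := by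
  have h : 0 ≤ (t * a - b) ^ 2 / t := by positivity
  have e : (t * a - b) ^ 2 / t = t * a ^ 2 - 2 * (a * b) + b ^ 2 / t := by
    field_simp
    ring
  linarith

theorem Ex_young (hR : Reg V c C) {f g : Fin n → E n → ℝ} (hf : ∀ b, Gm (f b)) (hg : ∀ b, Gm (g b))
    {t : ℝ} (ht : 0 < t) :
    2 * Ex V (fun x => ∑ b, f b x * g b x)
      ≤ t * Ex V (fun x => ∑ b, f b x ^ 2) + Ex V (fun x => ∑ b, g b x ^ 2) / t := by
  have g1 : Gm (fun x => ∑ b, f b x * g b x) := Gm.fsum fun b => (hf b).mul (hg b)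
  have g2 : Gm (fun x => ∑ b, f b x ^ 2) := Gm.fsum fun b => (hf b).sq
  have g3 : Gm (fun x => ∑ b, g b x ^ 2) := Gm.fsum fun b => (hg b).sq
  have h := Ex_mono hR (g1.const_mul 2) ((g2.const_mul t).add (g3.const_mul (1 / t))) fun x => by
    rw [Finset.mul_sum, Finset.mul_sum, Finset.mul_sum, ← Finset.sum_add_distrib]
    refine Finset.sum_le_sum fun b _ => ?_
    have := young ht (f b x) (g b x)
    rw [one_div, inv_mul_eq_div]
    exact this
  rw [Ex_add hR (g2.const_mul t) (g3.const_mul (1 / t)), Ex_const_mul, Ex_const_mul, Ex_const_mul] at h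
  rw [div_eq_inv_mul, ← one_div]
  exact h

theorem fld_sq_le (h : MM ψ V c C M) (f : E n → ℝ) (x : E n) :
    ∑ b, fld ψ f b x ^ 2 ≤ (n * (n * (1 / c) ^ 2)) * ∑ b, pd b f x ^ 2 := by
  have hc := h.c_pos
  have h1 : ∀ b, fld ψ f b x ^ 2 ≤ (n * (1 / c) ^ 2) * ∑ j, pd j f x ^ 2 := fun b => by
    have h2 := Finset.sum_mul_sq_le_sq_mul_sq Finset.univ (fun j => tau ψ x b j) (fun j => pd j f x)
    refine h2.trans ?_
    refine mul_le_mul_of_nonneg_right ?_ (Finset.sum_nonneg fun j _ => sq_nonneg _)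
    calc ∑ j, tau ψ x b j ^ 2 ≤ ∑ _j : Fin n, (1 / c) ^ 2 := by
          refine Finset.sum_le_sum fun j _ => ?_
          rw [← sq_abs]
          exact pow_le_pow_left₀ (abs_nonneg _) (tau_bdd h x b j) 2
      _ = _ := by simp
  calc ∑ b, fld ψ f b x ^ 2 ≤ ∑ _b : Fin n, (n * (1 / c) ^ 2) * ∑ j, pd j f x ^ 2 :=
        Finset.sum_le_sum fun b _ => h1 b
    _ = _ := by
        simp only [Finset.sum_const, Finset.card_univ, Fintype.card_fin, nsmul_eq_mul]
        ring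

/-! ### the right hand side is even and has quadratic growth -/

theorem rad_even {W : E n → ℝ} (hW : Piece W) (x : E n) : rad W (-x) = rad W x := by
  have h : ∀ i, pd i W (-x) = - pd i W x := fun i => by
    have h1 : (fun y => W (-y)) = W := funext hW.even
    have hd : Differentiable ℝ W := hW.smooth.differentiable (by simp)
    have h2 : HasFDerivAt (fun y => W (-y)) (-(fderiv ℝ W (-x))) x := by
      have h3 : HasFDerivAt (fun y => W (-y))
          ((fderiv ℝ W (-x)).comp (-ContinuousLinearMap.id ℝ (E n))) x :=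
        (hd (-x)).hasFDerivAt.comp x (hasFDerivAt_id x).neg
      have e : (fderiv ℝ W (-x)).comp (-ContinuousLinearMap.id ℝ (E n)) = -(fderiv ℝ W (-x)) := by
        ext v
        simp
      rw [e] at h3
      exact h3
    rw [h1] at h2
    unfold pd
    rw [h2.fderiv]
    simp
  unfold rad
  refine Finset.sum_congr rfl fun i _ => ?_
  rw [h i]
  simp

/-- at most quadratic growth -/
def Q2 (f : E n → ℝ) : Prop := ∃ B, 0 ≤ B ∧ ∀ x, |f x| ≤ B * (1 + ‖x‖ ^ 2)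

theorem Q2.add {f g : E n → ℝ} (hf : Q2 f) (hg : Q2 g) : Q2 (fun x => f x + g x) := by
  obtain ⟨B, hB, h1⟩ := hf
  obtain ⟨B', hB', h2⟩ := hg
  refine ⟨B + B', by positivity, fun x => ?_⟩
  have := abs_add_le (f x) (g x)
  have := h1 x
  have := h2 x
  rw [add_mul]
  linarith

theorem Q2.const (a : ℝ) : Q2 (fun _ : E n => a) := by
  refine ⟨|a|, abs_nonneg _, fun x => ?_⟩
  nlinarith [abs_nonneg a, sq_nonneg ‖x‖, mul_nonneg (abs_nonneg a) (sq_nonneg ‖x‖)]

theorem Q2.const_mul {f : E n → ℝ} (hf : Q2 f) (a : ℝ) : Q2 (fun x => a * f x) := by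
  obtain ⟨B, hB, h1⟩ := hf
  refine ⟨|a| * B, by positivity, fun x => ?_⟩
  rw [abs_mul, mul_assoc]
  exact mul_le_mul_of_nonneg_left (h1 x) (abs_nonneg _)

theorem Q2.fsum {ι : Type*} [Fintype ι] {f : ι → E n → ℝ} (hf : ∀ i, Q2 (f i)) :
    Q2 (fun x => ∑ i, f i x) := by
  classical
  have : ∀ s : Finset ι, Q2 (fun x => ∑ i ∈ s, f i x) := fun s => by
    induction s using Finset.induction_on with
    | empty => simpa using Q2.const (n := n) 0
    | insert a s ha ih =>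
      have h := (hf a).add ih
      simpa [Finset.sum_insert ha] using h
  exact this _

theorem q2_rad {W : E n → ℝ} (hW : Piece W) : Q2 (rad W) := by
  refine Q2.fsum fun i => ?_
  obtain ⟨B, hB⟩ := hW.bdd 2 le_rfl
  have hB0 : 0 ≤ B := (norm_nonneg _).trans (hB 0)
  refine ⟨‖fderiv ℝ W 0‖ + B, by positivity, fun x => ?_⟩
  have h1 := abs_pd_le_norm W x i
  have h2 := norm_fderiv_le hW.C2 hB x
  have h3 := abs_coord_le x i
  have h4 := norm_nonneg x
  have h5 := norm_nonneg (fderiv ℝ W 0)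
  rw [abs_mul]
  calc |x i| * |pd i W x| ≤ ‖x‖ * (‖fderiv ℝ W 0‖ + B * ‖x‖) :=
        mul_le_mul h3 (h1.trans h2) (abs_nonneg _) h4
    _ ≤ _ := by
        have h6 : ‖x‖ ≤ 1 + ‖x‖ ^ 2 := by nlinarith [sq_nonneg (‖x‖ - 1)]
        have h7 := mul_le_mul_of_nonneg_left h6 h5
        nlinarith

/-- the local inequality for a moment map measure `e^{-V}` -/
theorem local_of_mm (hst : StmtStein) (hibp : StmtIBP) (hdiv : StmtDiv) (hkey : StmtKey)
    (hlin : StmtLin) (hV : Nice V c C) (h : MM ψ V c C M) {J : ℕ} {W : Fin J → E n → ℝ}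
    (hW : ∀ j, Piece (W j)) (hVW : V = fun x => ∑ j, W j x) (ρ : Fin J → ℝ) :
    Ex V (fun x => (∑ j, ρ j * ∑ i, x i * pd i (W j) x) ^ 2)
      - (Ex V (fun x => ∑ j, ρ j * ∑ i, x i * pd i (W j) x)) ^ 2
      ≤ ∑ j, ρ j ^ 2 * Ex V (fun x => (∑ i, x i * pd i (W j) x) + qf (hess (W j) x) x) := by
  have hR : Reg V c C := hV.toReg
  have hc := hV.c_pos
  set D := ∑ j, ρ j ^ 2 * Ex V (fun x => (∑ i, x i * pd i (W j) x) + qf (hess (W j) x) x) with hD
  change Ex V (fun x => ff W ρ x ^ 2) - (Ex V (ff W ρ)) ^ 2 ≤ D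
  set m := Ex V (ff W ρ) with hm
  have gf : Gm (ff W ρ) := gm_ff hW ρ
  -- the right hand side of the linear equation
  have hr0 : Ex V (fun x => ff W ρ x - m) = 0 := by
    rw [Ex_sub hR gf (Gm.const m), Ex_const hR, ← hm, sub_self]
  have hrc : Continuous (fun x => ff W ρ x - m) := by
    refine Continuous.sub ?_ continuous_const
    refine continuous_finsetSum _ fun j _ => continuous_const.mul ?_
    exact (rad_smooth (hW j).smooth).continuous
  have hre : ∀ x, ff W ρ (-x) - m = ff W ρ x - m := fun x => by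
    congr 1
    exact Finset.sum_congr rfl fun j _ => congrArg (ρ j * ·) (rad_even (hW j) x)
  have hrb : ∃ B, ∀ x, |ff W ρ x - m| ≤ B * (1 + ‖x‖ ^ 2) := by
    have h1 : Q2 (ff W ρ) := Q2.fsum fun j => (q2_rad (hW j)).const_mul (ρ j)
    obtain ⟨B, -, hB⟩ := h1.add (Q2.const (-m))
    exact ⟨B, fun x => by simpa [sub_eq_add_neg] using hB x⟩
  refine le_of_forall_pos_le_add fun ε hε => ?_
  obtain ⟨B, hB⟩ := hlin n ψ V c C M hV h (fun x => ff W ρ x - m) hrc hre hrb hr0 (ε / 3) (by positivity)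
  set A := Ex V (fun x => ∑ b, (∑ j, ρ j * pd b (W j) x) ^ 2) with hA
  have hA0 : 0 ≤ A := Ex_nonneg hR fun x => Finset.sum_nonneg fun b _ => sq_nonneg _
  set κ : ℝ := n * (n * (1 / c) ^ 2) with hκ
  have hκ0 : 0 ≤ κ := by positivity
  -- choose t, δ
  have hBpos : 0 < A + |B| + 1 := by positivity
  set t := ε / 3 / (A + |B| + 1) with ht
  have ht0 : 0 < t := by positivity
  set δ := t * (ε / 3) / (2 * κ + 1) with hδ
  have hδ0 : 0 < δ := by positivity
  obtain ⟨F, u, hF, hu, h1, h2, h3⟩ := hB δ hδ0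
  have hmain := main_ineq hst hibp hdiv hkey hV h hW hVW ρ hF hu
  have hsh : ∀ b, Gm (fld ψ (hh ψ F u) b) := fun b => gm_fld h (bl_hh h hF hu) b
  have hG : ∀ b, Gm (fun x => ∑ j, ρ j * pd b (W j) x) := fun b =>
    Gm.fsum fun j => (Gm.of_gr ((hW j).gr_pd b)).const_mul (ρ j)
  have hL : ∀ b, Gm (Lop ψ (pd b F)) := fun b => gm_Lop h (test_pd hF b)
  have e2 := Ex_young hR hG hsh ht0
  have e1 := Ex_young hR hL hsh ht0
  have e3 : Ex V (fun x => ∑ b, fld ψ (hh ψ F u) b x ^ 2) ≤ κ * δ := by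
    have g1 : Gm (fun x => ∑ b, fld ψ (hh ψ F u) b x ^ 2) := Gm.fsum fun b => (hsh b).sq
    have g2 : Gm (fun x => ∑ b, pd b (hh ψ F u) x ^ 2) :=
      Gm.fsum fun b => (gm_pd_of_bl (bl_hh h hF hu) b).sq
    have := Ex_mono hR g1 (g2.const_mul κ) fun x => fld_sq_le h (hh ψ F u) x
    rw [Ex_const_mul] at this
    exact this.trans (mul_le_mul_of_nonneg_left h2 hκ0)
  have e1' : Ex V (fun x => ∑ b, Lop ψ (pd b F) x * fld ψ (hh ψ F u) b x)
      = Ex V (fun x => ∑ b, fld ψ (hh ψ F u) b x * Lop ψ (pd b F) x) := by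
    simp only [mul_comm]
  rw [e1'] at e1
  -- `E Lu = 0`
  have gu := gm_Lop h hu
  have hu0 : Ex V (Lop ψ u) = 0 := by
    have := hibp n ψ V c C M hV h u (fun _ => 1) hu contDiff_const
    have e : ∀ b x, pd b (fun _ : E n => (1 : ℝ)) x = 0 := fun b x => by simp [pd]
    simp only [e, zero_mul, Finset.sum_const_zero, mul_one] at this
    rw [Ex_neg, Ex_const hR] at this
    linarith
  have hsq : Ex V (fun x => (Lop ψ u x + (ff W ρ x - m)) ^ 2)
      = Ex V (fun x => Lop ψ u x ^ 2) + 2 * Ex V (fun x => Lop ψ u x * ff W ρ x)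
        + (Ex V (fun x => ff W ρ x ^ 2) - m ^ 2) := by
    have e : (fun x => (Lop ψ u x + (ff W ρ x - m)) ^ 2)
        = fun x => (((Lop ψ u x ^ 2 + 2 * (Lop ψ u x * ff W ρ x)) + ff W ρ x ^ 2)
          + (-(2 * m)) * Lop ψ u x) + ((-(2 * m)) * ff W ρ x + m ^ 2) := by
      funext x
      ring
    rw [e, Ex_add hR ((((gu.sq).add ((gu.mul gf).const_mul 2)).add gf.sq).add (gu.const_mul _))
      ((gf.const_mul _).add (Gm.const _)),
      Ex_add hR (((gu.sq).add ((gu.mul gf).const_mul 2)).add gf.sq) (gu.const_mul _),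
      Ex_add hR ((gu.sq).add ((gu.mul gf).const_mul 2)) gf.sq,
      Ex_add hR gu.sq ((gu.mul gf).const_mul 2), Ex_add hR (gf.const_mul _) (Gm.const _),
      Ex_const_mul, Ex_const_mul, Ex_const_mul, Ex_const hR, hu0, ← hm]
    ring
  have h3' : Ex V (fun x => ∑ b, Lop ψ (pd b F) x ^ 2) ≤ |B| := h3.trans (le_abs_self B)
  have e4 : t * A + t * |B| ≤ ε / 3 := by
    have h7 : t * (A + |B| + 1) = ε / 3 := by
      rw [ht]
      exact div_mul_cancel₀ _ hBpos.ne'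
    linarith
  have e5 : 2 * (κ * δ / t) ≤ ε / 3 := by
    rw [hδ]
    have : 2 * (κ * (t * (ε / 3) / (2 * κ + 1)) / t) = (2 * κ) / (2 * κ + 1) * (ε / 3) := by
      field_simp
    rw [this]
    have h6 : (2 * κ) / (2 * κ + 1) ≤ 1 := by
      rw [div_le_one (by positivity)]
      linarith
    have := mul_le_mul_of_nonneg_right h6 (by positivity : 0 ≤ ε / 3)
    linarith
  have e6 : Ex V (fun x => ∑ b, fld ψ (hh ψ F u) b x ^ 2) / t ≤ κ * δ / t :=
    div_le_div_of_nonneg_right e3 ht0.le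
  have e7 : t * Ex V (fun x => ∑ b, Lop ψ (pd b F) x ^ 2) ≤ t * |B| :=
    mul_le_mul_of_nonneg_left h3' ht0.le
  have h1' : Ex V (fun x => (Lop ψ u x + (ff W ρ x - m)) ^ 2) ≤ ε / 3 := h1
  rw [hsq] at h1'
  linarith

end Vale.Agent.P227.M.Loc

namespace Vale.Agent.P227.M

/-- block LOC -/
theorem stmtLocal_of (hst : StmtStein) (hibp : StmtIBP) (hdiv : StmtDiv) (hkey : StmtKey)
    (hlin : StmtLin) (hmm : StmtMM) : StmtLocal := by
  intro n J W ρ c C hW hV
  obtain ⟨ψ, M, h⟩ := hmm n _ c C hV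
  exact Loc.local_of_mm hst hibp hdiv hkey hlin hV h hW rfl ρ

end Vale.Agent.P227.M
end

section

/-! # P227/M/END: ridge functions are pieces -/

open MeasureTheory Set Filter Topology

namespace Vale.Agent.P227.M.END

open Vale.Agent.P227.M

/-- an even smooth convex one-dimensional wall with all derivatives of order `≥ 2` bounded -/
structure RW (a a1 a2 : ℝ → ℝ) : Prop where
  smooth : ContDiff ℝ (⊤ : ℕ∞) a
  even : ∀ t, a (-t) = a t
  d1 : ∀ t, HasDerivAt a (a1 t) t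
  d2 : ∀ t, HasDerivAt a1 (a2 t) t
  nonneg : ∀ t, 0 ≤ a2 t
  bdd : ∀ k : ℕ, 2 ≤ k → ∃ B : ℝ, ∀ t, |iteratedDeriv k a t| ≤ B

variable {n : ℕ}

theorem inner_ei (i : Fin n) (x : E n) : (inner ℝ (ei i) x : ℝ) = x i := by
  simp [ei, EuclideanSpace.inner_single_left]

/-- derivative of a ridge function -/
theorem ridge_hasFDerivAt {a : ℝ → ℝ} {c : ℝ} {ν x : E n} (h : HasDerivAt a c (inner ℝ x ν)) :
    HasFDerivAt (fun x : E n => a (inner ℝ x ν)) (c • (innerSL ℝ ν)) x := by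
  have h1 : HasFDerivAt (fun x : E n => (inner ℝ x ν : ℝ)) (innerSL ℝ ν) x := by
    have h2 := (innerSL ℝ ν).hasFDerivAt (x := x)
    refine h2.congr_of_eventuallyEq (Eventually.of_forall fun y => ?_)
    rw [innerSL_apply_apply]
    exact real_inner_comm _ _
  exact h.comp_hasFDerivAt x h1

section sums
variable {N : ℕ} {a a1 a2 : Fin N → ℝ → ℝ} {μ : Fin N → E n} (w : Fin N → ℝ)

/-- derivative of a weighted sum of ridge functions -/
theorem pd_sum_ridge (h : ∀ j t, HasDerivAt (a j) (a1 j t) t) (i : Fin n) (x : E n) :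
    pd i (fun x : E n => ∑ j, w j * a j (inner ℝ x (μ j))) x = ∑ j, w j * a1 j (inner ℝ x (μ j)) * (μ j) i := by
  have h1 : HasFDerivAt (fun x : E n => ∑ j, w j * a j (inner ℝ x (μ j)))
      (∑ j, w j • (a1 j (inner ℝ x (μ j)) • (innerSL ℝ (μ j)))) x := by
    refine HasFDerivAt.fun_sum fun j _ => ?_
    exact (ridge_hasFDerivAt (h j _)).const_mul (w j)
  rw [pd, h1.fderiv, sum_apply]
  refine Finset.sum_congr rfl fun j _ => ?_
  rw [smul_apply, smul_apply, innerSL_apply_apply, smul_eq_mul, smul_eq_mul,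
    real_inner_comm (ei i) (μ j), inner_ei]
  ring

end sums

/-- single ridge -/
theorem pd_ridge {a a1 : ℝ → ℝ} (h : ∀ t, HasDerivAt a (a1 t) t) (ν : E n) (i : Fin n) (x : E n) :
    pd i (fun x : E n => a (inner ℝ x ν)) x = a1 (inner ℝ x ν) * ν i := by
  have := pd_sum_ridge (n := n) (N := 1) (a := fun _ => a) (a1 := fun _ => a1) (μ := fun _ => ν) (fun _ => 1) (fun _ => h) i x
  simpa using this

theorem hess_ridge {a a1 a2 : ℝ → ℝ} (h1 : ∀ t, HasDerivAt a (a1 t) t) (h2 : ∀ t, HasDerivAt a1 (a2 t) t) (ν : E n)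
    (x : E n) (i j : Fin n) : hess (fun x : E n => a (inner ℝ x ν)) x i j = a2 (inner ℝ x ν) * ν i * ν j := by
  have e1 : pd j (fun x : E n => a (inner ℝ x ν)) = fun x => ν j * a1 (inner ℝ x ν) := by
    funext y
    rw [pd_ridge h1, mul_comm]
  rw [hess, e1]
  have := pd_sum_ridge (n := n) (N := 1) (a := fun _ => a1) (a1 := fun _ => a2) (μ := fun _ => ν) (fun _ => ν j) (fun _ => h2) i x
  simp only [Finset.univ_unique, Finset.sum_singleton] at this
  rw [this]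
  ring

theorem inner_eq_sum (x ν : E n) : (inner ℝ x ν : ℝ) = ∑ i, x i * ν i := by
  rw [PiLp.inner_apply]
  refine Finset.sum_congr rfl fun i _ => ?_
  simp [mul_comm]

theorem qf_ridge {a a1 a2 : ℝ → ℝ} (h1 : ∀ t, HasDerivAt a (a1 t) t) (h2 : ∀ t, HasDerivAt a1 (a2 t) t) (ν x z : E n) :
    qf (hess (fun x : E n => a (inner ℝ x ν)) x) z = a2 (inner ℝ x ν) * (inner ℝ z ν : ℝ) ^ 2 := by
  rw [qf, inner_eq_sum z ν, sq, Finset.sum_mul_sum, Finset.mul_sum]
  refine Finset.sum_congr rfl fun i _ => ?_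
  rw [Finset.mul_sum]
  refine Finset.sum_congr rfl fun j _ => ?_
  rw [hess_ridge h1 h2]
  ring

theorem sum_pd_ridge {a a1 : ℝ → ℝ} (h1 : ∀ t, HasDerivAt a (a1 t) t) (ν x : E n) :
    ∑ i, x i * pd i (fun x : E n => a (inner ℝ x ν)) x = (inner ℝ x ν : ℝ) * a1 (inner ℝ x ν) := by
  have e : ∀ i, x i * pd i (fun x : E n => a (inner ℝ x ν)) x = (x i * ν i) * a1 (inner ℝ x ν) := by
    intro i
    rw [pd_ridge h1]
    ring
  rw [Finset.sum_congr rfl fun i _ => e i, ← Finset.sum_mul, ← inner_eq_sum]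

theorem contDiff_ridge {a : ℝ → ℝ} {m : WithTop ℕ∞} (h : ContDiff ℝ m a) (ν : E n) : ContDiff ℝ m (fun x : E n => a (inner ℝ x ν)) :=
  h.comp (contDiff_id.inner ℝ contDiff_const)

/-- a ridge function of a wall is a piece -/
theorem RW.piece {a a1 a2 : ℝ → ℝ} (h : RW a a1 a2) (ν : E n) : Piece (fun x : E n => a (inner ℝ x ν)) where
  smooth := contDiff_ridge h.smooth ν
  even x := by
    simp only [inner_neg_left]
    exact h.even _
  psd x z := by
    rw [qf_ridge h.d1 h.d2]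
    exact mul_nonneg (h.nonneg _) (sq_nonneg _)
  bdd k hk := by
    obtain ⟨B, hB⟩ := h.bdd k hk
    refine ⟨B * ‖innerSL ℝ ν‖ ^ k, fun x => ?_⟩
    have e : (fun x : E n => a (inner ℝ x ν)) = a ∘ (innerSL ℝ ν) := by
      funext y
      simp only [Function.comp, innerSL_apply_apply]
      rw [real_inner_comm]
    rw [e, ContinuousLinearMap.iteratedFDeriv_comp_right (innerSL ℝ ν) h.smooth x (i := k) (by exact_mod_cast le_top)]
    refine (ContinuousMultilinearMap.norm_compContinuousLinearMap_le _ _).trans ?_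
    rw [norm_iteratedFDeriv_eq_norm_iteratedDeriv, Real.norm_eq_abs, Finset.prod_const, Finset.card_univ, Fintype.card_fin]
    exact mul_le_mul_of_nonneg_right (hB _) (by positivity)

/-- the Gaussian wall -/
theorem RW_sq {e : ℝ} (he : 0 ≤ e) : RW (fun t => e * t ^ 2) (fun t => 2 * e * t) (fun _ => 2 * e) where
  smooth := by fun_prop
  even t := by simp
  d1 t := by
    have := (hasDerivAt_pow 2 t).const_mul e
    refine HasDerivAt.congr_deriv this ?_
    simp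
    ring
  d2 t := by
    simpa using (hasDerivAt_id t).const_mul (2 * e)
  nonneg t := by positivity
  bdd k hk := by
    refine ⟨2 * e, fun t => ?_⟩
    have d1 : deriv (fun t : ℝ => e * t ^ 2) = fun t => 2 * e * t := by
      funext t
      have := (hasDerivAt_pow 2 t).const_mul e
      rw [this.deriv]
      simp
      ring
    have d2 : deriv (fun t : ℝ => 2 * e * t) = fun _ => 2 * e := by
      funext t
      simpa using ((hasDerivAt_id t).const_mul (2 * e)).deriv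
    obtain ⟨m, rfl⟩ : ∃ m, k = m + 2 := ⟨k - 2, by omega⟩
    rw [iteratedDeriv_succ', iteratedDeriv_succ', d1, d2]
    rcases Nat.eq_zero_or_pos m with rfl | hm
    · simp [abs_of_nonneg he]
    · have : iteratedDeriv m (fun _ : ℝ => 2 * e) t = 0 := by
        rw [iteratedDeriv_const]
        simp [hm.ne']
      rw [this]
      linarith [abs_zero (α := ℝ)]

end Vale.Agent.P227.M.END
end

section

open MeasureTheory

namespace Vale.Agent.P227

end Vale.Agent.P227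
end

section

/-! # P227/M/END: `StmtLocal` gives the logarithmic Brunn-Minkowski inequality -/

open MeasureTheory Set Filter Topology

namespace Vale.Agent.P227.M.END

open Vale.Agent.P227.M
open Vale.Agent.P227.End (Wall LocalIneq gib obs1 obs2)

theorem contDiff_pd {n : ℕ} {f : E n → ℝ} (hf : ContDiff ℝ (⊤ : ℕ∞) f) (i : Fin n) : ContDiff ℝ (⊤ : ℕ∞) (pd i f) := by
  unfold pd
  have h1 : ContDiff ℝ (⊤ : ℕ∞) (fderiv ℝ f) := hf.fderiv_right (by exact_mod_cast le_top)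
  exact h1.clm_apply contDiff_const

theorem pd_sum {n N : ℕ} {f : Fin N → E n → ℝ} (hf : ∀ j, ContDiff ℝ (⊤ : ℕ∞) (f j)) (i : Fin n) :
    pd i (fun x => ∑ j, f j x) = fun x => ∑ j, pd i (f j) x := by
  funext x
  have h1 : HasFDerivAt (fun x => ∑ j, f j x) (∑ j, fderiv ℝ (f j) x) x :=
    HasFDerivAt.fun_sum fun j _ => ((hf j).differentiable (by simp) x).hasFDerivAt
  rw [pd, h1.fderiv, sum_apply]
  rfl

theorem hess_sum {n N : ℕ} {f : Fin N → E n → ℝ} (hf : ∀ j, ContDiff ℝ (⊤ : ℕ∞) (f j)) (x : E n) (i k : Fin n) :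
    hess (fun x => ∑ j, f j x) x i k = ∑ j, hess (f j) x i k := by
  rw [hess, pd_sum hf, pd_sum fun j => contDiff_pd (hf j) k]
  rfl

theorem qf_sum {n N : ℕ} {f : Fin N → E n → ℝ} (hf : ∀ j, ContDiff ℝ (⊤ : ℕ∞) (f j)) (x z : E n) :
    qf (hess (fun x => ∑ j, f j x) x) z = ∑ j, qf (hess (f j) x) z := by
  simp only [qf, hess_sum hf, Finset.sum_mul]
  refine Eq.symm ?_
  rw [Finset.sum_comm]
  refine Finset.sum_congr rfl fun i _ => ?_
  rw [Finset.sum_comm]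

/-- finite sums of pieces with a uniform lower bound are nice -/
theorem nice_sum {n N : ℕ} {f : Fin N → E n → ℝ} (hf : ∀ j, Piece (f j)) {c C : ℝ} (hc : 0 < c)
    (hl : ∀ x v, c * ‖v‖ ^ 2 ≤ ∑ j, qf (hess (f j) x) v) (hu : ∀ x v, ∑ j, qf (hess (f j) x) v ≤ C * ‖v‖ ^ 2) :
    Nice (fun x => ∑ j, f j x) c C where
  c_pos := hc
  smooth := ContDiff.sum fun j _ => (hf j).smooth
  lower x v := by
    rw [qf_sum fun j => (hf j).smooth]
    exact hl x v
  upper x v := by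
    rw [qf_sum fun j => (hf j).smooth]
    exact hu x v
  bdd k hk := by
    choose B hB using fun j => (hf j).bdd k hk
    refine ⟨∑ j, B j, fun x => ?_⟩
    have e : (fun x => ∑ j, f j x) = ∑ j, f j := by
      funext x
      simp
    rw [e, iteratedFDeriv_sum_apply fun j _ => ((hf j).smooth.of_le (by exact_mod_cast le_top)).contDiffAt]
    exact (norm_sum_le _ _).trans (Finset.sum_le_sum fun j _ => hB j x)
  even x := by
    refine Finset.sum_congr rfl fun j _ => (hf j).even x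

/-- the pieces: the walls and the Gaussian directions -/
noncomputable def pcs {n J : ℕ} (v : ℝ → ℝ) (e : ℝ) (ν : Fin J → E n) : Fin (J + n) → E n → ℝ :=
  Fin.append (fun j x => v (inner ℝ x (ν j))) (fun i x => e * (inner ℝ x (ei i) : ℝ) ^ 2)

theorem pcs_left {n J : ℕ} (v : ℝ → ℝ) (e : ℝ) (ν : Fin J → E n) (j : Fin J) :
    pcs v e ν (Fin.castAdd n j) = fun x => v (inner ℝ x (ν j)) := Fin.append_left _ _ _

theorem pcs_right {n J : ℕ} (v : ℝ → ℝ) (e : ℝ) (ν : Fin J → E n) (i : Fin n) :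
    pcs v e ν (Fin.natAdd J i) = fun x => e * (inner ℝ x (ei i) : ℝ) ^ 2 := Fin.append_right _ _ _

theorem inner_ei' {n : ℕ} (i : Fin n) (x : E n) : (inner ℝ x (ei i) : ℝ) = x i := by
  rw [real_inner_comm, inner_ei]

theorem sum_pcs {n J : ℕ} (v : ℝ → ℝ) (e : ℝ) (ν : Fin J → E n) (x : E n) :
    ∑ j, pcs v e ν j x = (∑ j, v (inner ℝ x (ν j))) + e * ‖x‖ ^ 2 := by
  rw [Fin.sum_univ_add]
  congr 1
  · refine Finset.sum_congr rfl fun j _ => ?_
    rw [pcs_left]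
  · rw [EuclideanSpace.real_norm_sq_eq, Finset.mul_sum]
    refine Finset.sum_congr rfl fun i _ => ?_
    rw [pcs_right]
    simp only [inner_ei']

theorem exp_pcs {n J : ℕ} (v : ℝ → ℝ) (e : ℝ) (ν : Fin J → E n) (x : E n) :
    Real.exp (-∑ j, pcs v e ν j x) = gib v e ν x := by
  rw [sum_pcs, gib]
  congr 1
  ring

theorem localIneq_of_stmtLocal (H : StmtLocal) {v v1 v2 : ℝ → ℝ} (hw : Wall v v1 v2) (hr : RW v v1 v2) {e : ℝ}
    (he : 0 < e) : LocalIneq v v1 v2 e := by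
  intro n J ν hn hν ρ
  have hsq := RW_sq he.le
  have hpc : ∀ j, Piece (pcs v e ν j) := by
    intro j
    refine Fin.addCases (fun i => ?_) (fun i => ?_) j
    · rw [pcs_left]
      exact hr.piece (ν i)
    · rw [pcs_right]
      exact hsq.piece (ei i)
  obtain ⟨C, hC0, hC⟩ := hw.growth
  have hqsum : ∀ x z : E n, ∑ j, qf (hess (pcs v e ν j) x) z =
      (∑ j, v2 (inner ℝ x (ν j)) * (inner ℝ z (ν j) : ℝ) ^ 2) + 2 * e * ‖z‖ ^ 2 := by
    intro x z
    rw [Fin.sum_univ_add]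
    congr 1
    · refine Finset.sum_congr rfl fun j _ => ?_
      rw [pcs_left, qf_ridge hw.d1 hw.d2]
    · rw [EuclideanSpace.real_norm_sq_eq, Finset.mul_sum]
      refine Finset.sum_congr rfl fun i _ => ?_
      rw [pcs_right, qf_ridge hsq.d1 hsq.d2, inner_ei']
  have hnice : Nice (fun x => ∑ j, pcs v e ν j x) (2 * e) ((∑ j, C * ‖ν j‖ ^ 2) + 2 * e) := by
    refine nice_sum hpc (by positivity) (fun x z => ?_) (fun x z => ?_)
    · rw [hqsum]
      have : 0 ≤ ∑ j, v2 (inner ℝ x (ν j)) * (inner ℝ z (ν j) : ℝ) ^ 2 :=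
        Finset.sum_nonneg fun j _ => mul_nonneg (hr.nonneg _) (sq_nonneg _)
      linarith
    · rw [hqsum, add_mul, Finset.sum_mul]
      refine add_le_add (Finset.sum_le_sum fun j _ => ?_) le_rfl
      have h1 : (inner ℝ z (ν j) : ℝ) ^ 2 ≤ ‖ν j‖ ^ 2 * ‖z‖ ^ 2 := by
        have h2 := abs_real_inner_le_norm z (ν j)
        rw [← sq_abs]
        calc |(inner ℝ z (ν j) : ℝ)| ^ 2 ≤ (‖z‖ * ‖ν j‖) ^ 2 := pow_le_pow_left₀ (abs_nonneg _) h2 2
          _ = _ := by ring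
      have h3 : v2 (inner ℝ x (ν j)) ≤ C := (le_abs_self _).trans (hC _).2
      calc v2 (inner ℝ x (ν j)) * (inner ℝ z (ν j) : ℝ) ^ 2 ≤ C * (‖ν j‖ ^ 2 * ‖z‖ ^ 2) :=
            mul_le_mul h3 h1 (sq_nonneg _) hC0
        _ = _ := by ring
  have key := H n (J + n) (pcs v e ν) (Fin.append ρ (fun _ => 0)) _ _ hpc hnice
  -- observables
  have hf : ∀ x : E n, ∑ j, (Fin.append ρ (fun _ : Fin n => (0 : ℝ))) j * ∑ i, x i * pd i (pcs v e ν j) x = obs1 v1 ν ρ x := by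
    intro x
    rw [Fin.sum_univ_add, obs1]
    have h0 : ∑ i : Fin n, (Fin.append ρ (fun _ : Fin n => (0 : ℝ))) (Fin.natAdd J i) *
        ∑ k, x k * pd k (pcs v e ν (Fin.natAdd J i)) x = 0 := by
      refine Finset.sum_eq_zero fun i _ => ?_
      rw [Fin.append_right, zero_mul]
    rw [h0, add_zero]
    refine Finset.sum_congr rfl fun j _ => ?_
    rw [Fin.append_left, pcs_left, sum_pd_ridge hw.d1]
  have hb : ∑ j, (Fin.append ρ (fun _ : Fin n => (0 : ℝ))) j ^ 2 * Ex (fun x => ∑ j, pcs v e ν j x)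
      (fun x => (∑ i, x i * pd i (pcs v e ν j) x) + qf (hess (pcs v e ν j) x) x) =
      ∑ j, ρ j ^ 2 * Ex (fun x => ∑ j, pcs v e ν j x)
        (fun x => (inner ℝ x (ν j) : ℝ) * v1 (inner ℝ x (ν j)) + (inner ℝ x (ν j) : ℝ) ^ 2 * v2 (inner ℝ x (ν j))) := by
    rw [Fin.sum_univ_add]
    have h0 : ∑ i : Fin n, (Fin.append ρ (fun _ : Fin n => (0 : ℝ))) (Fin.natAdd J i) ^ 2 * Ex (fun x => ∑ j, pcs v e ν j x)
        (fun x => (∑ k, x k * pd k (pcs v e ν (Fin.natAdd J i)) x) + qf (hess (pcs v e ν (Fin.natAdd J i)) x) x) = 0 := by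
      refine Finset.sum_eq_zero fun i _ => ?_
      rw [Fin.append_right]
      ring
    rw [h0, add_zero]
    refine Finset.sum_congr rfl fun j _ => ?_
    rw [Fin.append_left, pcs_left]
    congr 2
    funext x
    rw [sum_pd_ridge hw.d1, qf_ridge hw.d1 hw.d2]
    ring
  rw [hb] at key
  simp only [hf, Ex, exp_pcs] at key
  obtain ⟨m, rfl⟩ : ∃ m, n = m + 1 := ⟨n - 1, by omega⟩
  have hmv : ∀ ρ' : Fin J → ℝ, Vale.Agent.P227.End.mv ν (fun _ => 0) ρ' 0 = ν := by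
    intro ρ'
    funext j
    simp [Vale.Agent.P227.End.mv]
  have hZ : 0 < ∫ x, gib v e ν x := by
    have h1 := (Vale.Agent.P227.End.hasDerivAt_part ν (fun _ => 0) (fun _ => 0) hw e hν he.le 0).1
    rw [hmv] at h1
    exact integral_exp_pos h1
  have hint : ∀ j, Integrable (fun x => ((inner ℝ x (ν j) : ℝ) * v1 (inner ℝ x (ν j)) +
      (inner ℝ x (ν j) : ℝ) ^ 2 * v2 (inner ℝ x (ν j))) * gib v e ν x) := by
    intro j
    have h1 := (Vale.Agent.P227.End.hasDerivAt_part ν (fun _ => 0) (Pi.single j 1) hw e hν he.le 0).2.2.1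
    rw [hmv] at h1
    refine h1.congr (Eventually.of_forall fun x => ?_)
    simp only [obs2]
    congr 1
    rw [Finset.sum_eq_single j]
    · simp
    · intro i _ hij
      simp [Pi.single_eq_of_ne hij]
    · simp
  have hsum : ∫ x, obs2 v1 v2 ν ρ x * gib v e ν x = ∑ j, ρ j ^ 2 * ∫ x, ((inner ℝ x (ν j) : ℝ) * v1 (inner ℝ x (ν j)) +
      (inner ℝ x (ν j) : ℝ) ^ 2 * v2 (inner ℝ x (ν j))) * gib v e ν x := by
    simp only [← integral_const_mul]
    rw [← integral_finsetSum _ fun j _ => (hint j).const_mul _]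
    refine integral_congr_ae (Eventually.of_forall fun x => ?_)
    simp only [obs2, Finset.sum_mul, mul_assoc]
  rw [hsum]
  set Z : ℝ := ∫ x, gib v e ν x with hZdef
  have e1 : ∑ j, ρ j ^ 2 * ((∫ x, ((inner ℝ x (ν j) : ℝ) * v1 (inner ℝ x (ν j)) +
      (inner ℝ x (ν j) : ℝ) ^ 2 * v2 (inner ℝ x (ν j))) * gib v e ν x) / Z) =
      (∑ j, ρ j ^ 2 * ∫ x, ((inner ℝ x (ν j) : ℝ) * v1 (inner ℝ x (ν j)) +
      (inner ℝ x (ν j) : ℝ) ^ 2 * v2 (inner ℝ x (ν j))) * gib v e ν x) / Z := by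
    rw [Finset.sum_div]
    refine Finset.sum_congr rfl fun j _ => ?_
    ring
  rw [e1, div_pow, div_sub_div _ _ hZ.ne' (by positivity), div_le_div_iff₀ (by positivity) hZ] at key
  have hZ2 : 0 < Z ^ 2 := by positivity
  have h9 : Z ^ 2 * (((∫ x, obs1 v1 ν ρ x ^ 2 * gib v e ν x) * Z) - (∫ x, obs1 v1 ν ρ x * gib v e ν x) ^ 2) ≤
      Z ^ 2 * ((∑ j, ρ j ^ 2 * ∫ x, ((inner ℝ x (ν j) : ℝ) * v1 (inner ℝ x (ν j)) +
      (inner ℝ x (ν j) : ℝ) ^ 2 * v2 (inner ℝ x (ν j))) * gib v e ν x) * Z) := by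
    nlinarith [key]
  have h10 := le_of_mul_le_mul_left h9 hZ2
  linarith

/-- the end reduction: the local functional inequality gives the logarithmic Brunn-Minkowski inequality, once
a sequence of walls is given -/
theorem log_bm_of_stmtLocal (H : StmtLocal) (v v1 v2 : ℕ → ℝ → ℝ) (hW : ∀ k, Wall (v k) (v1 k) (v2 k))
    (hR : ∀ k, RW (v k) (v1 k) (v2 k))
    (hv0 : ∀ t, |t| < 1 → Tendsto (fun k => v k t) atTop (𝓝 0))
    (hv1 : ∀ t, 1 < |t| → Tendsto (fun k => v k t) atTop atTop)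
    {n : ℕ} (hn : 0 < n) {K L : Set (EV n)} (hK : SymConvexBody K)
    (hL : SymConvexBody L) {t : ℝ} (ht0 : 0 ≤ t) (ht1 : t ≤ 1) :
    (volume K).toReal ^ (1 - t) * (volume L).toReal ^ t ≤ (volume (logComb t K L)).toReal :=
  Vale.Agent.P227.End.log_bm_of_walls v v1 v2 (fun k => 1 / ((k : ℝ) + 1)) hW hv0 hv1 (fun k => by positivity)
    tendsto_one_div_add_atTop_nhds_zero_nat
    (fun k => localIneq_of_stmtLocal H (hW k) (hR k) (by positivity)) hn hK hL ht0 ht1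

end Vale.Agent.P227.M.END
end

section

/-! # P227/M/END: `StmtLocal` gives the logarithmic Brunn-Minkowski inequality in all dimensions -/

open MeasureTheory Set Filter Topology

namespace Vale.Agent.P227.M.END

open Vale.Agent.P227.M

theorem wall_Wall (k : ℕ) : Vale.Agent.P227.End.Wall (wall k) (wW1 ((k : ℝ) + 1)) (wW2 ((k : ℝ) + 1)) where
  d1 t := hasDerivAt_wW _ t
  d2 t := hasDerivAt_wW1 _ t
  cont2 := continuous_iff_continuousAt.2 fun t => (hasDerivAt_wW2 _ t).continuousAt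
  lower t := wall_ge k t
  growth := by
    have hk : (0 : ℝ) ≤ (k : ℝ) + 1 := by positivity
    refine ⟨((k : ℝ) + 1) + ((k : ℝ) + 1) ^ 2, by positivity, fun t => ⟨?_, ?_⟩⟩
    · have h1 := wW1_bound hk t
      have h2 := abs_nonneg t
      nlinarith [sq_nonneg ((k : ℝ) + 1), mul_nonneg hk h2, mul_nonneg (sq_nonneg ((k : ℝ) + 1)) h2]
    · rw [abs_of_nonneg (wW2_nonneg _ t)]
      have := wW2_le ((k : ℝ) + 1) t
      linarith

theorem wall_RW (k : ℕ) : RW (wall k) (wW1 ((k : ℝ) + 1)) (wW2 ((k : ℝ) + 1)) where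
  smooth := wall_contDiff k
  even := wall_even k
  d1 t := hasDerivAt_wW _ t
  d2 t := hasDerivAt_wW1 _ t
  nonneg t := wW2_nonneg _ t
  bdd m hm := by
    obtain ⟨B, _, hB⟩ := wall_iter k m (by omega)
    exact ⟨B, hB⟩

/-- **the end reduction**: the local functional inequality `StmtLocal` gives the logarithmic
Brunn-Minkowski inequality for all symmetric convex bodies in all dimensions -/
theorem q1_of_stmtLocal (H : StmtLocal) {n : ℕ} (hn : 0 < n) {K L : Set (EV n)} (hK : SymConvexBody K)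
    (hL : SymConvexBody L) {t : ℝ} (ht0 : 0 ≤ t) (ht1 : t ≤ 1) :
    (volume K).toReal ^ (1 - t) * (volume L).toReal ^ t ≤ (volume (logComb t K L)).toReal :=
  log_bm_of_stmtLocal H wall (fun k => wW1 ((k : ℝ) + 1)) (fun k => wW2 ((k : ℝ) + 1)) wall_Wall wall_RW
    tendsto_wall_zero tendsto_wall_atTop hn hK hL ht0 ht1

end Vale.Agent.P227.M.END
end

section

/-! # P227/M/END: block END in the form of the chain -/

namespace Vale.Agent.P227.M.END

open Vale.Agent.P227.M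

theorem stmtQ1_of_stmtLocal : StmtLocal → StmtQ1 := by
  intro H
  unfold StmtQ1
  intros
  apply q1_of_stmtLocal H <;> assumption

end Vale.Agent.P227.M.END
end

section

/-! # P227/M/SC2: lower bound of the second derivative of `heat` on a line orthogonal to the noise
(helper204). -/

open MeasureTheory Filter Topology

namespace Vale.Agent.P227.M.HL

variable {n : ℕ}

/-- strong convexity of a regular potential -/
theorem reg_convex {U : E n → ℝ} {c C : ℝ} (h : Reg U c C) {s t : ℝ} (hs : 0 ≤ s) (ht : 0 ≤ t)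
    (hst : s + t = 1) (a b : E n) :
    U (s • a + t • b) + c / 2 * (s * t) * ‖a - b‖ ^ 2 ≤ s * U a + t * U b := by
  set x := s • a + t • b with hx
  have h1 := (Lap.taylor_bounds h x (a - x)).1
  have h2 := (Lap.taylor_bounds h x (b - x)).1
  rw [add_sub_cancel] at h1 h2
  have hs1 : s = 1 - t := by linarith
  have e1 : a - x = t • (a - b) := by
    rw [hx, hs1, sub_smul, one_smul, smul_sub]; abel
  have e2 : b - x = (-s) • (a - b) := by
    have : t = 1 - s := by linarith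
    rw [hx, this, sub_smul, one_smul, neg_smul, smul_sub]; abel
  rw [e1, map_smul, norm_smul, smul_eq_mul, Real.norm_eq_abs, mul_pow, sq_abs] at h1
  rw [e2, map_smul, norm_smul, smul_eq_mul, Real.norm_eq_abs, mul_pow, sq_abs] at h2
  have h3 := mul_le_mul_of_nonneg_left h1 hs
  have h4 := mul_le_mul_of_nonneg_left h2 ht
  have e5 : s * (c / 2 * (t ^ 2 * ‖a - b‖ ^ 2)) + t * (c / 2 * ((-s) ^ 2 * ‖a - b‖ ^ 2))
      = c / 2 * (s * t) * ‖a - b‖ ^ 2 * (s + t) := by ring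
  rw [hst, mul_one] at e5
  have e6 : s * (U a - U x - t * (fderiv ℝ U x) (a - b)) + t * (U b - U x - -s * (fderiv ℝ U x) (a - b))
      = s * U a + t * U b - (s + t) * U x := by ring
  rw [hst, one_mul] at e6
  linarith

theorem monotone_deriv_nonneg {F : ℝ → ℝ} (hF : Monotone F) {d x : ℝ} (hd : HasDerivAt F d x) :
    0 ≤ d := by
  have h1 := hd.tendsto_slope
  refine ge_of_tendsto h1 ?_
  filter_upwards [self_mem_nhdsWithin] with y hy
  rcases lt_or_gt_of_ne hy with h | h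
  · rw [slope_def_field]
    exact div_nonneg_of_nonpos (by linarith [hF h.le]) (by linarith)
  · rw [slope_def_field]
    exact div_nonneg (by linarith [hF h.le]) (by linarith)

theorem second_nonneg_of_convex {F F1 : ℝ → ℝ} (hc : ConvexOn ℝ Set.univ F)
    (h1 : ∀ t, HasDerivAt F (F1 t) t) {d t : ℝ} (h2 : HasDerivAt F1 d t) : 0 ≤ d := by
  refine monotone_deriv_nonneg ?_ h2
  intro x y hxy
  rcases hxy.eq_or_lt with rfl | hlt
  · exact le_rfl
  have a1 := hc.le_slope_of_hasDerivAt (Set.mem_univ x) (Set.mem_univ y) hlt (h1 x)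
  have a2 := hc.slope_le_of_hasDerivAt (Set.mem_univ x) (Set.mem_univ y) hlt (h1 y)
  exact a1.trans a2

theorem w2_lower {U : E n → ℝ} {c C : ℝ} (h : Reg U c C) (u : E n) (Q : E n →L[ℝ] E n)
    (hQ : ∀ z, inner ℝ u (Q z) = 0) (t : ℝ) : c * ‖u‖ ^ 2 ≤ w2 U u Q (t • u) := by
  have hcp := h.c_pos
  have hUc := h.cont
  set F : ℝ → E n → ℝ := fun t z => U (t • u + Q z) + ‖z‖ ^ 2 / 2 - c / 2 * (t ^ 2 * ‖u‖ ^ 2) with hF
  have hconv : ∀ y0 y1 x0 x1, ∀ s t : ℝ, 0 < s → 0 < t → s + t = 1 →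
      F (s • y0 + t • y1) (s • x0 + t • x1) ≤ s * F y0 x0 + t * F y1 x1 := by
    intro y0 y1 x0 x1 s t hs ht hst
    have e1 : (s • y0 + t • y1) • u + Q (s • x0 + t • x1)
        = s • (y0 • u + Q x0) + t • (y1 • u + Q x1) := by
      simp only [smul_eq_mul, map_add, map_smul, smul_add, add_smul, smul_smul]; abel
    have h1 := reg_convex h hs.le ht.le hst (y0 • u + Q x0) (y1 • u + Q x1)
    have e2 : (y0 • u + Q x0) - (y1 • u + Q x1) = (y0 - y1) • u + Q (x0 - x1) := by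
      rw [sub_smul, map_sub]; abel
    have h2 : (y0 - y1) ^ 2 * ‖u‖ ^ 2 ≤ ‖(y0 • u + Q x0) - (y1 • u + Q x1)‖ ^ 2 := by
      rw [e2, norm_add_sq_real, inner_smul_left, hQ, norm_smul, mul_pow, Real.norm_eq_abs, sq_abs]
      simp only [mul_zero, add_zero]
      nlinarith [sq_nonneg ‖Q (x0 - x1)‖]
    have h3 : ‖s • x0 + t • x1‖ ^ 2 ≤ s * ‖x0‖ ^ 2 + t * ‖x1‖ ^ 2 := by
      have h31 : ‖s • x0 + t • x1‖ ≤ s * ‖x0‖ + t * ‖x1‖ := by
        refine (norm_add_le _ _).trans ?_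
        rw [norm_smul, norm_smul, Real.norm_of_nonneg hs.le, Real.norm_of_nonneg ht.le]
      have h32 : ‖s • x0 + t • x1‖ ^ 2 ≤ (s * ‖x0‖ + t * ‖x1‖) ^ 2 :=
        pow_le_pow_left₀ (norm_nonneg _) h31 2
      have h33 : s * ‖x0‖ ^ 2 + t * ‖x1‖ ^ 2 - (s * ‖x0‖ + t * ‖x1‖) ^ 2
          = s * t * (‖x0‖ - ‖x1‖) ^ 2 := by
        have : s = 1 - t := by linarith
        rw [this]; ring
      nlinarith [mul_nonneg (mul_nonneg hs.le ht.le) (sq_nonneg (‖x0‖ - ‖x1‖))]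
    simp only [hF]
    rw [e1]
    have h5 : s * y0 ^ 2 + t * y1 ^ 2 - (s • y0 + t • y1) ^ 2 = s * t * (y0 - y1) ^ 2 := by
      have : s = 1 - t := by linarith
      simp only [smul_eq_mul]
      rw [this]; ring
    have h6 := mul_le_mul_of_nonneg_left h2 (show 0 ≤ c / 2 * (s * t) by positivity)
    have h7 : c / 2 * ((s • y0 + t • y1) ^ 2 * ‖u‖ ^ 2)
        = c / 2 * ((s * y0 ^ 2 + t * y1 ^ 2 - s * t * (y0 - y1) ^ 2) * ‖u‖ ^ 2) := by
      rw [← h5]; ring
    rw [h7]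
    nlinarith [h1, h6, h3]
  have hcF : ∀ y, Continuous (F y) := by
    intro y
    simp only [hF]
    fun_prop
  have hexp : ∀ y z, Real.exp (-F y z)
      = Real.exp (c / 2 * (y ^ 2 * ‖u‖ ^ 2)) * (f U u 0 (y • u + Q z) * Real.exp (-‖z‖ ^ 2 / 2)) := by
    intro y z
    simp only [hF, f, q_zero, one_mul]
    rw [← Real.exp_add, ← Real.exp_add]
    congr 1
    ring
  have hint : ∀ y, Integrable (fun z => Real.exp (-F y z)) := by
    intro y
    simp only [hexp]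
    exact (integrable_H h u Q 0 (y • u)).const_mul _
  have hP := LKE.convexOn_neg_log_integral_exp_neg F hconv (fun y => (hcF y).measurable) hint
  have hval : (fun y : ℝ => -Real.log (∫ z, Real.exp (-F y z)))
      = fun y : ℝ => heat U Q (0 + y • u) - c / 2 * (y ^ 2 * ‖u‖ ^ 2) := by
    funext y
    simp only [hexp]
    rw [integral_const_mul, Real.log_mul (Real.exp_ne_zero _), Real.log_exp, heat_eq U u Q, zero_add]
    · unfold H
      ring
    · have := H_zero_pos h u Q (y • u)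
      unfold H at this
      exact this.ne'
  rw [hval] at hP
  have d1 : ∀ t : ℝ, HasDerivAt (fun y : ℝ => heat U Q (0 + y • u) - c / 2 * (y ^ 2 * ‖u‖ ^ 2))
      (w1 U u Q (0 + t • u) - c * ‖u‖ ^ 2 * t) t := by
    intro t
    have := (hasDerivAt_heat h u Q 0 t).sub ((((hasDerivAt_id t).pow 2).mul_const (‖u‖ ^ 2)).const_mul
      (c / 2))
    refine HasDerivAt.congr_deriv (f := fun y : ℝ => heat U Q (0 + y • u) - c / 2 * (y ^ 2 * ‖u‖ ^ 2))
      this ?_
    simp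
    ring
  have d2 : HasDerivAt (fun t : ℝ => w1 U u Q (0 + t • u) - c * ‖u‖ ^ 2 * t)
      (w2 U u Q (0 + t • u) - c * ‖u‖ ^ 2) t := by
    have := (hasDerivAt_w1 h u Q 0 t).sub ((hasDerivAt_id t).const_mul (c * ‖u‖ ^ 2))
    refine HasDerivAt.congr_deriv (f := fun t : ℝ => w1 U u Q (0 + t • u) - c * ‖u‖ ^ 2 * t) this ?_
    simp
  have := second_nonneg_of_convex hP d1 d2
  rw [zero_add] at this
  linarith

end Vale.Agent.P227.M.HL
end

section

/-! # P227/M/SC2: `StmtHeat` and the one-dimensional third moment lemma give `StmtSC` (helper204). -/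

open MeasureTheory Filter Topology

namespace Vale.Agent.P227.M.HL

variable {n : ℕ}

/-- moments of `⟨v, x⟩` for `exp (-U - ‖pr x‖² / (2σ²))` -/
noncomputable def A (U : E n → ℝ) (v : E n) (σ : ℝ) (j : ℕ) : ℝ :=
  ∫ x : E n, (inner ℝ v x) ^ j * Real.exp (-U x - ‖pr v x‖ ^ 2 / (2 * σ ^ 2))

/-- limit moments -/
noncomputable def Ai (U : E n → ℝ) (v : E n) (j : ℕ) : ℝ :=
  ∫ x : E n, (inner ℝ v x) ^ j * Real.exp (-U x)

theorem gr_inner_pow (v : E n) (j : ℕ) : Gr (fun x : E n => (inner ℝ v x) ^ j) := by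
  refine Gr.pow (f := fun x : E n => inner ℝ v x) ?_ j
  refine ⟨by fun_prop, ‖v‖, 1, norm_nonneg _, fun x => ?_⟩
  rw [pow_one]
  have h1 := abs_real_inner_le_norm v x
  have h2 := norm_nonneg v
  have h3 := norm_nonneg x
  nlinarith

theorem integrable_Ai {U : E n → ℝ} {c C : ℝ} (h : Reg U c C) (v : E n) (j : ℕ) :
    Integrable (fun x : E n => (inner ℝ v x) ^ j * Real.exp (-U x)) :=
  h.integrable_gr (gr_inner_pow v j)

theorem dom_A (U : E n → ℝ) (v : E n) (σ : ℝ) (j : ℕ) (x : E n) :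
    ‖(inner ℝ v x) ^ j * Real.exp (-U x - ‖pr v x‖ ^ 2 / (2 * σ ^ 2))‖
      ≤ |(inner ℝ v x) ^ j * Real.exp (-U x)| := by
  rw [Real.norm_eq_abs, abs_mul, abs_mul, Real.abs_exp, Real.abs_exp]
  refine mul_le_mul_of_nonneg_left (Real.exp_le_exp.2 ?_) (abs_nonneg _)
  have : 0 ≤ ‖pr v x‖ ^ 2 / (2 * σ ^ 2) := by positivity
  linarith

theorem aesm_A {U : E n → ℝ} {c C : ℝ} (h : Reg U c C) (v : E n) (σ : ℝ) (j : ℕ) :
    AEStronglyMeasurable
      (fun x : E n => (inner ℝ v x) ^ j * Real.exp (-U x - ‖pr v x‖ ^ 2 / (2 * σ ^ 2))) volume := by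
  have hc := h.cont
  have : Continuous
      (fun x : E n => (inner ℝ v x) ^ j * Real.exp (-U x - ‖pr v x‖ ^ 2 / (2 * σ ^ 2))) := by
    fun_prop
  exact this.aestronglyMeasurable

theorem integrable_A {U : E n → ℝ} {c C : ℝ} (h : Reg U c C) (v : E n) (σ : ℝ) (j : ℕ) :
    Integrable
      (fun x : E n => (inner ℝ v x) ^ j * Real.exp (-U x - ‖pr v x‖ ^ 2 / (2 * σ ^ 2))) :=
  (integrable_Ai h v j).abs.mono' (aesm_A h v σ j) (Eventually.of_forall (dom_A U v σ j))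

theorem tendsto_A {U : E n → ℝ} {c C : ℝ} (h : Reg U c C) (v : E n) (j : ℕ) :
    Tendsto (fun k : ℕ => A U v ((k : ℝ) + 1) j) atTop (𝓝 (Ai U v j)) := by
  refine tendsto_integral_of_dominated_convergence
    (fun x => |(inner ℝ v x) ^ j * Real.exp (-U x)|) (fun k => aesm_A h v _ j)
    (integrable_Ai h v j).abs (fun k => Eventually.of_forall (dom_A U v _ j))
    (Eventually.of_forall fun x => ?_)
  refine Tendsto.const_mul _ ?_
  have h1 : Tendsto (fun k : ℕ => ‖pr v x‖ ^ 2 / (2 * ((k : ℝ) + 1) ^ 2)) atTop (𝓝 0) := by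
    have h2 : Tendsto (fun k : ℕ => (2 * ((k : ℝ) + 1) ^ 2)) atTop atTop := by
      refine Tendsto.const_mul_atTop (by norm_num) ?_
      exact (tendsto_pow_atTop (by norm_num)).comp
        (tendsto_atTop_add_const_right _ _ tendsto_natCast_atTop_atTop)
    exact h2.const_div_atTop _
  have h3 := (tendsto_const_nhds (x := -U x)).sub h1
  rw [sub_zero] at h3
  exact (Real.continuous_exp.tendsto _).comp h3

theorem Ai_pos {U : E n → ℝ} {c C : ℝ} (h : Reg U c C) (v : E n) : 0 < Ai U v 0 := by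
  have := h.Z_pos
  simpa [Ai] using this

theorem A_pos {U : E n → ℝ} {c C : ℝ} (h : Reg U c C) (v : E n) (σ : ℝ) : 0 < A U v σ 0 := by
  unfold A
  rw [integral_pos_iff_support_of_nonneg (fun x => by positivity) (integrable_A h v σ 0)]
  have : Function.support (fun x : E n =>
      (inner ℝ v x) ^ 0 * Real.exp (-U x - ‖pr v x‖ ^ 2 / (2 * σ ^ 2))) = Set.univ := by
    ext x
    simp [Real.exp_ne_zero]
  rw [this]
  exact isOpen_univ.measure_pos volume ⟨0, trivial⟩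

/-- integral of a cubic polynomial in `⟨v, x⟩` -/
theorem poly_A {U : E n → ℝ} {c C : ℝ} (h : Reg U c C) (v : E n) (σ : ℝ) (a0 a1 a2 a3 : ℝ) :
    Integrable (fun x : E n => (a0 + a1 * inner ℝ v x + a2 * (inner ℝ v x) ^ 2 +
      a3 * (inner ℝ v x) ^ 3) * Real.exp (-U x - ‖pr v x‖ ^ 2 / (2 * σ ^ 2))) ∧
    (∫ x : E n, (a0 + a1 * inner ℝ v x + a2 * (inner ℝ v x) ^ 2 +
      a3 * (inner ℝ v x) ^ 3) * Real.exp (-U x - ‖pr v x‖ ^ 2 / (2 * σ ^ 2)))
      = a0 * A U v σ 0 + a1 * A U v σ 1 + a2 * A U v σ 2 + a3 * A U v σ 3 := by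
  have i0 := (integrable_A h v σ 0).const_mul a0
  have i1 := (integrable_A h v σ 1).const_mul a1
  have i2 := (integrable_A h v σ 2).const_mul a2
  have i3 := (integrable_A h v σ 3).const_mul a3
  have e : (fun x : E n => (a0 + a1 * inner ℝ v x + a2 * (inner ℝ v x) ^ 2 +
      a3 * (inner ℝ v x) ^ 3) * Real.exp (-U x - ‖pr v x‖ ^ 2 / (2 * σ ^ 2)))
      = fun x : E n => a0 * ((inner ℝ v x) ^ 0 * Real.exp (-U x - ‖pr v x‖ ^ 2 / (2 * σ ^ 2)))
        + a1 * ((inner ℝ v x) ^ 1 * Real.exp (-U x - ‖pr v x‖ ^ 2 / (2 * σ ^ 2)))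
        + a2 * ((inner ℝ v x) ^ 2 * Real.exp (-U x - ‖pr v x‖ ^ 2 / (2 * σ ^ 2)))
        + a3 * ((inner ℝ v x) ^ 3 * Real.exp (-U x - ‖pr v x‖ ^ 2 / (2 * σ ^ 2))) := by
    funext x; ring
  rw [e]
  refine ⟨((i0.add i1).add i2).add i3, ?_⟩
  have j1 : Integrable (fun x : E n =>
      a0 * ((inner ℝ v x) ^ 0 * Real.exp (-U x - ‖pr v x‖ ^ 2 / (2 * σ ^ 2)))
        + a1 * ((inner ℝ v x) ^ 1 * Real.exp (-U x - ‖pr v x‖ ^ 2 / (2 * σ ^ 2)))) := i0.add i1
  have j2 : Integrable (fun x : E n =>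
      a0 * ((inner ℝ v x) ^ 0 * Real.exp (-U x - ‖pr v x‖ ^ 2 / (2 * σ ^ 2)))
        + a1 * ((inner ℝ v x) ^ 1 * Real.exp (-U x - ‖pr v x‖ ^ 2 / (2 * σ ^ 2)))
        + a2 * ((inner ℝ v x) ^ 2 * Real.exp (-U x - ‖pr v x‖ ^ 2 / (2 * σ ^ 2)))) := j1.add i2
  rw [integral_add j2 i3, integral_add j1 i2, integral_add i0 i1,
    integral_const_mul, integral_const_mul, integral_const_mul, integral_const_mul]
  rfl

/-- finite `σ` -/
theorem third_A {U : E n → ℝ} {c C : ℝ} (h : Reg U c C) {v : E n} (hv : v ≠ 0) {σ : ℝ} (hσ : 0 < σ)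
    {κ : ℝ} (hκ : 0 < κ) (hs : SelfConc κ (heat U (σ • pr v))) :
    |A U v σ 3 / A U v σ 0 - 3 * (A U v σ 1 / A U v σ 0) * (A U v σ 2 / A U v σ 0)
        + 2 * (A U v σ 1 / A U v σ 0) ^ 3|
      ≤ 2 * κ * √(A U v σ 2 / A U v σ 0 - (A U v σ 1 / A U v σ 0) ^ 2) ^ 3 := by
  have hcp := h.c_pos
  obtain ⟨K, hK, hcv⟩ := cv h hv hσ
  set P := σ • pr v with hP
  set u := uu v with hu
  have huP : ∀ z, inner ℝ u (P z) = 0 := by
    intro z
    rw [hP, hu, smul_apply, inner_smul_right, inner_uu_pr hv, mul_zero]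
  have hu0 : u ≠ 0 := by
    intro h0
    have h1 := inner_uu hv
    rw [← hu, h0, inner_zero_right] at h1
    exact zero_ne_one h1
  have hun : 0 < ‖u‖ ^ 2 := by have := norm_pos_iff.2 hu0; positivity
  have hlow : ∀ t : ℝ, c * ‖u‖ ^ 2 ≤ w2 U u P (t • u) := w2_lower h u P huP
  have d0 : ∀ t : ℝ, HasDerivAt (fun t : ℝ => heat U P (t • u)) (w1 U u P (t • u)) t := fun t => by
    simpa using hasDerivAt_heat h u P 0 t
  have d1 : ∀ t : ℝ, HasDerivAt (fun t : ℝ => w1 U u P (t • u)) (w2 U u P (t • u)) t := fun t => by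
    simpa using hasDerivAt_w1 h u P 0 t
  have d2 : ∀ t : ℝ, HasDerivAt (fun t : ℝ => w2 U u P (t • u)) (w3 U u P (t • u)) t := fun t => by
    simpa using hasDerivAt_w2 h u P 0 t
  have hsc : ∀ t : ℝ, |w3 U u P (t • u)| ≤ 2 * κ * √(w2 U u P (t • u)) ^ 3 := by
    intro t
    have := hs (t • u) u
    rw [iteratedDeriv_two_heat h, iteratedDeriv_three_heat h, LK.rpow_three_half] at this
    · exact this
    · exact le_trans (by positivity) (hlow t)
  set A0 := A U v σ 0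
  set A1 := A U v σ 1
  set A2 := A U v σ 2
  set A3 := A U v σ 3
  have hA0 : 0 < A0 := A_pos h v σ
  set m := A1 / A0 with hm
  have v0 : (∫ t : ℝ, Real.exp (-heat U P (t • u))) = K * A0 := by
    obtain ⟨i, e⟩ := poly_A h v σ 1 0 0 0
    have h1 := hcv (fun t => 1 + 0 * t + 0 * t ^ 2 + 0 * t ^ 3) i
    simp only [e] at h1
    simpa using h1
  have v1 : (∫ t : ℝ, t * Real.exp (-heat U P (t • u))) = K * A1 := by
    obtain ⟨i, e⟩ := poly_A h v σ 0 1 0 0
    have h1 := hcv (fun t => 0 + 1 * t + 0 * t ^ 2 + 0 * t ^ 3) i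
    simp only [e] at h1
    simpa using h1
  have v2 : (∫ t : ℝ, (t - m) ^ 2 * Real.exp (-heat U P (t • u)))
      = K * (m ^ 2 * A0 - 2 * m * A1 + A2) := by
    obtain ⟨i, e⟩ := poly_A h v σ (m ^ 2) (-(2 * m)) 1 0
    have h1 := hcv (fun t => m ^ 2 + -(2 * m) * t + 1 * t ^ 2 + 0 * t ^ 3) i
    simp only [e] at h1
    have e2 : (fun t : ℝ => (t - m) ^ 2 * Real.exp (-heat U P (t • u)))
        = fun t => (m ^ 2 + -(2 * m) * t + 1 * t ^ 2 + 0 * t ^ 3) * Real.exp (-heat U P (t • u)) := by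
      funext t; ring
    rw [e2, h1]; ring
  have v3 : (∫ t : ℝ, (t - m) ^ 3 * Real.exp (-heat U P (t • u)))
      = K * (-m ^ 3 * A0 + 3 * m ^ 2 * A1 - 3 * m * A2 + A3) := by
    obtain ⟨i, e⟩ := poly_A h v σ (-m ^ 3) (3 * m ^ 2) (-(3 * m)) 1
    have h1 := hcv (fun t => -m ^ 3 + 3 * m ^ 2 * t + -(3 * m) * t ^ 2 + 1 * t ^ 3) i
    simp only [e] at h1
    have e2 : (fun t : ℝ => (t - m) ^ 3 * Real.exp (-heat U P (t • u)))
        = fun t => (-m ^ 3 + 3 * m ^ 2 * t + -(3 * m) * t ^ 2 + 1 * t ^ 3) *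
          Real.exp (-heat U P (t • u)) := by
      funext t; ring
    rw [e2, h1]; ring
  have key := SC1.third_le_sc (W := fun t => heat U P (t • u)) (W1 := fun t => w1 U u P (t • u))
    (W2 := fun t => w2 U u P (t • u)) (W3 := fun t => w3 U u P (t • u)) (c0 := c * ‖u‖ ^ 2) (c := κ)
    d0 d1 d2 (by positivity) hlow hκ hsc (Z := K * A0) (m := m)
    (v := (K * (m ^ 2 * A0 - 2 * m * A1 + A2)) / (K * A0)) v0.symm
    (by rw [v1, hm]; field_simp) (by rw [v2])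
  rw [v3] at key
  have e3 : (K * (-m ^ 3 * A0 + 3 * m ^ 2 * A1 - 3 * m * A2 + A3)) / (K * A0)
      = A3 / A0 - 3 * m * (A2 / A0) + 2 * m ^ 3 := by
    have : A1 = m * A0 := by rw [hm]; field_simp
    rw [this]
    field_simp
    ring
  have e2 : (K * (m ^ 2 * A0 - 2 * m * A1 + A2)) / (K * A0) = A2 / A0 - m ^ 2 := by
    have : A1 = m * A0 := by rw [hm]; field_simp
    rw [this]
    field_simp
    ring
  rw [e3, e2] at key
  exact key

/-- limit `σ → ∞` -/
theorem third_Ai {U : E n → ℝ} {c C : ℝ} (h : Reg U c C) {v : E n} (hv : v ≠ 0)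
    {κ : ℝ} (hκ : 0 < κ) (hs : ∀ P : E n →L[ℝ] E n, SelfConc κ (heat U P)) :
    |Ai U v 3 / Ai U v 0 - 3 * (Ai U v 1 / Ai U v 0) * (Ai U v 2 / Ai U v 0)
        + 2 * (Ai U v 1 / Ai U v 0) ^ 3|
      ≤ 2 * κ * √(Ai U v 2 / Ai U v 0 - (Ai U v 1 / Ai U v 0) ^ 2) ^ 3 := by
  have h0 := (Ai_pos h v).ne'
  have t0 := tendsto_A h v 0
  have t1 := (tendsto_A h v 1).div t0 h0
  have t2 := (tendsto_A h v 2).div t0 h0
  have t3 := (tendsto_A h v 3).div t0 h0
  have hL := ((t3.sub ((t1.const_mul 3).mul t2)).add ((t1.pow 3).const_mul 2)).abs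
  have hR := (((Real.continuous_sqrt.tendsto _).comp (t2.sub (t1.pow 2))).pow 3).const_mul (2 * κ)
  refine le_of_tendsto_of_tendsto' hL hR fun k => ?_
  exact third_A h hv (by positivity) hκ (hs _)

/-- constant `κ ≥ 0` -/
theorem third_Ai' {U : E n → ℝ} {c C : ℝ} (h : Reg U c C) {v : E n} (hv : v ≠ 0)
    {κ : ℝ} (hκ : 0 ≤ κ) (hs : ∀ P : E n →L[ℝ] E n, SelfConc κ (heat U P)) :
    |Ai U v 3 / Ai U v 0 - 3 * (Ai U v 1 / Ai U v 0) * (Ai U v 2 / Ai U v 0)
        + 2 * (Ai U v 1 / Ai U v 0) ^ 3|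
      ≤ 2 * κ * √(Ai U v 2 / Ai U v 0 - (Ai U v 1 / Ai U v 0) ^ 2) ^ 3 := by
  have key : ∀ k : ℕ, |Ai U v 3 / Ai U v 0 - 3 * (Ai U v 1 / Ai U v 0) * (Ai U v 2 / Ai U v 0)
        + 2 * (Ai U v 1 / Ai U v 0) ^ 3|
      ≤ 2 * (κ + 1 / ((k : ℝ) + 1)) * √(Ai U v 2 / Ai U v 0 - (Ai U v 1 / Ai U v 0) ^ 2) ^ 3 := by
    intro k
    refine third_Ai h hv (by positivity) fun P x w => (hs P x w).trans ?_
    by_cases hneg : 0 ≤ (iteratedDeriv 2 (fun t : ℝ => heat U P (x + t • w)) 0) ^ ((3 : ℝ) / 2)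
    · refine mul_le_mul_of_nonneg_right ?_ hneg
      have : (0 : ℝ) < 1 / ((k : ℝ) + 1) := by positivity
      linarith
    · exfalso
      apply hneg
      by_cases h2 : 0 ≤ iteratedDeriv 2 (fun t : ℝ => heat U P (x + t • w)) 0
      · exact Real.rpow_nonneg h2 _
      · push Not at h2
        rw [Real.rpow_def_of_neg h2]
        have : Real.cos ((3 : ℝ) / 2 * Real.pi) = 0 := by
          rw [show (3 : ℝ) / 2 * Real.pi = Real.pi / 2 + Real.pi by ring, Real.cos_add_pi,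
            Real.cos_pi_div_two, neg_zero]
        rw [this, mul_zero]
  have hlim : Tendsto (fun k : ℕ => 2 * (κ + 1 / ((k : ℝ) + 1)) *
      √(Ai U v 2 / Ai U v 0 - (Ai U v 1 / Ai U v 0) ^ 2) ^ 3) atTop
      (𝓝 (2 * κ * √(Ai U v 2 / Ai U v 0 - (Ai U v 1 / Ai U v 0) ^ 2) ^ 3)) := by
    have h1 : Tendsto (fun k : ℕ => 1 / ((k : ℝ) + 1)) atTop (𝓝 0) :=
      tendsto_one_div_add_atTop_nhds_zero_nat
    have h2 := ((h1.const_add κ).const_mul 2).mul_const
      (√(Ai U v 2 / Ai U v 0 - (Ai U v 1 / Ai U v 0) ^ 2) ^ 3)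
    simpa using h2
  exact ge_of_tendsto' hlim key

/-- moments of the tilted measure -/
theorem tmean_eq (W : E n → ℝ) (y v : E n) : Lap.tmean W y v = Ai (tl W y) v 1 / Ai (tl W y) v 0 := by
  unfold Lap.tmean Ai tl
  congr 1
  · refine integral_congr_ae (Eventually.of_forall fun x => ?_)
    simp only [pow_one]
    rw [real_inner_comm v x, neg_sub, real_inner_comm y x]
  · refine integral_congr_ae (Eventually.of_forall fun x => ?_)
    simp only [pow_zero, one_mul]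
    rw [neg_sub, real_inner_comm y x]

theorem tmom_eq {W : E n → ℝ} {c C : ℝ} (h : Reg W c C) (y v : E n) :
    Lap.tmom W y v 2 = Ai (tl W y) v 2 / Ai (tl W y) v 0 - (Ai (tl W y) v 1 / Ai (tl W y) v 0) ^ 2 ∧
    Lap.tmom W y v 3 = Ai (tl W y) v 3 / Ai (tl W y) v 0
      - 3 * (Ai (tl W y) v 1 / Ai (tl W y) v 0) * (Ai (tl W y) v 2 / Ai (tl W y) v 0)
      + 2 * (Ai (tl W y) v 1 / Ai (tl W y) v 0) ^ 3 := by
  have hU := reg_tl h y
  set U := tl W y with hUd
  have h0 := (Ai_pos hU v).ne'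
  have hm := tmean_eq W y v
  rw [← hUd] at hm
  set m := Ai U v 1 / Ai U v 0 with hmd
  have hA1 : Ai U v 1 = m * Ai U v 0 := by rw [hmd]; field_simp
  have hZ : (∫ x : E n, Real.exp (inner ℝ x y - W x)) = Ai U v 0 := by
    unfold Ai
    refine integral_congr_ae (Eventually.of_forall fun x => ?_)
    simp only [pow_zero, one_mul, hUd, tl]
    rw [neg_sub, real_inner_comm y x]
  have i := fun j => integrable_Ai hU v j
  constructor
  · unfold Lap.tmom
    rw [hZ, hm]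
    have e : (fun x : E n => (inner ℝ x v - m) ^ 2 * Real.exp (inner ℝ x y - W x))
        = fun x => ((inner ℝ v x) ^ 2 * Real.exp (-U x) + m ^ 2 * ((inner ℝ v x) ^ 0 * Real.exp (-U x)))
          - 2 * m * ((inner ℝ v x) ^ 1 * Real.exp (-U x)) := by
      funext x
      simp only [hUd, tl]
      rw [neg_sub, real_inner_comm y x, real_inner_comm v x]
      ring
    have k1 : Integrable (fun x : E n => (inner ℝ v x) ^ 2 * Real.exp (-U x)
        + m ^ 2 * ((inner ℝ v x) ^ 0 * Real.exp (-U x))) := (i 2).add ((i 0).const_mul _)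
    rw [e, integral_sub k1 ((i 1).const_mul _),
      integral_add (i 2) ((i 0).const_mul _), integral_const_mul, integral_const_mul]
    change (Ai U v 2 + m ^ 2 * Ai U v 0 - 2 * m * Ai U v 1) / Ai U v 0 = _
    rw [hA1]
    field_simp
    ring
  · unfold Lap.tmom
    rw [hZ, hm]
    have e : (fun x : E n => (inner ℝ x v - m) ^ 3 * Real.exp (inner ℝ x y - W x))
        = fun x => ((inner ℝ v x) ^ 3 * Real.exp (-U x)
            + 3 * m ^ 2 * ((inner ℝ v x) ^ 1 * Real.exp (-U x)))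
          - (3 * m * ((inner ℝ v x) ^ 2 * Real.exp (-U x))
            + m ^ 3 * ((inner ℝ v x) ^ 0 * Real.exp (-U x))) := by
      funext x
      simp only [hUd, tl]
      rw [neg_sub, real_inner_comm y x, real_inner_comm v x]
      ring
    have k1 : Integrable (fun x : E n => (inner ℝ v x) ^ 3 * Real.exp (-U x)
        + 3 * m ^ 2 * ((inner ℝ v x) ^ 1 * Real.exp (-U x))) := (i 3).add ((i 1).const_mul _)
    have k2 : Integrable (fun x : E n => 3 * m * ((inner ℝ v x) ^ 2 * Real.exp (-U x))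
        + m ^ 3 * ((inner ℝ v x) ^ 0 * Real.exp (-U x))) :=
      ((i 2).const_mul _).add ((i 0).const_mul _)
    rw [e, integral_sub k1 k2,
      integral_add (i 3) ((i 1).const_mul _), integral_add ((i 2).const_mul _) ((i 0).const_mul _),
      integral_const_mul, integral_const_mul, integral_const_mul]
    change (Ai U v 3 + 3 * m ^ 2 * Ai U v 1 - (3 * m * Ai U v 2 + m ^ 3 * Ai U v 0)) / Ai U v 0 = _
    rw [hA1]
    field_simp
    ring

/-- **block SC from the flow statement** -/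
theorem stmtSC_of_heat (H : StmtHeat) : StmtSC := by
  intro n W c C κ h hκ0 hκ1 hs y v
  have e2 := Lap.iteratedDeriv_two_logLap h y v 0
  have e3 := Lap.iteratedDeriv_three_logLap h y v 0
  rw [zero_smul, add_zero] at e2 e3
  rw [e2, e3]
  obtain ⟨m2, m3⟩ := tmom_eq h y v
  have hvar : 0 ≤ Lap.tmom W y v 2 := by
    unfold Lap.tmom
    exact div_nonneg (integral_nonneg fun x => by positivity) (integral_nonneg fun x => by positivity)
  rw [LK.rpow_three_half hvar]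
  by_cases hv : v = 0
  · have : Lap.tmom W y v 3 = 0 := by
      rw [m3, hv]
      simp [Ai]
    rw [this, abs_zero]
    positivity
  · rw [m2, m3]
    exact third_Ai' (reg_tl h y) hv hκ0 fun P =>
      H n (tl W y) c C κ (reg_tl h y) hκ0 hκ1 (selfConc_tl h.smooth hs y) P

end Vale.Agent.P227.M.HL
end

section

/-! # P227/M/SC: calculus of directional derivatives `dd`. -/

namespace Vale.Agent.P227.M.SC

variable {E : Type*} [NormedAddCommGroup E] [NormedSpace ℝ E]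

/-- smoothness abbreviation -/
abbrev Sm (f : E → ℝ) : Prop := ContDiff ℝ (⊤ : ℕ∞) f

theorem Sm.diff {f : E → ℝ} (hf : Sm f) (x : E) : DifferentiableAt ℝ f x :=
  (hf.differentiable (by simp)) x

theorem sm_dd {f : E → ℝ} (hf : Sm f) (v : E) : Sm (dd v f) := by
  have h : ContDiff ℝ (⊤ : ℕ∞) (fderiv ℝ f) := by
    apply ContDiff.fderiv_right hf
    exact le_of_eq rfl
  exact h.clm_apply contDiff_const

theorem dd_add_dir (f : E → ℝ) (u v x : E) : dd (u + v) f x = dd u f x + dd v f x := by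
  simp [dd]

theorem dd_smul_dir (f : E → ℝ) (c : ℝ) (v x : E) : dd (c • v) f x = c * dd v f x := by
  simp [dd]

theorem dd_smul_dir' (f : E → ℝ) (c : ℝ) (v : E) : dd (c • v) f = fun x => c * dd v f x :=
  funext fun x => dd_smul_dir f c v x

theorem dd_add {f g : E → ℝ} (hf : Sm f) (hg : Sm g) (v x : E) :
    dd v (fun y => f y + g y) x = dd v f x + dd v g x := by
  unfold dd
  rw [fderiv_fun_add (hf.diff x) (hg.diff x)]
  rfl

theorem dd_sub {f g : E → ℝ} (hf : Sm f) (hg : Sm g) (v x : E) :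
    dd v (fun y => f y - g y) x = dd v f x - dd v g x := by
  unfold dd
  rw [fderiv_fun_sub (hf.diff x) (hg.diff x)]
  rfl

theorem dd_const_mul {f : E → ℝ} (hf : Sm f) (c : ℝ) (v x : E) :
    dd v (fun y => c * f y) x = c * dd v f x := by
  unfold dd
  rw [fderiv_const_mul (hf.diff x)]
  rfl

theorem dd_comm {f : E → ℝ} (hf : Sm f) (u v : E) : dd u (dd v f) = dd v (dd u f) := by
  funext x
  have h2 : DifferentiableAt ℝ (fderiv ℝ f) x := by
    have h : ContDiff ℝ (⊤ : ℕ∞) (fderiv ℝ f) := by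
      apply ContDiff.fderiv_right hf
      exact le_of_eq rfl
    exact (h.differentiable (by simp)) x
  have e1 : ∀ a b : E, dd a (dd b f) x = (fderiv ℝ (fderiv ℝ f) x a) b := by
    intro a b
    unfold dd
    rw [fderiv_clm_apply h2 (differentiableAt_const b)]
    simp
  rw [e1, e1]
  have hs : IsSymmSndFDerivAt ℝ f x := by
    apply ContDiffAt.isSymmSndFDerivAt (n := (⊤ : ℕ∞)) hf.contDiffAt
    simp only [minSmoothness_of_isRCLikeNormedField]
    show ((2 : ℕ∞) : WithTop ℕ∞) ≤ ((⊤ : ℕ∞) : WithTop ℕ∞)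
    exact WithTop.coe_le_coe.2 le_top
  exact hs.eq u v

/-- derivative of `dd`-smooth functions along a line -/
theorem hasDerivAt_line {f : E → ℝ} (hf : Sm f) (x e : E) (t : ℝ) :
    HasDerivAt (fun s : ℝ => f (x + s • e)) (dd e f (x + t • e)) t := by
  have h1 : HasDerivAt (fun s : ℝ => x + s • e) e t := by
    have := ((hasDerivAt_id t).smul_const e).const_add x
    simpa using this
  have h2 : HasFDerivAt f (fderiv ℝ f (x + t • e)) (x + t • e) := (hf.diff _).hasFDerivAt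
  exact h2.comp_hasDerivAt t h1

/-- shift -/
theorem dd_shift (f : E → ℝ) (z v : E) :
    dd v (fun x => f (x + z)) = fun x => dd v f (x + z) := by
  funext x
  unfold dd
  rw [fderiv_comp_add_right]

theorem sm_shift {f : E → ℝ} (hf : Sm f) (z : E) : Sm (fun x => f (x + z)) :=
  hf.comp (contDiff_id.add contDiff_const)

/-- finite difference bound -/
theorem diff_bound {f : E → ℝ} (hf : Sm f) {B : ℝ} {e : E} (hB : ∀ x, |dd e f x| ≤ B)
    (x : E) {δ : ℝ} (hδ : 0 ≤ δ) :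
    |f (x + δ • e) - f (x + (-δ) • e)| ≤ 2 * δ * B := by
  have hc := Convex.norm_image_sub_le_of_norm_hasDerivWithin_le (𝕜 := ℝ) (C := B)
    (f := fun s : ℝ => f (x + s • e)) (f' := fun s => dd e f (x + s • e)) (s := Set.univ)
    (x := -δ) (y := δ)
    (fun t _ => (hasDerivAt_line hf x e t).hasDerivWithinAt) (fun t _ => by
      simpa [Real.norm_eq_abs] using hB (x + t • e)) convex_univ (Set.mem_univ _) (Set.mem_univ _)
  rw [Real.norm_eq_abs, Real.norm_eq_abs] at hc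
  have : |δ - -δ| = 2 * δ := by rw [abs_of_nonneg (by linarith)]; ring
  rw [this] at hc
  linarith

/-- one-sided difference bound -/
theorem diff_bound1 {f : E → ℝ} (hf : Sm f) {B : ℝ} {e : E} (hB : ∀ x, |dd e f x| ≤ B)
    (x : E) (t : ℝ) : |f (x + t • e) - f x| ≤ |t| * B := by
  have hc := Convex.norm_image_sub_le_of_norm_hasDerivWithin_le (𝕜 := ℝ) (C := B)
    (f := fun s : ℝ => f (x + s • e)) (f' := fun s => dd e f (x + s • e)) (s := Set.univ)
    (x := 0) (y := t)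
    (fun t _ => (hasDerivAt_line hf x e t).hasDerivWithinAt) (fun t _ => by
      simpa [Real.norm_eq_abs] using hB (x + t • e)) convex_univ (Set.mem_univ _) (Set.mem_univ _)
  rw [Real.norm_eq_abs, Real.norm_eq_abs] at hc
  simp only [zero_smul, add_zero, sub_zero] at hc
  linarith [mul_comm B |t|]

/-- second order finite difference bound -/
theorem diff_bound2 {f : E → ℝ} (hf : Sm f) {B : ℝ} {e : E} (hB : ∀ x, |dd e (dd e f) x| ≤ B)
    (x : E) {δ : ℝ} (hδ : 0 ≤ δ) :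
    |f (x + δ • e) - f (x + (-δ) • e) - 2 * δ * dd e f x| ≤ 2 * B * δ ^ 2 := by
  have hB0 : 0 ≤ B := (abs_nonneg _).trans (hB x)
  have hd : ∀ t ∈ Set.Icc (-δ) δ, HasDerivWithinAt (fun s : ℝ => f (x + s • e) - s * dd e f x)
      (dd e f (x + t • e) - 1 * dd e f x) (Set.Icc (-δ) δ) t := by
    intro t _
    exact ((hasDerivAt_line hf x e t).sub ((hasDerivAt_id t).mul_const (dd e f x))).hasDerivWithinAt
  have hc := Convex.norm_image_sub_le_of_norm_hasDerivWithin_le (𝕜 := ℝ) (C := B * δ)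
    (x := -δ) (y := δ) hd (fun t ht => by
      rw [Real.norm_eq_abs, one_mul]
      have h1 := diff_bound1 (sm_dd hf e) hB x t
      have h2 : |t| ≤ δ := abs_le.2 ⟨ht.1, ht.2⟩
      nlinarith) (convex_Icc _ _) ⟨le_refl _, by linarith⟩ ⟨by linarith, le_refl _⟩
  rw [Real.norm_eq_abs, Real.norm_eq_abs] at hc
  have h3 : |δ - -δ| = 2 * δ := by rw [abs_of_nonneg (by linarith)]; ring
  rw [h3] at hc
  have h4 : f (x + δ • e) - δ * dd e f x - (f (x + (-δ) • e) - -δ * dd e f x)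
      = f (x + δ • e) - f (x + (-δ) • e) - 2 * δ * dd e f x := by ring
  rw [h4] at hc
  nlinarith

end Vale.Agent.P227.M.SC
end

section

/-! # P227/M/SC: derivatives of `avg` up to order four. -/

namespace Vale.Agent.P227.M.SC

variable {E : Type*} [NormedAddCommGroup E] [NormedSpace ℝ E]

theorem line0 {F : E → ℝ} (hF : Sm F) (x v : E) :
    HasDerivAt (fun t : ℝ => F (x + t • v)) (dd v F x) 0 := by
  have := hasDerivAt_line hF x v 0
  simpa using this

theorem dd_of_line {F : E → ℝ} (hF : Sm F) {x v : E} {c : ℝ}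
    (h : HasDerivAt (fun t : ℝ => F (x + t • v)) c 0) : dd v F x = c :=
  (line0 hF x v).unique h

/-- the weight `e^{-f}/(e^{-f}+e^{-g})` -/
noncomputable def wt (f g : E → ℝ) (x : E) : ℝ := (1 + Real.exp (f x - g x))⁻¹

/-- `-log((e^{-f}+e^{-g})/2)` -/
noncomputable def lg (f g : E → ℝ) (x : E) : ℝ :=
  -Real.log ((Real.exp (-f x) + Real.exp (-g x)) / 2)

theorem sm_wt {f g : E → ℝ} (hf : Sm f) (hg : Sm g) : Sm (wt f g) := by
  unfold wt
  apply ContDiff.inv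
  · exact contDiff_const.add (hf.sub hg).exp
  · intro x; positivity

theorem sm_lg {f g : E → ℝ} (hf : Sm f) (hg : Sm g) : Sm (lg f g) := by
  unfold lg
  apply ContDiff.neg
  apply ContDiff.log
  · exact (hf.neg.exp.add hg.neg.exp).div_const 2
  · intro x; positivity

omit [NormedAddCommGroup E] [NormedSpace ℝ E] in
theorem wt_nonneg (f g : E → ℝ) (x : E) : 0 ≤ wt f g x := by unfold wt; positivity

omit [NormedAddCommGroup E] [NormedSpace ℝ E] in
theorem wt_le_one (f g : E → ℝ) (x : E) : wt f g x ≤ 1 := by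
  unfold wt
  apply inv_le_one_of_one_le₀
  linarith [Real.exp_pos (f x - g x)]

theorem dd_wt {f g : E → ℝ} (hf : Sm f) (hg : Sm g) (v x : E) :
    dd v (wt f g) x = -(wt f g x * (1 - wt f g x)) * (dd v f x - dd v g x) := by
  apply dd_of_line (sm_wt hf hg)
  have hf' := line0 hf x v
  have hg' := line0 hg x v
  have hpos : 1 + Real.exp (f (x + (0:ℝ) • v) - g (x + (0:ℝ) • v)) ≠ 0 := by positivity
  have h := ((hf'.sub hg').exp.const_add 1).inv hpos
  have h2 : HasDerivAt (fun t : ℝ => wt f g (x + t • v)) _ 0 := h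
  convert h2 using 1
  simp only [wt]
  have hpos' : 1 + Real.exp (f x - g x) ≠ 0 := by positivity
  simp only [Pi.sub_apply, zero_smul, add_zero]
  field_simp
  ring

theorem dd_lg {f g : E → ℝ} (hf : Sm f) (hg : Sm g) (v x : E) :
    dd v (lg f g) x = dd v g x + wt f g x * (dd v f x - dd v g x) := by
  apply dd_of_line (sm_lg hf hg)
  have hf' := line0 hf x v
  have hg' := line0 hg x v
  have hpos : (Real.exp (-f (x + (0:ℝ) • v)) + Real.exp (-g (x + (0:ℝ) • v))) / 2 ≠ 0 := by positivity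
  have h := (((hf'.neg.exp.add hg'.neg.exp).div_const 2).log hpos).neg
  have h2 : HasDerivAt (fun t : ℝ => lg f g (x + t • v)) _ 0 := h
  convert h2 using 1
  simp only [wt]
  simp only [Pi.add_apply, Pi.neg_apply, zero_smul, add_zero]
  have e1 : Real.exp (f x - g x) = Real.exp (-g x) / Real.exp (-f x) := by
    rw [← Real.exp_sub]; congr 1; ring
  rw [e1]
  have p1 : Real.exp (-g x) ≠ 0 := (Real.exp_pos _).ne'
  have p2 : Real.exp (-f x) ≠ 0 := (Real.exp_pos _).ne'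
  have p3 : Real.exp (-f x) + Real.exp (-g x) ≠ 0 := by positivity
  field_simp
  ring

theorem gen2 {A B P : E → ℝ} (hA : Sm A) (hB : Sm B) (hP : Sm P) (v x : E) :
    dd v (fun y => A y + P y * B y) x = dd v A x + P x * dd v B x + dd v P x * B x := by
  apply dd_of_line (hA.add (hP.mul hB))
  have h := (line0 hA x v).add ((line0 hP x v).mul (line0 hB x v))
  have h2 : HasDerivAt (fun t : ℝ => A (x + t • v) + P (x + t • v) * B (x + t • v)) _ 0 := h
  convert h2 using 1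
  simp only [zero_smul, add_zero]
  ring

theorem gen3 {A B P C D : E → ℝ} (hA : Sm A) (hB : Sm B) (hP : Sm P) (hC : Sm C) (hD : Sm D)
    (v x : E) :
    dd v (fun y => A y + P y * B y - P y * (1 - P y) * (C y * D y)) x
      = dd v A x + P x * dd v B x + dd v P x * B x
        - (1 - 2 * P x) * dd v P x * (C x * D x)
        - P x * (1 - P x) * (dd v C x * D x + C x * dd v D x) := by
  apply dd_of_line ((hA.add (hP.mul hB)).sub ((hP.mul (contDiff_const.sub hP)).mul (hC.mul hD)))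
  have h := ((line0 hA x v).add ((line0 hP x v).mul (line0 hB x v))).sub
    (((line0 hP x v).mul ((line0 hP x v).const_sub 1)).mul ((line0 hC x v).mul (line0 hD x v)))
  have h2 : HasDerivAt (fun t : ℝ => A (x + t • v) + P (x + t • v) * B (x + t • v)
      - P (x + t • v) * (1 - P (x + t • v)) * (C (x + t • v) * D (x + t • v))) _ 0 := h
  convert h2 using 1
  simp only [zero_smul, add_zero, Pi.mul_apply]
  ring

theorem gen4 {A B P C D C' D' C'' D'' X Y Z : E → ℝ} (hA : Sm A) (hB : Sm B) (hP : Sm P)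
    (hC : Sm C) (hD : Sm D) (hC' : Sm C') (hD' : Sm D') (hC'' : Sm C'') (hD'' : Sm D'')
    (hX : Sm X) (hY : Sm Y) (hZ : Sm Z) (v x : E) :
    dd v (fun y => A y + P y * B y - P y * (1 - P y) * (C y * D y + C' y * D' y + C'' y * D'' y)
      + P y * (1 - P y) * (1 - 2 * P y) * (X y * Y y * Z y)) x
      = dd v A x + P x * dd v B x + dd v P x * B x
        - (1 - 2 * P x) * dd v P x * (C x * D x + C' x * D' x + C'' x * D'' x)
        - P x * (1 - P x) * (dd v C x * D x + C x * dd v D x + dd v C' x * D' x + C' x * dd v D' x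
            + dd v C'' x * D'' x + C'' x * dd v D'' x)
        + (1 - 6 * P x + 6 * P x ^ 2) * dd v P x * (X x * Y x * Z x)
        + P x * (1 - P x) * (1 - 2 * P x) * (dd v X x * Y x * Z x + X x * dd v Y x * Z x
            + X x * Y x * dd v Z x) := by
  apply dd_of_line (((hA.add (hP.mul hB)).sub ((hP.mul (contDiff_const.sub hP)).mul
    (((hC.mul hD).add (hC'.mul hD')).add (hC''.mul hD'')))).add
    (((hP.mul (contDiff_const.sub hP)).mul (contDiff_const.sub (contDiff_const.mul hP))).mul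
      ((hX.mul hY).mul hZ)))
  have lP := line0 hP x v
  have h := (((line0 hA x v).add (lP.mul (line0 hB x v))).sub
    ((lP.mul (lP.const_sub 1)).mul ((((line0 hC x v).mul (line0 hD x v)).add
      ((line0 hC' x v).mul (line0 hD' x v))).add ((line0 hC'' x v).mul (line0 hD'' x v))))).add
    (((lP.mul (lP.const_sub 1)).mul ((lP.const_mul 2).const_sub 1)).mul
      (((line0 hX x v).mul (line0 hY x v)).mul (line0 hZ x v)))
  have h2 : HasDerivAt (fun t : ℝ => A (x + t • v) + P (x + t • v) * B (x + t • v)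
      - P (x + t • v) * (1 - P (x + t • v)) * (C (x + t • v) * D (x + t • v)
        + C' (x + t • v) * D' (x + t • v) + C'' (x + t • v) * D'' (x + t • v))
      + P (x + t • v) * (1 - P (x + t • v)) * (1 - 2 * P (x + t • v)) *
        (X (x + t • v) * Y (x + t • v) * Z (x + t • v))) _ 0 := h
  convert h2 using 1
  simp only [zero_smul, add_zero, Pi.mul_apply, Pi.add_apply]
  ring

/-- difference of first derivatives -/
noncomputable def df (f g : E → ℝ) (v x : E) : ℝ := dd v f x - dd v g x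

theorem sm_df {f g : E → ℝ} (hf : Sm f) (hg : Sm g) (v : E) : Sm (df f g v) :=
  (sm_dd hf v).sub (sm_dd hg v)

theorem dd_df {f g : E → ℝ} (hf : Sm f) (hg : Sm g) (u v x : E) :
    dd v (df f g u) x = df (dd u f) (dd u g) v x :=
  dd_sub (sm_dd hf u) (sm_dd hg u) v x

theorem lg1 {f g : E → ℝ} (hf : Sm f) (hg : Sm g) (v₁ : E) :
    dd v₁ (lg f g) = fun x => dd v₁ g x + wt f g x * df f g v₁ x :=
  funext fun x => dd_lg hf hg v₁ x

theorem lg2 {f g : E → ℝ} (hf : Sm f) (hg : Sm g) (v₁ v₂ : E) :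
    dd v₂ (dd v₁ (lg f g)) = fun x => dd v₂ (dd v₁ g) x + wt f g x * df (dd v₁ f) (dd v₁ g) v₂ x
      - wt f g x * (1 - wt f g x) * (df f g v₂ x * df f g v₁ x) := by
  funext x
  rw [lg1 hf hg, gen2 (sm_dd hg v₁) (sm_df hf hg v₁) (sm_wt hf hg), dd_wt hf hg, dd_df hf hg]
  unfold df
  ring

theorem lg3 {f g : E → ℝ} (hf : Sm f) (hg : Sm g) (v₁ v₂ v₃ : E) :
    dd v₃ (dd v₂ (dd v₁ (lg f g))) = fun x =>
      dd v₃ (dd v₂ (dd v₁ g)) x
      + wt f g x * df (dd v₂ (dd v₁ f)) (dd v₂ (dd v₁ g)) v₃ x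
      - wt f g x * (1 - wt f g x) * (df f g v₃ x * df (dd v₁ f) (dd v₁ g) v₂ x
        + df (dd v₂ f) (dd v₂ g) v₃ x * df f g v₁ x
        + df f g v₂ x * df (dd v₁ f) (dd v₁ g) v₃ x)
      + wt f g x * (1 - wt f g x) * (1 - 2 * wt f g x) * (df f g v₃ x * df f g v₂ x * df f g v₁ x) := by
  funext x
  rw [lg2 hf hg, gen3 (sm_dd (sm_dd hg v₁) v₂) (sm_df (sm_dd hf v₁) (sm_dd hg v₁) v₂) (sm_wt hf hg)
    (sm_df hf hg v₂) (sm_df hf hg v₁), dd_wt hf hg, dd_df (sm_dd hf v₁) (sm_dd hg v₁),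
    dd_df hf hg, dd_df hf hg]
  unfold df
  ring

theorem lg4 {f g : E → ℝ} (hf : Sm f) (hg : Sm g) (v₁ v₂ v₃ v₄ x : E) :
    dd v₄ (dd v₃ (dd v₂ (dd v₁ (lg f g)))) x =
      dd v₄ (dd v₃ (dd v₂ (dd v₁ g))) x
      + wt f g x * df (dd v₃ (dd v₂ (dd v₁ f))) (dd v₃ (dd v₂ (dd v₁ g))) v₄ x
      - wt f g x * (1 - wt f g x) * (df f g v₄ x * df (dd v₂ (dd v₁ f)) (dd v₂ (dd v₁ g)) v₃ x
        + df f g v₃ x * df (dd v₂ (dd v₁ f)) (dd v₂ (dd v₁ g)) v₄ x
        + df f g v₁ x * df (dd v₃ (dd v₂ f)) (dd v₃ (dd v₂ g)) v₄ x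
        + df f g v₂ x * df (dd v₃ (dd v₁ f)) (dd v₃ (dd v₁ g)) v₄ x)
      - wt f g x * (1 - wt f g x) * (df (dd v₃ f) (dd v₃ g) v₄ x * df (dd v₁ f) (dd v₁ g) v₂ x
        + df (dd v₂ f) (dd v₂ g) v₃ x * df (dd v₁ f) (dd v₁ g) v₄ x
        + df (dd v₂ f) (dd v₂ g) v₄ x * df (dd v₁ f) (dd v₁ g) v₃ x)
      + wt f g x * (1 - wt f g x) * (1 - 2 * wt f g x) *
        (df f g v₄ x * df f g v₃ x * df (dd v₁ f) (dd v₁ g) v₂ x
          + df f g v₄ x * df (dd v₂ f) (dd v₂ g) v₃ x * df f g v₁ x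
          + df f g v₄ x * df f g v₂ x * df (dd v₁ f) (dd v₁ g) v₃ x
          + df (dd v₃ f) (dd v₃ g) v₄ x * df f g v₂ x * df f g v₁ x
          + df f g v₃ x * df (dd v₂ f) (dd v₂ g) v₄ x * df f g v₁ x
          + df f g v₃ x * df f g v₂ x * df (dd v₁ f) (dd v₁ g) v₄ x)
      + wt f g x * (1 - wt f g x) * (6 * (wt f g x * (1 - wt f g x)) - 1) *
        (df f g v₄ x * df f g v₃ x * df f g v₂ x * df f g v₁ x) := by
  rw [lg3 hf hg, gen4 (sm_dd (sm_dd (sm_dd hg v₁) v₂) v₃)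
    (sm_df (sm_dd (sm_dd hf v₁) v₂) (sm_dd (sm_dd hg v₁) v₂) v₃) (sm_wt hf hg)
    (sm_df hf hg v₃) (sm_df (sm_dd hf v₁) (sm_dd hg v₁) v₂)
    (sm_df (sm_dd hf v₂) (sm_dd hg v₂) v₃) (sm_df hf hg v₁)
    (sm_df hf hg v₂) (sm_df (sm_dd hf v₁) (sm_dd hg v₁) v₃)
    (sm_df hf hg v₃) (sm_df hf hg v₂) (sm_df hf hg v₁), dd_wt hf hg,
    dd_df (sm_dd (sm_dd hf v₁) v₂) (sm_dd (sm_dd hg v₁) v₂),
    dd_df (sm_dd hf v₁) (sm_dd hg v₁), dd_df (sm_dd hf v₁) (sm_dd hg v₁),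
    dd_df (sm_dd hf v₂) (sm_dd hg v₂),
    dd_df hf hg, dd_df hf hg, dd_df hf hg]
  unfold df
  ring

end Vale.Agent.P227.M.SC
end

section

/-! # P227/M/SC: Cauchy-Schwarz and difference bounds for `St` (leaf StCS of helper839). -/

namespace Vale.Agent.P227.M.SC

variable {E : Type*} [NormedAddCommGroup E] [NormedSpace ℝ E]

section
variable {a b C3 C4 κ ε : ℝ} {w : E → ℝ}

theorem St.nonneg (h : St a b C3 C4 κ ε w) (ha : 0 ≤ a) (x v : E) : 0 ≤ dd v (dd v w) x :=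
  le_trans (mul_nonneg ha (sq_nonneg _)) (h.lower x v)

/-- expansion of the second derivative along `v + t • u` -/
theorem St.expand (h : St a b C3 C4 κ ε w) (x u v : E) (t : ℝ) :
    dd (v + t • u) (dd (v + t • u) w) x
      = dd v (dd v w) x + 2 * t * dd u (dd v w) x + t ^ 2 * dd u (dd u w) x := by
  have hs : Sm w := h.smooth
  have e1 : dd (v + t • u) w = fun y => dd v w y + t * dd u w y := by
    funext y
    rw [dd_add_dir, dd_smul_dir]
  have e2 : ∀ z : E, dd z (dd (v + t • u) w) x = dd z (dd v w) x + t * dd z (dd u w) x := by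
    intro z
    rw [e1, dd_add (sm_dd hs v) (contDiff_const.mul (sm_dd hs u)), dd_const_mul (sm_dd hs u)]
  rw [dd_add_dir, dd_smul_dir, e2, e2, dd_comm hs v u]
  ring

/-- Cauchy-Schwarz for the second derivative -/
theorem St.cs_sq (h : St a b C3 C4 κ ε w) (ha : 0 ≤ a) (x u v : E) :
    (dd u (dd v w) x) ^ 2 ≤ dd u (dd u w) x * dd v (dd v w) x := by
  have h0 : ∀ t : ℝ, 0 ≤ dd u (dd u w) x * (t * t) + 2 * dd u (dd v w) x * t + dd v (dd v w) x := by
    intro t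
    have h1 := h.nonneg ha x (v + t • u)
    rw [h.expand] at h1
    nlinarith
  have h2 := discrim_le_zero h0
  unfold discrim at h2
  nlinarith

/-- bound of the mixed second derivative -/
theorem St.cs_abs (h : St a b C3 C4 κ ε w) (ha : 0 ≤ a) (x u v : E) :
    |dd u (dd v w) x| ≤ b * (‖u‖ * ‖v‖) := by
  have h1 := h.cs_sq ha x u v
  have hu := h.upper x u
  have hv := h.upper x v
  have hu0 := h.nonneg ha x u
  have hv0 := h.nonneg ha x v
  by_cases hb : 0 ≤ b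
  · apply abs_le_of_sq_le_sq _ (by positivity)
    calc (dd u (dd v w) x) ^ 2 ≤ dd u (dd u w) x * dd v (dd v w) x := h1
      _ ≤ (b * ‖u‖ ^ 2) * (b * ‖v‖ ^ 2) := mul_le_mul hu hv hv0 (hu0.trans hu)
      _ = (b * (‖u‖ * ‖v‖)) ^ 2 := by ring
  · have hu1 : ‖u‖ = 0 := by
      by_contra hne
      have : 0 < ‖u‖ ^ 2 := by positivity
      nlinarith
    have hu2 : u = 0 := norm_eq_zero.1 hu1
    subst hu2
    simp [dd]

/-- first difference bound -/
theorem St.D1 (h : St a b C3 C4 κ ε w) (ha : 0 ≤ a) {e : E} (he : ‖e‖ = 1) {δ : ℝ} (hδ : 0 ≤ δ)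
    (x v : E) : |dd v w (x + δ • e) - dd v w (x + (-δ) • e)| ≤ 2 * δ * (b * ‖v‖) := by
  refine diff_bound (sm_dd h.smooth v) (fun y => ?_) x hδ
  have := h.cs_abs ha y e v
  rwa [he, one_mul] at this

/-- second difference bound -/
theorem St.D2 (h : St a b C3 C4 κ ε w) {e : E} (he : ‖e‖ = 1) {δ : ℝ} (hδ : 0 ≤ δ)
    (x v₁ v₂ : E) : |dd v₂ (dd v₁ w) (x + δ • e) - dd v₂ (dd v₁ w) (x + (-δ) • e)|
      ≤ 2 * δ * (C3 * (‖v₁‖ * ‖v₂‖)) := by
  refine diff_bound (sm_dd (sm_dd h.smooth v₁) v₂) (fun y => ?_) x hδ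
  have := h.b3 y v₁ v₂ e
  rwa [he, mul_one] at this

/-- third difference bound -/
theorem St.D3 (h : St a b C3 C4 κ ε w) {e : E} (he : ‖e‖ = 1) {δ : ℝ} (hδ : 0 ≤ δ)
    (x v₁ v₂ v₃ : E) :
    |dd v₃ (dd v₂ (dd v₁ w)) (x + δ • e) - dd v₃ (dd v₂ (dd v₁ w)) (x + (-δ) • e)|
      ≤ 2 * δ * (C4 * (‖v₁‖ * ‖v₂‖ * ‖v₃‖)) := by
  refine diff_bound (sm_dd (sm_dd (sm_dd h.smooth v₁) v₂) v₃) (fun y => ?_) x hδ
  have := h.b4 y v₁ v₂ v₃ e
  rwa [he, mul_one] at this

end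

end Vale.Agent.P227.M.SC
end

section

/-! # P227/M/SC: lower bound of the second derivative of the two-point average, real inequality
(leaf (4) of helper839, helper847) -/

namespace Vale.Agent.P227.M.SC

theorem r_low (a0 b A3 : ℝ) (_ha0 : 0 < a0) (hb : 0 ≤ b) (hA3 : 0 ≤ A3) : ∃ K, 0 ≤ K ∧
    ∀ (a C3 δ P n a1 a2 ax m D : ℝ), a0 ≤ a → a ≤ b → 0 ≤ C3 → C3 ≤ A3 → 0 < δ → δ ≤ 1 → 0 ≤ P → P ≤ 1 →
      0 ≤ n → a * n ^ 2 ≤ a1 → a1 ≤ b * n ^ 2 → a * n ^ 2 ≤ a2 → a2 ≤ b * n ^ 2 → 0 ≤ ax → m ^ 2 ≤ b * ax →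
      ax ≤ a1 + C3 * δ * n ^ 2 → ax ≤ a2 + C3 * δ * n ^ 2 → |m| ≤ b * n → |D - 2 * δ * m| ≤ 2 * C3 * δ ^ 2 * n →
      (a * (1 - b * δ ^ 2) - K * δ ^ 3) * n ^ 2 ≤ P * a1 + (1 - P) * a2 - P * (1 - P) * D ^ 2 := by
  refine ⟨3 * b * A3 + A3 ^ 2 + b ^ 3, by positivity, ?_⟩
  intro a C3 δ P n a1 a2 ax m D haa hab hC hCA hδ hδ1 hP hP1 hn h1 h2 h3 h4 hax hm hx1 hx2 hmb hD
  have ha : 0 ≤ a := by linarith
  set B := P * a1 + (1 - P) * a2 with hB
  have hB1 : a * n ^ 2 ≤ B := by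
    have e1 := mul_le_mul_of_nonneg_left h1 hP
    have e2 := mul_le_mul_of_nonneg_left h3 (by linarith : (0 : ℝ) ≤ 1 - P)
    rw [hB]; linarith
  have hB2 : B ≤ b * n ^ 2 := by
    have e1 := mul_le_mul_of_nonneg_left h2 hP
    have e2 := mul_le_mul_of_nonneg_left h4 (by linarith : (0 : ℝ) ≤ 1 - P)
    rw [hB]; linarith
  have hB3 : ax ≤ B + C3 * δ * n ^ 2 := by
    have e1 := mul_le_mul_of_nonneg_left hx1 hP
    have e2 := mul_le_mul_of_nonneg_left hx2 (by linarith : (0 : ℝ) ≤ 1 - P)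
    rw [hB]; linarith
  -- bound of `D ^ 2`
  have hD2 : D ^ 2 ≤ 4 * δ ^ 2 * (b * ax) + 8 * δ ^ 3 * b * C3 * n ^ 2 + 4 * C3 ^ 2 * δ ^ 4 * n ^ 2 := by
    set E := D - 2 * δ * m with hE
    have e1 : D = 2 * δ * m + E := by rw [hE]; ring
    have e2 : E ^ 2 ≤ (2 * C3 * δ ^ 2 * n) ^ 2 := by
      rw [← sq_abs E]
      exact pow_le_pow_left₀ (abs_nonneg _) hD 2
    have e3 : m * E ≤ (b * n) * (2 * C3 * δ ^ 2 * n) := by
      refine (le_abs_self _).trans ?_
      rw [abs_mul]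
      exact mul_le_mul hmb hD (abs_nonneg _) (by positivity)
    have e4 := mul_le_mul_of_nonneg_left hm (by positivity : 0 ≤ 4 * δ ^ 2)
    have e5 := mul_le_mul_of_nonneg_left e3 (by positivity : 0 ≤ 4 * δ)
    rw [e1]
    nlinarith
  have hQ : P * (1 - P) ≤ 1 / 4 := by nlinarith [sq_nonneg (P - 1 / 2)]
  have hQ0 : 0 ≤ P * (1 - P) := mul_nonneg hP (by linarith)
  have hQD : P * (1 - P) * D ^ 2 ≤ 1 / 4 * (4 * δ ^ 2 * (b * ax) + 8 * δ ^ 3 * b * C3 * n ^ 2 +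
      4 * C3 ^ 2 * δ ^ 4 * n ^ 2) :=
    mul_le_mul hQ hD2 (sq_nonneg _) (by norm_num)
  have hax2 : δ ^ 2 * (b * ax) ≤ δ ^ 2 * (b * (B + C3 * δ * n ^ 2)) :=
    mul_le_mul_of_nonneg_left (mul_le_mul_of_nonneg_left hB3 hb) (by positivity)
  have hδ4 : δ ^ 4 ≤ δ ^ 3 := by
    have : δ ^ 4 = δ ^ 3 * δ := by ring
    rw [this]
    exact mul_le_of_le_one_right (by positivity) hδ1
  have hC2 : C3 ^ 2 * δ ^ 4 * n ^ 2 ≤ A3 ^ 2 * δ ^ 3 * n ^ 2 := by
    refine mul_le_mul_of_nonneg_right ?_ (sq_nonneg n)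
    exact mul_le_mul (pow_le_pow_left₀ hC hCA 2) hδ4 (by positivity) (by positivity)
  have hC1 : b * C3 * δ ^ 3 * n ^ 2 ≤ b * A3 * δ ^ 3 * n ^ 2 := by
    refine mul_le_mul_of_nonneg_right ?_ (sq_nonneg n)
    refine mul_le_mul_of_nonneg_right ?_ (by positivity)
    exact mul_le_mul_of_nonneg_left hCA hb
  -- main estimate
  have main : B * (1 - b * δ ^ 2) - (3 * b * A3 + A3 ^ 2) * δ ^ 3 * n ^ 2 ≤ B - P * (1 - P) * D ^ 2 := by
    have e1 : 1 / 4 * (4 * δ ^ 2 * (b * ax) + 8 * δ ^ 3 * b * C3 * n ^ 2 + 4 * C3 ^ 2 * δ ^ 4 * n ^ 2) =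
        δ ^ 2 * (b * ax) + 2 * (b * C3 * δ ^ 3 * n ^ 2) + C3 ^ 2 * δ ^ 4 * n ^ 2 := by ring
    rw [e1] at hQD
    have e2 : δ ^ 2 * (b * (B + C3 * δ * n ^ 2)) = B * (b * δ ^ 2) + b * C3 * δ ^ 3 * n ^ 2 := by ring
    rw [e2] at hax2
    have e3 : (3 * b * A3 + A3 ^ 2) * δ ^ 3 * n ^ 2 = 3 * (b * A3 * δ ^ 3 * n ^ 2) + A3 ^ 2 * δ ^ 3 * n ^ 2 := by ring
    rw [e3]
    linarith
  refine le_trans ?_ main
  rcases le_total (b * δ ^ 2) 1 with hs | hs
  · have e1 := mul_le_mul_of_nonneg_right hB1 (by linarith : (0 : ℝ) ≤ 1 - b * δ ^ 2)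
    have e2 : 0 ≤ b ^ 3 * δ ^ 3 * n ^ 2 := by positivity
    have e3 : (a * (1 - b * δ ^ 2) - (3 * b * A3 + A3 ^ 2 + b ^ 3) * δ ^ 3) * n ^ 2 =
        a * n ^ 2 * (1 - b * δ ^ 2) - (3 * b * A3 + A3 ^ 2) * δ ^ 3 * n ^ 2 - b ^ 3 * δ ^ 3 * n ^ 2 := by ring
    rw [e3]
    linarith
  · have e1 : b * n ^ 2 * (1 - b * δ ^ 2) ≤ B * (1 - b * δ ^ 2) := by
      have := mul_le_mul_of_nonneg_right hB2 (by linarith : (0 : ℝ) ≤ b * δ ^ 2 - 1)
      linarith
    -- `(b - a) (b δ² - 1) ≤ b³ δ³`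
    have e2 : (b - a) * (b * δ ^ 2 - 1) ≤ b ^ 3 * δ ^ 3 := by
      have f1 : (b - a) * (b * δ ^ 2 - 1) ≤ b * (b * δ ^ 2) :=
        mul_le_mul (by linarith) (by linarith) (by linarith) hb
      have f2 : b * (b * δ ^ 2) ≤ b * (b * δ ^ 2) * (b * δ ^ 2) :=
        le_mul_of_one_le_right (by positivity) hs
      have f3 : b * (b * δ ^ 2) * (b * δ ^ 2) = b ^ 3 * δ ^ 4 := by ring
      have f4 : b ^ 3 * δ ^ 4 ≤ b ^ 3 * δ ^ 3 := mul_le_mul_of_nonneg_left hδ4 (by positivity)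
      linarith
    have e3 := mul_le_mul_of_nonneg_right e2 (sq_nonneg n)
    have e4 : (a * (1 - b * δ ^ 2) - (3 * b * A3 + A3 ^ 2 + b ^ 3) * δ ^ 3) * n ^ 2 =
        b * n ^ 2 * (1 - b * δ ^ 2) + (b - a) * (b * δ ^ 2 - 1) * n ^ 2
          - (3 * b * A3 + A3 ^ 2) * δ ^ 3 * n ^ 2 - b ^ 3 * δ ^ 3 * n ^ 2 := by ring
    rw [e4]
    linarith

end Vale.Agent.P227.M.SC
end

section

/-! # P227/M/SC: the fields smooth, upper, b3, b4, lower of `StepStmt`. -/

namespace Vale.Agent.P227.M.SC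

variable {E : Type*} [NormedAddCommGroup E] [NormedSpace ℝ E]

section
variable {a b C3 C4 κ ε δ : ℝ} {e : E} {w : E → ℝ}

theorem avg_eq_lg (δ : ℝ) (e : E) (w : E → ℝ) :
    avg δ e w = lg (fun x => w (x + δ • e)) (fun x => w (x + (-δ) • e)) := by
  funext x
  simp only [avg, lg, neg_smul, sub_eq_add_neg]

theorem St.a_le_b (h : St a b C3 C4 κ ε w) (he : ‖e‖ = 1) : a ≤ b := by
  have h1 := h.lower 0 e
  have h2 := h.upper 0 e
  rw [he] at h1 h2
  linarith

theorem St.C3_nonneg (h : St a b C3 C4 κ ε w) (he : ‖e‖ = 1) : 0 ≤ C3 := by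
  have h1 := h.b3 0 e e e
  rw [he] at h1
  have := abs_nonneg (dd e (dd e (dd e w)) 0)
  linarith

theorem St.C4_nonneg (h : St a b C3 C4 κ ε w) (he : ‖e‖ = 1) : 0 ≤ C4 := by
  have h1 := h.b4 0 e e e e
  rw [he] at h1
  have := abs_nonneg (dd e (dd e (dd e (dd e w))) 0)
  linarith

theorem step_smooth (h : St a b C3 C4 κ ε w) : ContDiff ℝ (⊤ : ℕ∞) (avg δ e w) := by
  rw [avg_eq_lg]
  exact sm_lg (sm_shift h.smooth _) (sm_shift h.smooth _)

theorem step_upper (h : St a b C3 C4 κ ε w) (x v : E) :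
    dd v (dd v (avg δ e w)) x ≤ b * ‖v‖ ^ 2 := by
  rw [avg_eq_lg, lg2 (sm_shift h.smooth _) (sm_shift h.smooth _)]
  simp only [df, dd_shift]
  set P := wt (fun x => w (x + δ • e)) (fun x => w (x + (-δ) • e)) x with hP
  have hP0 : 0 ≤ P := wt_nonneg _ _ _
  have hP1 : P ≤ 1 := wt_le_one _ _ _
  have h1 := mul_le_mul_of_nonneg_left (h.upper (x + δ • e) v) hP0
  have h2 := mul_le_mul_of_nonneg_left (h.upper (x + (-δ) • e) v) (by linarith : (0 : ℝ) ≤ 1 - P)
  have h3 : 0 ≤ P * (1 - P) * ((dd v w (x + δ • e) - dd v w (x + (-δ) • e)) *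
      (dd v w (x + δ • e) - dd v w (x + (-δ) • e))) :=
    mul_nonneg (mul_nonneg hP0 (by linarith)) (mul_self_nonneg _)
  linarith

theorem step_b3 (h : St a b C3 C4 κ ε w) (ha : 0 ≤ a) (he : ‖e‖ = 1) (hδ : 0 ≤ δ) (hδ1 : δ ≤ 1)
    (x v₁ v₂ v₃ : E) : |dd v₃ (dd v₂ (dd v₁ (avg δ e w))) x| ≤
      (C3 * (1 + 3 * b * δ ^ 2) + 2 * b ^ 3 * δ ^ 3) * (‖v₁‖ * ‖v₂‖ * ‖v₃‖) := by
  have hb : 0 ≤ b := ha.trans (h.a_le_b he)
  have hC3 := h.C3_nonneg he
  rw [avg_eq_lg, lg3 (sm_shift h.smooth _) (sm_shift h.smooth _)]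
  simp only [df, dd_shift]
  set P := wt (fun x => w (x + δ • e)) (fun x => w (x + (-δ) • e)) x with hP
  have hP0 : 0 ≤ P := wt_nonneg _ _ _
  have hP1 : P ≤ 1 := wt_le_one _ _ _
  exact r3 hP0 hP1 rfl rfl hδ hδ1 hb hC3 (norm_nonneg _) (norm_nonneg _) (norm_nonneg _)
    (h.D1 ha he hδ x v₁) (h.D1 ha he hδ x v₂) (h.D1 ha he hδ x v₃)
    (h.D2 he hδ x v₁ v₂) (h.D2 he hδ x v₂ v₃) (h.D2 he hδ x v₁ v₃)
    (h.b3 (x + (-δ) • e) v₁ v₂ v₃) (h.b3 (x + δ • e) v₁ v₂ v₃)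

theorem step_b4 (h : St a b C3 C4 κ ε w) (ha : 0 ≤ a) (he : ‖e‖ = 1) (hδ : 0 ≤ δ) (hδ1 : δ ≤ 1)
    (x v₁ v₂ v₃ v₄ : E) : |dd v₄ (dd v₃ (dd v₂ (dd v₁ (avg δ e w)))) x| ≤
      (C4 * (1 + 4 * b * δ ^ 2) + δ ^ 2 * (3 * C3 ^ 2 + 12 * C3 * b ^ 2 + 4 * b ^ 4)) *
        (‖v₁‖ * ‖v₂‖ * ‖v₃‖ * ‖v₄‖) := by
  have hb : 0 ≤ b := ha.trans (h.a_le_b he)
  have hC3 := h.C3_nonneg he
  have hC4 := h.C4_nonneg he
  rw [avg_eq_lg, lg4 (sm_shift h.smooth _) (sm_shift h.smooth _)]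
  simp only [df, dd_shift]
  set P := wt (fun x => w (x + δ • e)) (fun x => w (x + (-δ) • e)) x with hP
  have hP0 : 0 ≤ P := wt_nonneg _ _ _
  have hP1 : P ≤ 1 := wt_le_one _ _ _
  exact r4 hP0 hP1 rfl rfl hδ hδ1 hb hC3 hC4 (norm_nonneg _) (norm_nonneg _) (norm_nonneg _)
    (norm_nonneg _)
    (h.D1 ha he hδ x v₁) (h.D1 ha he hδ x v₂) (h.D1 ha he hδ x v₃) (h.D1 ha he hδ x v₄)
    (h.D2 he hδ x v₁ v₂) (h.D2 he hδ x v₁ v₃) (h.D2 he hδ x v₂ v₃)
    (h.D2 he hδ x v₁ v₄) (h.D2 he hδ x v₂ v₄) (h.D2 he hδ x v₃ v₄)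
    (h.D3 he hδ x v₁ v₂ v₃) (h.D3 he hδ x v₁ v₂ v₄) (h.D3 he hδ x v₁ v₃ v₄)
    (h.D3 he hδ x v₂ v₃ v₄)
    (h.b4 (x + (-δ) • e) v₁ v₂ v₃ v₄) (h.b4 (x + δ • e) v₁ v₂ v₃ v₄)

end

theorem step_lower (a0 b A3 : ℝ) (ha0 : 0 < a0) : ∃ K, 0 ≤ K ∧
    ∀ (κ δ ε a C3 C4 : ℝ) (e : E) (w : E → ℝ), 0 < δ → δ ≤ 1 → a0 ≤ a → C3 ≤ A3 → ‖e‖ = 1 →
      St a b C3 C4 κ ε w → ∀ x v, (a * (1 - b * δ ^ 2) - K * δ ^ 3) * ‖v‖ ^ 2 ≤
        dd v (dd v (avg δ e w)) x := by
  by_cases hb : 0 ≤ b ∧ 0 ≤ A3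
  · obtain ⟨K, hK, hmain⟩ := r_low a0 b A3 ha0 hb.1 hb.2
    refine ⟨K, hK, ?_⟩
    intro κ δ ε a C3 C4 e w hδ hδ1 haa hC3A he h x v
    have ha : 0 ≤ a := by linarith
    have hC3 := h.C3_nonneg he
    rw [avg_eq_lg, lg2 (sm_shift h.smooth _) (sm_shift h.smooth _)]
    simp only [df, dd_shift]
    set P := wt (fun x => w (x + δ • e)) (fun x => w (x + (-δ) • e)) x with hP
    have hP0 : 0 ≤ P := wt_nonneg _ _ _
    have hP1 : P ≤ 1 := wt_le_one _ _ _
    have hb3 : ∀ y, |dd e (dd v (dd v w)) y| ≤ C3 * ‖v‖ ^ 2 := by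
      intro y
      have := h.b3 y v v e
      rw [he] at this
      calc _ ≤ _ := this
        _ = _ := by ring
    have hb3' : ∀ y, |dd e (dd e (dd v w)) y| ≤ C3 * ‖v‖ := by
      intro y
      have := h.b3 y v e e
      rw [he] at this
      calc _ ≤ _ := this
        _ = _ := by ring
    have m1 : dd e (dd v w) x ^ 2 ≤ b * dd v (dd v w) x := by
      have h1 := h.cs_sq ha x e v
      have h2 := h.upper x e
      rw [he] at h2
      have h3 := h.nonneg ha x v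
      nlinarith
    have d1 := abs_le.1 (diff_bound1 (sm_dd (sm_dd h.smooth v) v) hb3 x δ)
    have d2 := abs_le.1 (diff_bound1 (sm_dd (sm_dd h.smooth v) v) hb3 x (-δ))
    rw [abs_of_pos hδ] at d1
    rw [abs_neg, abs_of_pos hδ] at d2
    have mb := h.cs_abs ha x e v
    rw [he, one_mul] at mb
    have dD := diff_bound2 (sm_dd h.smooth v) hb3' x hδ.le
    have := hmain a C3 δ P ‖v‖ (dd v (dd v w) (x + δ • e)) (dd v (dd v w) (x + (-δ) • e))
      (dd v (dd v w) x) (dd e (dd v w) x) (dd v w (x + δ • e) - dd v w (x + (-δ) • e))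
      haa (h.a_le_b he) hC3 hC3A hδ hδ1 hP0 hP1 (norm_nonneg _)
      (h.lower _ v) (h.upper _ v) (h.lower _ v) (h.upper _ v) (h.nonneg ha x v) m1
      (by linarith [d1.1]) (by linarith [d2.1]) mb
      (by calc _ ≤ _ := dD
            _ = _ := by ring)
    calc _ ≤ _ := this
      _ = _ := by ring
  · refine ⟨0, le_rfl, ?_⟩
    intro κ δ ε a C3 C4 e w hδ hδ1 haa hC3A he h x v
    exfalso
    apply hb
    exact ⟨by linarith [h.a_le_b he], by linarith [h.C3_nonneg he]⟩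

end Vale.Agent.P227.M.SC
end

section

/-! # P227/M/SC: the pure real inequality behind the two-point step (self-concordance of marginals). -/

namespace Vale.Agent.P227.M.SC

open Real

/-- tangent line of `x ^ (3/2)` -/
theorem g_tangent {x y : ℝ} (hx : 0 ≤ x) (hy : 0 ≤ y) :
    y * √y + 3 / 2 * √y * (x - y) ≤ x * √x := by
  obtain ⟨u, hu, rfl⟩ : ∃ u : ℝ, 0 ≤ u ∧ x = u ^ 2 := ⟨√x, sqrt_nonneg x, (sq_sqrt hx).symm⟩
  obtain ⟨w, hw, rfl⟩ : ∃ w : ℝ, 0 ≤ w ∧ y = w ^ 2 := ⟨√y, sqrt_nonneg y, (sq_sqrt hy).symm⟩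
  rw [sqrt_sq hu, sqrt_sq hw]
  have h : 0 ≤ (u - w) ^ 2 * (u + w / 2) := by positivity
  nlinarith [h]

/-- second order upper bound of `x ^ (3/2)` -/
theorem g_upper2 {x y a0 : ℝ} (ha : 0 < a0) (hx : 0 ≤ x) (hy : a0 ≤ y) :
    x * √x ≤ y * √y + 3 / 2 * √y * (x - y) + (x - y) ^ 2 / √a0 := by
  obtain ⟨u, hu, rfl⟩ : ∃ u : ℝ, 0 ≤ u ∧ x = u ^ 2 := ⟨√x, sqrt_nonneg x, (sq_sqrt hx).symm⟩
  obtain ⟨w, hw, rfl⟩ : ∃ w : ℝ, 0 ≤ w ∧ y = w ^ 2 :=
    ⟨√y, sqrt_nonneg y, (sq_sqrt (ha.le.trans hy)).symm⟩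
  rw [sqrt_sq hu, sqrt_sq hw]
  have hr : 0 < √a0 := sqrt_pos.2 ha
  have hwr : √a0 ≤ w := by
    have := sqrt_le_sqrt hy
    rwa [sqrt_sq hw] at this
  have h1 : (u + w / 2) ≤ (u + w) ^ 2 / √a0 := by
    rw [le_div_iff₀ hr]
    nlinarith [mul_nonneg hu hw, mul_nonneg hu hr.le, mul_nonneg hw hr.le, mul_self_nonneg u]
  have h2 : (u - w) ^ 2 * (u + w / 2) ≤ (u - w) ^ 2 * ((u + w) ^ 2 / √a0) :=
    mul_le_mul_of_nonneg_left h1 (sq_nonneg _)
  have h3 : (u ^ 2 - w ^ 2) ^ 2 / √a0 = (u - w) ^ 2 * ((u + w) ^ 2 / √a0) := by ring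
  rw [h3]
  nlinarith [h2]

/-- third order upper bound of `x ^ (3/2)` -/
theorem g_upper3 {x y a0 : ℝ} (ha : 0 < a0) (hx : a0 ≤ x) (hy : a0 ≤ y) :
    x * √x ≤ y * √y + 3 / 2 * √y * (x - y) + 3 / 8 * ((x - y) ^ 2 / √y)
      + |x - y| ^ 3 / (16 * (a0 * √a0)) := by
  obtain ⟨u, hu, rfl⟩ : ∃ u : ℝ, 0 ≤ u ∧ x = u ^ 2 :=
    ⟨√x, sqrt_nonneg x, (sq_sqrt (ha.le.trans hx)).symm⟩
  obtain ⟨w, hw, rfl⟩ : ∃ w : ℝ, 0 ≤ w ∧ y = w ^ 2 :=
    ⟨√y, sqrt_nonneg y, (sq_sqrt (ha.le.trans hy)).symm⟩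
  obtain ⟨r, hr, rfl⟩ : ∃ r : ℝ, 0 ≤ r ∧ a0 = r ^ 2 := ⟨√a0, sqrt_nonneg a0, (sq_sqrt ha.le).symm⟩
  rw [sqrt_sq hu, sqrt_sq hw, sqrt_sq hr]
  have hr0 : 0 < r := by
    rcases hr.lt_or_eq with h | h
    · exact h
    · rw [← h] at ha; simp at ha
  have hwr : r ≤ w := by nlinarith [hr0, hw]
  have hur : r ≤ u := by nlinarith [hr0, hu]
  have hw0 : 0 < w := lt_of_lt_of_le hr0 hwr
  have e1 : (u ^ 2 - w ^ 2) ^ 2 / w = (u - w) ^ 2 * (4 * w + 4 * (u - w) + (u - w) ^ 2 / w) := by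
    field_simp; ring
  have e2 : |u ^ 2 - w ^ 2| ^ 3 / (16 * (r ^ 2 * r)) = |u - w| ^ 3 * ((u + w) ^ 3 / (16 * (r ^ 2 * r))) := by
    have : |u ^ 2 - w ^ 2| = |u - w| * (u + w) := by
      rw [show u ^ 2 - w ^ 2 = (u - w) * (u + w) by ring, abs_mul, abs_of_nonneg (add_nonneg hu hw)]
    rw [this]; ring
  have e3 : (1 : ℝ) / 2 ≤ (u + w) ^ 3 / (16 * (r ^ 2 * r)) := by
    rw [le_div_iff₀ (by positivity)]
    have h2 : 2 * r ≤ u + w := by linarith
    have : (2 * r) ^ 3 ≤ (u + w) ^ 3 := pow_le_pow_left₀ (by positivity) h2 3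
    nlinarith [this]
  have e4 : |u - w| ^ 3 * (1 / 2) ≤ |u - w| ^ 3 * ((u + w) ^ 3 / (16 * (r ^ 2 * r))) :=
    mul_le_mul_of_nonneg_left e3 (by positivity)
  have e5 : -(|u - w| ^ 3) ≤ (u - w) ^ 3 := by
    have := neg_abs_le ((u - w) ^ 3)
    rwa [abs_pow] at this
  have e6 : 0 ≤ (u - w) ^ 2 * ((u - w) ^ 2 / w) := by positivity
  rw [e1, e2]
  nlinarith [e4, e5, e6]

/-- `|√x - √y| ≤ |x - y| / √a0` -/
theorem sqrt_sub_le {x y a0 : ℝ} (ha : 0 < a0) (hx : 0 ≤ x) (hy : a0 ≤ y) :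
    |√x - √y| ≤ |x - y| / √a0 := by
  have hr : 0 < √a0 := sqrt_pos.2 ha
  rw [le_div_iff₀ hr]
  have h1 : |x - y| = |√x - √y| * (√x + √y) := by
    have : x - y = (√x - √y) * (√x + √y) := by
      nlinarith [sq_sqrt hx, sq_sqrt (ha.le.trans hy)]
    rw [this, abs_mul, abs_of_nonneg (add_nonneg (sqrt_nonneg x) (sqrt_nonneg y))]
  rw [h1]
  apply mul_le_mul_of_nonneg_left _ (abs_nonneg _)
  have := sqrt_le_sqrt hy
  linarith [sqrt_nonneg x]


theorem d_pows {d : ℝ} (hd0 : 0 < d) (hd1 : d ≤ 1) :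
    d ^ 2 ≤ 1 ∧ d ^ 3 ≤ d ^ 2 ∧ d ^ 4 ≤ d ^ 3 ∧ d ^ 6 ≤ d ^ 3 ∧ d ^ 4 ≤ d ^ 2 ∧ d ^ 6 ≤ d ^ 2 := by
  have h0 : 0 ≤ d := hd0.le
  refine ⟨pow_le_one₀ h0 hd1, ?_, ?_, ?_, ?_, ?_⟩ <;>
    exact pow_le_pow_of_le_one h0 hd1 (by norm_num)

/-- the size of the perturbation of the second derivative -/
theorem xi_bound {b R d η m1 c1 : ℝ} (hb : 0 < b) (hR : 0 ≤ R) (hd0 : 0 < d) (hd1 : d ≤ 1)
    (hm1 : |m1| ≤ b) (hc1 : |c1| ≤ b) (hη : |η| ≤ R * d ^ 2) :
    |2 * η * m1 + η ^ 2 * c1| ≤ (2 * R + R ^ 2) * b * d ^ 2 := by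
  obtain ⟨hd2, hd3, hd4, hd6, hd4', hd6'⟩ := d_pows hd0 hd1
  have hηa : 0 ≤ |η| := abs_nonneg _
  have hη2 : η ^ 2 ≤ R ^ 2 * d ^ 4 := by
    have := pow_le_pow_left₀ hηa hη 2
    rw [sq_abs] at this
    calc η ^ 2 ≤ (R * d ^ 2) ^ 2 := this
      _ = _ := by ring
  have h0 : |2 * η * m1 + η ^ 2 * c1| ≤ 2 * (|η| * |m1|) + η ^ 2 * |c1| := by
    refine (abs_add_le _ _).trans ?_
    rw [abs_mul, abs_mul, abs_mul, abs_of_nonneg (sq_nonneg η), abs_two, mul_assoc]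
  have t1 : |η| * |m1| ≤ R * d ^ 2 * b := mul_le_mul hη hm1 (abs_nonneg _) (by positivity)
  have t2 : η ^ 2 * |c1| ≤ R ^ 2 * d ^ 4 * b := mul_le_mul hη2 hc1 (abs_nonneg _) (by positivity)
  have t3 : R ^ 2 * d ^ 4 * b ≤ R ^ 2 * d ^ 2 * b :=
    mul_le_mul_of_nonneg_right (mul_le_mul_of_nonneg_left hd4' (by positivity)) hb.le
  calc |2 * η * m1 + η ^ 2 * c1| ≤ 2 * (R * d ^ 2 * b) + R ^ 2 * d ^ 2 * b := by linarith
    _ = _ := by ring

/-- `√a₁ m₁` versus `√a m` -/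
theorem sm_bound {a0 b C3 d a a1 m m1 : ℝ} (ha0 : 0 < a0) (hC3 : 0 ≤ C3) (hd0 : 0 < d)
    (ha1 : a0 ≤ a1) (haa : a0 ≤ a) (hab' : a ≤ b) (h1 : |a1 - a| ≤ C3 * d) (h2 : |m1 - m| ≤ C3 * d)
    (hm1 : |m1| ≤ b) : |√a1 * m1 - √a * m| ≤ (C3 * b / √a0 + √b * C3) * d := by
  have hr0 : 0 < √a0 := sqrt_pos.2 ha0
  have hsq : |√a1 - √a| ≤ C3 * d / √a0 := by
    refine (sqrt_sub_le ha0 (ha0.le.trans ha1) haa).trans ?_
    exact div_le_div_of_nonneg_right h1 hr0.le
  have e : √a1 * m1 - √a * m = (√a1 - √a) * m1 + √a * (m1 - m) := by ring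
  rw [e]
  refine (abs_add_le _ _).trans ?_
  rw [abs_mul, abs_mul, abs_of_nonneg (sqrt_nonneg a)]
  have t1 : |√a1 - √a| * |m1| ≤ C3 * d / √a0 * b := mul_le_mul hsq hm1 (abs_nonneg _) (by positivity)
  have t2 : √a * |m1 - m| ≤ √b * (C3 * d) := mul_le_mul (sqrt_le_sqrt hab') h2 (abs_nonneg _) (sqrt_nonneg b)
  have e2 : (C3 * b / √a0 + √b * C3) * d = C3 * d / √a0 * b + √b * (C3 * d) := by ring
  rw [e2]; linarith

/-- the first order term in `η` -/
theorem term_bound {a0 b C3 R d a a1 m m1 c1 η : ℝ} (ha0 : 0 < a0) (hb : 0 < b) (hC3 : 0 ≤ C3) (hR : 0 ≤ R)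
    (hd0 : 0 < d) (hd1 : d ≤ 1)
    (ha1 : a0 ≤ a1) (ha1b : a1 ≤ b) (haa : a0 ≤ a) (hab' : a ≤ b) (h1 : |a1 - a| ≤ C3 * d)
    (h2 : |m1 - m| ≤ C3 * d) (hm1 : |m1| ≤ b) (hc1 : |c1| ≤ b) (hη : |η| ≤ R * d ^ 2) :
    3 / 2 * √a1 * (2 * η * m1 + η ^ 2 * c1) ≤ 3 * √a * m * η
      + (3 * (R * (C3 * b / √a0 + √b * C3)) + 3 / 2 * √b * R ^ 2 * b) * d ^ 3 := by
  obtain ⟨hd2, hd3, hd4, hd6, hd4', hd6'⟩ := d_pows hd0 hd1
  have hsm := sm_bound ha0 hC3 hd0 ha1 haa hab' h1 h2 hm1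
  have hη2 : η ^ 2 ≤ R ^ 2 * d ^ 4 := by
    have := pow_le_pow_left₀ (abs_nonneg η) hη 2
    rw [sq_abs] at this
    calc η ^ 2 ≤ (R * d ^ 2) ^ 2 := this
      _ = _ := by ring
  have e : 3 / 2 * √a1 * (2 * η * m1 + η ^ 2 * c1)
      = 3 * √a * m * η + 3 * (η * (√a1 * m1 - √a * m)) + 3 / 2 * (√a1 * (η ^ 2 * c1)) := by ring
  rw [e]
  have t1 : η * (√a1 * m1 - √a * m) ≤ R * d ^ 2 * ((C3 * b / √a0 + √b * C3) * d) := by
    refine (le_abs_self _).trans ?_
    rw [abs_mul]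
    exact mul_le_mul hη hsm (abs_nonneg _) (by positivity)
  have u1 : η ^ 2 * c1 ≤ R ^ 2 * d ^ 3 * b := by
    have v1 : η ^ 2 * c1 ≤ η ^ 2 * b := mul_le_mul_of_nonneg_left ((le_abs_self _).trans hc1) (sq_nonneg _)
    have v2 : η ^ 2 * b ≤ R ^ 2 * d ^ 4 * b := mul_le_mul_of_nonneg_right hη2 hb.le
    have v3 : R ^ 2 * d ^ 4 * b ≤ R ^ 2 * d ^ 3 * b :=
      mul_le_mul_of_nonneg_right (mul_le_mul_of_nonneg_left hd4 (by positivity)) hb.le
    linarith
  have u4 : 0 ≤ R ^ 2 * d ^ 3 * b := by positivity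
  have t2 : √a1 * (η ^ 2 * c1) ≤ √b * (R ^ 2 * d ^ 3 * b) :=
    (mul_le_mul_of_nonneg_left u1 (sqrt_nonneg _)).trans
      (mul_le_mul_of_nonneg_right (sqrt_le_sqrt ha1b) u4)
  have e3 : (3 * (R * (C3 * b / √a0 + √b * C3)) + 3 / 2 * √b * R ^ 2 * b) * d ^ 3
      = 3 * (R * d ^ 2 * ((C3 * b / √a0 + √b * C3) * d)) + 3 / 2 * (√b * (R ^ 2 * d ^ 3 * b)) := by ring
  rw [e3]
  linarith

/-- the terms `-3ηq₁ - 3η²s₁ - η³t₁ + e(1+|η|)³` -/
theorem rest_bound {C3 C4 R e d q q1 s1 t1 η : ℝ} (hC3 : 0 ≤ C3) (hC4 : 0 ≤ C4) (hR : 0 ≤ R)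
    (he0 : 0 ≤ e) (hd0 : 0 < d) (hd1 : d ≤ 1) (h3 : |q1 - q| ≤ C4 * d) (hs1 : |s1| ≤ C3)
    (ht1 : |t1| ≤ C3) (hη : |η| ≤ R * d ^ 2) :
    -(3 * η * q1) - 3 * η ^ 2 * s1 - η ^ 3 * t1 + e * (1 + |η|) ^ 3 ≤
      -(3 * η * q) + e * (1 + (3 * R + 3 * R ^ 2 + R ^ 3) * d ^ 2)
        + (3 * R * C4 + (3 * R ^ 2 + R ^ 3) * C3) * d ^ 3 := by
  obtain ⟨hd2, hd3, hd4, hd6, hd4', hd6'⟩ := d_pows hd0 hd1
  have hηa : 0 ≤ |η| := abs_nonneg _
  have hη2 : η ^ 2 ≤ R ^ 2 * d ^ 4 := by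
    have := pow_le_pow_left₀ hηa hη 2
    rw [sq_abs] at this
    calc η ^ 2 ≤ (R * d ^ 2) ^ 2 := this
      _ = _ := by ring
  have hη3 : |η| ^ 3 ≤ R ^ 3 * d ^ 6 := by
    have := pow_le_pow_left₀ hηa hη 3
    calc |η| ^ 3 ≤ (R * d ^ 2) ^ 3 := this
      _ = _ := by ring
  have hqt : -(η * (q1 - q)) ≤ R * C4 * d ^ 3 := by
    have : -(η * (q1 - q)) ≤ R * d ^ 2 * (C4 * d) := by
      refine (neg_le_abs _).trans ?_
      rw [abs_mul]
      exact mul_le_mul hη h3 (abs_nonneg _) (by positivity)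
    calc -(η * (q1 - q)) ≤ R * d ^ 2 * (C4 * d) := this
      _ = _ := by ring
  have hst : -(η ^ 2 * s1) ≤ R ^ 2 * C3 * d ^ 3 := by
    have u1 : -(η ^ 2 * s1) ≤ R ^ 2 * d ^ 4 * C3 := by
      refine (neg_le_abs _).trans ?_
      rw [abs_mul, abs_of_nonneg (sq_nonneg η)]
      exact mul_le_mul hη2 hs1 (abs_nonneg _) (by positivity)
    calc -(η ^ 2 * s1) ≤ R ^ 2 * d ^ 4 * C3 := u1
      _ = R ^ 2 * C3 * d ^ 4 := by ring
      _ ≤ _ := mul_le_mul_of_nonneg_left hd4 (by positivity)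
  have htt : -(η ^ 3 * t1) ≤ R ^ 3 * C3 * d ^ 3 := by
    have u1 : -(η ^ 3 * t1) ≤ R ^ 3 * d ^ 6 * C3 := by
      refine (neg_le_abs _).trans ?_
      rw [abs_mul, abs_pow]
      exact mul_le_mul hη3 ht1 (abs_nonneg _) (by positivity)
    calc -(η ^ 3 * t1) ≤ R ^ 3 * d ^ 6 * C3 := u1
      _ = R ^ 3 * C3 * d ^ 6 := by ring
      _ ≤ _ := mul_le_mul_of_nonneg_left hd6 (by positivity)
  have het : e * (1 + |η|) ^ 3 ≤ e * (1 + (3 * R + 3 * R ^ 2 + R ^ 3) * d ^ 2) := by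
    apply mul_le_mul_of_nonneg_left _ he0
    have e1 : (1 + |η|) ^ 3 = 1 + 3 * |η| + 3 * η ^ 2 + |η| ^ 3 := by
      rw [← sq_abs η]; ring
    rw [e1]
    have u1 : R ^ 2 * d ^ 4 ≤ R ^ 2 * d ^ 2 := mul_le_mul_of_nonneg_left hd4' (by positivity)
    have u2 : R ^ 3 * d ^ 6 ≤ R ^ 3 * d ^ 2 := mul_le_mul_of_nonneg_left hd6' (by positivity)
    calc 1 + 3 * |η| + 3 * η ^ 2 + |η| ^ 3 ≤ 1 + 3 * (R * d ^ 2) + 3 * (R ^ 2 * d ^ 2) + R ^ 3 * d ^ 2 := by
          linarith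
      _ = _ := by ring
  have efin : (3 * R * C4 + (3 * R ^ 2 + R ^ 3) * C3) * d ^ 3
      = 3 * (R * C4 * d ^ 3) + 3 * (R ^ 2 * C3 * d ^ 3) + R ^ 3 * C3 * d ^ 3 := by ring
  have eq1 : -(3 * η * q1) = -(3 * η * q) + 3 * (-(η * (q1 - q))) := by ring
  rw [efin, eq1]
  linarith

/-- one of the two points: the self-concordance inequality in the direction `v + η e` -/
theorem one_point {a0 b C3 C4 R : ℝ} (ha0 : 0 < a0) (hab : a0 ≤ b) (hC3 : 0 ≤ C3) (hC4 : 0 ≤ C4) (hR : 0 ≤ R)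
    {k e d a m q a1 b1 m1 q1 c1 s1 t1 η : ℝ} (hk0 : 0 ≤ k) (hk1 : k ≤ 1) (he0 : 0 ≤ e)
    (hd0 : 0 < d) (hd1 : d ≤ 1) (ha1 : a0 ≤ a1) (ha1b : a1 ≤ b) (haa : a0 ≤ a) (hab' : a ≤ b)
    (h1 : |a1 - a| ≤ C3 * d) (h2 : |m1 - m| ≤ C3 * d) (h3 : |q1 - q| ≤ C4 * d)
    (hm1 : |m1| ≤ b) (hc1 : |c1| ≤ b) (hs1 : |s1| ≤ C3) (ht1 : |t1| ≤ C3)
    (hη : |η| ≤ R * d ^ 2) (hpos : 0 ≤ a1 + 2 * η * m1 + η ^ 2 * c1)
    (hsc : b1 + 3 * η * q1 + 3 * η ^ 2 * s1 + η ^ 3 * t1 ≤
      2 * k * ((a1 + 2 * η * m1 + η ^ 2 * c1) * √(a1 + 2 * η * m1 + η ^ 2 * c1)) + e * (1 + |η|) ^ 3) :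
    b1 ≤ 2 * k * (a1 * √a1) + 6 * k * √a * m * η - 3 * η * q + e * (1 + (3 * R + 3 * R ^ 2 + R ^ 3) * d ^ 2)
      + (2 * (3 * (R * (C3 * b / √a0 + √b * C3)) + 3 / 2 * √b * R ^ 2 * b
          + ((2 * R + R ^ 2) * b) ^ 2 / √a0) + (3 * R * C4 + (3 * R ^ 2 + R ^ 3) * C3)) * d ^ 3 := by
  have hr0 : 0 < √a0 := sqrt_pos.2 ha0
  have hb0 : 0 < b := lt_of_lt_of_le ha0 hab
  obtain ⟨hd2, hd3, hd4, hd6, hd4', hd6'⟩ := d_pows hd0 hd1
  have hξb := xi_bound hb0 hR hd0 hd1 hm1 hc1 hη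
  have hterm := term_bound ha0 hb0 hC3 hR hd0 hd1 ha1 ha1b haa hab' h1 h2 hm1 hc1 hη
  have hrest := rest_bound hC3 hC4 hR he0 hd0 hd1 h3 hs1 ht1 hη
  have earg : a1 + 2 * η * m1 + η ^ 2 * c1 = a1 + (2 * η * m1 + η ^ 2 * c1) := by ring
  rw [earg] at hsc hpos
  generalize 2 * η * m1 + η ^ 2 * c1 = ξ at hξb hterm hsc hpos
  have hG := g_upper2 ha0 (x := a1 + ξ) (y := a1) hpos ha1
  rw [add_sub_cancel_left] at hG
  have hξ2 : ξ ^ 2 / √a0 ≤ ((2 * R + R ^ 2) * b) ^ 2 / √a0 * d ^ 3 := by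
    have h4 : ξ ^ 2 ≤ ((2 * R + R ^ 2) * b) ^ 2 * d ^ 3 := by
      have := pow_le_pow_left₀ (abs_nonneg ξ) hξb 2
      rw [sq_abs] at this
      calc ξ ^ 2 ≤ ((2 * R + R ^ 2) * b * d ^ 2) ^ 2 := this
        _ = ((2 * R + R ^ 2) * b) ^ 2 * d ^ 4 := by ring
        _ ≤ _ := mul_le_mul_of_nonneg_left hd4 (by positivity)
    calc ξ ^ 2 / √a0 ≤ (((2 * R + R ^ 2) * b) ^ 2 * d ^ 3) / √a0 :=
          div_le_div_of_nonneg_right h4 hr0.le
      _ = _ := by ring
  set A := 3 * (R * (C3 * b / √a0 + √b * C3)) + 3 / 2 * √b * R ^ 2 * b with hA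
  set B := ((2 * R + R ^ 2) * b) ^ 2 / √a0 with hB
  have hA0 : 0 ≤ A := by positivity
  have hB0 : 0 ≤ B := by positivity
  have hd30 : 0 ≤ d ^ 3 := by positivity
  have u1 : (a1 + ξ) * √(a1 + ξ) ≤ a1 * √a1 + 3 * √a * m * η + (A + B) * d ^ 3 := by
    have : (A + B) * d ^ 3 = A * d ^ 3 + B * d ^ 3 := by ring
    rw [this]; linarith
  have u3 := mul_le_mul_of_nonneg_left u1 (show (0 : ℝ) ≤ 2 * k by positivity)
  have u4 : 2 * k * ((A + B) * d ^ 3) ≤ 2 * ((A + B) * d ^ 3) := by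
    have : 0 ≤ (A + B) * d ^ 3 := by positivity
    exact mul_le_mul_of_nonneg_right (by linarith) this
  have e5 : 2 * k * (a1 * √a1 + 3 * √a * m * η + (A + B) * d ^ 3)
      = 2 * k * (a1 * √a1) + 6 * k * √a * m * η + 2 * k * ((A + B) * d ^ 3) := by ring
  rw [e5] at u3
  have efin : (2 * (A + B) + (3 * R * C4 + (3 * R ^ 2 + R ^ 3) * C3)) * d ^ 3
      = 2 * ((A + B) * d ^ 3) + (3 * R * C4 + (3 * R ^ 2 + R ^ 3) * C3) * d ^ 3 := by ring
  rw [efin]
  linarith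

/-- the average of `g(a_i)` versus `g` of the average -/
theorem two_point_g {a0 C3 C4 : ℝ} (ha0 : 0 < a0) (hC3 : 0 ≤ C3) (hC4 : 0 ≤ C4)
    {d a q a1 a2 P Q : ℝ} (hd0 : 0 < d) (hd1 : d ≤ 1) (hP : 0 ≤ P) (hQ : 0 ≤ Q) (hPQ : P + Q = 1)
    (ha1 : a0 ≤ a1) (ha2 : a0 ≤ a2) (haa : a0 ≤ a)
    (h1 : |a1 - a| ≤ C3 * d) (h2 : |a2 - a| ≤ C3 * d) (h12 : |a1 - a2 - 2 * d * q| ≤ C4 * d ^ 2)
    (hq : |q| ≤ C3) :
    P * (a1 * √a1) + Q * (a2 * √a2) ≤ (P * a1 + Q * a2) * √(P * a1 + Q * a2)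
      + 3 / 8 * (4 * (P * Q) * d ^ 2) * (q ^ 2 / √a)
      + (C3 ^ 3 / (a0 * √a0) + C3 * C4 / √a0 + C3 ^ 2 * C3 / (a0 * √a0)) * d ^ 3 := by
  obtain ⟨hd2, hd3, hd4, hd6, hd4', hd6'⟩ := d_pows hd0 hd1
  have hr0 : 0 < √a0 := sqrt_pos.2 ha0
  have hPQ4 : P * Q ≤ 1 / 4 := by nlinarith [sq_nonneg (P - Q)]
  have hPQ0 : 0 ≤ P * Q := mul_nonneg hP hQ
  have hP1 : P ≤ 1 := by linarith
  have hQ1 : Q ≤ 1 := by linarith
  set A := P * a1 + Q * a2 with hA
  have hA0 : a0 ≤ A := by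
    have : P * a0 + Q * a0 = a0 := by rw [← add_mul, hPQ, one_mul]
    rw [← this, hA]
    exact add_le_add (mul_le_mul_of_nonneg_left ha1 hP) (mul_le_mul_of_nonneg_left ha2 hQ)
  have hAp : 0 < A := lt_of_lt_of_le ha0 hA0
  have hg1 := g_upper3 ha0 ha1 hA0
  have hg2 := g_upper3 ha0 ha2 hA0
  have hdiff : |a1 - a2| ≤ 2 * C3 * d := by
    have : a1 - a2 = (a1 - a) - (a2 - a) := by ring
    rw [this]
    exact (abs_sub _ _).trans (by linarith)
  have e1 : a1 - A = Q * (a1 - a2) := by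
    rw [hA]; linear_combination (-a1) * hPQ
  have e2 : a2 - A = -(P * (a1 - a2)) := by
    rw [hA]; linear_combination (-a2) * hPQ
  have c1 : |a1 - A| ^ 3 ≤ 8 * C3 ^ 3 * d ^ 3 := by
    have : |a1 - A| ≤ 2 * C3 * d := by
      rw [e1, abs_mul, abs_of_nonneg hQ]
      calc Q * |a1 - a2| ≤ 1 * |a1 - a2| := mul_le_mul_of_nonneg_right hQ1 (abs_nonneg _)
        _ ≤ _ := by linarith
    calc |a1 - A| ^ 3 ≤ (2 * C3 * d) ^ 3 := pow_le_pow_left₀ (abs_nonneg _) this 3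
      _ = _ := by ring
  have c2 : |a2 - A| ^ 3 ≤ 8 * C3 ^ 3 * d ^ 3 := by
    have : |a2 - A| ≤ 2 * C3 * d := by
      rw [e2, abs_neg, abs_mul, abs_of_nonneg hP]
      calc P * |a1 - a2| ≤ 1 * |a1 - a2| := mul_le_mul_of_nonneg_right hP1 (abs_nonneg _)
        _ ≤ _ := by linarith
    calc |a2 - A| ^ 3 ≤ (2 * C3 * d) ^ 3 := pow_le_pow_left₀ (abs_nonneg _) this 3
      _ = _ := by ring
  have hden : 0 < 16 * (a0 * √a0) := by positivity
  have c3 : P * (|a1 - A| ^ 3 / (16 * (a0 * √a0))) + Q * (|a2 - A| ^ 3 / (16 * (a0 * √a0)))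
      ≤ C3 ^ 3 / (a0 * √a0) * d ^ 3 := by
    have u1 : |a1 - A| ^ 3 / (16 * (a0 * √a0)) ≤ 8 * C3 ^ 3 * d ^ 3 / (16 * (a0 * √a0)) :=
      div_le_div_of_nonneg_right c1 hden.le
    have u2 : |a2 - A| ^ 3 / (16 * (a0 * √a0)) ≤ 8 * C3 ^ 3 * d ^ 3 / (16 * (a0 * √a0)) :=
      div_le_div_of_nonneg_right c2 hden.le
    have u3 : P * (|a1 - A| ^ 3 / (16 * (a0 * √a0))) + Q * (|a2 - A| ^ 3 / (16 * (a0 * √a0)))
        ≤ (P + Q) * (8 * C3 ^ 3 * d ^ 3 / (16 * (a0 * √a0))) := by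
      rw [add_mul]
      exact add_le_add (mul_le_mul_of_nonneg_left u1 hP) (mul_le_mul_of_nonneg_left u2 hQ)
    rw [hPQ, one_mul] at u3
    refine u3.trans ?_
    have : 8 * C3 ^ 3 * d ^ 3 / (16 * (a0 * √a0)) = 1 / 2 * (C3 ^ 3 / (a0 * √a0) * d ^ 3) := by
      field_simp; ring
    rw [this]
    have : 0 ≤ C3 ^ 3 / (a0 * √a0) * d ^ 3 := by positivity
    linarith
  -- the variance
  have hV : P * (a1 - A) ^ 2 + Q * (a2 - A) ^ 2 = P * Q * (a1 - a2) ^ 2 := by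
    rw [e1, e2]
    linear_combination (P * Q * (a1 - a2) ^ 2) * hPQ
  have hsq : (a1 - a2) ^ 2 ≤ 4 * d ^ 2 * q ^ 2 + 4 * C3 * C4 * d ^ 3 := by
    have e : (a1 - a2) ^ 2 = 4 * d ^ 2 * q ^ 2 + (a1 - a2 - 2 * d * q) * (a1 - a2 + 2 * d * q) := by ring
    rw [e]
    have u1 : |a1 - a2 + 2 * d * q| ≤ 4 * C3 * d := by
      refine (abs_add_le _ _).trans ?_
      rw [abs_mul, abs_mul, abs_two, abs_of_pos hd0]
      have : 2 * d * |q| ≤ 2 * d * C3 := mul_le_mul_of_nonneg_left hq (by positivity)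
      linarith
    have u2 : (a1 - a2 - 2 * d * q) * (a1 - a2 + 2 * d * q) ≤ C4 * d ^ 2 * (4 * C3 * d) := by
      refine (le_abs_self _).trans ?_
      rw [abs_mul]
      exact mul_le_mul h12 u1 (abs_nonneg _) (by positivity)
    calc _ ≤ 4 * d ^ 2 * q ^ 2 + C4 * d ^ 2 * (4 * C3 * d) := by linarith
      _ = _ := by ring
  have hVb : P * Q * (a1 - a2) ^ 2 ≤ 4 * (P * Q) * d ^ 2 * q ^ 2 + C3 * C4 * d ^ 3 := by
    have u1 := mul_le_mul_of_nonneg_left hsq hPQ0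
    have u2 : P * Q * (4 * C3 * C4 * d ^ 3) ≤ 1 / 4 * (4 * C3 * C4 * d ^ 3) :=
      mul_le_mul_of_nonneg_right hPQ4 (by positivity)
    calc P * Q * (a1 - a2) ^ 2 ≤ P * Q * (4 * d ^ 2 * q ^ 2 + 4 * C3 * C4 * d ^ 3) := u1
      _ = 4 * (P * Q) * d ^ 2 * q ^ 2 + P * Q * (4 * C3 * C4 * d ^ 3) := by ring
      _ ≤ _ := by linarith
  -- 1/√A versus 1/√a
  have hsA : √a0 ≤ √A := sqrt_le_sqrt hA0
  have hsa : √a0 ≤ √a := sqrt_le_sqrt haa
  have hsAp : 0 < √A := lt_of_lt_of_le hr0 hsA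
  have hsap : 0 < √a := lt_of_lt_of_le hr0 hsa
  have hAa : |A - a| ≤ C3 * d := by
    have : A - a = P * (a1 - a) + Q * (a2 - a) := by
      rw [hA]; linear_combination a * hPQ
    rw [this]
    refine (abs_add_le _ _).trans ?_
    rw [abs_mul, abs_mul, abs_of_nonneg hP, abs_of_nonneg hQ]
    calc P * |a1 - a| + Q * |a2 - a| ≤ P * (C3 * d) + Q * (C3 * d) :=
          add_le_add (mul_le_mul_of_nonneg_left h1 hP) (mul_le_mul_of_nonneg_left h2 hQ)
      _ = C3 * d := by rw [← add_mul, hPQ, one_mul]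
  have hsdiff : √a - √A ≤ C3 * d / √a0 := by
    have := sqrt_sub_le ha0 (hAp.le) haa
    have h' : |√A - √a| ≤ C3 * d / √a0 := this.trans (div_le_div_of_nonneg_right hAa hr0.le)
    have := neg_abs_le (√A - √a)
    linarith
  have hinv : 1 / √A ≤ 1 / √a + C3 * d / (a0 * √a0) := by
    have e : 1 / √A - 1 / √a = (√a - √A) / (√A * √a) := by field_simp
    have u0 : a0 ≤ √A * √a := by
      calc a0 = √a0 * √a0 := (mul_self_sqrt ha0.le).symm
        _ ≤ _ := mul_le_mul hsA hsa hr0.le hsAp.le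
    have u1 : (√a - √A) / (√A * √a) ≤ (C3 * d / √a0) / a0 := by
      have w1 : (√a - √A) / (√A * √a) ≤ (C3 * d / √a0) / (√A * √a) :=
        div_le_div_of_nonneg_right hsdiff (by positivity)
      have w2 : (C3 * d / √a0) / (√A * √a) ≤ (C3 * d / √a0) / a0 :=
        div_le_div_of_nonneg_left (by positivity) ha0 u0
      exact w1.trans w2
    have e3 : (C3 * d / √a0) / a0 = C3 * d / (a0 * √a0) := by field_simp
    rw [e3] at u1
    linarith
  have hvar : 3 / 8 * (P * Q * (a1 - a2) ^ 2 / √A) ≤ 3 / 8 * (4 * (P * Q) * d ^ 2) * (q ^ 2 / √a)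
      + (C3 * C4 / √a0 + C3 ^ 2 * C3 / (a0 * √a0)) * d ^ 3 := by
    have u1 : P * Q * (a1 - a2) ^ 2 / √A ≤ (4 * (P * Q) * d ^ 2 * q ^ 2 + C3 * C4 * d ^ 3) / √A :=
      div_le_div_of_nonneg_right hVb hsAp.le
    have u2 : (4 * (P * Q) * d ^ 2 * q ^ 2 + C3 * C4 * d ^ 3) / √A
        = 4 * (P * Q) * d ^ 2 * q ^ 2 * (1 / √A) + C3 * C4 * d ^ 3 / √A := by ring
    have u3 : 4 * (P * Q) * d ^ 2 * q ^ 2 * (1 / √A)
        ≤ 4 * (P * Q) * d ^ 2 * q ^ 2 * (1 / √a + C3 * d / (a0 * √a0)) :=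
      mul_le_mul_of_nonneg_left hinv (by positivity)
    have u4 : C3 * C4 * d ^ 3 / √A ≤ C3 * C4 * d ^ 3 / √a0 :=
      div_le_div_of_nonneg_left (by positivity) hr0 hsA
    have hq2 : q ^ 2 ≤ C3 ^ 2 := by
      have := pow_le_pow_left₀ (abs_nonneg q) hq 2
      rwa [sq_abs] at this
    have u5 : 4 * (P * Q) * d ^ 2 * q ^ 2 * (C3 * d / (a0 * √a0)) ≤ C3 ^ 2 * C3 / (a0 * √a0) * d ^ 3 := by
      have w1 : 4 * (P * Q) * (d ^ 2 * q ^ 2 * (C3 * d / (a0 * √a0)))
          ≤ 1 * (d ^ 2 * q ^ 2 * (C3 * d / (a0 * √a0))) :=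
        mul_le_mul_of_nonneg_right (by linarith) (by positivity)
      have w2 : d ^ 2 * q ^ 2 * (C3 * d / (a0 * √a0)) ≤ d ^ 2 * C3 ^ 2 * (C3 * d / (a0 * √a0)) := by
        apply mul_le_mul_of_nonneg_right _ (by positivity)
        exact mul_le_mul_of_nonneg_left hq2 (by positivity)
      calc 4 * (P * Q) * d ^ 2 * q ^ 2 * (C3 * d / (a0 * √a0))
          = 4 * (P * Q) * (d ^ 2 * q ^ 2 * (C3 * d / (a0 * √a0))) := by ring
        _ ≤ d ^ 2 * C3 ^ 2 * (C3 * d / (a0 * √a0)) := by linarith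
        _ = _ := by ring
    have e6 : 4 * (P * Q) * d ^ 2 * q ^ 2 * (1 / √a + C3 * d / (a0 * √a0))
        = 4 * (P * Q) * d ^ 2 * (q ^ 2 / √a) + 4 * (P * Q) * d ^ 2 * q ^ 2 * (C3 * d / (a0 * √a0)) := by ring
    have e7 : (C3 * C4 / √a0 + C3 ^ 2 * C3 / (a0 * √a0)) * d ^ 3
        = C3 * C4 * d ^ 3 / √a0 + C3 ^ 2 * C3 / (a0 * √a0) * d ^ 3 := by ring
    have p1 : 0 ≤ C3 * C4 * d ^ 3 / √a0 := by positivity
    have p2 : 0 ≤ C3 ^ 2 * C3 / (a0 * √a0) * d ^ 3 := by positivity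
    rw [e7]
    linarith
  -- assemble
  have hlin : P * (3 / 2 * √A * (a1 - A)) + Q * (3 / 2 * √A * (a2 - A)) = 0 := by
    rw [e1, e2]; ring
  have hAA : P * (A * √A) + Q * (A * √A) = A * √A := by rw [← add_mul, hPQ, one_mul]
  have hvv : P * (3 / 8 * ((a1 - A) ^ 2 / √A)) + Q * (3 / 8 * ((a2 - A) ^ 2 / √A))
      = 3 / 8 * (P * Q * (a1 - a2) ^ 2 / √A) := by
    rw [← hV]; ring
  have f1 := mul_le_mul_of_nonneg_left hg1 hP
  have f2 := mul_le_mul_of_nonneg_left hg2 hQ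
  have e8 : P * (A * √A + 3 / 2 * √A * (a1 - A) + 3 / 8 * ((a1 - A) ^ 2 / √A) + |a1 - A| ^ 3 / (16 * (a0 * √a0)))
      = P * (A * √A) + P * (3 / 2 * √A * (a1 - A)) + P * (3 / 8 * ((a1 - A) ^ 2 / √A))
        + P * (|a1 - A| ^ 3 / (16 * (a0 * √a0))) := by ring
  have e9 : Q * (A * √A + 3 / 2 * √A * (a2 - A) + 3 / 8 * ((a2 - A) ^ 2 / √A) + |a2 - A| ^ 3 / (16 * (a0 * √a0)))
      = Q * (A * √A) + Q * (3 / 2 * √A * (a2 - A)) + Q * (3 / 8 * ((a2 - A) ^ 2 / √A))
        + Q * (|a2 - A| ^ 3 / (16 * (a0 * √a0))) := by ring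
  rw [e8] at f1
  rw [e9] at f2
  have e10 : (C3 ^ 3 / (a0 * √a0) + C3 * C4 / √a0 + C3 ^ 2 * C3 / (a0 * √a0)) * d ^ 3
      = C3 ^ 3 / (a0 * √a0) * d ^ 3 + (C3 * C4 / √a0 + C3 ^ 2 * C3 / (a0 * √a0)) * d ^ 3 := by ring
  rw [e10]
  linarith

/-- bounds of `D` -/
theorem D_bounds {b C3 d m D : ℝ} (hC3 : 0 ≤ C3) (hb : 0 < b) (hd0 : 0 < d) (hd1 : d ≤ 1)
    (hD : |D - 2 * d * m| ≤ C3 * d ^ 2) (hm : |m| ≤ b) :
    |D| ≤ (2 * b + C3) * d ∧ D ^ 2 ≤ 4 * d ^ 2 * m ^ 2 + C3 * (4 * b + C3) * d ^ 3 := by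
  have hdd : C3 * d ^ 2 ≤ C3 * d := by
    have : d ^ 2 ≤ d := by nlinarith
    exact mul_le_mul_of_nonneg_left this hC3
  have h2m : |2 * d * m| ≤ 2 * d * b := by
    rw [abs_mul, abs_mul, abs_two, abs_of_pos hd0]
    exact mul_le_mul_of_nonneg_left hm (by positivity)
  constructor
  · have e : D = (D - 2 * d * m) + 2 * d * m := by ring
    rw [e]
    refine (abs_add_le _ _).trans ?_
    calc |D - 2 * d * m| + |2 * d * m| ≤ C3 * d + 2 * d * b := by linarith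
      _ = _ := by ring
  · have e : D ^ 2 = 4 * d ^ 2 * m ^ 2 + (D - 2 * d * m) * (D - 2 * d * m + 2 * (2 * d * m)) := by ring
    rw [e]
    have u1 : |D - 2 * d * m + 2 * (2 * d * m)| ≤ (4 * b + C3) * d := by
      refine (abs_add_le _ _).trans ?_
      rw [abs_mul 2 (2 * d * m), abs_two]
      calc |D - 2 * d * m| + 2 * |2 * d * m| ≤ C3 * d + 2 * (2 * d * b) := by linarith
        _ = _ := by ring
    have u2 : (D - 2 * d * m) * (D - 2 * d * m + 2 * (2 * d * m)) ≤ C3 * d ^ 2 * ((4 * b + C3) * d) := by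
      refine (le_abs_self _).trans ?_
      rw [abs_mul]
      exact mul_le_mul hD u1 (abs_nonneg _) (by positivity)
    calc _ ≤ 4 * d ^ 2 * m ^ 2 + C3 * d ^ 2 * ((4 * b + C3) * d) := by linarith
      _ = _ := by ring

/-- `g` of the average versus `g` of the new second derivative -/
theorem avg_new {a0 b C3 : ℝ} (ha0 : 0 < a0) (hab : a0 ≤ b) (hC3 : 0 ≤ C3)
    {k d a m a1 a2 P Q D : ℝ} (hk0 : 0 ≤ k) (hk1 : k ≤ 1) (hd0 : 0 < d) (hd1 : d ≤ 1)
    (hP : 0 ≤ P) (hQ : 0 ≤ Q) (hPQ : P + Q = 1)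
    (ha1 : a0 ≤ a1) (ha2 : a0 ≤ a2) (ha1b : a1 ≤ b) (ha2b : a2 ≤ b) (haa : a0 ≤ a)
    (h1 : |a1 - a| ≤ C3 * d) (h2 : |a2 - a| ≤ C3 * d)
    (hD : |D - 2 * d * m| ≤ C3 * d ^ 2) (hm : |m| ≤ b) (hnn : 0 ≤ P * a1 + Q * a2 - P * Q * D ^ 2) :
    2 * k * ((P * a1 + Q * a2) * √(P * a1 + Q * a2)) ≤
      2 * k * ((P * a1 + Q * a2 - P * Q * D ^ 2) * √(P * a1 + Q * a2 - P * Q * D ^ 2))
      + 3 * k * √a * (4 * (P * Q) * d ^ 2) * m ^ 2
      + (3 * (C3 / √a0) * b ^ 2 + 3 * √b * (C3 * (4 * b + C3))) * d ^ 3 := by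
  obtain ⟨hd2, hd3, hd4, hd6, hd4', hd6'⟩ := d_pows hd0 hd1
  have hb0 : 0 < b := lt_of_lt_of_le ha0 hab
  have hr0 : 0 < √a0 := sqrt_pos.2 ha0
  have hPQ4 : P * Q ≤ 1 / 4 := by nlinarith [sq_nonneg (P - Q)]
  have hPQ0 : 0 ≤ P * Q := mul_nonneg hP hQ
  obtain ⟨-, hD2⟩ := D_bounds hC3 hb0 hd0 hd1 hD hm
  set A := P * a1 + Q * a2 with hA
  have hA0 : a0 ≤ A := by
    have : P * a0 + Q * a0 = a0 := by rw [← add_mul, hPQ, one_mul]
    rw [← this, hA]
    exact add_le_add (mul_le_mul_of_nonneg_left ha1 hP) (mul_le_mul_of_nonneg_left ha2 hQ)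
  have hAb : A ≤ b := by
    have : P * b + Q * b = b := by rw [← add_mul, hPQ, one_mul]
    rw [← this, hA]
    exact add_le_add (mul_le_mul_of_nonneg_left ha1b hP) (mul_le_mul_of_nonneg_left ha2b hQ)
  have hAp : 0 < A := lt_of_lt_of_le ha0 hA0
  have hsA : √A ≤ √a + C3 * d / √a0 := by
    have hAa : |A - a| ≤ C3 * d := by
      have : A - a = P * (a1 - a) + Q * (a2 - a) := by
        rw [hA]; linear_combination a * hPQ
      rw [this]
      refine (abs_add_le _ _).trans ?_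
      rw [abs_mul, abs_mul, abs_of_nonneg hP, abs_of_nonneg hQ]
      calc P * |a1 - a| + Q * |a2 - a| ≤ P * (C3 * d) + Q * (C3 * d) :=
            add_le_add (mul_le_mul_of_nonneg_left h1 hP) (mul_le_mul_of_nonneg_left h2 hQ)
        _ = C3 * d := by rw [← add_mul, hPQ, one_mul]
    have h' : |√A - √a| ≤ C3 * d / √a0 :=
      (sqrt_sub_le ha0 hAp.le haa).trans (div_le_div_of_nonneg_right hAa hr0.le)
    have := le_abs_self (√A - √a)
    linarith
  have hsAb : √A ≤ √b := sqrt_le_sqrt hAb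
  have hT := g_tangent (x := A - P * Q * D ^ 2) (y := A) hnn hAp.le
  have e1 : A - P * Q * D ^ 2 - A = -(P * Q * D ^ 2) := by ring
  rw [e1] at hT
  have hPD : P * Q * D ^ 2 ≤ 4 * (P * Q) * d ^ 2 * m ^ 2 + C3 * (4 * b + C3) * d ^ 3 := by
    have u1 := mul_le_mul_of_nonneg_left hD2 hPQ0
    have u2 : P * Q * (C3 * (4 * b + C3) * d ^ 3) ≤ 1 * (C3 * (4 * b + C3) * d ^ 3) :=
      mul_le_mul_of_nonneg_right (by linarith) (by positivity)
    calc P * Q * D ^ 2 ≤ P * Q * (4 * d ^ 2 * m ^ 2 + C3 * (4 * b + C3) * d ^ 3) := u1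
      _ = 4 * (P * Q) * d ^ 2 * m ^ 2 + P * Q * (C3 * (4 * b + C3) * d ^ 3) := by ring
      _ ≤ _ := by linarith
  have hm2 : m ^ 2 ≤ b ^ 2 := by
    have := pow_le_pow_left₀ (abs_nonneg m) hm 2
    rwa [sq_abs] at this
  have hB : √A * (P * Q * D ^ 2) ≤ √a * (4 * (P * Q) * d ^ 2) * m ^ 2
      + ((C3 / √a0) * b ^ 2 + √b * (C3 * (4 * b + C3))) * d ^ 3 := by
    have w1 : √A * (P * Q * D ^ 2) ≤ √A * (4 * (P * Q) * d ^ 2 * m ^ 2 + C3 * (4 * b + C3) * d ^ 3) :=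
      mul_le_mul_of_nonneg_left hPD (sqrt_nonneg _)
    have w2 : √A * (4 * (P * Q) * d ^ 2 * m ^ 2) ≤ (√a + C3 * d / √a0) * (4 * (P * Q) * d ^ 2 * m ^ 2) :=
      mul_le_mul_of_nonneg_right hsA (by positivity)
    have w3 : √A * (C3 * (4 * b + C3) * d ^ 3) ≤ √b * (C3 * (4 * b + C3) * d ^ 3) :=
      mul_le_mul_of_nonneg_right hsAb (by positivity)
    have w4 : C3 * d / √a0 * (4 * (P * Q) * d ^ 2 * m ^ 2) ≤ (C3 / √a0) * b ^ 2 * d ^ 3 := by
      have v1 : 4 * (P * Q) * (C3 * d / √a0 * (d ^ 2 * m ^ 2)) ≤ 1 * (C3 * d / √a0 * (d ^ 2 * m ^ 2)) :=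
        mul_le_mul_of_nonneg_right (by linarith) (by positivity)
      have v2 : C3 * d / √a0 * (d ^ 2 * m ^ 2) ≤ C3 * d / √a0 * (d ^ 2 * b ^ 2) := by
        apply mul_le_mul_of_nonneg_left _ (by positivity)
        exact mul_le_mul_of_nonneg_left hm2 (by positivity)
      calc C3 * d / √a0 * (4 * (P * Q) * d ^ 2 * m ^ 2)
          = 4 * (P * Q) * (C3 * d / √a0 * (d ^ 2 * m ^ 2)) := by ring
        _ ≤ C3 * d / √a0 * (d ^ 2 * b ^ 2) := by linarith
        _ = _ := by ring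
    calc √A * (P * Q * D ^ 2) ≤ √A * (4 * (P * Q) * d ^ 2 * m ^ 2 + C3 * (4 * b + C3) * d ^ 3) := w1
      _ = √A * (4 * (P * Q) * d ^ 2 * m ^ 2) + √A * (C3 * (4 * b + C3) * d ^ 3) := by ring
      _ ≤ (√a + C3 * d / √a0) * (4 * (P * Q) * d ^ 2 * m ^ 2) + √b * (C3 * (4 * b + C3) * d ^ 3) := by
          linarith
      _ = √a * (4 * (P * Q) * d ^ 2) * m ^ 2 + C3 * d / √a0 * (4 * (P * Q) * d ^ 2 * m ^ 2)
          + √b * (C3 * (4 * b + C3) * d ^ 3) := by ring
      _ ≤ √a * (4 * (P * Q) * d ^ 2) * m ^ 2 + (C3 / √a0) * b ^ 2 * d ^ 3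
          + √b * (C3 * (4 * b + C3) * d ^ 3) := by linarith
      _ = _ := by ring
  set F := ((C3 / √a0) * b ^ 2 + √b * (C3 * (4 * b + C3))) * d ^ 3 with hF
  have hF0 : 0 ≤ F := by positivity
  have hg : A * √A ≤ (A - P * Q * D ^ 2) * √(A - P * Q * D ^ 2)
      + 3 / 2 * (√a * (4 * (P * Q) * d ^ 2) * m ^ 2 + F) := by
    have e2 : 3 / 2 * √A * -(P * Q * D ^ 2) = -(3 / 2 * (√A * (P * Q * D ^ 2))) := by ring
    rw [e2] at hT
    linarith
  have hg2 := mul_le_mul_of_nonneg_left hg (show (0 : ℝ) ≤ 2 * k by positivity)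
  have hkF : 3 * k * F ≤ 3 * F := by
    have := mul_le_mul_of_nonneg_right hk1 hF0
    linarith
  calc 2 * k * (A * √A) ≤ 2 * k * ((A - P * Q * D ^ 2) * √(A - P * Q * D ^ 2)
      + 3 / 2 * (√a * (4 * (P * Q) * d ^ 2) * m ^ 2 + F)) := hg2
    _ = 2 * k * ((A - P * Q * D ^ 2) * √(A - P * Q * D ^ 2)) + 3 * k * √a * (4 * (P * Q) * d ^ 2) * m ^ 2
        + 3 * k * F := by ring
    _ ≤ 2 * k * ((A - P * Q * D ^ 2) * √(A - P * Q * D ^ 2)) + 3 * k * √a * (4 * (P * Q) * d ^ 2) * m ^ 2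
        + 3 * F := by linarith
    _ = _ := by rw [hF]; ring

/-- the covariance term -/
theorem cov_term {b C3 C4 : ℝ} (hC3 : 0 ≤ C3) (hC4 : 0 ≤ C4) (hb : 0 < b)
    {d m q a1 a2 P Q D : ℝ} (hd0 : 0 < d) (hd1 : d ≤ 1)
    (hP : 0 ≤ P) (hQ : 0 ≤ Q) (hPQ : P + Q = 1)
    (h12 : |a1 - a2 - 2 * d * q| ≤ C4 * d ^ 2) (hq : |q| ≤ C3)
    (hD : |D - 2 * d * m| ≤ C3 * d ^ 2) (hm : |m| ≤ b) :
    -(3 * (P * Q) * (a1 - a2) * D) ≤ -(3 * (4 * (P * Q) * d ^ 2) * q * m)
      + (C4 * (2 * b + C3) + 2 * C3 ^ 2) * d ^ 3 := by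
  have hPQ4 : P * Q ≤ 1 / 4 := by nlinarith [sq_nonneg (P - Q)]
  have hPQ0 : 0 ≤ P * Q := mul_nonneg hP hQ
  obtain ⟨hDb, -⟩ := D_bounds hC3 hb hd0 hd1 hD hm
  have e : (a1 - a2) * D - 4 * d ^ 2 * q * m = (a1 - a2 - 2 * d * q) * D + 2 * d * q * (D - 2 * d * m) := by ring
  have h1 : |(a1 - a2) * D - 4 * d ^ 2 * q * m| ≤ (C4 * (2 * b + C3) + 2 * C3 ^ 2) * d ^ 3 := by
    rw [e]
    refine (abs_add_le _ _).trans ?_
    rw [abs_mul, abs_mul (2 * d * q), abs_mul, abs_mul, abs_two, abs_of_pos hd0]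
    have t1 : |a1 - a2 - 2 * d * q| * |D| ≤ C4 * d ^ 2 * ((2 * b + C3) * d) :=
      mul_le_mul h12 hDb (abs_nonneg _) (by positivity)
    have t2 : 2 * d * |q| * |D - 2 * d * m| ≤ 2 * d * C3 * (C3 * d ^ 2) :=
      mul_le_mul (mul_le_mul_of_nonneg_left hq (by positivity)) hD (abs_nonneg _) (by positivity)
    calc _ ≤ C4 * d ^ 2 * ((2 * b + C3) * d) + 2 * d * C3 * (C3 * d ^ 2) := by linarith
      _ = _ := by ring
  set F := (C4 * (2 * b + C3) + 2 * C3 ^ 2) * d ^ 3 with hF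
  have hF0 : 0 ≤ F := by positivity
  have h2 : -((a1 - a2) * D) ≤ -(4 * d ^ 2 * q * m) + F := by
    have := neg_abs_le ((a1 - a2) * D - 4 * d ^ 2 * q * m)
    linarith
  have h3 := mul_le_mul_of_nonneg_left h2 (show (0 : ℝ) ≤ 3 * (P * Q) by positivity)
  have h4 : 3 * (P * Q) * F ≤ F := by
    have := mul_le_mul_of_nonneg_right (show 3 * (P * Q) ≤ 1 by linarith) hF0
    linarith
  calc -(3 * (P * Q) * (a1 - a2) * D) = 3 * (P * Q) * -((a1 - a2) * D) := by ring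
    _ ≤ 3 * (P * Q) * (-(4 * d ^ 2 * q * m) + F) := h3
    _ = -(3 * (4 * (P * Q) * d ^ 2) * q * m) + 3 * (P * Q) * F := by ring
    _ ≤ _ := by linarith

/-- the third cumulant term -/
theorem cub_term {b C3 : ℝ} (hC3 : 0 ≤ C3) (hb : 0 < b)
    {d m P Q D : ℝ} (hd0 : 0 < d) (hd1 : d ≤ 1)
    (hP : 0 ≤ P) (hQ : 0 ≤ Q) (hPQ : P + Q = 1)
    (hD : |D - 2 * d * m| ≤ C3 * d ^ 2) (hm : |m| ≤ b) :
    P * Q * (Q - P) * D ^ 3 ≤ (2 * b + C3) ^ 3 * d ^ 3 := by
  have hPQ4 : P * Q ≤ 1 / 4 := by nlinarith [sq_nonneg (P - Q)]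
  have hPQ0 : 0 ≤ P * Q := mul_nonneg hP hQ
  obtain ⟨hDb, -⟩ := D_bounds hC3 hb hd0 hd1 hD hm
  have h1 : |P * Q * (Q - P)| ≤ 1 := by
    rw [abs_mul, abs_of_nonneg hPQ0]
    have : |Q - P| ≤ 1 := by
      rw [abs_le]; constructor <;> linarith
    calc P * Q * |Q - P| ≤ 1 / 4 * 1 := mul_le_mul hPQ4 this (abs_nonneg _) (by norm_num)
      _ ≤ 1 := by norm_num
  have h2 : |D ^ 3| ≤ (2 * b + C3) ^ 3 * d ^ 3 := by
    rw [abs_pow]
    calc |D| ^ 3 ≤ ((2 * b + C3) * d) ^ 3 := pow_le_pow_left₀ (abs_nonneg _) hDb 3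
      _ = _ := by ring
  calc P * Q * (Q - P) * D ^ 3 ≤ |P * Q * (Q - P) * D ^ 3| := le_abs_self _
    _ = |P * Q * (Q - P)| * |D ^ 3| := abs_mul _ _
    _ ≤ 1 * ((2 * b + C3) ^ 3 * d ^ 3) := mul_le_mul h1 h2 (abs_nonneg _) (by norm_num)
    _ = _ := one_mul _

theorem pq_le {P Q : ℝ} (hPQ : P + Q = 1) : P * Q ≤ 1 / 4 := by
  obtain rfl : Q = 1 - P := by linarith
  nlinarith [sq_nonneg (2 * P - 1)]

theorem r_bound {b S k m ρ : ℝ} (hk0 : 0 ≤ k) (hk1 : k ≤ 1) (hm : |m| ≤ b) (hρ : |ρ| ≤ S) :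
    |(-1 + k ^ 2 / 2) * m + k / 4 * ρ| ≤ b + S := by
  have hk2 : k ^ 2 ≤ 1 := pow_le_one₀ hk0 hk1
  have hk3 : 0 ≤ k ^ 2 := sq_nonneg k
  have u1 : |(-1 + k ^ 2 / 2) * m| ≤ b := by
    rw [abs_mul]
    have : |(-1 + k ^ 2 / 2)| ≤ 1 := by
      rw [abs_le]; constructor <;> linarith
    calc |(-1 + k ^ 2 / 2)| * |m| ≤ 1 * b := mul_le_mul this hm (abs_nonneg _) (by norm_num)
      _ = b := one_mul _
  have u2 : |k / 4 * ρ| ≤ S := by
    rw [abs_mul]
    have : |k / 4| ≤ 1 := by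
      rw [abs_le]; constructor <;> linarith
    calc |k / 4| * |ρ| ≤ 1 * S := mul_le_mul this hρ (abs_nonneg _) (by norm_num)
      _ = _ := one_mul _
  exact (abs_add_le _ _).trans (by linarith)

theorem rho_bound {a0 a C3 q ρ : ℝ} (ha0 : 0 < a0) (haa : a0 ≤ a) (hρ : q = ρ * √a) (hq : |q| ≤ C3) :
    |ρ| ≤ C3 / √a0 := by
  have hr0 : 0 < √a0 := sqrt_pos.2 ha0
  have hsa : √a0 ≤ √a := sqrt_le_sqrt haa
  have hsap : 0 < √a := lt_of_lt_of_le hr0 hsa
  have e1 : |ρ| * √a = |q| := by rw [hρ, abs_mul, abs_of_pos hsap]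
  rw [le_div_iff₀ hr0]
  calc |ρ| * √a0 ≤ |ρ| * √a := mul_le_mul_of_nonneg_left hsa (abs_nonneg _)
    _ = |q| := e1
    _ ≤ C3 := hq

theorem eta_bound {P Q d r R : ℝ} (hP : 0 ≤ P) (hQ : 0 ≤ Q) (hPQ : P + Q = 1) (hr : |r| ≤ R) :
    |4 * (P * Q) * d ^ 2 * r| ≤ R * d ^ 2 := by
  have hPQ4 := pq_le hPQ
  have hPQ0 : 0 ≤ P * Q := mul_nonneg hP hQ
  have hh0 : 0 ≤ 4 * (P * Q) * d ^ 2 := by positivity
  have hhd : 4 * (P * Q) * d ^ 2 ≤ d ^ 2 := by
    have := mul_le_mul_of_nonneg_right (show 4 * (P * Q) ≤ 1 by linarith) (sq_nonneg d)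
    linarith
  rw [abs_mul, abs_of_nonneg hh0]
  calc 4 * (P * Q) * d ^ 2 * |r| ≤ d ^ 2 * R := mul_le_mul hhd hr (abs_nonneg _) (by positivity)
    _ = _ := mul_comm _ _

theorem key_alg {k s ρ m q h r : ℝ} (hk0 : 0 ≤ k) (hk1 : k ≤ 1) (hs : 0 ≤ s) (hh : 0 ≤ h)
    (hq : q = ρ * s) (hr : r = (-1 + k ^ 2 / 2) * m + k / 4 * ρ) :
    (6 * k * s * m * (h * r) - 3 * (h * r) * q) + 3 * k * s * h * m ^ 2
      + 2 * k * (3 / 8 * h * (ρ ^ 2 * s)) - 3 * h * q * m ≤ 0 := by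
  have e1 : (6 * k * s * m * (h * r) - 3 * (h * r) * q) + 3 * k * s * h * m ^ 2
      + 2 * k * (3 / 8 * h * (ρ ^ 2 * s)) - 3 * h * q * m
      = -(3 * (k * (1 - k ^ 2)) * s * m ^ 2 * h) := by
    rw [hr, hq]; ring
  have hk2 : 0 ≤ 1 - k ^ 2 := by
    have := pow_le_one₀ (n := 2) hk0 hk1
    linarith
  rw [e1]
  have : 0 ≤ 3 * (k * (1 - k ^ 2)) * s * m ^ 2 * h := by positivity
  linarith

theorem assemble {k e d P Q g1 g2 gA gN b1 b2 X Y Z W K1 K2 K3 K4 K5 K6 cv cb : ℝ}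
    (hk0 : 0 ≤ k) (hk1 : k ≤ 1) (he0 : 0 ≤ e) (hd0 : 0 < d) (hP : 0 ≤ P) (hQ : 0 ≤ Q) (hPQ : P + Q = 1)
    (h1p : 0 ≤ K1) (h2p : 0 ≤ K2) (h3p : 0 ≤ K3) (h4p : 0 ≤ K4) (h5p : 0 ≤ K5) (h6p : 0 ≤ K6)
    (f1 : b1 ≤ 2 * k * g1 + X + e * (1 + K1 * d ^ 2) + K2 * d ^ 3)
    (f2 : b2 ≤ 2 * k * g2 + X + e * (1 + K1 * d ^ 2) + K2 * d ^ 3)
    (f3 : P * g1 + Q * g2 ≤ gA + Y + K3 * d ^ 3)
    (f4 : 2 * k * gA ≤ 2 * k * gN + Z + K4 * d ^ 3)
    (f5 : -cv ≤ -W + K5 * d ^ 3)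
    (f6 : cb ≤ K6 * d ^ 3)
    (key : X + Z + 2 * k * Y - W ≤ 0) :
    P * b1 + Q * b2 - cv + cb ≤ 2 * k * gN + e * (1 + (K1 + K2 + 2 * K3 + K4 + K5 + K6) * d ^ 2)
      + (K1 + K2 + 2 * K3 + K4 + K5 + K6) * d ^ 3 := by
  have hd3 : 0 ≤ d ^ 3 := by positivity
  have g1' := mul_le_mul_of_nonneg_left f1 hP
  have g2' := mul_le_mul_of_nonneg_left f2 hQ
  have g3 := mul_le_mul_of_nonneg_left f3 (show (0 : ℝ) ≤ 2 * k by positivity)
  have g3' : 2 * k * (K3 * d ^ 3) ≤ 2 * (K3 * d ^ 3) :=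
    mul_le_mul_of_nonneg_right (by linarith) (mul_nonneg h3p hd3)
  have e1 : P * (2 * k * g1 + X + e * (1 + K1 * d ^ 2) + K2 * d ^ 3)
      + Q * (2 * k * g2 + X + e * (1 + K1 * d ^ 2) + K2 * d ^ 3)
      = 2 * k * (P * g1 + Q * g2) + (P + Q) * (X + e * (1 + K1 * d ^ 2) + K2 * d ^ 3) := by ring
  rw [hPQ, one_mul] at e1
  have e5 : 2 * k * (gA + Y + K3 * d ^ 3) = 2 * k * gA + 2 * k * Y + 2 * k * (K3 * d ^ 3) := by ring
  rw [e5] at g3
  have e6 : e * (1 + (K1 + K2 + 2 * K3 + K4 + K5 + K6) * d ^ 2)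
      = e * (1 + K1 * d ^ 2) + e * ((K2 + 2 * K3 + K4 + K5 + K6) * d ^ 2) := by ring
  have e7 : 0 ≤ e * ((K2 + 2 * K3 + K4 + K5 + K6) * d ^ 2) := by positivity
  have e8 : (K1 + K2 + 2 * K3 + K4 + K5 + K6) * d ^ 3
      = K1 * d ^ 3 + K2 * d ^ 3 + 2 * (K3 * d ^ 3) + K4 * d ^ 3 + K5 * d ^ 3 + K6 * d ^ 3 := by ring
  have e9 : 0 ≤ K1 * d ^ 3 := mul_nonneg h1p hd3
  rw [e6, e8]
  linarith

/-- the core with named constants -/
theorem sc_core {a0 b C3 C4 R K1 K2 K3 K4 K5 K6 : ℝ} (ha0 : 0 < a0) (hab : a0 ≤ b) (hC3 : 0 ≤ C3) (hC4 : 0 ≤ C4)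
    (hR : R = b + C3 / √a0)
    (hK1 : K1 = 3 * R + 3 * R ^ 2 + R ^ 3)
    (hK2 : K2 = 2 * (3 * (R * (C3 * b / √a0 + √b * C3)) + 3 / 2 * √b * R ^ 2 * b
          + ((2 * R + R ^ 2) * b) ^ 2 / √a0) + (3 * R * C4 + (3 * R ^ 2 + R ^ 3) * C3))
    (hK3 : K3 = C3 ^ 3 / (a0 * √a0) + C3 * C4 / √a0 + C3 ^ 2 * C3 / (a0 * √a0))
    (hK4 : K4 = 3 * (C3 / √a0) * b ^ 2 + 3 * √b * (C3 * (4 * b + C3)))
    (hK5 : K5 = C4 * (2 * b + C3) + 2 * C3 ^ 2)
    (hK6 : K6 = (2 * b + C3) ^ 3)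
    (h1p : 0 ≤ K1) (h2p : 0 ≤ K2) (h3p : 0 ≤ K3) (h4p : 0 ≤ K4) (h5p : 0 ≤ K5) (h6p : 0 ≤ K6)
    {k e d P Q a1 a2 b1 b2 D a m q m1 m2 q1 q2 c1 c2 s1 s2 t1 t2 : ℝ}
    (hk0 : 0 ≤ k) (hk1 : k ≤ 1) (he0 : 0 ≤ e) (hd0 : 0 < d) (hd1 : d ≤ 1) (hP : 0 ≤ P) (hQ : 0 ≤ Q)
    (hPQ : P + Q = 1)
    (ha1 : a0 ≤ a1) (ha1b : a1 ≤ b) (ha2 : a0 ≤ a2) (ha2b : a2 ≤ b) (haa : a0 ≤ a) (hab' : a ≤ b)
    (h1 : |a1 - a| ≤ C3 * d) (h2 : |a2 - a| ≤ C3 * d) (h12 : |a1 - a2 - 2 * d * q| ≤ C4 * d ^ 2)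
    (hD : |D - 2 * d * m| ≤ C3 * d ^ 2) (hm1' : |m1 - m| ≤ C3 * d) (hm2' : |m2 - m| ≤ C3 * d)
    (hq1' : |q1 - q| ≤ C4 * d) (hq2' : |q2 - q| ≤ C4 * d)
    (hm : |m| ≤ b) (hm1 : |m1| ≤ b) (hm2 : |m2| ≤ b) (hc1 : |c1| ≤ b) (hc2 : |c2| ≤ b)
    (hq : |q| ≤ C3) (hs1 : |s1| ≤ C3) (hs2 : |s2| ≤ C3) (ht1 : |t1| ≤ C3) (ht2 : |t2| ≤ C3)
    (hpos1 : ∀ η : ℝ, 0 ≤ a1 + 2 * η * m1 + η ^ 2 * c1) (hpos2 : ∀ η : ℝ, 0 ≤ a2 + 2 * η * m2 + η ^ 2 * c2)
    (hsc1 : ∀ η : ℝ, b1 + 3 * η * q1 + 3 * η ^ 2 * s1 + η ^ 3 * t1 ≤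
        2 * k * ((a1 + 2 * η * m1 + η ^ 2 * c1) * √(a1 + 2 * η * m1 + η ^ 2 * c1)) + e * (1 + |η|) ^ 3)
    (hsc2 : ∀ η : ℝ, b2 + 3 * η * q2 + 3 * η ^ 2 * s2 + η ^ 3 * t2 ≤
        2 * k * ((a2 + 2 * η * m2 + η ^ 2 * c2) * √(a2 + 2 * η * m2 + η ^ 2 * c2)) + e * (1 + |η|) ^ 3)
    (hnn : 0 ≤ P * a1 + Q * a2 - P * Q * D ^ 2) :
      P * b1 + Q * b2 - 3 * (P * Q) * (a1 - a2) * D + P * Q * (Q - P) * D ^ 3 ≤
        2 * k * ((P * a1 + Q * a2 - P * Q * D ^ 2) * √(P * a1 + Q * a2 - P * Q * D ^ 2))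
          + e * (1 + (K1 + K2 + 2 * K3 + K4 + K5 + K6) * d ^ 2)
          + (K1 + K2 + 2 * K3 + K4 + K5 + K6) * d ^ 3 := by
  have hr0 : 0 < √a0 := sqrt_pos.2 ha0
  have hb0 : 0 < b := lt_of_lt_of_le ha0 hab
  have hR0 : 0 ≤ R := by rw [hR]; positivity
  have hsap : 0 < √a := lt_of_lt_of_le hr0 (sqrt_le_sqrt haa)
  obtain ⟨ρ, hρ⟩ : ∃ ρ : ℝ, q = ρ * √a := ⟨q / √a, (div_mul_cancel₀ q hsap.ne').symm⟩
  obtain ⟨r, hr⟩ : ∃ r : ℝ, r = (-1 + k ^ 2 / 2) * m + k / 4 * ρ := ⟨_, rfl⟩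
  have hrb : |r| ≤ R := by
    rw [hr, hR]
    exact r_bound hk0 hk1 hm (rho_bound ha0 haa hρ hq)
  have hη : |4 * (P * Q) * d ^ 2 * r| ≤ R * d ^ 2 := eta_bound hP hQ hPQ hrb
  have f1 : b1 ≤ 2 * k * (a1 * √a1) + (6 * k * √a * m * (4 * (P * Q) * d ^ 2 * r)
      - 3 * (4 * (P * Q) * d ^ 2 * r) * q) + e * (1 + K1 * d ^ 2) + K2 * d ^ 3 := by
    rw [hK1, hK2, ← add_sub_assoc]
    exact one_point ha0 hab hC3 hC4 hR0 hk0 hk1 he0 hd0 hd1 ha1 ha1b haa hab' h1 hm1' hq1' hm1 hc1 hs1 ht1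
      hη (hpos1 _) (hsc1 _)
  have f2 : b2 ≤ 2 * k * (a2 * √a2) + (6 * k * √a * m * (4 * (P * Q) * d ^ 2 * r)
      - 3 * (4 * (P * Q) * d ^ 2 * r) * q) + e * (1 + K1 * d ^ 2) + K2 * d ^ 3 := by
    rw [hK1, hK2, ← add_sub_assoc]
    exact one_point ha0 hab hC3 hC4 hR0 hk0 hk1 he0 hd0 hd1 ha2 ha2b haa hab' h2 hm2' hq2' hm2 hc2 hs2 ht2
      hη (hpos2 _) (hsc2 _)
  have f3 : P * (a1 * √a1) + Q * (a2 * √a2) ≤ (P * a1 + Q * a2) * √(P * a1 + Q * a2)
      + 3 / 8 * (4 * (P * Q) * d ^ 2) * (ρ ^ 2 * √a) + K3 * d ^ 3 := by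
    have hq2 : q ^ 2 / √a = ρ ^ 2 * √a := by
      rw [hρ, div_eq_iff hsap.ne']; ring
    rw [hK3, ← hq2]
    exact two_point_g ha0 hC3 hC4 hd0 hd1 hP hQ hPQ ha1 ha2 haa h1 h2 h12 hq
  have f4 : 2 * k * ((P * a1 + Q * a2) * √(P * a1 + Q * a2))
      ≤ 2 * k * ((P * a1 + Q * a2 - P * Q * D ^ 2) * √(P * a1 + Q * a2 - P * Q * D ^ 2))
        + 3 * k * √a * (4 * (P * Q) * d ^ 2) * m ^ 2 + K4 * d ^ 3 := by
    rw [hK4]
    exact avg_new ha0 hab hC3 hk0 hk1 hd0 hd1 hP hQ hPQ ha1 ha2 ha1b ha2b haa h1 h2 hD hm hnn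
  have f5 : -(3 * (P * Q) * (a1 - a2) * D) ≤ -(3 * (4 * (P * Q) * d ^ 2) * q * m) + K5 * d ^ 3 := by
    rw [hK5]
    exact cov_term hC3 hC4 hb0 hd0 hd1 hP hQ hPQ h12 hq hD hm
  have f6 : P * Q * (Q - P) * D ^ 3 ≤ K6 * d ^ 3 := by
    rw [hK6]
    exact cub_term hC3 hb0 hd0 hd1 hP hQ hPQ hD hm
  have hh0 : 0 ≤ 4 * (P * Q) * d ^ 2 := by positivity
  exact assemble hk0 hk1 he0 hd0 hP hQ hPQ h1p h2p h3p h4p h5p h6p f1 f2 f3 f4 f5 f6
    (key_alg hk0 hk1 hsap.le hh0 hρ hr)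

/-- THE REAL INEQUALITY of the two-point step (`x * √x` form). -/
theorem sc_real' (a0 b C3 C4 : ℝ) (ha0 : 0 < a0) (hab : a0 ≤ b) (hC3 : 0 ≤ C3) (hC4 : 0 ≤ C4) :
    ∃ K : ℝ, 0 ≤ K ∧ ∀ k e d P Q a1 a2 b1 b2 D a m q m1 m2 q1 q2 c1 c2 s1 s2 t1 t2 : ℝ,
      0 ≤ k → k ≤ 1 → 0 ≤ e → 0 < d → d ≤ 1 → 0 ≤ P → 0 ≤ Q → P + Q = 1 →
      a0 ≤ a1 → a1 ≤ b → a0 ≤ a2 → a2 ≤ b → a0 ≤ a → a ≤ b →
      |a1 - a| ≤ C3 * d → |a2 - a| ≤ C3 * d → |a1 - a2 - 2 * d * q| ≤ C4 * d ^ 2 →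
      |D - 2 * d * m| ≤ C3 * d ^ 2 → |m1 - m| ≤ C3 * d → |m2 - m| ≤ C3 * d →
      |q1 - q| ≤ C4 * d → |q2 - q| ≤ C4 * d →
      |m| ≤ b → |m1| ≤ b → |m2| ≤ b → |c1| ≤ b → |c2| ≤ b →
      |q| ≤ C3 → |s1| ≤ C3 → |s2| ≤ C3 → |t1| ≤ C3 → |t2| ≤ C3 →
      (∀ η : ℝ, 0 ≤ a1 + 2 * η * m1 + η ^ 2 * c1) → (∀ η : ℝ, 0 ≤ a2 + 2 * η * m2 + η ^ 2 * c2) →
      (∀ η : ℝ, b1 + 3 * η * q1 + 3 * η ^ 2 * s1 + η ^ 3 * t1 ≤
        2 * k * ((a1 + 2 * η * m1 + η ^ 2 * c1) * √(a1 + 2 * η * m1 + η ^ 2 * c1)) + e * (1 + |η|) ^ 3) →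
      (∀ η : ℝ, b2 + 3 * η * q2 + 3 * η ^ 2 * s2 + η ^ 3 * t2 ≤
        2 * k * ((a2 + 2 * η * m2 + η ^ 2 * c2) * √(a2 + 2 * η * m2 + η ^ 2 * c2)) + e * (1 + |η|) ^ 3) →
      0 ≤ P * a1 + Q * a2 - P * Q * D ^ 2 →
      P * b1 + Q * b2 - 3 * (P * Q) * (a1 - a2) * D + P * Q * (Q - P) * D ^ 3 ≤
        2 * k * ((P * a1 + Q * a2 - P * Q * D ^ 2) * √(P * a1 + Q * a2 - P * Q * D ^ 2))
          + e * (1 + K * d ^ 2) + K * d ^ 3 := by
  have hr0 : 0 < √a0 := sqrt_pos.2 ha0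
  have hb0 : 0 < b := lt_of_lt_of_le ha0 hab
  obtain ⟨R, hR⟩ : ∃ R : ℝ, R = b + C3 / √a0 := ⟨_, rfl⟩
  have hR0 : 0 ≤ R := by rw [hR]; positivity
  obtain ⟨K1, hK1⟩ : ∃ K1 : ℝ, K1 = 3 * R + 3 * R ^ 2 + R ^ 3 := ⟨_, rfl⟩
  obtain ⟨K2, hK2⟩ : ∃ K2 : ℝ, K2 = 2 * (3 * (R * (C3 * b / √a0 + √b * C3)) + 3 / 2 * √b * R ^ 2 * b
          + ((2 * R + R ^ 2) * b) ^ 2 / √a0) + (3 * R * C4 + (3 * R ^ 2 + R ^ 3) * C3) := ⟨_, rfl⟩
  obtain ⟨K3, hK3⟩ : ∃ K3 : ℝ, K3 = C3 ^ 3 / (a0 * √a0) + C3 * C4 / √a0 + C3 ^ 2 * C3 / (a0 * √a0) := ⟨_, rfl⟩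
  obtain ⟨K4, hK4⟩ : ∃ K4 : ℝ, K4 = 3 * (C3 / √a0) * b ^ 2 + 3 * √b * (C3 * (4 * b + C3)) := ⟨_, rfl⟩
  obtain ⟨K5, hK5⟩ : ∃ K5 : ℝ, K5 = C4 * (2 * b + C3) + 2 * C3 ^ 2 := ⟨_, rfl⟩
  obtain ⟨K6, hK6⟩ : ∃ K6 : ℝ, K6 = (2 * b + C3) ^ 3 := ⟨_, rfl⟩
  have h1p : 0 ≤ K1 := by rw [hK1]; positivity
  have h2p : 0 ≤ K2 := by rw [hK2]; positivity
  have h3p : 0 ≤ K3 := by rw [hK3]; positivity
  have h4p : 0 ≤ K4 := by rw [hK4]; positivity
  have h5p : 0 ≤ K5 := by rw [hK5]; positivity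
  have h6p : 0 ≤ K6 := by rw [hK6]; positivity
  refine ⟨K1 + K2 + 2 * K3 + K4 + K5 + K6, by positivity, ?_⟩
  intro k e d P Q a1 a2 b1 b2 D a m q m1 m2 q1 q2 c1 c2 s1 s2 t1 t2 hk0 hk1 he0 hd0 hd1 hP hQ hPQ
    ha1 ha1b ha2 ha2b haa hab' h1 h2 h12 hD hm1' hm2' hq1' hq2' hm hm1 hm2 hc1 hc2 hq hs1 hs2 ht1 ht2
    hpos1 hpos2 hsc1 hsc2 hnn
  exact sc_core ha0 hab hC3 hC4 hR hK1 hK2 hK3 hK4 hK5 hK6 h1p h2p h3p h4p h5p h6p
    hk0 hk1 he0 hd0 hd1 hP hQ hPQ
    ha1 ha1b ha2 ha2b haa hab' h1 h2 h12 hD hm1' hm2' hq1' hq2' hm hm1 hm2 hc1 hc2 hq hs1 hs2 ht1 ht2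
    hpos1 hpos2 hsc1 hsc2 hnn

theorem rpow32 {x : ℝ} (hx : 0 ≤ x) : x ^ ((3 : ℝ) / 2) = x * √x := by
  rcases hx.lt_or_eq with h | h
  · rw [show ((3 : ℝ) / 2) = 1 + 1 / 2 by norm_num, Real.rpow_add h, Real.rpow_one, ← Real.sqrt_eq_rpow]
  · rw [← h]; simp

/-- THE REAL INEQUALITY of the two-point step (`rpow` form). -/
theorem sc_real (a0 b C3 C4 : ℝ) (ha0 : 0 < a0) (hab : a0 ≤ b) (hC3 : 0 ≤ C3) (hC4 : 0 ≤ C4) :
    ∃ K : ℝ, 0 ≤ K ∧ ∀ k e d P Q a1 a2 b1 b2 D a m q m1 m2 q1 q2 c1 c2 s1 s2 t1 t2 : ℝ,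
      0 ≤ k → k ≤ 1 → 0 ≤ e → 0 < d → d ≤ 1 → 0 ≤ P → 0 ≤ Q → P + Q = 1 →
      a0 ≤ a1 → a1 ≤ b → a0 ≤ a2 → a2 ≤ b → a0 ≤ a → a ≤ b →
      |a1 - a| ≤ C3 * d → |a2 - a| ≤ C3 * d → |a1 - a2 - 2 * d * q| ≤ C4 * d ^ 2 →
      |D - 2 * d * m| ≤ C3 * d ^ 2 → |m1 - m| ≤ C3 * d → |m2 - m| ≤ C3 * d →
      |q1 - q| ≤ C4 * d → |q2 - q| ≤ C4 * d →
      |m| ≤ b → |m1| ≤ b → |m2| ≤ b → |c1| ≤ b → |c2| ≤ b →
      |q| ≤ C3 → |s1| ≤ C3 → |s2| ≤ C3 → |t1| ≤ C3 → |t2| ≤ C3 →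
      (∀ η : ℝ, 0 ≤ a1 + 2 * η * m1 + η ^ 2 * c1) → (∀ η : ℝ, 0 ≤ a2 + 2 * η * m2 + η ^ 2 * c2) →
      (∀ η : ℝ, b1 + 3 * η * q1 + 3 * η ^ 2 * s1 + η ^ 3 * t1 ≤
        2 * k * (a1 + 2 * η * m1 + η ^ 2 * c1) ^ ((3 : ℝ) / 2) + e * (1 + |η|) ^ 3) →
      (∀ η : ℝ, b2 + 3 * η * q2 + 3 * η ^ 2 * s2 + η ^ 3 * t2 ≤
        2 * k * (a2 + 2 * η * m2 + η ^ 2 * c2) ^ ((3 : ℝ) / 2) + e * (1 + |η|) ^ 3) →
      0 ≤ P * a1 + Q * a2 - P * Q * D ^ 2 →
      P * b1 + Q * b2 - 3 * (P * Q) * (a1 - a2) * D + P * Q * (Q - P) * D ^ 3 ≤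
        2 * k * (P * a1 + Q * a2 - P * Q * D ^ 2) ^ ((3 : ℝ) / 2)
          + e * (1 + K * d ^ 2) + K * d ^ 3 := by
  obtain ⟨K, hK, H⟩ := sc_real' a0 b C3 C4 ha0 hab hC3 hC4
  refine ⟨K, hK, ?_⟩
  intro k e d P Q a1 a2 b1 b2 D a m q m1 m2 q1 q2 c1 c2 s1 s2 t1 t2 hk0 hk1 he0 hd0 hd1 hP hQ hPQ
    ha1 ha1b ha2 ha2b haa hab' h1 h2 h12 hD hm1' hm2' hq1' hq2' hm hm1 hm2 hc1 hc2 hq hs1 hs2 ht1 ht2
    hpos1 hpos2 hsc1 hsc2 hnn
  rw [rpow32 hnn]
  refine H k e d P Q a1 a2 b1 b2 D a m q m1 m2 q1 q2 c1 c2 s1 s2 t1 t2 hk0 hk1 he0 hd0 hd1 hP hQ hPQ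
    ha1 ha1b ha2 ha2b haa hab' h1 h2 h12 hD hm1' hm2' hq1' hq2' hm hm1 hm2 hc1 hc2 hq hs1 hs2 ht1 ht2
    hpos1 hpos2 (fun η => ?_) (fun η => ?_) hnn
  · rw [← rpow32 (hpos1 η)]; exact hsc1 η
  · rw [← rpow32 (hpos2 η)]; exact hsc2 η

end Vale.Agent.P227.M.SC
end

section

/-! # P227/M/SC: multilinear expansion in the direction `v + ρ e`. -/

namespace Vale.Agent.P227.M.SC

variable {E : Type*} [NormedAddCommGroup E] [NormedSpace ℝ E]

theorem dd_line_dir {f : E → ℝ} (v e : E) (ρ : ℝ) :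
    dd (v + ρ • e) f = fun x => dd v f x + ρ * dd e f x := by
  funext x
  rw [dd_add_dir, dd_smul_dir]

theorem dd_lin {f g : E → ℝ} (hf : Sm f) (hg : Sm g) (c : ℝ) (u : E) :
    dd u (fun x => f x + c * g x) = fun x => dd u f x + c * dd u g x := by
  funext x
  rw [dd_add hf (contDiff_const.mul hg), dd_const_mul hg]

theorem expand2 {w : E → ℝ} (hw : Sm w) (v e : E) (ρ : ℝ) :
    dd (v + ρ • e) (dd (v + ρ • e) w) = fun y => dd v (dd v w) y + 2 * ρ * dd e (dd v w) y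
      + ρ ^ 2 * dd e (dd e w) y := by
  funext y
  rw [dd_line_dir v e ρ (f := w), dd_lin (sm_dd hw v) (sm_dd hw e), dd_line_dir v e ρ (f := dd v w),
    dd_line_dir v e ρ (f := dd e w), dd_comm hw v e]
  ring

theorem expand3 {w : E → ℝ} (hw : Sm w) (v e : E) (ρ : ℝ) :
    dd (v + ρ • e) (dd (v + ρ • e) (dd (v + ρ • e) w)) = fun y => dd v (dd v (dd v w)) y
      + 3 * ρ * dd e (dd v (dd v w)) y + 3 * ρ ^ 2 * dd e (dd e (dd v w)) y
      + ρ ^ 3 * dd e (dd e (dd e w)) y := by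
  rw [expand2 hw v e ρ, dd_line_dir v e ρ]
  have h1 : ∀ u : E, dd u (fun y => dd v (dd v w) y + 2 * ρ * dd e (dd v w) y
      + ρ ^ 2 * dd e (dd e w) y) = fun y => dd u (dd v (dd v w)) y + 2 * ρ * dd u (dd e (dd v w)) y
      + ρ ^ 2 * dd u (dd e (dd e w)) y := by
    intro u
    rw [dd_lin ((sm_dd (sm_dd hw v) v).add (contDiff_const.mul (sm_dd (sm_dd hw v) e)))
      (sm_dd (sm_dd hw e) e), dd_lin (sm_dd (sm_dd hw v) v) (sm_dd (sm_dd hw v) e)]
  rw [h1, h1]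
  funext y
  have e1 : dd v (dd e (dd v w)) = dd e (dd v (dd v w)) := dd_comm (sm_dd hw v) v e
  have e2 : dd v (dd e (dd e w)) = dd e (dd e (dd v w)) := by
    rw [dd_comm (sm_dd hw e) v e, dd_comm hw v e]
  rw [e1, e2]
  ring

theorem dd_smul_dir2 {w : E → ℝ} (hw : Sm w) (c : ℝ) (v : E) :
    dd (c • v) (dd (c • v) w) = fun x => c ^ 2 * dd v (dd v w) x := by
  funext x
  rw [dd_smul_dir' w c v, dd_const_mul (sm_dd hw v), dd_smul_dir]
  ring

theorem dd_smul_dir3 {w : E → ℝ} (hw : Sm w) (c : ℝ) (v : E) :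
    dd (c • v) (dd (c • v) (dd (c • v) w)) = fun x => c ^ 3 * dd v (dd v (dd v w)) x := by
  funext x
  rw [dd_smul_dir2 hw c v, dd_const_mul (sm_dd (sm_dd hw v) v), dd_smul_dir]
  ring

end Vale.Agent.P227.M.SC
end

section

/-! # P227/M/SC: the field `sc` of the step and the proof of `StepStmt`. -/

namespace Vale.Agent.P227.M.SC

open Real

variable {E : Type*} [NormedAddCommGroup E] [NormedSpace ℝ E]

/-- crude bound of the third derivative of the average when the second derivative of the average is negative -/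
theorem crude_real {a0 b C3 d P Q a1 a2 b1 b2 D : ℝ} (ha0 : 0 < a0) (hab : a0 ≤ b) (hC3 : 0 ≤ C3)
    (hd0 : 0 < d) (hd1 : d ≤ 1) (hP : 0 ≤ P) (hQ : 0 ≤ Q) (hPQ : P + Q = 1)
    (ha1 : a0 ≤ a1) (ha2 : a0 ≤ a2)
    (hb1 : |b1| ≤ C3) (hb2 : |b2| ≤ C3) (h12 : |a1 - a2| ≤ 2 * d * C3) (hD : |D| ≤ 2 * d * b)
    (hneg : P * a1 + Q * a2 - P * Q * D ^ 2 < 0) :
    P * b1 + Q * b2 - 3 * (P * Q) * (a1 - a2) * D + P * Q * (Q - P) * D ^ 3 ≤
      ((C3 + 3 * C3 * b + 2 * b ^ 3) * (b ^ 3 / (a0 * √a0))) * d ^ 3 := by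
  have hb0 : 0 < b := lt_of_lt_of_le ha0 hab
  have hPQ4 := pq_le hPQ
  have hPQ0 : 0 ≤ P * Q := mul_nonneg hP hQ
  have hr0 : 0 < √a0 := sqrt_pos.2 ha0
  have hD2 : D ^ 2 ≤ 4 * d ^ 2 * b ^ 2 := by
    have := pow_le_pow_left₀ (abs_nonneg D) hD 2
    rw [sq_abs] at this
    calc D ^ 2 ≤ (2 * d * b) ^ 2 := this
      _ = _ := by ring
  have hA : a0 ≤ P * a1 + Q * a2 := by
    have : P * a0 + Q * a0 = a0 := by rw [← add_mul, hPQ, one_mul]
    rw [← this]
    exact add_le_add (mul_le_mul_of_nonneg_left ha1 hP) (mul_le_mul_of_nonneg_left ha2 hQ)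
  have hPQD : P * Q * D ^ 2 ≤ d ^ 2 * b ^ 2 := by
    calc P * Q * D ^ 2 ≤ 1 / 4 * (4 * d ^ 2 * b ^ 2) :=
          mul_le_mul hPQ4 hD2 (sq_nonneg _) (by norm_num)
      _ = _ := by ring
  have hdb : √a0 ≤ d * b := by
    apply Real.sqrt_le_iff.2
    refine ⟨by positivity, ?_⟩
    calc a0 ≤ d ^ 2 * b ^ 2 := by linarith
      _ = _ := by ring
  have hone : 1 ≤ b ^ 3 / (a0 * √a0) * d ^ 3 := by
    have h1 : √a0 ^ 3 ≤ (d * b) ^ 3 := pow_le_pow_left₀ hr0.le hdb 3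
    have h2 : √a0 ^ 3 = a0 * √a0 := by
      calc √a0 ^ 3 = √a0 ^ 2 * √a0 := by ring
        _ = _ := by rw [sq_sqrt ha0.le]
    rw [h2] at h1
    have h3 : b ^ 3 / (a0 * √a0) * d ^ 3 = (d * b) ^ 3 / (a0 * √a0) := by ring
    rw [h3, le_div_iff₀ (by positivity), one_mul]
    exact h1
  have t1 : P * b1 + Q * b2 ≤ C3 := by
    calc P * b1 + Q * b2 ≤ P * C3 + Q * C3 :=
          add_le_add (mul_le_mul_of_nonneg_left ((le_abs_self _).trans hb1) hP)
            (mul_le_mul_of_nonneg_left ((le_abs_self _).trans hb2) hQ)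
      _ = C3 := by rw [← add_mul, hPQ, one_mul]
  have t2 : -(3 * (P * Q) * (a1 - a2) * D) ≤ 3 * C3 * b := by
    have u1 : |(a1 - a2) * D| ≤ 4 * C3 * b := by
      rw [abs_mul]
      calc |a1 - a2| * |D| ≤ (2 * d * C3) * (2 * d * b) := mul_le_mul h12 hD (abs_nonneg _) (by positivity)
        _ = d ^ 2 * (4 * C3 * b) := by ring
        _ ≤ 1 * (4 * C3 * b) := mul_le_mul_of_nonneg_right (pow_le_one₀ hd0.le hd1) (by positivity)
        _ = _ := one_mul _
    have u2 : -((a1 - a2) * D) ≤ 4 * C3 * b := (neg_le_abs _).trans u1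
    have u3 := mul_le_mul_of_nonneg_left u2 (show (0 : ℝ) ≤ 3 * (P * Q) by positivity)
    calc -(3 * (P * Q) * (a1 - a2) * D) = 3 * (P * Q) * -((a1 - a2) * D) := by ring
      _ ≤ 3 * (P * Q) * (4 * C3 * b) := u3
      _ ≤ 3 * (1 / 4) * (4 * C3 * b) :=
          mul_le_mul_of_nonneg_right (by linarith) (by positivity)
      _ = _ := by ring
  have t3 : P * Q * (Q - P) * D ^ 3 ≤ 2 * b ^ 3 := by
    have u1 : |P * Q * (Q - P)| ≤ 1 / 4 := by
      rw [abs_mul, abs_of_nonneg hPQ0]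
      have : |Q - P| ≤ 1 := by
        rw [abs_le]; constructor <;> linarith
      calc P * Q * |Q - P| ≤ 1 / 4 * 1 := mul_le_mul hPQ4 this (abs_nonneg _) (by norm_num)
        _ = 1 / 4 := by norm_num
    have u2 : |D ^ 3| ≤ 8 * b ^ 3 := by
      rw [abs_pow]
      calc |D| ^ 3 ≤ (2 * d * b) ^ 3 := pow_le_pow_left₀ (abs_nonneg _) hD 3
        _ = d ^ 3 * (8 * b ^ 3) := by ring
        _ ≤ 1 * (8 * b ^ 3) := mul_le_mul_of_nonneg_right (pow_le_one₀ hd0.le hd1) (by positivity)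
        _ = _ := one_mul _
    calc P * Q * (Q - P) * D ^ 3 ≤ |P * Q * (Q - P) * D ^ 3| := le_abs_self _
      _ = |P * Q * (Q - P)| * |D ^ 3| := abs_mul _ _
      _ ≤ 1 / 4 * (8 * b ^ 3) := mul_le_mul u1 u2 (abs_nonneg _) (by norm_num)
      _ = _ := by ring
  have hM : 0 ≤ C3 + 3 * C3 * b + 2 * b ^ 3 := by positivity
  calc P * b1 + Q * b2 - 3 * (P * Q) * (a1 - a2) * D + P * Q * (Q - P) * D ^ 3
      ≤ (C3 + 3 * C3 * b + 2 * b ^ 3) * 1 := by linarith
    _ ≤ (C3 + 3 * C3 * b + 2 * b ^ 3) * (b ^ 3 / (a0 * √a0) * d ^ 3) :=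
        mul_le_mul_of_nonneg_left hone hM
    _ = _ := by ring

/-- `x ^ (3/2)` of a negative number vanishes -/
theorem rpow32_neg {x : ℝ} (hx : x < 0) : x ^ ((3 : ℝ) / 2) = 0 := by
  rw [Real.rpow_def_of_neg hx]
  have : Real.cos ((3 : ℝ) / 2 * π) = 0 := by
    rw [show (3 : ℝ) / 2 * π = π / 2 + π by ring, Real.cos_add_pi, Real.cos_pi_div_two, neg_zero]
  rw [this, mul_zero]

theorem rpow32_nonneg (x : ℝ) : 0 ≤ x ^ ((3 : ℝ) / 2) := by
  rcases lt_or_ge x 0 with h | h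
  · rw [rpow32_neg h]
  · exact Real.rpow_nonneg h _

theorem rpow32_smul {c y : ℝ} (hc : 0 < c) :
    (c ^ 2 * y) ^ ((3 : ℝ) / 2) = c ^ 3 * y ^ ((3 : ℝ) / 2) := by
  rcases lt_or_ge y 0 with h | h
  · rw [rpow32_neg h, rpow32_neg (mul_neg_of_pos_of_neg (by positivity) h), mul_zero]
  · rw [Real.mul_rpow (sq_nonneg c) h, rpow32 (sq_nonneg c), Real.sqrt_sq hc.le]; ring

/-- the field `sc` at unit vectors -/
theorem step_sc_unit (a0 b A3 A4 : ℝ) (ha0 : 0 < a0) (hab : a0 ≤ b) (hA3 : 0 ≤ A3) (hA4 : 0 ≤ A4) :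
    ∃ K : ℝ, 0 ≤ K ∧
    ∀ (κ δ ε a C3 C4 : ℝ) (e : E) (w : E → ℝ), 0 ≤ κ → κ ≤ 1 → 0 < δ → δ ≤ 1 → 0 ≤ ε →
      a0 ≤ a → C3 ≤ A3 → C4 ≤ A4 → ‖e‖ = 1 → St a b C3 C4 κ ε w → ∀ x v, ‖v‖ = 1 →
      dd v (dd v (dd v (avg δ e w))) x ≤
        2 * κ * (dd v (dd v (avg δ e w)) x) ^ ((3 : ℝ) / 2) + (ε * (1 + K * δ ^ 2) + K * δ ^ 3) := by
  obtain ⟨K0, hK0, H⟩ := sc_real a0 b (2 * A3) (2 * A4) ha0 hab (by positivity) (by positivity)
  have hr0 : 0 < √a0 := sqrt_pos.2 ha0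
  have hb0 : 0 < b := lt_of_lt_of_le ha0 hab
  obtain ⟨M, hM⟩ : ∃ M : ℝ, M = (A3 + 3 * A3 * b + 2 * b ^ 3) * (b ^ 3 / (a0 * √a0)) := ⟨_, rfl⟩
  have hM0 : 0 ≤ M := by rw [hM]; positivity
  refine ⟨K0 + M, by positivity, ?_⟩
  intro κ δ ε a C3 C4 e w hκ0 hκ1 hδ hδ1 hε haa hC3A hC4A he h x v hv
  have ha : 0 ≤ a := ha0.le.trans haa
  have hw : Sm w := h.smooth
  have ed : (avg δ e w) = lg (fun x => w (x + δ • e)) (fun x => w (x + (-δ) • e)) := avg_eq_lg δ e w
  rw [ed, lg3 (sm_shift hw _) (sm_shift hw _), lg2 (sm_shift hw _) (sm_shift hw _)]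
  simp only [df, dd_shift]
  obtain ⟨P, hP⟩ : ∃ P : ℝ, wt (fun x => w (x + δ • e)) (fun x => w (x + (-δ) • e)) x = P := ⟨_, rfl⟩
  have hP0 : 0 ≤ P := hP ▸ wt_nonneg _ _ _
  have hP1 : P ≤ 1 := hP ▸ wt_le_one _ _ _
  rw [hP]
  -- bounds of derivatives in the directions `v`, `e`
  have b3 : ∀ y v₁ v₂ v₃ : E, ‖v₁‖ = 1 → ‖v₂‖ = 1 → ‖v₃‖ = 1 → |dd v₃ (dd v₂ (dd v₁ w)) y| ≤ A3 := by
    intro y v₁ v₂ v₃ h1 h2 h3
    have := h.b3 y v₁ v₂ v₃
    rw [h1, h2, h3] at this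
    linarith
  have b4 : ∀ y v₁ v₂ v₃ v₄ : E, ‖v₁‖ = 1 → ‖v₂‖ = 1 → ‖v₃‖ = 1 → ‖v₄‖ = 1 →
      |dd v₄ (dd v₃ (dd v₂ (dd v₁ w))) y| ≤ A4 := by
    intro y v₁ v₂ v₃ v₄ h1 h2 h3 h4
    have := h.b4 y v₁ v₂ v₃ v₄
    rw [h1, h2, h3, h4] at this
    linarith
  have lo : ∀ y u : E, ‖u‖ = 1 → a0 ≤ dd u (dd u w) y := by
    intro y u hu
    have := h.lower y u
    rw [hu] at this
    linarith
  have up : ∀ y u : E, ‖u‖ = 1 → dd u (dd u w) y ≤ b := by
    intro y u hu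
    have := h.upper y u
    rw [hu] at this
    linarith
  have cs : ∀ y u v : E, ‖u‖ = 1 → ‖v‖ = 1 → |dd u (dd v w) y| ≤ b := by
    intro y u v hu hv
    have := h.cs_abs ha y u v
    rw [hu, hv] at this
    linarith
  have pos : ∀ (y : E) (η : ℝ), 0 ≤ dd v (dd v w) y + 2 * η * dd e (dd v w) y + η ^ 2 * dd e (dd e w) y := by
    intro y η
    have h1 := h.nonneg ha y (v + η • e)
    rwa [expand2 hw v e η] at h1
  have sc : ∀ (y : E) (η : ℝ), dd v (dd v (dd v w)) y + 3 * η * dd e (dd v (dd v w)) y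
      + 3 * η ^ 2 * dd e (dd e (dd v w)) y + η ^ 3 * dd e (dd e (dd e w)) y ≤
      2 * κ * (dd v (dd v w) y + 2 * η * dd e (dd v w) y + η ^ 2 * dd e (dd e w) y) ^ ((3 : ℝ) / 2)
        + ε * (1 + |η|) ^ 3 := by
    intro y η
    have h1 := h.sc y (v + η • e)
    rw [expand3 hw v e η, expand2 hw v e η] at h1
    have h2 : ‖v + η • e‖ ≤ 1 + |η| := by
      refine (norm_add_le _ _).trans ?_
      rw [hv, norm_smul, he, mul_one, Real.norm_eq_abs]
    have h3 : ε * ‖v + η • e‖ ^ 3 ≤ ε * (1 + |η|) ^ 3 :=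
      mul_le_mul_of_nonneg_left (pow_le_pow_left₀ (norm_nonneg _) h2 3) hε
    exact h1.trans (by linarith)
  have hB3 : ∀ y, |dd e (dd v (dd v w)) y| ≤ A3 := fun y => b3 y v v e hv hv he
  have hB3' : ∀ y, |dd e (dd e (dd v w)) y| ≤ A3 := fun y => b3 y v e e hv he he
  have hB4 : ∀ y, |dd e (dd e (dd v (dd v w))) y| ≤ A4 := fun y => b4 y v v e e hv hv he he
  have hA3d : A3 * δ ≤ 2 * A3 * δ := by nlinarith [mul_nonneg hA3 hδ.le]
  have hA4d : A4 * δ ≤ 2 * A4 * δ := by nlinarith [mul_nonneg hA4 hδ.le]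
  have dp : ∀ {f : E → ℝ} (hf : Sm f) {B : ℝ} (hB : ∀ y, |dd e f y| ≤ B),
      |f (x + δ • e) - f x| ≤ B * δ ∧ |f (x + (-δ) • e) - f x| ≤ B * δ := by
    intro f hf B hB
    constructor
    · have := diff_bound1 hf hB x δ
      rw [abs_of_pos hδ] at this
      linarith
    · have := diff_bound1 hf hB x (-δ)
      rw [abs_neg, abs_of_pos hδ] at this
      linarith
  obtain ⟨da1, da2⟩ := dp (sm_dd (sm_dd hw v) v) hB3
  obtain ⟨dm1, dm2⟩ := dp (sm_dd (sm_dd hw v) e) hB3'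
  obtain ⟨dq1, dq2⟩ := dp (sm_dd (sm_dd (sm_dd hw v) v) e) hB4
  have d12 := diff_bound2 (sm_dd (sm_dd hw v) v) hB4 x hδ.le
  have dD := diff_bound2 (sm_dd hw v) hB3' x hδ.le
  by_cases hnn : 0 ≤ P * dd v (dd v w) (x + δ • e) + (1 - P) * dd v (dd v w) (x + (-δ) • e)
      - P * (1 - P) * (dd v w (x + δ • e) - dd v w (x + (-δ) • e)) ^ 2
  · have key := H κ ε δ P (1 - P) (dd v (dd v w) (x + δ • e)) (dd v (dd v w) (x + (-δ) • e))
      (dd v (dd v (dd v w)) (x + δ • e)) (dd v (dd v (dd v w)) (x + (-δ) • e))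
      (dd v w (x + δ • e) - dd v w (x + (-δ) • e))
      (dd v (dd v w) x) (dd e (dd v w) x) (dd e (dd v (dd v w)) x)
      (dd e (dd v w) (x + δ • e)) (dd e (dd v w) (x + (-δ) • e))
      (dd e (dd v (dd v w)) (x + δ • e)) (dd e (dd v (dd v w)) (x + (-δ) • e))
      (dd e (dd e w) (x + δ • e)) (dd e (dd e w) (x + (-δ) • e))
      (dd e (dd e (dd v w)) (x + δ • e)) (dd e (dd e (dd v w)) (x + (-δ) • e))
      (dd e (dd e (dd e w)) (x + δ • e)) (dd e (dd e (dd e w)) (x + (-δ) • e))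
      hκ0 hκ1 hε hδ hδ1 hP0 (by linarith) (by ring)
      (lo _ v hv) (up _ v hv) (lo _ v hv) (up _ v hv) (lo _ v hv) (up _ v hv)
      (da1.trans hA3d) (da2.trans hA3d)
      (by calc _ ≤ _ := d12
            _ = _ := by ring)
      (by calc _ ≤ _ := dD
            _ = _ := by ring)
      (dm1.trans hA3d) (dm2.trans hA3d) (dq1.trans hA4d) (dq2.trans hA4d)
      (cs _ e v he hv) (cs _ e v he hv) (cs _ e v he hv) (cs _ e e he he) (cs _ e e he he)
      ((hB3 _).trans (by linarith)) ((hB3' _).trans (by linarith)) ((hB3' _).trans (by linarith))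
      ((b3 _ e e e he he he).trans (by linarith)) ((b3 _ e e e he he he).trans (by linarith))
      (pos _) (pos _) (sc _) (sc _) hnn
    have e2 : dd v (dd v w) (x + (-δ) • e) + P * (dd v (dd v w) (x + δ • e) - dd v (dd v w) (x + (-δ) • e))
        - P * (1 - P) * ((dd v w (x + δ • e) - dd v w (x + (-δ) • e))
          * (dd v w (x + δ • e) - dd v w (x + (-δ) • e)))
        = P * dd v (dd v w) (x + δ • e) + (1 - P) * dd v (dd v w) (x + (-δ) • e)
      - P * (1 - P) * (dd v w (x + δ • e) - dd v w (x + (-δ) • e)) ^ 2 := by ring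
    rw [e2]
    have hKM : ε * (1 + K0 * δ ^ 2) + K0 * δ ^ 3 ≤ ε * (1 + (K0 + M) * δ ^ 2) + (K0 + M) * δ ^ 3 := by
      have h1 : 0 ≤ ε * (M * δ ^ 2) := by positivity
      have h2 : 0 ≤ M * δ ^ 3 := by positivity
      have h3 : ε * (1 + (K0 + M) * δ ^ 2) + (K0 + M) * δ ^ 3
        = ε * (1 + K0 * δ ^ 2) + K0 * δ ^ 3 + ε * (M * δ ^ 2) + M * δ ^ 3 := by ring
      rw [h3]; linarith
    refine le_trans (le_of_eq ?_) (key.trans (by linarith))
    ring
  · push Not at hnn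
    have e2 : dd v (dd v w) (x + (-δ) • e) + P * (dd v (dd v w) (x + δ • e) - dd v (dd v w) (x + (-δ) • e))
        - P * (1 - P) * ((dd v w (x + δ • e) - dd v w (x + (-δ) • e))
          * (dd v w (x + δ • e) - dd v w (x + (-δ) • e)))
        = P * dd v (dd v w) (x + δ • e) + (1 - P) * dd v (dd v w) (x + (-δ) • e)
      - P * (1 - P) * (dd v w (x + δ • e) - dd v w (x + (-δ) • e)) ^ 2 := by ring
    rw [e2, rpow32_neg hnn, mul_zero, zero_add]
    have hDb : |dd v w (x + δ • e) - dd v w (x + (-δ) • e)| ≤ 2 * δ * b := by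
      have := h.D1 ha he hδ.le x v
      rwa [hv, mul_one] at this
    have h12 : |dd v (dd v w) (x + δ • e) - dd v (dd v w) (x + (-δ) • e)| ≤ 2 * δ * A3 := by
      refine (h.D2 he hδ.le x v v).trans ?_
      rw [hv, mul_one, mul_one]
      exact mul_le_mul_of_nonneg_left hC3A (by positivity)
    have key := crude_real ha0 hab hA3 hδ hδ1 hP0 (show 0 ≤ 1 - P by linarith) (by ring)
      (lo (x + δ • e) v hv) (lo (x + (-δ) • e) v hv)
      (b3 (x + δ • e) v v v hv hv hv) (b3 (x + (-δ) • e) v v v hv hv hv) h12 hDb hnn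
    rw [← hM] at key
    have hKM : M * δ ^ 3 ≤ ε * (1 + (K0 + M) * δ ^ 2) + (K0 + M) * δ ^ 3 := by
      have h1 : 0 ≤ ε * (1 + (K0 + M) * δ ^ 2) := by positivity
      have h2 : 0 ≤ K0 * δ ^ 3 := by positivity
      have h3 : (K0 + M) * δ ^ 3 = K0 * δ ^ 3 + M * δ ^ 3 := by ring
      rw [h3]; linarith
    refine le_trans (le_of_eq ?_) (key.trans hKM)
    ring

/-- THE STEP. -/
theorem stepStmt : StepStmt E := by
  intro a0 b A3 A4 ha0
  by_cases hgood : a0 ≤ b ∧ 0 ≤ A3 ∧ 0 ≤ A4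
  · obtain ⟨hab, hA3, hA4⟩ := hgood
    obtain ⟨K1, hK1, H1⟩ := step_sc_unit (E := E) a0 b A3 A4 ha0 hab hA3 hA4
    obtain ⟨K2, hK2, H2⟩ := step_lower (E := E) a0 b A3 ha0
    refine ⟨K1 + K2, by positivity, ?_⟩
    intro κ δ ε a C3 C4 e w hκ0 hκ1 hδ hδ1 hε hε1 haa hC3A hC4A he h
    have ha : 0 ≤ a := ha0.le.trans haa
    have hsm : ContDiff ℝ (⊤ : ℕ∞) (avg δ e w) := step_smooth h
    refine ⟨hsm, ?_, step_upper h, step_b3 h ha he hδ.le hδ1, step_b4 h ha he hδ.le hδ1, ?_⟩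
    · intro x v
      refine le_trans ?_ (H2 κ δ ε a C3 C4 e w hδ hδ1 haa hC3A he h x v)
      apply mul_le_mul_of_nonneg_right _ (sq_nonneg _)
      have : 0 ≤ K1 * δ ^ 3 := by positivity
      linarith [add_mul K1 K2 (δ ^ 3)]
    · intro x v
      have hT : ∀ t : ℝ, 0 ≤ t → (ε * (1 + K1 * δ ^ 2) + K1 * δ ^ 3) * t ≤
          (ε * (1 + (K1 + K2) * δ ^ 2) + (K1 + K2) * δ ^ 3) * t := by
        intro t ht
        apply mul_le_mul_of_nonneg_right _ ht
        have h1 : 0 ≤ ε * (K2 * δ ^ 2) := by positivity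
        have h2 : 0 ≤ K2 * δ ^ 3 := by positivity
        have h3 : ε * (1 + (K1 + K2) * δ ^ 2) + (K1 + K2) * δ ^ 3
          = ε * (1 + K1 * δ ^ 2) + K1 * δ ^ 3 + ε * (K2 * δ ^ 2) + K2 * δ ^ 3 := by ring
        rw [h3]; linarith
      by_cases hv : v = 0
      · subst hv
        have e0 : dd (0 : E) (dd (0 : E) (dd (0 : E) (avg δ e w))) x = 0 := by simp [dd]
        rw [e0, norm_zero]
        have := rpow32_nonneg (dd (0 : E) (dd (0 : E) (avg δ e w)) x)
        have h1 : 0 ≤ 2 * κ * (dd (0 : E) (dd (0 : E) (avg δ e w)) x) ^ ((3 : ℝ) / 2) := by positivity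
        have h2 : (ε * (1 + (K1 + K2) * δ ^ 2) + (K1 + K2) * δ ^ 3) * (0 : ℝ) ^ 3 = 0 := by simp
        rw [h2]; linarith
      · obtain ⟨c, hc⟩ : ∃ c : ℝ, c = ‖v‖ := ⟨_, rfl⟩
        have hc0 : 0 < c := by rw [hc]; exact norm_pos_iff.2 hv
        obtain ⟨u, hu⟩ : ∃ u : E, u = c⁻¹ • v := ⟨_, rfl⟩
        have hu1 : ‖u‖ = 1 := by
          rw [hu, norm_smul, norm_inv, Real.norm_eq_abs, abs_of_pos hc0, ← hc, inv_mul_cancel₀ hc0.ne']
        have hvu : v = c • u := by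
          rw [hu, smul_smul, mul_inv_cancel₀ hc0.ne', one_smul]
        have key := H1 κ δ ε a C3 C4 e w hκ0 hκ1 hδ hδ1 hε haa hC3A hC4A he h x u hu1
        have hnv : ‖v‖ = c := hc.symm
        rw [hnv, hvu, dd_smul_dir3 hsm c u, dd_smul_dir2 hsm c u]
        simp only [rpow32_smul hc0]
        have hc3 : 0 ≤ c ^ 3 := by positivity
        have k2 := mul_le_mul_of_nonneg_left key hc3
        have k3 := hT (c ^ 3) hc3
        calc c ^ 3 * dd u (dd u (dd u (avg δ e w))) x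
            ≤ c ^ 3 * (2 * κ * (dd u (dd u (avg δ e w)) x) ^ ((3 : ℝ) / 2)
              + (ε * (1 + K1 * δ ^ 2) + K1 * δ ^ 3)) := k2
          _ = 2 * κ * (c ^ 3 * (dd u (dd u (avg δ e w)) x) ^ ((3 : ℝ) / 2))
              + (ε * (1 + K1 * δ ^ 2) + K1 * δ ^ 3) * c ^ 3 := by ring
          _ ≤ _ := by linarith
  · refine ⟨0, le_rfl, ?_⟩
    intro κ δ ε a C3 C4 e w hκ0 hκ1 hδ hδ1 hε hε1 haa hC3A hC4A he h
    exfalso
    apply hgood
    exact ⟨haa.trans (h.a_le_b he), (h.C3_nonneg he).trans hC3A, (h.C4_nonneg he).trans hC4A⟩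

end Vale.Agent.P227.M.SC
end

section

/-! # P227/M/SC: `StmtHeat` is proved (F3 route: two-point steps, iteration, limit). -/

namespace Vale.Agent.P227.M.SC

theorem stmtHeat : StmtHeat := stmtHeat_of_step fun _ => stepStmt

end Vale.Agent.P227.M.SC
end

section

/-! # `StmtESA`: essential self-adjointness of `L` on test functions -/

open MeasureTheory Filter Topology
open scoped ContDiff

namespace Vale.Agent.P227.M.LIN.E456

open Vale.Agent.P227.M Vale.Agent.P227.Moll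

variable {n : ℕ} {ψ V : E n → ℝ} {c C M : ℝ}

lemma sum_sq_eq (v : E n) : ∑ i, v i ^ 2 = ‖v‖ ^ 2 := by
  rw [EuclideanSpace.norm_sq_eq]
  refine Finset.sum_congr rfl fun i _ => ?_
  rw [Real.norm_eq_abs, sq_abs]

lemma tau_qf_eq (h : MM ψ V c C M) (x v : E n) :
    ∑ i, ∑ j, tau ψ x i j * v i * v j = inner ℝ (B294.Top ψ x v) v := by
  rw [B294.inner_eq]
  refine Finset.sum_congr rfl fun i _ => ?_
  rw [B294.Top_apply, Finset.sum_mul]
  refine Finset.sum_congr rfl fun j _ => ?_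
  ring

lemma tau_lower (h : MM ψ V c C M) (x v : E n) :
    c / (C ^ 2 + 1) * ∑ i, v i ^ 2 ≤ ∑ i, ∑ j, tau ψ x i j * v i * v j := by
  have hc := h.c_pos
  rw [sum_sq_eq, tau_qf_eq h]
  set w := B294.Top ψ x v with hw
  have h1 : B294.Aop ψ x w = v := B294.Aop_Top h x v
  have h2 := (B294.gmap h).lower x w
  rw [h1, real_inner_comm] at h2
  have h3 := (B294.gmap h).norm_A_apply_le x w
  rw [h1] at h3
  have h4 : ‖v‖ ^ 2 ≤ (C ^ 2 + 1) * ‖w‖ ^ 2 := by
    have h5 := pow_le_pow_left₀ (norm_nonneg v) h3 2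
    have h6 : 0 ≤ ‖w‖ ^ 2 := by positivity
    nlinarith
  calc c / (C ^ 2 + 1) * ‖v‖ ^ 2 ≤ c / (C ^ 2 + 1) * ((C ^ 2 + 1) * ‖w‖ ^ 2) := by gcongr
    _ = c * ‖w‖ ^ 2 := by field_simp
    _ ≤ _ := h2

lemma tau_upper (h : MM ψ V c C M) (x v : E n) :
    ∑ i, ∑ j, tau ψ x i j * v i * v j ≤ c⁻¹ * ∑ i, v i ^ 2 := by
  rw [sum_sq_eq, tau_qf_eq h]
  have h1 := B294.norm_Top_le h x v
  have h2 := real_inner_le_norm (B294.Top ψ x v) v
  have h3 := norm_nonneg v
  nlinarith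

theorem stmtESA : StmtESA := by
  intro n ψ V c C M hV h g hg heq
  have hc := h.c_pos
  have hVc : ContDiff ℝ 1 V := hV.smooth.of_le (by simp)
  set r : E n → ℝ := fun x => Real.exp (-V x) with hr
  set A : E n → Fin n → Fin n → ℝ := fun x i j => Real.exp (-V x) * tau ψ x i j with hA
  have hrC1 : ContDiff ℝ 1 r := (hVc.neg).exp
  have rcont : Continuous r := hrC1.continuous
  have rpos : ∀ x, 0 < r x := fun x => Real.exp_pos _
  have hlipr : ∀ R : ℝ, ∃ K : ℝ, 0 ≤ K ∧ ∀ x ∈ Metric.closedBall (0 : E n) R,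
      ∀ y ∈ Metric.closedBall (0 : E n) R, |r x - r y| ≤ K * ‖x - y‖ := by
    intro R
    obtain ⟨B, hB⟩ := (isCompact_closedBall (0 : E n) R).exists_bound_of_continuousOn
      (hrC1.continuous_fderiv (by simp)).continuousOn
    refine ⟨|B|, abs_nonneg _, fun x hx y hy => ?_⟩
    have h1 := (convex_closedBall (0 : E n) R).norm_image_sub_le_of_norm_fderiv_le (𝕜 := ℝ)
      (f := r) (C := |B|) (fun z _ => (hrC1.differentiable (by simp)) z)
      (fun z hz => (hB z hz).trans (le_abs_self B)) hy hx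
    exact h1
  have D : Dat r A := by
    refine ⟨rcont, fun i j => rcont.mul (B294.continuous_tau h i j), fun x i j => ?_, ?_, ?_⟩
    · simp only [hA]
      rw [B294.tau_symm h]
    · intro R
      obtain ⟨K, hK, hKr⟩ := hlipr R
      obtain ⟨B, hB⟩ := (isCompact_closedBall (0 : E n) R).exists_bound_of_continuousOn
        rcont.continuousOn
      refine ⟨K * c⁻¹ + |B| * |n * (n * (c⁻¹ * M * c⁻¹))|, by positivity, fun x hx y hy i j => ?_⟩
      have e : A x i j - A y i j = (r x - r y) * tau ψ x i j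
          + r y * (tau ψ x i j - tau ψ y i j) := by
        simp only [hA, hr]; ring
      have h1 := hKr x hx y hy
      have h2 := B294.abs_tau_le h x i j
      have h3 := B294.tau_lip h i j x y
      have h4 : |r y| ≤ |B| := (hB y hy).trans (le_abs_self B)
      have h5 : |tau ψ x i j - tau ψ y i j| ≤ |n * (n * (c⁻¹ * M * c⁻¹))| * ‖x - y‖ :=
        h3.trans (mul_le_mul_of_nonneg_right (le_abs_self _) (norm_nonneg _))
      have hn := norm_nonneg (x - y)
      rw [e]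
      calc _ ≤ |(r x - r y) * tau ψ x i j| + |r y * (tau ψ x i j - tau ψ y i j)| := abs_add_le _ _
        _ ≤ (K * ‖x - y‖) * c⁻¹ + |B| * (|n * (n * (c⁻¹ * M * c⁻¹))| * ‖x - y‖) := by
            rw [abs_mul, abs_mul]
            gcongr
        _ = _ := by ring
    · intro f hf j
      have h1 := B294.core_gr hV h j f (B294.tDiff hf) (B294.tGr hf)
        (fun b => B294.tGr (B294.test_pd hf b))
      have e1 : ∀ x, ∑ i, A x i j * pd i f x =
          (∑ b, tau ψ x j b * pd b f x) * Real.exp (-(V x)) := by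
        intro x
        rw [Finset.sum_mul]
        refine Finset.sum_congr rfl fun i _ => ?_
        simp only [hA]
        rw [B294.tau_symm h x i j]
        ring
      simp only [e1]
      rw [h1]
      refine integral_congr_ae (Eventually.of_forall fun x => ?_)
      simp only [hr]
      ring
  have hgm : AEStronglyMeasurable g volume := by
    have h1 : AEStronglyMeasurable g (mu V) := hg.1
    unfold mu at h1
    have hm : Measurable (fun x : E n => ENNReal.ofReal (Real.exp (-V x))) :=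
      rcont.measurable.ennreal_ofReal
    have hac : (volume : Measure (E n)) ≪ volume.withDensity
        (fun x => ENNReal.ofReal (Real.exp (-V x))) :=
      withDensity_absolutelyContinuous' hm.aemeasurable
        (Eventually.of_forall fun x => by simp [Real.exp_pos])
    exact h1.mono_ac hac
  have hgi : Integrable (fun x => g x ^ 2 * r x) := by
    have h1 : Integrable (fun x => g x ^ 2) (mu V) := hg.integrable_sq
    unfold mu at h1
    rw [integrable_withDensity_iff_integrable_smul₀'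
      (rcont.measurable.ennreal_ofReal.aemeasurable) (Eventually.of_forall fun x =>
        ENNReal.ofReal_lt_top)] at h1
    refine h1.congr (Eventually.of_forall fun x => ?_)
    simp only [smul_eq_mul, hr]
    rw [ENNReal.toReal_ofReal (Real.exp_pos _).le]
    ring
  refine esa_core D rpos (c := c / (C ^ 2 + 1)) (C := c⁻¹) (by positivity) (by positivity)
    (fun x v => ?_) (fun x v => ?_) hgm hgi (fun F hF => ?_)
  · have h1 := tau_lower h x (WithLp.toLp 2 v)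
    have e : ∑ i, ∑ j, A x i j * v i * v j = r x * ∑ i, ∑ j, tau ψ x i j * v i * v j := by
      rw [Finset.mul_sum]
      refine Finset.sum_congr rfl fun i _ => ?_
      rw [Finset.mul_sum]
      refine Finset.sum_congr rfl fun j _ => ?_
      simp only [hA, hr]; ring
    rw [e]
    have h2 := mul_le_mul_of_nonneg_left h1 (rpos x).le
    refine le_trans (le_of_eq ?_) h2
    simp only []
    ring
  · have h1 := tau_upper h x (WithLp.toLp 2 v)
    have e : ∑ i, ∑ j, A x i j * v i * v j = r x * ∑ i, ∑ j, tau ψ x i j * v i * v j := by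
      rw [Finset.mul_sum]
      refine Finset.sum_congr rfl fun i _ => ?_
      rw [Finset.mul_sum]
      refine Finset.sum_congr rfl fun j _ => ?_
      simp only [hA, hr]; ring
    rw [e]
    have h2 := mul_le_mul_of_nonneg_left h1 (rpos x).le
    refine h2.trans (le_of_eq ?_)
    simp only []
    ring
  · rw [← heq F hF]
    refine integral_congr_ae (Eventually.of_forall fun x => ?_)
    simp only [hA, hr, Lop, hess]
    rw [show ∀ a b d : ℝ, a * (b - d) * Real.exp (-V x) =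
      a * (Real.exp (-V x) * b - Real.exp (-V x) * d) by intros; ring]
    congr 1
    rw [mul_sub, Finset.mul_sum, Finset.mul_sum]
    rw [sub_sub_eq_add_sub, add_sub_right_comm]
    congr 1
    · congr 1
      refine Finset.sum_congr rfl fun i _ => ?_
      rw [Finset.mul_sum]
      refine Finset.sum_congr rfl fun j _ => ?_
      ring
    · refine Finset.sum_congr rfl fun j _ => ?_
      ring

end Vale.Agent.P227.M.LIN.E456
end

section

/-! # P227/M/LIN: elementary facts about the mollification `mo` (leaf KER of `StmtH1`). -/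

open MeasureTheory Filter Metric Set
open scoped Topology Convolution

namespace Vale.Agent.P227.M.LIN

variable {n : ℕ}

theorem rk_contDiff (m : ℕ) : ContDiff ℝ (⊤ : ℕ∞) (rk m : E n → ℝ) :=
  (bp n m).contDiff_normed

theorem rk_continuous (m : ℕ) : Continuous (rk m : E n → ℝ) := (rk_contDiff m).continuous

theorem rk_hasCompactSupport (m : ℕ) : HasCompactSupport (rk m : E n → ℝ) :=
  (bp n m).hasCompactSupport_normed

theorem rk_locInt (m : ℕ) : LocallyIntegrable (rk m : E n → ℝ) volume :=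
  (rk_continuous m).locallyIntegrable

/-- the integrand of the mollification is continuous with compact support -/
theorem mo_integrable (m : ℕ) {g : E n → ℝ} (hg : Continuous g) (x : E n) :
    Integrable (fun t => rk m t * g (x - t)) volume :=
  ((rk_continuous m).mul (hg.comp (continuous_const.sub continuous_id))).integrable_of_hasCompactSupport
    (rk_hasCompactSupport m).mul_right

theorem mo_eq_conv' (m : ℕ) (g : E n → ℝ) :
    mo m g = (rk m ⋆[ContinuousLinearMap.lsmul ℝ ℝ, volume] g) := rfl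

theorem mo_sub (m : ℕ) {f g : E n → ℝ} (hf : Continuous f) (hg : Continuous g) (x : E n) :
    mo m (fun y => f y - g y) x = mo m f x - mo m g x := by
  unfold mo
  rw [← integral_sub (mo_integrable m hf x) (mo_integrable m hg x)]
  refine integral_congr_ae (Eventually.of_forall fun t => ?_)
  simp only
  ring

/-- the mollification of a continuous (even locally integrable) function is smooth -/
theorem mo_contDiff (m : ℕ) {g : E n → ℝ} (hg : LocallyIntegrable g volume) :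
    ContDiff ℝ (⊤ : ℕ∞) (mo m g) := by
  rw [mo_eq_conv']
  exact (rk_hasCompactSupport m).contDiff_convolution_left _ (rk_contDiff m) hg

theorem mo_hasCompactSupport (m : ℕ) {g : E n → ℝ} (hg : HasCompactSupport g) :
    HasCompactSupport (mo m g) := by
  rw [mo_eq_conv']
  exact HasCompactSupport.convolution _ (rk_hasCompactSupport m) hg

theorem mo_test (m : ℕ) {g : E n → ℝ} (hg : Test g) : Test (mo m g) :=
  ⟨mo_contDiff m hg.1.continuous.locallyIntegrable, mo_hasCompactSupport m hg.2⟩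

theorem pd_mo (m : ℕ) {g : E n → ℝ} (hg : Test g) (b : Fin n) (x : E n) :
    pd b (mo m g) x = mo m (pd b g) x := by
  have hg1 : ContDiff ℝ 1 g := hg.1.of_le (by exact_mod_cast le_top)
  have h := HasCompactSupport.hasFDerivAt_convolution_right (ContinuousLinearMap.lsmul ℝ ℝ)
    (μ := (volume : Measure (E n))) hg.2 (rk_locInt m) hg1 x
  unfold pd
  rw [mo_eq_conv', h.fderiv]
  rw [convolution_precompR_apply (ContinuousLinearMap.lsmul ℝ ℝ) (rk_locInt m)
    (hg.2.fderiv ℝ) (hg1.continuous_fderiv one_ne_zero)]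
  rfl

end Vale.Agent.P227.M.LIN
end

section

/-! # P227/M/LIN: local Lipschitz bound of `χ ·` (commutator terms) (helper959). -/

open MeasureTheory Filter Metric Set
open scoped Topology

namespace Vale.Agent.P227.M.LIN

namespace PtB

theorem av_mono {n : ℕ} (m : ℕ) {g h : E n → ℝ} (hg : Continuous g) (hh : Continuous h)
    (hle : ∀ y, |g y| ≤ |h y|) (x : E n) : av m (fun y => |g y|) x ≤ av m (fun y => |h y|) x := by
  rw [av_eq, av_eq]
  have hd := dl_pos m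
  refine mul_le_mul_of_nonneg_left ?_ (by positivity)
  refine setIntegral_mono_on ?_ ?_ measurableSet_ball fun y _ => hle y
  · exact (hg.abs.continuousOn.integrableOn_compact (isCompact_closedBall x (2 * dl m))).mono_set
      ball_subset_closedBall
  · exact (hh.abs.continuousOn.integrableOn_compact (isCompact_closedBall x (2 * dl m))).mono_set
      ball_subset_closedBall

theorem cont_pd {n : ℕ} {d : E n → ℝ} (hd : Test d) (i : Fin n) : Continuous (pd i d) :=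
  (Cut.pd_test hd i).1.continuous

theorem cont_hess {n : ℕ} {d : E n → ℝ} (hd : Test d) (i j : Fin n) : Continuous (fun y => hess d y i j) :=
  (Cut.pd_test (Cut.pd_test hd j) i).1.continuous

theorem cont_S2 {n : ℕ} {d : E n → ℝ} (hd : Test d) : Continuous (S2 d) := by
  unfold S2
  refine (hd.1.continuous.abs.add ?_).add ?_
  · exact continuous_finsetSum _ fun a _ => (cont_pd hd a).abs
  · exact continuous_finsetSum _ fun a _ => continuous_finsetSum _ fun b _ => (cont_hess hd a b).abs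

theorem S2_nonneg {n : ℕ} (d : E n → ℝ) (y : E n) : 0 ≤ S2 d y := by
  unfold S2
  positivity

theorem pd_le_S2 {n : ℕ} (d : E n → ℝ) (y : E n) (i : Fin n) : |pd i d y| ≤ |S2 d y| := by
  rw [abs_of_nonneg (S2_nonneg d y)]
  unfold S2
  have h1 : |pd i d y| ≤ ∑ a, |pd a d y| :=
    Finset.single_le_sum (f := fun a => |pd a d y|) (fun a _ => abs_nonneg _) (Finset.mem_univ i)
  have h2 : 0 ≤ ∑ a, ∑ b, |hess d y a b| := by positivity
  have h3 := abs_nonneg (d y)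
  linarith

theorem hess_le_S2 {n : ℕ} (d : E n → ℝ) (y : E n) (i j : Fin n) : |hess d y i j| ≤ |S2 d y| := by
  rw [abs_of_nonneg (S2_nonneg d y)]
  unfold S2
  have h1 : |hess d y i j| ≤ ∑ b, |hess d y i b| :=
    Finset.single_le_sum (f := fun b => |hess d y i b|) (fun a _ => abs_nonneg _) (Finset.mem_univ j)
  have h2 : ∑ b, |hess d y i b| ≤ ∑ a, ∑ b, |hess d y a b| :=
    Finset.single_le_sum (f := fun a => ∑ b, |hess d y a b|)
      (fun a _ => Finset.sum_nonneg fun b _ => abs_nonneg _) (Finset.mem_univ i)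
  have h3 : 0 ≤ ∑ a, |pd a d y| := by positivity
  have h4 := abs_nonneg (d y)
  linarith

theorem lp_cont {n : ℕ} {g : E n → ℝ} {K : ℝ} (hg : Lp g K) : Continuous g := by
  have h : LipschitzWith (Real.toNNReal K) g := by
    refine LipschitzWith.of_dist_le_mul fun x y => ?_
    rw [Real.dist_eq, dist_eq_norm]
    refine (hg x y).trans (mul_le_mul_of_nonneg_right (Real.le_coe_toNNReal K) (norm_nonneg _))
  exact h.continuous

theorem coord_lp {n : ℕ} (i : Fin n) : Lp (fun y : E n => y i) 1 := by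
  intro x y
  rw [one_mul, ← PiLp.sub_apply, ← Real.norm_eq_abs]
  exact PiLp.norm_apply_le (x - y) i

/-- the commutator part -/
theorem comm_part {n : ℕ} {A : ℝ} (hA : 1 ≤ A) {ψ : E n → ℝ} (hT : TauC A ψ) (hK : KerC n A)
    {d : E n → ℝ} (hd : Test d) (m : ℕ) (x : E n) (b : Fin n) :
    |(∑ i, ∑ j, cm m (fun y => tau ψ y i j) (fun y => hess d y i j) x) - ∑ i, cm m (fun y => y i) (pd i d) x|
      ≤ (n ^ 2 + n) * A ^ 2 * av m (fun y => |S2 d y|) x ∧
    LocB b (fun z => (∑ i, ∑ j, cm m (fun y => tau ψ y i j) (fun y => hess d y i j) z)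
      - ∑ i, cm m (fun y => y i) (pd i d) z) x ((n ^ 2 + n) * A ^ 2 * av m (fun y => |S2 d y|) x) := by
  have hA0 : 0 ≤ A := by linarith
  set S := av m (fun y => |S2 d y|) x with hS
  have hS0 : 0 ≤ S := av_nonneg m (fun y => abs_nonneg _) x
  have hS2 := cont_S2 hd
  have e1 : ∀ i j, A * A * av m (fun y => |hess d y i j|) x ≤ A ^ 2 * S := by
    intro i j
    have h := av_mono m (cont_hess hd i j) hS2 (fun y => hess_le_S2 d y i j) x
    rw [pow_two]
    exact mul_le_mul_of_nonneg_left h (by positivity)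
  have e2 : ∀ i, A * 1 * av m (fun y => |pd i d y|) x ≤ A ^ 2 * S := by
    intro i
    have h := av_mono m (cont_pd hd i) hS2 (fun y => pd_le_S2 d y i) x
    calc A * 1 * av m (fun y => |pd i d y|) x ≤ A * 1 * S := mul_le_mul_of_nonneg_left h (by positivity)
      _ ≤ A ^ 2 * S := by
        refine mul_le_mul_of_nonneg_right ?_ hS0
        nlinarith
  have c1 : ∀ i j, |cm m (fun y => tau ψ y i j) (fun y => hess d y i j) x| ≤ A ^ 2 * S := fun i j =>
    (hK.cm_b m _ _ A hA0 (hT.lip i j) (lp_cont (hT.lip i j)) (cont_hess hd i j) x).trans (e1 i j)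
  have c2 : ∀ i, |cm m (fun y => y i) (pd i d) x| ≤ A ^ 2 * S := fun i =>
    (hK.cm_b m _ _ 1 zero_le_one (coord_lp i) (lp_cont (coord_lp i)) (cont_pd hd i) x).trans (e2 i)
  have l1 : ∀ i j, LocB b (cm m (fun y => tau ψ y i j) (fun y => hess d y i j)) x (A ^ 2 * S) := fun i j =>
    (hK.cm_l m _ _ A hA0 (hT.lip i j) (lp_cont (hT.lip i j)) (cont_hess hd i j) x b).mono (e1 i j)
  have l2 : ∀ i, LocB b (cm m (fun y : E n => y i) (pd i d)) x (A ^ 2 * S) := fun i =>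
    (hK.cm_l m _ _ 1 zero_le_one (coord_lp i) (lp_cont (coord_lp i)) (cont_pd hd i) x b).mono (e2 i)
  have key : (∑ _i : Fin n, ∑ _j : Fin n, A ^ 2 * S) + ∑ _i : Fin n, A ^ 2 * S = (n ^ 2 + n) * A ^ 2 * S := by
    simp only [Finset.sum_const, Finset.card_univ, Fintype.card_fin, nsmul_eq_mul]
    ring
  constructor
  · rw [← key]
    refine (abs_sub _ _).trans (add_le_add ?_ ?_)
    · refine (Finset.abs_sum_le_sum_abs _ _).trans (Finset.sum_le_sum fun i _ => ?_)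
      exact (Finset.abs_sum_le_sum_abs _ _).trans (Finset.sum_le_sum fun j _ => c1 i j)
    · exact (Finset.abs_sum_le_sum_abs _ _).trans (Finset.sum_le_sum fun i _ => c2 i)
  · rw [← key]
    exact LocB.sub (LocB.sum _ fun i _ => LocB.sum _ fun j _ => l1 i j) (LocB.sum _ fun i _ => l2 i)

end PtB

theorem locB_Cm {n : ℕ} {ψ V : E n → ℝ} {c C M A R : ℝ} (hM : MM ψ V c C M) (hA : 1 ≤ A) (hT : TauC A ψ) (hK : KerC n A)
    {χ d : E n → ℝ} (hχ : Cuto A R χ) (hd : Test d) (m : ℕ) (x : E n) (b : Fin n) :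
    LocB b (fun z => χ z * ((∑ i, ∑ j, cm m (fun y => tau ψ y i j) (fun y => hess d y i j) z)
      - ∑ i, cm m (fun y => y i) (pd i d) z)) x (2 * (n ^ 2 + n) * A ^ 3 * av m (fun y => |S2 d y|) x) := by
  have hA0 : 0 ≤ A := by linarith
  obtain ⟨h1, h2⟩ := PtB.comm_part hA hT hK hd m x b
  set S := av m (fun y => |S2 d y|) x with hS
  have hS0 : 0 ≤ S := av_nonneg m (fun y => abs_nonneg _) x
  have hN : (0 : ℝ) ≤ (n ^ 2 + n) * A ^ 2 * S := by positivity
  have hχl : LocB b χ x A :=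
    (LocB.of_diff ((hχ.test.1.differentiable (by simp)) x)).mono (hχ.d1 x b)
  have h3 := hχl.mul h2 hA0 hN
  refine h3.mono ?_
  have h4 : |χ x| * ((n ^ 2 + n) * A ^ 2 * S) ≤ A * ((n ^ 2 + n) * A ^ 2 * S) :=
    mul_le_mul_of_nonneg_right ((hχ.le1 x).trans hA) hN
  have h5 := mul_le_mul_of_nonneg_right h1 hA0
  calc _ ≤ A * ((n ^ 2 + n) * A ^ 2 * S) + (n ^ 2 + n) * A ^ 2 * S * A := add_le_add h4 h5
    _ = 2 * (n ^ 2 + n) * A ^ 3 * S := by ring

end Vale.Agent.P227.M.LIN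
end

section

/-! # P227/M/LIN: local Lipschitz bound of `mo m d * L χ` (helper966) -/

open MeasureTheory Filter Metric Set
open scoped Topology

namespace Vale.Agent.P227.M.LIN

namespace PtC

variable {n : ℕ}

theorem pd_test {f : E n → ℝ} (hf : Test f) (i : Fin n) : Test (pd i f) :=
  ⟨contDiff_pd_top hf.1 i, hf.2.fderiv_apply ℝ (ei i)⟩

theorem test_diff {f : E n → ℝ} (hf : Test f) : Differentiable ℝ f := hf.1.differentiable (by simp)

theorem hess_test {f : E n → ℝ} (hf : Test f) (i j : Fin n) : Test (fun x => hess f x i j) :=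
  pd_test (pd_test hf j) i

theorem S2_cont {d : E n → ℝ} (hd : Test d) : Continuous (S2 d) := by
  have h0 : Continuous d := hd.1.continuous
  have h1 : ∀ a, Continuous (pd a d) := fun a => (pd_test hd a).1.continuous
  have h2 : ∀ a b, Continuous (fun x => hess d x a b) := fun a b => (hess_test hd a b).1.continuous
  have : S2 d = fun y => |d y| + (∑ a, |pd a d y|) + ∑ a, ∑ b, |hess d y a b| := rfl
  rw [this]
  fun_prop

theorem S2_nonneg (d : E n → ℝ) (y : E n) : 0 ≤ S2 d y := by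
  unfold S2
  positivity

theorem le_S2_zero (d : E n → ℝ) (y : E n) : |d y| ≤ |S2 d y| := by
  rw [abs_of_nonneg (S2_nonneg d y)]
  unfold S2
  have h1 : 0 ≤ ∑ a, |pd a d y| := by positivity
  have h2 : 0 ≤ ∑ a, ∑ b, |hess d y a b| := by positivity
  linarith

theorem le_S2_one (d : E n → ℝ) (b : Fin n) (y : E n) : |pd b d y| ≤ |S2 d y| := by
  rw [abs_of_nonneg (S2_nonneg d y)]
  unfold S2
  have h0 : 0 ≤ |d y| := abs_nonneg _
  have h1 : |pd b d y| ≤ ∑ a, |pd a d y| :=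
    Finset.single_le_sum (f := fun a => |pd a d y|) (fun i _ => abs_nonneg _) (Finset.mem_univ b)
  have h2 : 0 ≤ ∑ a, ∑ b, |hess d y a b| := by positivity
  linarith

theorem av_mono {m : ℕ} {f g : E n → ℝ} (hf : Continuous f) (hg : Continuous g)
    (h : ∀ y, f y ≤ g y) (x : E n) : av m f x ≤ av m g x := by
  unfold av
  have hd := dl_pos m
  refine mul_le_mul_of_nonneg_left ?_ (by positivity)
  have hi : ∀ {k : E n → ℝ}, Continuous k →
      IntegrableOn (fun t => k (x - t)) (ball (0 : E n) (2 * dl m)) := fun hk =>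
    ((hk.comp (continuous_const.sub continuous_id)).continuousOn.integrableOn_compact
      (isCompact_closedBall (0 : E n) (2 * dl m))).mono_set ball_subset_closedBall
  exact setIntegral_mono (hi hf) (hi hg) fun t => h _

/-- bounds of `L χ` -/
theorem Lop_bound {ψ : E n → ℝ} {A R : ℝ} (hA : 1 ≤ A) (hT : TauC A ψ)
    {χ : E n → ℝ} (hχ : Cuto A R χ) (x : E n) : |Lop ψ χ x| ≤ ((n : ℝ) ^ 2 + n) * A ^ 2 := by
  have hA0 : 0 ≤ A := by linarith
  have h1 : |∑ i, ∑ j, tau ψ x i j * hess χ x i j| ≤ (n : ℝ) ^ 2 * A ^ 2 := by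
    calc |∑ i, ∑ j, tau ψ x i j * hess χ x i j| ≤ ∑ i, |∑ j, tau ψ x i j * hess χ x i j| :=
          Finset.abs_sum_le_sum_abs _ _
      _ ≤ ∑ i : Fin n, ∑ j : Fin n, A ^ 2 := by
          refine Finset.sum_le_sum fun i _ => (Finset.abs_sum_le_sum_abs _ _).trans ?_
          refine Finset.sum_le_sum fun j _ => ?_
          rw [abs_mul, pow_two]
          exact mul_le_mul (hT.bdd x i j) (hχ.d2 x i j) (abs_nonneg _) hA0
      _ = (n : ℝ) ^ 2 * A ^ 2 := by
          simp only [Finset.sum_const, Finset.card_univ, Fintype.card_fin, nsmul_eq_mul]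
          ring
  have h2 : |∑ i, x i * pd i χ x| ≤ (n : ℝ) * A := by
    calc |∑ i, x i * pd i χ x| ≤ ∑ i, |x i * pd i χ x| := Finset.abs_sum_le_sum_abs _ _
      _ ≤ ∑ i : Fin n, A := by
          refine Finset.sum_le_sum fun i _ => ?_
          rw [abs_mul]
          exact (mul_le_mul_of_nonneg_right (abs_coord_le x i) (abs_nonneg _)).trans (hχ.d1x x i)
      _ = (n : ℝ) * A := by
          simp only [Finset.sum_const, Finset.card_univ, Fintype.card_fin, nsmul_eq_mul]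
  have h3 : (n : ℝ) * A ≤ (n : ℝ) * A ^ 2 := by
    refine mul_le_mul_of_nonneg_left ?_ (Nat.cast_nonneg n)
    nlinarith
  have h4 : |Lop ψ χ x| ≤ |∑ i, ∑ j, tau ψ x i j * hess χ x i j| + |∑ i, x i * pd i χ x| :=
    abs_sub _ _
  linarith

theorem Lop_locB {ψ : E n → ℝ} {A R : ℝ} (hA : 1 ≤ A) (hT : TauC A ψ)
    {χ : E n → ℝ} (hχ : Cuto A R χ) (x : E n) (b : Fin n) :
    LocB b (Lop ψ χ) x (2 * ((n : ℝ) ^ 2 + n) * A ^ 2) := by
  have hA0 : 0 ≤ A := by linarith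
  have h1 : LocB b (fun z => ∑ i, ∑ j, tau ψ z i j * hess χ z i j) x
      (∑ i : Fin n, ∑ j : Fin n, 2 * A ^ 2) := by
    refine LocB.sum _ fun i _ => LocB.sum _ fun j _ => ?_
    have e1 : LocB b (fun z => tau ψ z i j) x A := LocB.of_lp (hT.lip i j) x
    have e2 : LocB b (fun z => hess χ z i j) x A :=
      (LocB.of_diff (test_diff (hess_test hχ.test i j) x)).mono (hχ.d3 x b i j)
    refine (e1.mul e2 hA0 hA0).mono ?_
    have e3 : |tau ψ x i j| * A ≤ A * A := mul_le_mul_of_nonneg_right (hT.bdd x i j) hA0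
    have e4 : |hess χ x i j| * A ≤ A * A := mul_le_mul_of_nonneg_right (hχ.d2 x i j) hA0
    linarith
  have h2 : LocB b (fun z : E n => ∑ i, z i * pd i χ z) x (∑ i : Fin n, 2 * A) := by
    refine LocB.sum _ fun i _ => ?_
    have e1 : LocB b (fun z : E n => z i) x 1 := by
      refine LocB.of_lp (fun y z => ?_) x
      rw [one_mul]
      exact abs_coord_le (y - z) i
    have e2 : LocB b (fun z => pd i χ z) x |pd b (pd i χ) x| :=
      LocB.of_diff (test_diff (pd_test hχ.test i) x)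
    refine (e1.mul e2 zero_le_one (abs_nonneg _)).mono ?_
    have e3 : |x i| * |pd b (pd i χ) x| ≤ A :=
      (mul_le_mul_of_nonneg_right (abs_coord_le x i) (abs_nonneg _)).trans (hχ.d2x x b i)
    have e4 := hχ.d1 x i
    linarith
  have h3 := h1.sub h2
  refine LocB.mono (f := Lop ψ χ) h3 ?_
  simp only [Finset.sum_const, Finset.card_univ, Fintype.card_fin, nsmul_eq_mul]
  have h4 : (n : ℝ) * A ≤ (n : ℝ) * A ^ 2 := by
    refine mul_le_mul_of_nonneg_left ?_ (Nat.cast_nonneg n)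
    nlinarith
  nlinarith

theorem mo_locB_S {A : ℝ} (hK : KerC n A) (hA : 1 ≤ A) {d : E n → ℝ} (hd : Test d) (m : ℕ)
    (x : E n) (b : Fin n) : LocB b (mo m d) x (A * av m (fun y => |S2 d y|) x) := by
  have hA0 : 0 ≤ A := by linarith
  have hm : DifferentiableAt ℝ (mo m d) x := (Alg47.mo_hasFDerivAt m hd x).differentiableAt
  refine (LocB.of_diff hm).mono ?_
  rw [Alg47.pd_mo47 m hd]
  refine (hK.mo_b m _ (pd_test hd b).1.continuous x).trans (mul_le_mul_of_nonneg_left ?_ hA0)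
  exact av_mono (pd_test hd b).1.continuous.abs (S2_cont hd).abs (fun y => le_S2_one d b y) x

theorem mo_bound_S {A : ℝ} (hK : KerC n A) (hA : 1 ≤ A) {d : E n → ℝ} (hd : Test d) (m : ℕ)
    (x : E n) : |mo m d x| ≤ A * av m (fun y => |S2 d y|) x := by
  have hA0 : 0 ≤ A := by linarith
  refine (hK.mo_b m _ hd.1.continuous x).trans (mul_le_mul_of_nonneg_left ?_ hA0)
  exact av_mono hd.1.continuous.abs (S2_cont hd).abs (fun y => le_S2_zero d y) x

end PtC

open PtC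

/-- L3 -/
theorem locB_fL {n : ℕ} {ψ V : E n → ℝ} {c C M A R : ℝ} (hM : MM ψ V c C M) (hA : 1 ≤ A) (hT : TauC A ψ) (hK : KerC n A)
    {χ d : E n → ℝ} (hχ : Cuto A R χ) (hd : Test d) (m : ℕ) (x : E n) (b : Fin n) :
    LocB b (fun z => mo m d z * Lop ψ χ z) x (3 * (n ^ 2 + n) * A ^ 3 * av m (fun y => |S2 d y|) x) := by
  have hA0 : 0 ≤ A := by linarith
  have hS : 0 ≤ av m (fun y => |S2 d y|) x := av_nonneg m (fun y => abs_nonneg _) x
  have h1 := mo_locB_S hK hA hd m x b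
  have h2 := Lop_locB hA hT hχ x b
  have h3 := mo_bound_S hK hA hd m x
  have h4 := Lop_bound hA hT hχ x
  set S := av m (fun y => |S2 d y|) x with hSdef
  refine (h1.mul h2 (by positivity) (by positivity)).mono ?_
  have h5 : |mo m d x| * (2 * ((n : ℝ) ^ 2 + n) * A ^ 2) ≤ A * S * (2 * ((n : ℝ) ^ 2 + n) * A ^ 2) :=
    mul_le_mul_of_nonneg_right h3 (by positivity)
  have h6 : |Lop ψ χ x| * (A * S) ≤ ((n : ℝ) ^ 2 + n) * A ^ 2 * (A * S) :=
    mul_le_mul_of_nonneg_right h4 (by positivity)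
  calc |mo m d x| * (2 * ((n : ℝ) ^ 2 + n) * A ^ 2) + |Lop ψ χ x| * (A * S)
      ≤ A * S * (2 * ((n : ℝ) ^ 2 + n) * A ^ 2) + ((n : ℝ) ^ 2 + n) * A ^ 2 * (A * S) :=
        add_le_add h5 h6
    _ = _ := by ring

end Vale.Agent.P227.M.LIN
end

section

/-! # P227/M/LIN: the cross term of the pointwise bound (helper113). -/

open MeasureTheory Filter Metric Set
open scoped Topology

namespace Vale.Agent.P227.M.LIN

namespace PtD

theorem cont_pd {n : ℕ} {d : E n → ℝ} (hd : Test d) (a : Fin n) : Continuous (pd a d) :=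
  (Cut.pd_test hd a).1.continuous

theorem cont_S2 {n : ℕ} {d : E n → ℝ} (hd : Test d) : Continuous (S2 d) := by
  unfold S2
  refine (hd.1.continuous.abs.add ?_).add ?_
  · exact continuous_finsetSum _ fun a _ => (cont_pd hd a).abs
  · refine continuous_finsetSum _ fun a _ => continuous_finsetSum _ fun b _ => ?_
    exact (cont_pd (Cut.pd_test hd b) a).abs

theorem S2_nonneg {n : ℕ} (d : E n → ℝ) (y : E n) : 0 ≤ S2 d y := by
  unfold S2
  exact add_nonneg (add_nonneg (abs_nonneg _) (Finset.sum_nonneg fun _ _ => abs_nonneg _))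
    (Finset.sum_nonneg fun _ _ => Finset.sum_nonneg fun _ _ => abs_nonneg _)

theorem pd_le_S2 {n : ℕ} (d : E n → ℝ) (a : Fin n) (y : E n) : |pd a d y| ≤ |S2 d y| := by
  rw [abs_of_nonneg (S2_nonneg d y)]
  unfold S2
  have h1 : |pd a d y| ≤ ∑ a, |pd a d y| :=
    Finset.single_le_sum (f := fun a => |pd a d y|) (fun _ _ => abs_nonneg _) (Finset.mem_univ a)
  have h2 : 0 ≤ ∑ a, ∑ b, |hess d y a b| := 
    Finset.sum_nonneg fun _ _ => Finset.sum_nonneg fun _ _ => abs_nonneg _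
  have h3 := abs_nonneg (d y)
  linarith

theorem hess_le_S2 {n : ℕ} (d : E n → ℝ) (a b : Fin n) (y : E n) : |hess d y a b| ≤ |S2 d y| := by
  rw [abs_of_nonneg (S2_nonneg d y)]
  unfold S2
  have h0 : 0 ≤ ∑ a, |pd a d y| := Finset.sum_nonneg fun _ _ => abs_nonneg _
  have h1 : |hess d y a b| ≤ ∑ b, |hess d y a b| :=
    Finset.single_le_sum (f := fun b => |hess d y a b|) (fun _ _ => abs_nonneg _) (Finset.mem_univ b)
  have h2 : ∑ b, |hess d y a b| ≤ ∑ a, ∑ b, |hess d y a b| :=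
    Finset.single_le_sum (f := fun a => ∑ b, |hess d y a b|)
      (fun _ _ => Finset.sum_nonneg fun _ _ => abs_nonneg _) (Finset.mem_univ a)
  have h3 := abs_nonneg (d y)
  linarith

/-- monotonicity of the average for continuous functions -/
theorem av_mono' {n : ℕ} (m : ℕ) {f g : E n → ℝ} (hf : Continuous f) (hg : Continuous g)
    (h : ∀ y, f y ≤ g y) (x : E n) : av m f x ≤ av m g x := by
  rw [av_eq, av_eq]
  have hd := dl_pos m
  refine mul_le_mul_of_nonneg_left ?_ (by positivity)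
  have hi : ∀ {u : E n → ℝ}, Continuous u → IntegrableOn u (ball x (2 * dl m)) := fun hu =>
    (hu.continuousOn.integrableOn_compact (isCompact_closedBall x (2 * dl m))).mono_set
      ball_subset_closedBall
  exact integral_mono (hi hf) (hi hg) h

theorem mo_le {n : ℕ} {A : ℝ} (hA : 1 ≤ A) (hK : KerC n A) {d g : E n → ℝ} (hd : Test d)
    (hg : Continuous g) (hle : ∀ y, |g y| ≤ |S2 d y|) (m : ℕ) (x : E n) :
    |mo m g x| ≤ A * av m (fun y => |S2 d y|) x :=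
  (hK.mo_b m g hg x).trans
    (mul_le_mul_of_nonneg_left (av_mono' m hg.abs (cont_S2 hd).abs hle x) (by linarith))

end PtD

/-- L4: local Lipschitz bound of the cross term -/
theorem locB_cross {n : ℕ} {ψ V : E n → ℝ} {c C M A R : ℝ} (_hM : MM ψ V c C M) (hA : 1 ≤ A)
    (hT : TauC A ψ) (hK : KerC n A)
    {χ d : E n → ℝ} (hχ : Cuto A R χ) (hd : Test d) (m : ℕ) (x : E n) (b : Fin n) :
    LocB b (fun z => 2 * ∑ i, ∑ j, tau ψ z i j * pd i χ z * pd j (mo m d) z) x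
      (6 * n ^ 2 * A ^ 3 * av m (fun y => |S2 d y|) x) := by
  set S : ℝ := av m (fun y => |S2 d y|) x with hS
  have hS0 : 0 ≤ S := av_nonneg m (fun _ => abs_nonneg _) x
  have hA0 : 0 ≤ A := by linarith
  have key : ∀ i j : Fin n, LocB b (fun z => tau ψ z i j * pd i χ z * pd j (mo m d) z) x
      (3 * A ^ 3 * S) := by
    intro i j
    have h1 : LocB b (fun z => tau ψ z i j) x A := LocB.of_lp (hT.lip i j) x
    have h2 : LocB b (pd i χ) x A :=
      (LocB.of_diff ((Cut.pd_test hχ.test i).1.differentiable (by simp) x)).mono (hχ.d2 x b i)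
    have hTj : Test (pd j d) := Cut.pd_test hd j
    have h3 : LocB b (pd j (mo m d)) x (A * S) := by
      have hmo : Test (mo m (pd j d)) := mo_test m hTj
      have e : pd j (mo m d) = mo m (pd j d) := funext fun y => pd_mo m hd j y
      rw [e]
      refine (LocB.of_diff (hmo.1.differentiable (by simp) x)).mono ?_
      rw [pd_mo m hTj b x]
      exact PtD.mo_le hA hK hd (PtD.cont_pd hTj b) (fun y => PtD.hess_le_S2 d b j y) m x
    have h12 : LocB b (fun z => tau ψ z i j * pd i χ z) x (2 * A ^ 2) := by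
      refine (h1.mul h2 hA0 hA0).mono ?_
      have e1 := hT.bdd x i j
      have e2 := hχ.d1 x i
      nlinarith
    refine (h12.mul h3 (by positivity) (by positivity)).mono ?_
    have e1 : |tau ψ x i j * pd i χ x| ≤ A * A := by
      rw [abs_mul]
      exact mul_le_mul (hT.bdd x i j) (hχ.d1 x i) (abs_nonneg _) hA0
    have e2 : |pd j (mo m d) x| ≤ A * S := by
      rw [pd_mo m hd j x]
      exact PtD.mo_le hA hK hd (PtD.cont_pd hd j) (fun y => PtD.pd_le_S2 d j y) m x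
    calc |tau ψ x i j * pd i χ x| * (A * S) + |pd j (mo m d) x| * (2 * A ^ 2)
        ≤ (A * A) * (A * S) + (A * S) * (2 * A ^ 2) :=
          add_le_add (mul_le_mul_of_nonneg_right e1 (by positivity))
            (mul_le_mul_of_nonneg_right e2 (by positivity))
      _ = 3 * A ^ 3 * S := by ring
  have hsum := (LocB.sum (b := b) (x := x) Finset.univ
    (fun i (_ : i ∈ Finset.univ) => LocB.sum (b := b) (x := x) Finset.univ
      (fun j (_ : j ∈ Finset.univ) => key i j))).const_mul 2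
  refine hsum.mono (le_of_eq ?_)
  simp only [Finset.sum_const, Finset.card_univ, Fintype.card_fin, nsmul_eq_mul]
  rw [abs_of_pos (by norm_num : (0 : ℝ) < 2)]
  ring

end Vale.Agent.P227.M.LIN
end

section

/-! # P227/M/LIN: bounds of the first and second derivatives of `χ · mo m d` (helper792). -/

open MeasureTheory Filter Metric Set
open scoped Topology

namespace Vale.Agent.P227.M.LIN

namespace PtE

variable {n : ℕ}

theorem av_mono (m : ℕ) {f g : E n → ℝ} (hf : Continuous f) (hg : Continuous g) (h : ∀ y, f y ≤ g y) (x : E n) :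
    av m f x ≤ av m g x := by
  unfold av
  have hd := dl_pos m
  refine mul_le_mul_of_nonneg_left ?_ (by positivity)
  have hint : ∀ k : E n → ℝ, Continuous k →
      IntegrableOn (fun t => k (x - t)) (ball (0 : E n) (2 * dl m)) := fun k hk =>
    ((hk.comp (continuous_const.sub continuous_id)).continuousOn.integrableOn_compact
      (isCompact_closedBall (0 : E n) (2 * dl m))).mono_set ball_subset_closedBall
  exact setIntegral_mono (hint f hf) (hint g hg) (fun t => h (x - t))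

theorem test_diff {f : E n → ℝ} (hf : Test f) : Differentiable ℝ f :=
  hf.1.differentiable (by simp)

theorem test_pd {f : E n → ℝ} (hf : Test f) (i : Fin n) : Test (pd i f) := by
  refine ⟨contDiff_pd_top hf.1 i, ?_⟩
  have h := (hf.2.fderiv (𝕜 := ℝ)).comp_left (g := fun L : E n →L[ℝ] ℝ => L (ei i)) (by simp)
  exact h

theorem pd_mul {f g : E n → ℝ} {x : E n} (hf : DifferentiableAt ℝ f x) (hg : DifferentiableAt ℝ g x)
    (a : Fin n) : pd a (fun y => f y * g y) x = pd a f x * g x + f x * pd a g x := by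
  simp only [pd]
  rw [fderiv_fun_mul hf hg]
  simp only [_root_.add_apply, _root_.smul_apply, smul_eq_mul]
  ring

theorem pd_add {f g : E n → ℝ} {x : E n} (hf : DifferentiableAt ℝ f x) (hg : DifferentiableAt ℝ g x)
    (a : Fin n) : pd a (fun y => f y + g y) x = pd a f x + pd a g x := by
  simp only [pd]
  rw [fderiv_fun_add hf hg]
  rfl

theorem pd_le_S2 (d : E n → ℝ) (y : E n) (a : Fin n) : |pd a d y| ≤ S2 d y := by
  unfold S2
  have h1 : |pd a d y| ≤ ∑ a, |pd a d y| :=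
    Finset.single_le_sum (f := fun a => |pd a d y|) (fun _ _ => abs_nonneg _) (Finset.mem_univ a)
  have h2 : 0 ≤ ∑ a, ∑ b, |hess d y a b| :=
    Finset.sum_nonneg (fun a _ => Finset.sum_nonneg (fun b _ => abs_nonneg _))
  have := abs_nonneg (d y)
  linarith

theorem hess_le_S2 (d : E n → ℝ) (y : E n) (a b : Fin n) : |hess d y a b| ≤ S2 d y := by
  unfold S2
  have h1 : |hess d y a b| ≤ ∑ b, |hess d y a b| :=
    Finset.single_le_sum (f := fun b => |hess d y a b|) (fun _ _ => abs_nonneg _) (Finset.mem_univ b)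
  have h2 : ∑ b, |hess d y a b| ≤ ∑ a, ∑ b, |hess d y a b| :=
    Finset.single_le_sum (f := fun a => ∑ b, |hess d y a b|)
      (fun a _ => Finset.sum_nonneg (fun b _ => abs_nonneg _)) (Finset.mem_univ a)
  have h3 : 0 ≤ ∑ a, |pd a d y| := Finset.sum_nonneg (fun a _ => abs_nonneg _)
  have := abs_nonneg (d y)
  linarith

theorem self_le_S2 (d : E n → ℝ) (y : E n) : |d y| ≤ S2 d y := by
  unfold S2
  have h2 : 0 ≤ ∑ a, ∑ b, |hess d y a b| :=
    Finset.sum_nonneg (fun a _ => Finset.sum_nonneg (fun b _ => abs_nonneg _))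
  have h3 : 0 ≤ ∑ a, |pd a d y| := Finset.sum_nonneg (fun a _ => abs_nonneg _)
  linarith

theorem S2_cont {d : E n → ℝ} (hd : Test d) : Continuous (S2 d) := by
  have h1 : ∀ a, Continuous (pd a d) := fun a => (test_pd hd a).1.continuous
  have h2 : ∀ a b, Continuous (fun x => hess d x a b) := fun a b => (test_pd (test_pd hd b) a).1.continuous
  unfold S2
  refine (hd.1.continuous.abs.add (continuous_finsetSum _ (fun a _ => (h1 a).abs))).add ?_
  exact continuous_finsetSum _ (fun a _ => continuous_finsetSum _ (fun b _ => (h2 a b).abs))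

/-- bound of a mollification by the average of `S2` -/
theorem mo_le {A : ℝ} (hA : 1 ≤ A) (hK : KerC n A) {d : E n → ℝ} (hd : Test d) (m : ℕ) {g : E n → ℝ}
    (hg : Continuous g) (h : ∀ y, |g y| ≤ S2 d y) (x : E n) :
    |mo m g x| ≤ A * av m (fun y => |S2 d y|) x := by
  refine (hK.mo_b m g hg x).trans (mul_le_mul_of_nonneg_left ?_ (by linarith))
  exact av_mono m hg.abs (S2_cont hd).abs (fun y => (h y).trans (le_abs_self _)) x

end PtE

open PtE in
theorem pd_chi_mo {n : ℕ} {A R : ℝ} (hA : 1 ≤ A) (hK : KerC n A)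
    {χ d : E n → ℝ} (hχ : Cuto A R χ) (hd : Test d) (m : ℕ) (x : E n) (_hx : ‖x‖ ≤ 2 * R) :
    (∀ b, |pd b (fun z => χ z * mo m d z) x| ≤ 4 * A ^ 2 * av m (fun y => |S2 d y|) x) ∧
    ∀ a b, |hess (fun z => χ z * mo m d z) x a b| ≤ 4 * A ^ 2 * av m (fun y => |S2 d y|) x := by
  have hA0 : 0 ≤ A := by linarith
  set W : ℝ := av m (fun y => |S2 d y|) x with hW
  have hmo : ∀ {g : E n → ℝ}, Test g → Test (mo m g) := fun hg => mo_test m hg
  have hχd := test_diff hχ.test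
  have hmd := test_diff (hmo hd)
  have hmdb : ∀ b, Differentiable ℝ (mo m (pd b d)) := fun b => test_diff (hmo (test_pd hd b))
  have hχb : ∀ b, Differentiable ℝ (pd b χ) := fun b => test_diff (test_pd hχ.test b)
  -- bounds of the mollified functions
  have b0 : |mo m d x| ≤ A * W := mo_le hA hK hd m hd.1.continuous (self_le_S2 d) x
  have b1 : ∀ a, |mo m (pd a d) x| ≤ A * W := fun a =>
    mo_le hA hK hd m (test_pd hd a).1.continuous (fun y => pd_le_S2 d y a) x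
  have b2 : ∀ a b, |mo m (pd a (pd b d)) x| ≤ A * W := fun a b =>
    mo_le hA hK hd m (test_pd (test_pd hd b) a).1.continuous (fun y => hess_le_S2 d y a b) x
  have hAW : 0 ≤ A * W := (abs_nonneg _).trans b0
  have hW0 : A * W ≤ A ^ 2 * W := by
    have : A ^ 2 * W = A * (A * W) := by ring
    rw [this]
    nlinarith
  have hAAW : 0 ≤ A ^ 2 * W := hAW.trans hW0
  have first : ∀ b, pd b (fun z => χ z * mo m d z) =
      fun z => pd b χ z * mo m d z + χ z * mo m (pd b d) z := by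
    intro b
    funext z
    rw [pd_mul (hχd z) (hmd z) b, pd_mo m hd b z]
  have prod_bd : ∀ {u v : ℝ} {U : ℝ}, 0 ≤ U → |u| ≤ U → |v| ≤ A * W → |u * v| ≤ U * (A * W) := by
    intro u v U hU h1 h2
    rw [abs_mul]
    exact mul_le_mul h1 h2 (abs_nonneg _) hU
  constructor
  · intro b
    rw [first b]
    have e1 := prod_bd hA0 (hχ.d1 x b) b0
    have e2 := prod_bd zero_le_one (hχ.le1 x) (b1 b)
    calc |pd b χ x * mo m d x + χ x * mo m (pd b d) x|
        ≤ |pd b χ x * mo m d x| + |χ x * mo m (pd b d) x| := abs_add_le _ _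
      _ ≤ A * (A * W) + 1 * (A * W) := add_le_add e1 e2
      _ ≤ 4 * A ^ 2 * W := by nlinarith
  · intro a b
    have hh : hess (fun z => χ z * mo m d z) x a b =
        (pd a (pd b χ) x * mo m d x + pd b χ x * mo m (pd a d) x)
          + (pd a χ x * mo m (pd b d) x + χ x * mo m (pd a (pd b d)) x) := by
      simp only [hess]
      rw [first b]
      have hD1 : DifferentiableAt ℝ (fun z => pd b χ z * mo m d z) x := (hχb b x).mul (hmd x)
      have hD2 : DifferentiableAt ℝ (fun z => χ z * mo m (pd b d) z) x := (hχd x).mul (hmdb b x)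
      rw [pd_add hD1 hD2 a]
      rw [pd_mul (hχb b x) (hmd x) a, pd_mul (hχd x) (hmdb b x) a, pd_mo m hd a x,
        pd_mo m (test_pd hd b) a x]
    rw [hh]
    have e1 := prod_bd hA0 (hχ.d2 x a b) b0
    have e2 := prod_bd hA0 (hχ.d1 x b) (b1 a)
    have e3 := prod_bd hA0 (hχ.d1 x a) (b1 b)
    have e4 := prod_bd zero_le_one (hχ.le1 x) (b2 a b)
    have t1 := abs_add_le (pd a (pd b χ) x * mo m d x + pd b χ x * mo m (pd a d) x)
      (pd a χ x * mo m (pd b d) x + χ x * mo m (pd a (pd b d)) x)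
    have t2 := abs_add_le (pd a (pd b χ) x * mo m d x) (pd b χ x * mo m (pd a d) x)
    have t3 := abs_add_le (pd a χ x * mo m (pd b d) x) (χ x * mo m (pd a (pd b d)) x)
    have t4 : A * (A * W) = A ^ 2 * W := by ring
    rw [t4] at e1 e2 e3
    linarith

end Vale.Agent.P227.M.LIN
end

section

open MeasureTheory Filter Metric Set
open scoped Topology

namespace Vale.Agent.P227.M.LIN


/-! # P227/M/LIN: pointwise bound for the second Friedrichs step (helper479). -/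

namespace Pt

/-! ## the identity -/

lemma test_mul {n : ℕ} {f g : E n → ℝ} (hf : Test f) (hg : Test g) : Test (fun z => f z * g z) :=
  ⟨hf.1.mul hg.1, hf.2.mul_right⟩

lemma test_sub {n : ℕ} {f g : E n → ℝ} (hf : Test f) (hg : Test g) : Test (fun z => f z - g z) :=
  ⟨hf.1.sub hg.1, hf.2.sub hg.2⟩

lemma gg_cont {n : ℕ} {ψ V : E n → ℝ} {c C M : ℝ} (hM : MM ψ V c C M) {w f : E n → ℝ} (hw : Test w) (hf : Test f) :
    Continuous (gg ψ w f) :=
  (hf.1.continuous.sub (Lop_lip hM hf).1).sub hw.1.continuous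

lemma gg_hcs {n : ℕ} {ψ V : E n → ℝ} {c C M : ℝ} (hM : MM ψ V c C M) {w f : E n → ℝ} (hw : Test w) (hf : Test f) :
    HasCompactSupport (gg ψ w f) :=
  (hf.2.sub (Lop_lip hM hf).2.1).sub hw.2

lemma lp_sub {n : ℕ} {f g : E n → ℝ} {K K' : ℝ} (hf : Lp f K) (hg : Lp g K') : Lp (fun x => f x - g x) (K + K') := by
  intro x y
  have h1 := hf x y
  have h2 := hg x y
  calc |f x - g x - (f y - g y)| = |(f x - f y) - (g x - g y)| := by ring_nf
    _ ≤ |f x - f y| + |g x - g y| := abs_sub _ _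
    _ ≤ (K + K') * ‖x - y‖ := by linarith

lemma test_lp {n : ℕ} {f : E n → ℝ} (hf : Test f) : ∃ K, Lp f K := by
  obtain ⟨K, hK⟩ := ContDiff.lipschitzWith_of_hasCompactSupport hf.2 hf.1 (by simp)
  refine ⟨K, fun x y => ?_⟩
  have := hK.dist_le_mul x y
  rwa [Real.dist_eq, dist_eq_norm] at this

lemma gg_lip {n : ℕ} {ψ V : E n → ℝ} {c C M : ℝ} (hM : MM ψ V c C M) {w f : E n → ℝ} (hw : Test w) (hf : Test f) :
    ∃ K, Lp (gg ψ w f) K := by
  obtain ⟨K1, h1⟩ := test_lp hf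
  obtain ⟨K2, h2⟩ := (Lop_lip hM hf).2.2
  obtain ⟨K3, h3⟩ := test_lp hw
  exact ⟨_, lp_sub (lp_sub h1 h2) h3⟩

/-- the decomposition of `F - L F - w` -/
lemma gg_FF {n : ℕ} {ψ V : E n → ℝ} {c C M A R : ℝ} (hM : MM ψ V c C M) {χ v0 v w : E n → ℝ} (hχ : Cuto A R χ)
    (h0 : Test v0) (hv : Test v) (hw : Test w) (m : ℕ) (hs : ∀ x, R - 1 ≤ ‖x‖ → gg ψ w v0 x = 0) (x : E n) :
    gg ψ w (FF m χ v0 v) x = (gg ψ w v0 x - mo m (gg ψ w v0) x) + χ x * mo m (gg ψ w v) x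
      - χ x * ((∑ i, ∑ j, cm m (fun y => tau ψ y i j) (fun y => hess (fun y => v y - v0 y) y i j) x)
        - ∑ i, cm m (fun y => y i) (pd i (fun y => v y - v0 y)) x)
      - mo m (fun y => v y - v0 y) x * Lop ψ χ x
      - 2 * ∑ i, ∑ j, tau ψ x i j * pd i χ x * pd j (mo m (fun y => v y - v0 y)) x := by
  have hd : Test (fun y => v y - v0 y) := test_sub hv h0
  have hf : Test (mo m (fun y => v y - v0 y)) := mo_test m hd
  have e1 : Lop ψ (FF m χ v0 v) x = Lop ψ v0 x + Lop ψ (fun z => χ z * mo m (fun y => v y - v0 y) z) x :=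
    Alg47.Lop_add ψ h0 (test_mul hχ.test hf) x
  have e2 := Lop_mul hM hχ.test hf x
  have e3 := Lop_mo hM hd m x
  -- `L v = L v0 + L d`
  have e4 : ∀ z, Lop ψ (fun y => v y - v0 y) z = Lop ψ v z - Lop ψ v0 z := by
    intro z
    have := Alg47.Lop_add ψ h0 hd z
    have h5 : (fun z => v0 z + (fun y => v y - v0 y) z) = v := by
      funext z; ring
    rw [h5] at this
    linarith
  have e5 : mo m (Lop ψ (fun y => v y - v0 y)) x =
      mo m (fun y => v y - v0 y) x - (mo m (gg ψ w v) x - mo m (gg ψ w v0) x) := by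
    have h6 : (Lop ψ (fun y => v y - v0 y)) = fun z => (fun y => v y - v0 y) z - (gg ψ w v z - gg ψ w v0 z) := by
      funext z
      rw [e4]
      unfold gg
      ring
    have hc1 := gg_cont hM hw hv
    have hc0 := gg_cont hM hw h0
    have h7 : mo m (fun z => (v z - v0 z) - (gg ψ w v z - gg ψ w v0 z)) x =
        mo m (fun y => v y - v0 y) x - mo m (fun z => gg ψ w v z - gg ψ w v0 z) x :=
      mo_sub m hd.1.continuous (hc1.sub hc0) x
    have h8 : mo m (fun z => gg ψ w v z - gg ψ w v0 z) x = mo m (gg ψ w v) x - mo m (gg ψ w v0) x :=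
      mo_sub m hc1 hc0 x
    rw [h6, ← h8]
    exact h7
  -- `χ mo g0 = mo g0`
  have e6 : χ x * mo m (gg ψ w v0) x = mo m (gg ψ w v0) x := by
    by_cases hx : ‖x‖ < R
    · rw [hχ.one x hx, one_mul]
    · rw [not_lt] at hx
      have : mo m (gg ψ w v0) x = 0 := by
        rw [mo_eq]
        refine integral_eq_zero_of_ae (Eventually.of_forall fun y => ?_)
        show rk m (x - y) * gg ψ w v0 y = 0
        by_cases hy : dl m ≤ ‖x - y‖
        · rw [ker_rk_zero m hy, zero_mul]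
        · rw [not_le] at hy
          have h7 : R - 1 ≤ ‖y‖ := by
            have h8 : ‖x‖ ≤ ‖x - y‖ + ‖y‖ := by
              calc ‖x‖ = ‖(x - y) + y‖ := by rw [sub_add_cancel]
                _ ≤ _ := norm_add_le _ _
            have := dl_le_one m
            linarith
          rw [hs y h7, mul_zero]
      rw [this, mul_zero]
  have e7 : gg ψ w v0 x = v0 x - Lop ψ v0 x - w x := rfl
  have e8 : gg ψ w (FF m χ v0 v) x = (v0 x + χ x * mo m (fun y => v y - v0 y) x) - Lop ψ (FF m χ v0 v) x - w x := rfl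
  rw [e8, e1, e2, e3, e5]
  linear_combination (-1 : ℝ) * e7 - e6


/-! ## the pointwise bound -/

/-- constants -/
lemma exists_const {n : ℕ} {ψ V : E n → ℝ} {c C M : ℝ} (hM : MM ψ V c C M) :
    ∃ A : ℝ, 1 ≤ A ∧ TauC A ψ ∧ KerC n A ∧ ∀ R : ℝ, 1 ≤ R → ∃ χ : E n → ℝ, Cuto A R χ := by
  obtain ⟨C1, hC1, h1⟩ := mo_bound n
  obtain ⟨C2, hC2, h2⟩ := mo_locB n
  obtain ⟨C3, hC3, h3⟩ := cm_bound n
  obtain ⟨C4, hC4, h4⟩ := cm_locB n
  obtain ⟨C5, hC5, h5⟩ := cutoff n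
  obtain ⟨T, hT, h6, h7⟩ := tau_bdd hM
  have hav : ∀ (m : ℕ) (g : E n → ℝ) (x : E n), 0 ≤ av m (fun y => |g y|) x := fun m g x =>
    av_nonneg m (fun y => abs_nonneg _) x
  refine ⟨C1 + C2 + C3 + C4 + C5 + T + 1, by linarith, ⟨fun x i j => (h6 x i j).trans (by linarith),
    fun i j x y => (h7 i j x y).trans (mul_le_mul_of_nonneg_right (by linarith) (norm_nonneg _))⟩,
    ⟨?_, ?_, ?_, ?_⟩, ?_⟩
  · intro m g hg x
    exact (h1 m g hg x).trans (mul_le_mul_of_nonneg_right (by linarith) (hav m g x))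
  · intro m g hg x b
    have hd := dl_pos m
    refine (h2 m g hg x b).mono ?_
    refine mul_le_mul_of_nonneg_right (mul_le_mul_of_nonneg_right (by linarith) (by positivity)) (hav m g x)
  · intro m a G K hK hL ha hG x
    exact (h3 m a G K hK hL ha hG x).trans
      (mul_le_mul_of_nonneg_right (mul_le_mul_of_nonneg_right (by linarith) hK) (hav m G x))
  · intro m a G K hK hL ha hG x b
    exact (h4 m a G K hK hL ha hG x b).mono
      (mul_le_mul_of_nonneg_right (mul_le_mul_of_nonneg_right (by linarith) hK) (hav m G x))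
  · intro R hR
    obtain ⟨χ, k1, k2, k3, k4, k5, k6, k7⟩ := h5 R hR
    have hle : C5 ≤ C1 + C2 + C3 + C4 + C5 + T + 1 := by linarith
    exact ⟨χ, k1, k2, k3, k4, fun x a => (k5 x a).1.trans hle, fun x a => (k5 x a).2.trans hle,
      fun x a b => (k6 x a b).1.trans hle, fun x a b => (k6 x a b).2.trans hle, fun x a b d => (k7 x a b d).trans hle⟩

/-- the `q` term -/
lemma locB_q {n : ℕ} {A R : ℝ} (hA : 1 ≤ A) (hK : KerC n A) {χ q : E n → ℝ} (hχ : Cuto A R χ) (hq : Continuous q)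
    (m : ℕ) (x : E n) (b : Fin n) :
    LocB b (fun z => χ z * mo m q z) x (2 * A ^ 2 * (dl m)⁻¹ * av m (fun y => |q y|) x) := by
  have hav : 0 ≤ av m (fun y => |q y|) x := av_nonneg m (fun y => abs_nonneg _) x
  have hd := dl_pos m
  have hd1 : 1 ≤ (dl m)⁻¹ := (one_le_inv₀ hd).2 (dl_le_one m)
  have h1 : LocB b χ x |pd b χ x| := LocB.of_diff ((hχ.test.1.differentiable (by simp)) x)
  have h2 := hK.mo_l m q hq x b
  have hA0 : 0 ≤ A := by linarith
  refine (h1.mul h2 (abs_nonneg _) (by positivity)).mono ?_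
  have h3 := hK.mo_b m q hq x
  have h4 := hχ.d1 x b
  have h5 := hχ.le1 x
  calc |χ x| * (A * (dl m)⁻¹ * av m (fun y => |q y|) x) + |mo m q x| * |pd b χ x|
      ≤ 1 * (A * (dl m)⁻¹ * av m (fun y => |q y|) x) + (A * av m (fun y => |q y|) x) * A := by
        refine add_le_add (mul_le_mul_of_nonneg_right h5 (by positivity))
          (mul_le_mul h3 h4 (abs_nonneg _) (by positivity))
    _ ≤ 2 * A ^ 2 * (dl m)⁻¹ * av m (fun y => |q y|) x := by
        have e1 : A * (dl m)⁻¹ * av m (fun y => |q y|) x ≤ A ^ 2 * (dl m)⁻¹ * av m (fun y => |q y|) x := by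
          have : A ≤ A ^ 2 := by nlinarith
          gcongr
        have e2 : (A * av m (fun y => |q y|) x) * A ≤ A ^ 2 * (dl m)⁻¹ * av m (fun y => |q y|) x := by
          have : A ^ 2 * av m (fun y => |q y|) x * 1 ≤ A ^ 2 * av m (fun y => |q y|) x * (dl m)⁻¹ :=
            mul_le_mul_of_nonneg_left hd1 (by positivity)
          nlinarith
        linarith

lemma avR_in {n : ℕ} (m : ℕ) {R : ℝ} (g : E n → ℝ) {x : E n} (hx : ‖x‖ ≤ 2 * R) :
    avR m R g x = av m (fun y => |g y|) x := by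
  unfold avR
  rw [indicator_of_mem (by simpa using hx)]

lemma avR_nonneg {n : ℕ} (m : ℕ) (R : ℝ) (g : E n → ℝ) (x : E n) : 0 ≤ avR m R g x := by
  unfold avR
  exact indicator_nonneg (fun y _ => av_nonneg m (fun y => abs_nonneg _) y) x

end Pt

open Pt

theorem pt_bound {n : ℕ} {ψ V : E n → ℝ} {c C M : ℝ} (hM : MM ψ V c C M) :
    ∃ T1 : ℝ, 0 < T1 ∧ ∀ R : ℝ, 1 ≤ R → ∃ χ : E n → ℝ, Test χ ∧ PtBound ψ T1 R χ := by
  obtain ⟨A, hA, hT, hK, hcut⟩ := exists_const hM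
  have hA0 : 0 < A := by linarith
  refine ⟨11 * (n ^ 2 + n + 1) * A ^ 3, by positivity, fun R hR => ?_⟩
  obtain ⟨χ, hχ⟩ := hcut R hR
  refine ⟨χ, hχ.test, ?_⟩
  intro m v0 v w h0 hv hw hs
  have hd : Test (fun y => v y - v0 y) := test_sub hv h0
  have hdl := dl_pos m
  have hdl' : 0 < (dl m)⁻¹ := by positivity
  obtain ⟨K0, hL0⟩ := gg_lip hM hw h0
  have hc0 := gg_cont hM hw h0
  have hs0 := gg_hcs hM hw h0
  have hcq := gg_cont hM hw hv
  -- near a point outside of `B_{2R}` the cut-off vanishes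
  have hout : ∀ x : E n, 2 * R < ‖x‖ → ∀ᶠ y in 𝓝 x, χ y = 0 := by
    intro x hx
    filter_upwards [(isOpen_lt continuous_const continuous_norm).mem_nhds hx] with y hy
    exact hχ.zero y hy
  have hT1 : ∀ x : E n, 4 * A ^ 2 * av m (fun y => |S2 (fun y => v y - v0 y) y|) x ≤
      11 * (n ^ 2 + n + 1) * A ^ 3 * av m (fun y => |S2 (fun y => v y - v0 y) y|) x := by
    intro x
    have hav : 0 ≤ av m (fun y => |S2 (fun y => v y - v0 y) y|) x := av_nonneg m (fun y => abs_nonneg _) x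
    refine mul_le_mul_of_nonneg_right ?_ hav
    have h1 : A ^ 2 ≤ A ^ 3 := pow_le_pow_right₀ hA (by norm_num)
    have h2 : (0 : ℝ) ≤ (n : ℝ) ^ 2 + n := by positivity
    have h3 : 0 ≤ A ^ 3 := by positivity
    nlinarith [mul_nonneg h2 h3]
  refine ⟨?_, ?_, ?_⟩
  · filter_upwards [lip_ae hL0] with x hx b
    obtain ⟨hdm, hpm⟩ := lip_mo hL0 hs0 m x
    have g1 : LocB b (fun z => gg ψ w v0 z - mo m (gg ψ w v0) z) x
        |pd b (gg ψ w v0) x - mo m (pd b (gg ψ w v0)) x| := by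
      have h1 : LocB b (fun z => gg ψ w v0 z - mo m (gg ψ w v0) z) x
          |pd b (fun z => gg ψ w v0 z - mo m (gg ψ w v0) z) x| := LocB.of_diff (hx.sub hdm)
      have h2 : pd b (fun z => gg ψ w v0 z - mo m (gg ψ w v0) z) x =
          pd b (gg ψ w v0) x - mo m (pd b (gg ψ w v0)) x := by
        rw [← hpm b]
        unfold pd
        rw [fderiv_fun_sub hx hdm]
        rfl
      rwa [h2] at h1
    by_cases hxR : ‖x‖ ≤ 2 * R
    · rw [avR_in m _ hxR, avR_in m _ hxR]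
      have g2 := locB_q hA hK hχ hcq m x b
      have g3 := locB_Cm hM hA hT hK hχ hd m x b
      have g4 := locB_fL hM hA hT hK hχ hd m x b
      have g5 := locB_cross hM hA hT hK hχ hd m x b
      have g6 := (((g1.add g2).sub g3).sub g4).sub g5
      have g7 := g6.congr (Eventually.of_forall fun y => (gg_FF hM hχ h0 hv hw m hs y).symm)
      have hav1 : 0 ≤ av m (fun y => |S2 (fun y => v y - v0 y) y|) x := av_nonneg m (fun y => abs_nonneg _) x
      have hav2 : 0 ≤ av m (fun y => |gg ψ w v y|) x := av_nonneg m (fun y => abs_nonneg _) x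
      refine (g7.pd_le (by positivity)).trans ?_
      have e1 : 2 * A ^ 2 * (dl m)⁻¹ * av m (fun y => |gg ψ w v y|) x ≤
          11 * (n ^ 2 + n + 1) * A ^ 3 * (dl m)⁻¹ * av m (fun y => |gg ψ w v y|) x := by
        refine mul_le_mul_of_nonneg_right (mul_le_mul_of_nonneg_right ?_ hdl'.le) hav2
        have h1 : A ^ 2 ≤ A ^ 3 := pow_le_pow_right₀ hA (by norm_num)
        have h2 : (0 : ℝ) ≤ (n : ℝ) ^ 2 + n := by positivity
        have h3 : 0 ≤ A ^ 3 := by positivity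
        nlinarith [mul_nonneg h2 h3]
      have e2 : 2 * (n ^ 2 + n) * A ^ 3 * av m (fun y => |S2 (fun y => v y - v0 y) y|) x +
          3 * (n ^ 2 + n) * A ^ 3 * av m (fun y => |S2 (fun y => v y - v0 y) y|) x +
          6 * n ^ 2 * A ^ 3 * av m (fun y => |S2 (fun y => v y - v0 y) y|) x ≤
          11 * (n ^ 2 + n + 1) * A ^ 3 * av m (fun y => |S2 (fun y => v y - v0 y) y|) x := by
        have h3 : 0 ≤ A ^ 3 * av m (fun y => |S2 (fun y => v y - v0 y) y|) x := by positivity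
        have h4 : (0 : ℝ) ≤ n := Nat.cast_nonneg n
        nlinarith [mul_nonneg h4 h3]
      linarith
    · rw [not_le] at hxR
      have g8 : LocB b (gg ψ w (FF m χ v0 v)) x |pd b (gg ψ w v0) x - mo m (pd b (gg ψ w v0)) x| := by
        refine g1.congr ?_
        have h9 := hout x hxR
        have h10 : ∀ᶠ y in 𝓝 x, ∀ᶠ z in 𝓝 y, χ z = 0 := eventually_eventually_nhds.2 h9
        filter_upwards [h10] with y hy
        have hy0 : χ y = 0 := hy.self_of_nhds
        have hpd : ∀ᶠ z in 𝓝 y, ∀ i, pd i χ z = 0 := by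
          filter_upwards [eventually_eventually_nhds.2 hy] with z hz i
          have : χ =ᶠ[𝓝 z] fun _ => (0 : ℝ) := hz
          unfold pd
          rw [this.fderiv_eq]
          simp
        have hL : Lop ψ χ y = 0 := by
          unfold Lop hess
          have h11 : ∀ i j, pd i (pd j χ) y = 0 := by
            intro i j
            have : pd j χ =ᶠ[𝓝 y] fun _ => (0 : ℝ) := hpd.mono fun z hz => hz j
            show fderiv ℝ (pd j χ) y (ei i) = 0
            rw [this.fderiv_eq]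
            simp
          have h12 : ∀ i, pd i χ y = 0 := hpd.self_of_nhds
          simp [h11, h12]
        rw [gg_FF hM hχ h0 hv hw m hs y, hy0, hL]
        have h12 : ∀ i, pd i χ y = 0 := hpd.self_of_nhds
        simp [h12]
      refine (g8.pd_le (abs_nonneg _)).trans ?_
      have e3 := avR_nonneg m R (gg ψ w v) x
      have e4 := avR_nonneg m R (S2 (fun y => v y - v0 y)) x
      have e5 : 0 ≤ 11 * ((n : ℝ) ^ 2 + n + 1) * A ^ 3 * (dl m)⁻¹ * avR m R (gg ψ w v) x := by positivity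
      have e6 : 0 ≤ 11 * ((n : ℝ) ^ 2 + n + 1) * A ^ 3 * avR m R (S2 (fun y => v y - v0 y)) x := by positivity
      linarith
  · intro x b
    by_cases hxR : ‖x‖ ≤ 2 * R
    · rw [avR_in m _ hxR]
      exact ((pd_chi_mo hA hK hχ hd m x hxR).1 b).trans (hT1 x)
    · rw [not_le] at hxR
      have h9 : (fun z => χ z * mo m (fun y => v y - v0 y) z) =ᶠ[𝓝 x] fun _ => (0 : ℝ) := by
        filter_upwards [hout x hxR] with y hy
        rw [hy, zero_mul]
      unfold pd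
      rw [h9.fderiv_eq]
      have e4 := avR_nonneg m R (S2 (fun y => v y - v0 y)) x
      simp only [fderiv_fun_const, Pi.zero_apply, zero_apply, abs_zero]
      positivity
  · intro x a b
    by_cases hxR : ‖x‖ ≤ 2 * R
    · rw [avR_in m _ hxR]
      exact ((pd_chi_mo hA hK hχ hd m x hxR).2 a b).trans (hT1 x)
    · rw [not_le] at hxR
      have h9 : pd b (fun z => χ z * mo m (fun y => v y - v0 y) z) =ᶠ[𝓝 x] fun _ => (0 : ℝ) := by
        filter_upwards [eventually_eventually_nhds.2 (hout x hxR)] with y hy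
        have h10 : (fun z => χ z * mo m (fun y => v y - v0 y) z) =ᶠ[𝓝 y] fun _ => (0 : ℝ) := by
          filter_upwards [hy] with z hz
          rw [hz, zero_mul]
        unfold pd
        rw [h10.fderiv_eq]
        simp
      show |pd a (pd b (fun z => χ z * mo m (fun y => v y - v0 y) z)) x| ≤ _
      unfold pd at h9 ⊢
      rw [h9.fderiv_eq]
      have e4 := avR_nonneg m R (S2 (fun y => v y - v0 y)) x
      simp only [fderiv_fun_const, Pi.zero_apply, zero_apply, abs_zero]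
      positivity

end Vale.Agent.P227.M.LIN
end

section

/-! # P227/M/LIN: `StmtH1`, preparations for the final step (helper792). -/

open MeasureTheory Filter Metric Set
open scoped Topology

namespace Vale.Agent.P227.M.LIN.H1T

variable {n : ℕ}

/-- sum of squares of dominated functions -/
theorem key_sum (V : E n → ℝ) {ι : Type*} [Fintype ι] (f : Fin n → ι → E n → ℝ) (c : Fin n → ι → ℝ)
    (hf : ∀ b k, Integrable (fun x => (f b k x) ^ 2 * Real.exp (-V x)) ∧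
      ∫ x, (f b k x) ^ 2 * Real.exp (-V x) ≤ c b k)
    (g : Fin n → E n → ℝ) (hg : ∀ᵐ x, ∀ b, |g b x| ≤ ∑ k, |f b k x|) :
    ∫ x, (∑ b, (g b x) ^ 2) * Real.exp (-V x) ≤ ∑ b, (Fintype.card ι : ℝ) * ∑ k, c b k := by
  have hU : Integrable (fun x => ∑ b, (Fintype.card ι : ℝ) * ∑ k, (f b k x) ^ 2 * Real.exp (-V x)) := by
    refine integrable_finsetSum _ (fun b _ => Integrable.const_mul ?_ _)
    exact integrable_finsetSum _ (fun k _ => (hf b k).1)
  have h1 : ∫ x, (∑ b, (g b x) ^ 2) * Real.exp (-V x) ≤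
      ∫ x, ∑ b, (Fintype.card ι : ℝ) * ∑ k, (f b k x) ^ 2 * Real.exp (-V x) := by
    refine integral_mono_of_nonneg (Eventually.of_forall (fun x => ?_)) hU ?_
    · exact mul_nonneg (Finset.sum_nonneg (fun b _ => sq_nonneg _)) (Real.exp_pos _).le
    · filter_upwards [hg] with x hx
      show (∑ b, (g b x) ^ 2) * Real.exp (-V x) ≤
        ∑ b, (Fintype.card ι : ℝ) * ∑ k, (f b k x) ^ 2 * Real.exp (-V x)
      rw [Finset.sum_mul]
      refine Finset.sum_le_sum (fun b _ => ?_)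
      rw [← Finset.sum_mul, ← mul_assoc]
      refine mul_le_mul_of_nonneg_right ?_ (Real.exp_pos _).le
      have h2 : (g b x) ^ 2 ≤ (∑ k, |f b k x|) ^ 2 := by
        rw [← sq_abs]
        exact pow_le_pow_left₀ (abs_nonneg _) (hx b) 2
      have h3 : (∑ k, |f b k x|) ^ 2 ≤ (Fintype.card ι : ℝ) * ∑ k, |f b k x| ^ 2 := by
        have := sq_sum_le_card_mul_sum_sq (s := (Finset.univ : Finset ι)) (f := fun k => |f b k x|)
        simpa using this
      simp only [sq_abs] at h3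
      exact h2.trans h3
  refine h1.trans ?_
  rw [integral_finsetSum _ (fun b _ => Integrable.const_mul
    (integrable_finsetSum _ (fun k _ => (hf b k).1)) _)]
  refine Finset.sum_le_sum (fun b _ => ?_)
  rw [integral_const_mul, integral_finsetSum _ (fun k _ => (hf b k).1)]
  refine mul_le_mul_of_nonneg_left ?_ (Nat.cast_nonneg _)
  exact Finset.sum_le_sum (fun k _ => (hf b k).2)

theorem test_sub {f g : E n → ℝ} (hf : Test f) (hg : Test g) : Test (fun y => f y - g y) :=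
  ⟨hf.1.sub hg.1, hf.2.sub hg.2⟩

theorem test_diff {f : E n → ℝ} (hf : Test f) : Differentiable ℝ f :=
  hf.1.differentiable (by simp)

theorem pd_sub {f g : E n → ℝ} {x : E n} (hf : DifferentiableAt ℝ f x) (hg : DifferentiableAt ℝ g x)
    (a : Fin n) : pd a (fun y => f y - g y) x = pd a f x - pd a g x := by
  simp only [pd]
  rw [fderiv_fun_sub hf hg]
  rfl

theorem pd_add {f g : E n → ℝ} {x : E n} (hf : DifferentiableAt ℝ f x) (hg : DifferentiableAt ℝ g x)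
    (a : Fin n) : pd a (fun y => f y + g y) x = pd a f x + pd a g x := by
  simp only [pd]
  rw [fderiv_fun_add hf hg]
  rfl

theorem pd_test {f : E n → ℝ} (hf : Test f) (i : Fin n) : Test (pd i f) := by
  refine ⟨contDiff_pd_top hf.1 i, ?_⟩
  have h := (hf.2.fderiv (𝕜 := ℝ)).comp_left (g := fun L : E n →L[ℝ] ℝ => L (ei i)) (by simp)
  exact h

theorem hess_sub {f g : E n → ℝ} (hf : Test f) (hg : Test g) (x : E n) (a b : Fin n) :
    hess (fun y => f y - g y) x a b = hess f x a b - hess g x a b := by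
  simp only [hess]
  have : pd b (fun y => f y - g y) = fun y => pd b f y - pd b g y := by
    funext y
    exact pd_sub (test_diff hf y) (test_diff hg y) b
  rw [this]
  exact pd_sub (test_diff (pd_test hf b) x) (test_diff (pd_test hg b) x) a

theorem hess_add {f g : E n → ℝ} (hf : Test f) (hg : Test g) (x : E n) (a b : Fin n) :
    hess (fun y => f y + g y) x a b = hess f x a b + hess g x a b := by
  simp only [hess]
  have : pd b (fun y => f y + g y) = fun y => pd b f y + pd b g y := by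
    funext y
    exact pd_add (test_diff hf y) (test_diff hg y) b
  rw [this]
  exact pd_add (test_diff (pd_test hf b) x) (test_diff (pd_test hg b) x) a

theorem S2_nonneg (d : E n → ℝ) (x : E n) : 0 ≤ S2 d x := by
  unfold S2
  have h1 : 0 ≤ ∑ a, |pd a d x| := Finset.sum_nonneg (fun a _ => abs_nonneg _)
  have h2 : 0 ≤ ∑ a, ∑ b, |hess d x a b| :=
    Finset.sum_nonneg (fun a _ => Finset.sum_nonneg (fun b _ => abs_nonneg _))
  have := abs_nonneg (d x)
  linarith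

theorem S2_cont {d : E n → ℝ} (hd : Test d) : Continuous (S2 d) := by
  have h1 : ∀ a, Continuous (pd a d) := fun a => (pd_test hd a).1.continuous
  have h2 : ∀ a b, Continuous (fun x => hess d x a b) := fun a b => (pd_test (pd_test hd b) a).1.continuous
  unfold S2
  refine (hd.1.continuous.abs.add (continuous_finsetSum _ (fun a _ => (h1 a).abs))).add ?_
  exact continuous_finsetSum _ (fun a _ => continuous_finsetSum _ (fun b _ => (h2 a b).abs))

theorem S2_supp {d : E n → ℝ} (hd : Test d) : HasCompactSupport (S2 d) := by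
  obtain ⟨R, hR⟩ := hd.2.isCompact.isBounded.subset_closedBall (0 : E n)
  refine HasCompactSupport.of_support_subset_isCompact (isCompact_closedBall (0 : E n) R) ?_
  intro x hx
  by_contra hcon
  apply hx
  have hxs : x ∉ tsupport d := fun h => hcon (hR h)
  have e0 : d x = 0 := image_eq_zero_of_notMem_tsupport hxs
  have e1 : ∀ a, x ∉ tsupport (pd a d) := by
    intro a h
    exact hxs (((closure_mono (fun y hy => by
      have h3 : y ∈ Function.support (fderiv ℝ d) := by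
        intro h4
        apply hy
        simp only [pd]
        rw [h4]
        rfl
      exact support_fderiv_subset ℝ h3)) h : x ∈ closure (tsupport d)) |> fun h5 => by
        rwa [(isClosed_tsupport d).closure_eq] at h5)
  have e2 : ∀ a, pd a d x = 0 := fun a => image_eq_zero_of_notMem_tsupport (e1 a)
  have e3 : ∀ a b, hess d x a b = 0 := by
    intro a b
    simp only [hess]
    have : x ∉ Function.support (fderiv ℝ (pd b d)) := fun h => e1 b (support_fderiv_subset ℝ h)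
    have h5 : fderiv ℝ (pd b d) x = 0 := by
      by_contra h6
      exact this h6
    simp only [pd] at h5 ⊢
    rw [h5]
    rfl
  simp only [S2, e0, e2, e3, abs_zero, Finset.sum_const_zero, add_zero]

theorem S2_sq_le (d : E n → ℝ) (x : E n) : (S2 d x) ^ 2 ≤ 3 * (1 + (n : ℝ) + (n : ℝ) ^ 2) *
    ((d x) ^ 2 + (∑ a, (pd a d x) ^ 2) + ∑ a, ∑ b, (hess d x a b) ^ 2) := by
  set A : ℝ := |d x| with hA
  set B : ℝ := ∑ a, |pd a d x| with hB
  set C : ℝ := ∑ a, ∑ b, |hess d x a b| with hC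
  have hA2 : A ^ 2 = (d x) ^ 2 := sq_abs _
  have hB2 : B ^ 2 ≤ (n : ℝ) * ∑ a, (pd a d x) ^ 2 := by
    have := sq_sum_le_card_mul_sum_sq (s := (Finset.univ : Finset (Fin n))) (f := fun a => |pd a d x|)
    simpa [sq_abs] using this
  have hC2 : C ^ 2 ≤ (n : ℝ) ^ 2 * ∑ a, ∑ b, (hess d x a b) ^ 2 := by
    have h1 := sq_sum_le_card_mul_sum_sq (s := (Finset.univ : Finset (Fin n)))
      (f := fun a => ∑ b, |hess d x a b|)
    have h2 : ∀ a, (∑ b, |hess d x a b|) ^ 2 ≤ (n : ℝ) * ∑ b, (hess d x a b) ^ 2 := by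
      intro a
      have := sq_sum_le_card_mul_sum_sq (s := (Finset.univ : Finset (Fin n)))
        (f := fun b => |hess d x a b|)
      simpa [sq_abs] using this
    simp only [Finset.card_univ, Fintype.card_fin] at h1
    calc C ^ 2 ≤ (n : ℝ) * ∑ a, (∑ b, |hess d x a b|) ^ 2 := h1
      _ ≤ (n : ℝ) * ∑ a, (n : ℝ) * ∑ b, (hess d x a b) ^ 2 :=
          mul_le_mul_of_nonneg_left (Finset.sum_le_sum (fun a _ => h2 a)) (Nat.cast_nonneg n)
      _ = (n : ℝ) ^ 2 * ∑ a, ∑ b, (hess d x a b) ^ 2 := by rw [← Finset.mul_sum]; ring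
  have hP : 0 ≤ (d x) ^ 2 := sq_nonneg _
  have hQ : 0 ≤ ∑ a, (pd a d x) ^ 2 := Finset.sum_nonneg (fun a _ => sq_nonneg _)
  have hR : 0 ≤ ∑ a, ∑ b, (hess d x a b) ^ 2 :=
    Finset.sum_nonneg (fun a _ => Finset.sum_nonneg (fun b _ => sq_nonneg _))
  have hn : (0 : ℝ) ≤ n := Nat.cast_nonneg n
  have h3 : (S2 d x) ^ 2 ≤ 3 * (A ^ 2 + B ^ 2 + C ^ 2) := by
    have : S2 d x = A + B + C := rfl
    rw [this]
    nlinarith [sq_nonneg (A - B), sq_nonneg (A - C), sq_nonneg (B - C)]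
  have hn2 : (0 : ℝ) ≤ (n : ℝ) ^ 2 := by positivity
  have f1 := mul_nonneg hn hP
  have f2 := mul_nonneg hn hR
  have f3 := mul_nonneg hn2 hP
  have f4 := mul_nonneg hn2 hQ
  nlinarith

theorem integrable_cs {f V : E n → ℝ} (hV : Continuous V) (hf : Continuous f) (hs : HasCompactSupport f) :
    Integrable (fun x => f x ^ 2 * Real.exp (-V x)) := by
  have h1 : Continuous (fun x => f x ^ 2 * Real.exp (-V x)) := by fun_prop
  refine h1.integrable_of_hasCompactSupport ?_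
  have : HasCompactSupport (fun x => f x ^ 2) := hs.comp_left (g := fun t => t ^ 2) (by simp)
  exact this.mul_right

end Vale.Agent.P227.M.LIN.H1T
end

section

/-! # P227/M/LIN: `StmtH1` from the pointwise bound (helper792). -/

open MeasureTheory Filter Metric Set
open scoped Topology

namespace Vale.Agent.P227.M.LIN.H1T

variable {n : ℕ}

/-- the remaining hypothesis: the pointwise bound for all `R ≥ 2` -/
def PtAll : Prop := ∀ (n : ℕ) (ψ V : E n → ℝ) (c C M : ℝ), MM ψ V c C M →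
  ∃ T1 : ℝ, 0 < T1 ∧ ∀ R : ℝ, 2 ≤ R → ∃ χ : E n → ℝ, Test χ ∧ PtBound ψ T1 R χ

theorem gg_cont {ψ V : E n → ℝ} {c C M : ℝ} (hM : MM ψ V c C M) {w f : E n → ℝ} (hw : Test w) (hf : Test f) :
    Continuous (gg ψ w f) ∧ HasCompactSupport (gg ψ w f) ∧ ∃ K, Lp (gg ψ w f) K := by
  obtain ⟨h1, h2, K, hK⟩ := Lop_lip hM hf
  obtain ⟨K1, hK1⟩ := Alg47.Lp_test hf
  obtain ⟨K2, hK2⟩ := Alg47.Lp_test hw
  refine ⟨(hf.1.continuous.sub h1).sub hw.1.continuous, (hf.2.sub h2).sub hw.2, K1 + K + K2, ?_⟩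
  intro x y
  have e : gg ψ w f x - gg ψ w f y = (f x - f y) - (Lop ψ f x - Lop ψ f y) - (w x - w y) := by
    unfold gg; ring
  rw [e]
  have a1 := hK1 x y
  have a2 := hK x y
  have a3 := hK2 x y
  have b1 := abs_sub (f x - f y) (Lop ψ f x - Lop ψ f y)
  have b2 := abs_sub ((f x - f y) - (Lop ψ f x - Lop ψ f y)) (w x - w y)
  nlinarith

theorem avR_L2 {V : E n → ℝ} (hV : Continuous V)
    (hVl : ∃ A : ℝ, ∀ x y : E n, ‖x - y‖ ≤ 2 → |V x - V y| ≤ A * (1 + ‖x‖) * ‖x - y‖) :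
    ∃ C2 : ℝ, 0 < C2 ∧ ∀ R : ℝ, ∃ m0 : ℕ, ∀ m ≥ m0, ∀ g : E n → ℝ, Continuous g → HasCompactSupport g →
      ∀ c : ℝ, Integrable (fun x => (c * avR m R g x) ^ 2 * Real.exp (-V x)) ∧
      ∫ x, (c * avR m R g x) ^ 2 * Real.exp (-V x) ≤ c ^ 2 * (C2 * ∫ x, g x ^ 2 * Real.exp (-V x)) := by
  obtain ⟨C2, hC2, h⟩ := av_L2 hV hVl
  refine ⟨C2, hC2, fun R => ?_⟩
  obtain ⟨m0, hm0⟩ := h (2 * R)
  refine ⟨m0, fun m hm g hg hs c => ?_⟩
  obtain ⟨h1, h2⟩ := hm0 m hm g hg hs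
  have e : (fun x => (c * avR m R g x) ^ 2 * Real.exp (-V x)) = fun x => c ^ 2 *
      ((closedBall (0 : E n) (2 * R)).indicator
        (fun x => (av m (fun y => |g y|) x) ^ 2 * Real.exp (-V x)) x) := by
    funext x
    unfold avR
    by_cases hx : x ∈ closedBall (0 : E n) (2 * R)
    · rw [indicator_of_mem hx, indicator_of_mem hx]; ring
    · rw [indicator_of_notMem hx, indicator_of_notMem hx]; ring
  rw [e]
  refine ⟨h1.const_mul _, ?_⟩
  rw [integral_const_mul, integral_indicator measurableSet_closedBall]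
  exact mul_le_mul_of_nonneg_left h2 (sq_nonneg c)

theorem test_FF {m : ℕ} {χ v0 v : E n → ℝ} (hχ : Test χ) (h0 : Test v0) (hv : Test v) :
    Test (FF m χ v0 v) ∧ Test (fun z => χ z * mo m (fun y => v y - v0 y) z) := by
  have h1 : Test (mo m (fun y => v y - v0 y)) := mo_test m (test_sub hv h0)
  have h2 : Test (fun z => χ z * mo m (fun y => v y - v0 y) z) := Alg47.test_mul hχ h1
  exact ⟨⟨h0.1.add h2.1, h0.2.add h2.2⟩, h2⟩

theorem pd_le_S2 (d : E n → ℝ) (x : E n) (b : Fin n) : |pd b d x| ≤ S2 d x := by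
  unfold S2
  have h1 : |pd b d x| ≤ ∑ a, |pd a d x| :=
    Finset.single_le_sum (f := fun a => |pd a d x|) (fun a _ => abs_nonneg _) (Finset.mem_univ b)
  have h2 : 0 ≤ ∑ a, ∑ b, |hess d x a b| :=
    Finset.sum_nonneg (fun a _ => Finset.sum_nonneg (fun b _ => abs_nonneg _))
  have := abs_nonneg (d x)
  linarith

theorem hsum_le_S2 (d : E n → ℝ) (x : E n) : ∑ a, ∑ b, |hess d x a b| ≤ S2 d x := by
  unfold S2
  have h1 : 0 ≤ ∑ a, |pd a d x| := Finset.sum_nonneg (fun a _ => abs_nonneg _)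
  have := abs_nonneg (d x)
  linarith

theorem S2_sub_le {f g : E n → ℝ} (hf : Test f) (hg : Test g) (x : E n) :
    S2 f x ≤ S2 g x + S2 (fun y => f y - g y) x := by
  unfold S2
  have e1 : |f x| ≤ |g x| + |f x - g x| := by
    have := abs_add_le (g x) (f x - g x)
    rwa [add_sub_cancel] at this
  have e2 : ∑ a, |pd a f x| ≤ (∑ a, |pd a g x|) + ∑ a, |pd a (fun y => f y - g y) x| := by
    rw [← Finset.sum_add_distrib]
    refine Finset.sum_le_sum (fun a _ => ?_)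
    rw [pd_sub (test_diff hf x) (test_diff hg x)]
    have := abs_add_le (pd a g x) (pd a f x - pd a g x)
    rwa [add_sub_cancel] at this
  have e3 : ∑ a, ∑ b, |hess f x a b| ≤ (∑ a, ∑ b, |hess g x a b|)
      + ∑ a, ∑ b, |hess (fun y => f y - g y) x a b| := by
    rw [← Finset.sum_add_distrib]
    refine Finset.sum_le_sum (fun a _ => ?_)
    rw [← Finset.sum_add_distrib]
    refine Finset.sum_le_sum (fun b _ => ?_)
    rw [hess_sub hf hg]
    have := abs_add_le (hess g x a b) (hess f x a b - hess g x a b)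
    rwa [add_sub_cancel] at this
  linarith

/-- the Cauchy hypothesis in terms of `S2` -/
theorem cauchy_S2 {V : E n → ℝ} (hV : Continuous V) (hZ : 0 < ∫ x, Real.exp (-V x))
    {v : ℕ → E n → ℝ} (hv : ∀ i, Test (v i))
    (h : ∀ ε > 0, ∃ N : ℕ, ∀ i ≥ N, ∀ j ≥ N, Ex V (fun x => (v i x - v j x) ^ 2
      + (∑ a, (pd a (v i) x - pd a (v j) x) ^ 2)
      + ∑ a, ∑ b, (hess (v i) x a b - hess (v j) x a b) ^ 2) ≤ ε) :
    ∀ ε > 0, ∃ N : ℕ, ∀ i ≥ N, ∀ j ≥ N,
      ∫ x, (S2 (fun y => v i y - v j y) x) ^ 2 * Real.exp (-V x) ≤ ε := by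
  intro ε hε
  set Z := ∫ x, Real.exp (-V x) with hZd
  set K : ℝ := 3 * (1 + (n : ℝ) + (n : ℝ) ^ 2) with hK
  have hK0 : 0 < K := by positivity
  obtain ⟨N, hN⟩ := h (ε / (K * Z)) (by positivity)
  refine ⟨N, fun i hi j hj => ?_⟩
  have h1 := hN i hi j hj
  unfold Ex at h1
  rw [div_le_iff₀ hZ] at h1
  have e1 : ε / (K * Z) * Z = ε / K := by field_simp
  rw [e1] at h1
  have hd : Test (fun y => v i y - v j y) := test_sub (hv i) (hv j)
  have hc1 : Continuous (fun x => (v i x - v j x) ^ 2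
      + (∑ a, (pd a (v i) x - pd a (v j) x) ^ 2)
      + ∑ a, ∑ b, (hess (v i) x a b - hess (v j) x a b) ^ 2) := by
    have q1 : ∀ i a, Continuous (pd a (v i)) := fun i a => (pd_test (hv i) a).1.continuous
    have q2 : ∀ i a b, Continuous (fun x => hess (v i) x a b) :=
      fun i a b => (pd_test (pd_test (hv i) b) a).1.continuous
    have q0 : ∀ i, Continuous (v i) := fun i => (hv i).1.continuous
    refine ((((q0 i).sub (q0 j)).pow 2).add ?_).add ?_
    · exact continuous_finsetSum _ (fun a _ => ((q1 i a).sub (q1 j a)).pow 2)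
    · exact continuous_finsetSum _ (fun a _ => continuous_finsetSum _
        (fun b _ => ((q2 i a b).sub (q2 j a b)).pow 2))
  have hle : ∀ x, (S2 (fun y => v i y - v j y) x) ^ 2 ≤ K * ((v i x - v j x) ^ 2
      + (∑ a, (pd a (v i) x - pd a (v j) x) ^ 2)
      + ∑ a, ∑ b, (hess (v i) x a b - hess (v j) x a b) ^ 2) := by
    intro x
    have := S2_sq_le (fun y => v i y - v j y) x
    simp only [hess_sub (hv i) (hv j)] at this
    have e2 : ∀ a, pd a (fun y => v i y - v j y) x = pd a (v i) x - pd a (v j) x :=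
      fun a => pd_sub (test_diff (hv i) x) (test_diff (hv j) x) a
    simp only [e2] at this
    exact this
  have hge : ∀ x, ((v i x - v j x) ^ 2
      + (∑ a, (pd a (v i) x - pd a (v j) x) ^ 2)
      + ∑ a, ∑ b, (hess (v i) x a b - hess (v j) x a b) ^ 2) ≤ (S2 (fun y => v i y - v j y) x) ^ 2 * (1 + n + n ^ 2) := by
    intro x
    have g0 : (v i x - v j x) ^ 2 ≤ (S2 (fun y => v i y - v j y) x) ^ 2 := by
      rw [← sq_abs]
      refine pow_le_pow_left₀ (abs_nonneg _) ?_ 2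
      unfold S2
      have h1 : 0 ≤ ∑ a, |pd a (fun y => v i y - v j y) x| := Finset.sum_nonneg (fun a _ => abs_nonneg _)
      have h2 : 0 ≤ ∑ a, ∑ b, |hess (fun y => v i y - v j y) x a b| :=
        Finset.sum_nonneg (fun a _ => Finset.sum_nonneg (fun b _ => abs_nonneg _))
      linarith
    have g1 : ∀ a, (pd a (v i) x - pd a (v j) x) ^ 2 ≤ (S2 (fun y => v i y - v j y) x) ^ 2 := by
      intro a
      rw [← sq_abs, ← pd_sub (test_diff (hv i) x) (test_diff (hv j) x)]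
      exact pow_le_pow_left₀ (abs_nonneg _) (pd_le_S2 _ _ _) 2
    have g2 : ∀ a b, (hess (v i) x a b - hess (v j) x a b) ^ 2 ≤ (S2 (fun y => v i y - v j y) x) ^ 2 := by
      intro a b
      rw [← sq_abs, ← hess_sub (hv i) (hv j)]
      refine pow_le_pow_left₀ (abs_nonneg _) ?_ 2
      refine le_trans ?_ (hsum_le_S2 _ _)
      have k1 : |hess (fun y => v i y - v j y) x a b| ≤ ∑ b, |hess (fun y => v i y - v j y) x a b| :=
        Finset.single_le_sum (f := fun b => |hess (fun y => v i y - v j y) x a b|)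
          (fun b _ => abs_nonneg _) (Finset.mem_univ b)
      have k2 : ∑ b, |hess (fun y => v i y - v j y) x a b| ≤
          ∑ a, ∑ b, |hess (fun y => v i y - v j y) x a b| :=
        Finset.single_le_sum (f := fun a => ∑ b, |hess (fun y => v i y - v j y) x a b|)
          (fun a _ => Finset.sum_nonneg (fun b _ => abs_nonneg _)) (Finset.mem_univ a)
      exact k1.trans k2
    have s1 : ∑ a, (pd a (v i) x - pd a (v j) x) ^ 2 ≤ n * (S2 (fun y => v i y - v j y) x) ^ 2 := by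
      have := Finset.sum_le_sum (fun a (_ : a ∈ (Finset.univ : Finset (Fin n))) => g1 a)
      simpa using this
    have s2 : ∑ a, ∑ b, (hess (v i) x a b - hess (v j) x a b) ^ 2 ≤
        n ^ 2 * (S2 (fun y => v i y - v j y) x) ^ 2 := by
      have t1 : ∀ a, ∑ b, (hess (v i) x a b - hess (v j) x a b) ^ 2 ≤
          n * (S2 (fun y => v i y - v j y) x) ^ 2 := by
        intro a
        have := Finset.sum_le_sum (fun b (_ : b ∈ (Finset.univ : Finset (Fin n))) => g2 a b)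
        simpa using this
      have := Finset.sum_le_sum (fun a (_ : a ∈ (Finset.univ : Finset (Fin n))) => t1 a)
      have e3 : ∑ _a : Fin n, (n : ℝ) * (S2 (fun y => v i y - v j y) x) ^ 2 =
          n ^ 2 * (S2 (fun y => v i y - v j y) x) ^ 2 := by
        simp; ring
      linarith
    nlinarith
  have hint : Integrable (fun x => ((v i x - v j x) ^ 2
      + (∑ a, (pd a (v i) x - pd a (v j) x) ^ 2)
      + ∑ a, ∑ b, (hess (v i) x a b - hess (v j) x a b) ^ 2) * Real.exp (-V x)) := by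
    have hi1 := (integrable_cs hV (S2_cont hd) (S2_supp hd)).const_mul (1 + (n : ℝ) + (n : ℝ) ^ 2)
    refine hi1.mono' (hc1.mul (Real.continuous_exp.comp hV.neg)).aestronglyMeasurable ?_
    refine Eventually.of_forall (fun x => ?_)
    have hnn : 0 ≤ (v i x - v j x) ^ 2
      + (∑ a, (pd a (v i) x - pd a (v j) x) ^ 2)
      + ∑ a, ∑ b, (hess (v i) x a b - hess (v j) x a b) ^ 2 := by positivity
    rw [Real.norm_of_nonneg (mul_nonneg hnn (Real.exp_pos _).le)]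
    calc _ ≤ ((S2 (fun y => v i y - v j y) x) ^ 2 * (1 + n + n ^ 2)) * Real.exp (-V x) :=
          mul_le_mul_of_nonneg_right (hge x) (Real.exp_pos _).le
      _ = _ := by ring
  calc ∫ x, (S2 (fun y => v i y - v j y) x) ^ 2 * Real.exp (-V x)
      ≤ ∫ x, K * (((v i x - v j x) ^ 2
      + (∑ a, (pd a (v i) x - pd a (v j) x) ^ 2)
      + ∑ a, ∑ b, (hess (v i) x a b - hess (v j) x a b) ^ 2) * Real.exp (-V x)) := by
        refine integral_mono_of_nonneg (Eventually.of_forall (fun x => ?_)) (hint.const_mul K) ?_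
        · exact mul_nonneg (sq_nonneg _) (Real.exp_pos _).le
        · refine Eventually.of_forall (fun x => ?_)
          show _ ≤ K * (_ * _)
          rw [← mul_assoc]
          exact mul_le_mul_of_nonneg_right (hle x) (Real.exp_pos _).le
    _ = K * ∫ x, ((v i x - v j x) ^ 2
      + (∑ a, (pd a (v i) x - pd a (v j) x) ^ 2)
      + ∑ a, ∑ b, (hess (v i) x a b - hess (v j) x a b) ^ 2) * Real.exp (-V x) := integral_const_mul _ _
    _ ≤ K * (ε / K) := mul_le_mul_of_nonneg_left h1 hK0.le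
    _ = ε := by field_simp

/-- the pointwise estimates for `F = v0 + χ · mo m (v - v0)` -/
theorem pt_est {ψ V : E n → ℝ} {c C M : ℝ} (hM : MM ψ V c C M) {T T1 R : ℝ} (hT : 0 < T) (hT1 : 0 < T1)
    (hTL : ∀ F : E n → ℝ, Test F → ∀ᵐ x, ∀ b, |Lop ψ (pd b F) x| ≤
      |pd b (Lop ψ F) x| + T * (∑ i, ∑ j, |hess F x i j|) + |pd b F x|)
    {χ : E n → ℝ} (hχ : Test χ) (hP : PtBound ψ T1 R χ) (m : ℕ) {v0 v w : E n → ℝ}
    (h0 : Test v0) (hv : Test v) (hw : Test w) (hs : ∀ x, R - 1 ≤ ‖x‖ → gg ψ w v0 x = 0) :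
    (∀ᵐ x, ∀ b, |pd b (gg ψ w (FF m χ v0 v)) x| ≤ |pd b (gg ψ w v0) x - mo m (pd b (gg ψ w v0)) x|
      + |T1 * (dl m)⁻¹ * avR m R (gg ψ w v) x| + |T1 * avR m R (S2 (fun y => v y - v0 y)) x|) ∧
    (∀ (u : E n → ℝ), Test u → ∀ x b, |pd b (FF m χ v0 v) x - pd b u x| ≤ |S2 (fun y => v0 y - u y) x|
      + |T1 * avR m R (S2 (fun y => v y - v0 y)) x|) ∧
    (∀ᵐ x, ∀ b, |Lop ψ (pd b (FF m χ v0 v)) x| ≤ |(2 + T) * S2 v0 x|
      + |((3 + T * n ^ 2) * T1) * avR m R (S2 (fun y => v y - v0 y)) x|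
      + |pd b (gg ψ w v0) x - mo m (pd b (gg ψ w v0)) x|
      + |T1 * (dl m)⁻¹ * avR m R (gg ψ w v) x| + |pd b w x|) := by
  obtain ⟨p1, p2, p3⟩ := hP m v0 v w h0 hv hw hs
  obtain ⟨hF, hq⟩ := test_FF (m := m) hχ h0 hv
  have hpd : ∀ x b, pd b (FF m χ v0 v) x = pd b v0 x
      + pd b (fun z => χ z * mo m (fun y => v y - v0 y) z) x :=
    fun x b => pd_add (test_diff h0 x) (test_diff hq x) b
  have hhe : ∀ x a b, hess (FF m χ v0 v) x a b = hess v0 x a b
      + hess (fun z => χ z * mo m (fun y => v y - v0 y) z) x a b :=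
    fun x a b => hess_add h0 hq x a b
  refine ⟨?_, ?_, ?_⟩
  · filter_upwards [p1] with x hx b
    refine (hx b).trans ?_
    have a1 := le_abs_self (T1 * (dl m)⁻¹ * avR m R (gg ψ w v) x)
    have a2 := le_abs_self (T1 * avR m R (S2 (fun y => v y - v0 y)) x)
    linarith
  · intro u hu x b
    have e : pd b (FF m χ v0 v) x - pd b u x = pd b (fun y => v0 y - u y) x
        + pd b (fun z => χ z * mo m (fun y => v y - v0 y) z) x := by
      rw [hpd, pd_sub (test_diff h0 x) (test_diff hu x)]; ring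
    rw [e]
    refine (abs_add_le _ _).trans ?_
    have a1 := pd_le_S2 (fun y => v0 y - u y) x b
    have a2 := p2 x b
    have a3 := le_abs_self (S2 (fun y => v0 y - u y) x)
    have a4 := le_abs_self (T1 * avR m R (S2 (fun y => v y - v0 y)) x)
    linarith
  · obtain ⟨-, -, Kg, hKg⟩ := gg_cont hM hw hF
    filter_upwards [p1, hTL _ hF, lip_ae hKg] with x hx1 hx2 hx3 b
    set D := avR m R (S2 (fun y => v y - v0 y)) x with hD
    set G := T1 * (dl m)⁻¹ * avR m R (gg ψ w v) x with hG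
    set A := |pd b (gg ψ w v0) x - mo m (pd b (gg ψ w v0)) x| with hA
    have b1 := hx1 b
    have b2 := hx2 b
    have b3 := p2 x b
    have hL : pd b (Lop ψ (FF m χ v0 v)) x = pd b (FF m χ v0 v) x - pd b (gg ψ w (FF m χ v0 v)) x
        - pd b w x := by
      have e : Lop ψ (FF m χ v0 v) = fun z => (FF m χ v0 v z - gg ψ w (FF m χ v0 v) z) - w z := by
        funext z; unfold gg; ring
      have hd1 : DifferentiableAt ℝ (fun z => FF m χ v0 v z - gg ψ w (FF m χ v0 v) z) x :=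
        (test_diff hF x).sub hx3
      rw [e, pd_sub hd1 (test_diff hw x), pd_sub (test_diff hF x) hx3]
    have c1 : |pd b (Lop ψ (FF m χ v0 v)) x| ≤ |pd b (FF m χ v0 v) x|
        + |pd b (gg ψ w (FF m χ v0 v)) x| + |pd b w x| := by
      rw [hL]
      have k1 := abs_sub (pd b (FF m χ v0 v) x - pd b (gg ψ w (FF m χ v0 v)) x) (pd b w x)
      have k2 := abs_sub (pd b (FF m χ v0 v) x) (pd b (gg ψ w (FF m χ v0 v)) x)
      linarith
    have c2 : |pd b (FF m χ v0 v) x| ≤ S2 v0 x + T1 * D := by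
      rw [hpd]
      refine (abs_add_le _ _).trans ?_
      exact add_le_add (pd_le_S2 _ _ _) b3
    have c3 : ∑ i, ∑ j, |hess (FF m χ v0 v) x i j| ≤ S2 v0 x + n ^ 2 * (T1 * D) := by
      have k1 : ∑ i, ∑ j, |hess (FF m χ v0 v) x i j| ≤ ∑ i, ∑ j, (|hess v0 x i j| + T1 * D) := by
        refine Finset.sum_le_sum (fun i _ => Finset.sum_le_sum (fun j _ => ?_))
        rw [hhe]
        refine (abs_add_le _ _).trans ?_
        exact add_le_add le_rfl (p3 x i j)
      have k2 : ∑ i : Fin n, ∑ j : Fin n, (|hess v0 x i j| + T1 * D) =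
          (∑ i, ∑ j, |hess v0 x i j|) + n ^ 2 * (T1 * D) := by
        simp only [Finset.sum_add_distrib, Finset.sum_const, Finset.card_univ, Fintype.card_fin,
          nsmul_eq_mul]
        ring
      have k3 := hsum_le_S2 v0 x
      linarith
    have c4 : T * (∑ i, ∑ j, |hess (FF m χ v0 v) x i j|) ≤ T * (S2 v0 x + n ^ 2 * (T1 * D)) :=
      mul_le_mul_of_nonneg_left c3 hT.le
    have a1 := le_abs_self ((2 + T) * S2 v0 x)
    have a2 := le_abs_self (((3 + T * n ^ 2) * T1) * D)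
    have a3 := le_abs_self G
    have e1 : T * (S2 v0 x + n ^ 2 * (T1 * D)) + 2 * (S2 v0 x + T1 * D) + T1 * D =
        (2 + T) * S2 v0 x + ((3 + T * n ^ 2) * T1) * D := by ring
    linarith

/-- `StmtH1` from the pointwise bound -/
theorem stmtH1_of (hPA : PtAll) : StmtH1 := by
  intro n ψ V c C M hN hM w v hw hv hlim hcau
  have hVc : Continuous V := hN.toReg.cont
  have hZ : 0 < ∫ x, Real.exp (-V x) := hN.toReg.Z_pos
  set Z := ∫ x, Real.exp (-V x) with hZd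
  obtain ⟨T1, hT1, hPT⟩ := hPA n ψ V c C M hM
  obtain ⟨T, hT, hTL⟩ := Lop_pd hM
  obtain ⟨C2, hC2, hav⟩ := avR_L2 hVc (nice_lip hN)
  have hS := cauchy_S2 hVc hZ hv hcau
  -- the limit in unnormalised form
  have hlim' : Tendsto (fun i => ∫ x, (gg ψ w (v i) x) ^ 2 * Real.exp (-V x)) atTop (𝓝 0) := by
    have h1 := hlim.mul_const Z
    rw [zero_mul] at h1
    refine h1.congr (fun i => ?_)
    unfold Ex
    rw [div_mul_cancel₀ _ hZ.ne']
    rfl
  -- uniform bound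
  obtain ⟨N1, hN1⟩ := hS 1 one_pos
  set B0 : ℝ := 2 * (∫ x, (S2 (v N1) x) ^ 2 * Real.exp (-V x)) + 2 with hB0
  have hBd : ∀ i ≥ N1, ∫ x, (S2 (v i) x) ^ 2 * Real.exp (-V x) ≤ B0 := by
    intro i hi
    have h1 := hN1 i hi N1 le_rfl
    have i1 := integrable_cs hVc (S2_cont (hv N1)) (S2_supp (hv N1))
    have hd := test_sub (hv i) (hv N1)
    have i2 := integrable_cs hVc (S2_cont hd) (S2_supp hd)
    have h2 : ∫ x, (S2 (v i) x) ^ 2 * Real.exp (-V x) ≤
        ∫ x, (2 * ((S2 (v N1) x) ^ 2 * Real.exp (-V x)) +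
          2 * ((S2 (fun y => v i y - v N1 y) x) ^ 2 * Real.exp (-V x))) := by
      refine integral_mono_of_nonneg (Eventually.of_forall (fun x => ?_))
        ((i1.const_mul 2).add (i2.const_mul 2)) (Eventually.of_forall (fun x => ?_))
      · exact mul_nonneg (sq_nonneg _) (Real.exp_pos _).le
      · show (S2 (v i) x) ^ 2 * Real.exp (-V x) ≤ 2 * ((S2 (v N1) x) ^ 2 * Real.exp (-V x)) +
          2 * ((S2 (fun y => v i y - v N1 y) x) ^ 2 * Real.exp (-V x))
        have k1 := S2_sub_le (hv i) (hv N1) x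
        have k2 := S2_nonneg (v i) x
        have k3 : (S2 (v i) x) ^ 2 ≤ 2 * (S2 (v N1) x) ^ 2 + 2 * (S2 (fun y => v i y - v N1 y) x) ^ 2 := by
          have k4 := pow_le_pow_left₀ k2 k1 2
          nlinarith [sq_nonneg (S2 (v N1) x - S2 (fun y => v i y - v N1 y) x)]
        have k5 := mul_le_mul_of_nonneg_right k3 (Real.exp_pos (-V x)).le
        linarith
    rw [integral_add (i1.const_mul 2) (i2.const_mul 2), integral_const_mul, integral_const_mul] at h2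
    linarith
  -- the bound `B`
  refine ⟨(∑ b : Fin n, (5 : ℝ) * ((2 + T) ^ 2 * B0 + ((3 + T * n ^ 2) * T1) ^ 2 * (C2 * 1) + 1 + 1
    + ∫ x, (pd b w x) ^ 2 * Real.exp (-V x))) / Z, fun δ hδ => ?_⟩
  -- the small numbers
  set η : ℝ := min 1 (δ * Z / (9 * ((n : ℝ) + 1))) with hη
  have hη0 : 0 < η := lt_min one_pos (by positivity)
  have hη1 : η ≤ 1 := min_le_left _ _
  have hη2 : 9 * (n : ℝ) * η ≤ δ * Z := by
    have h1 : η ≤ δ * Z / (9 * ((n : ℝ) + 1)) := min_le_right _ _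
    rw [le_div_iff₀ (by positivity)] at h1
    nlinarith
  set εS : ℝ := η / (1 + T1 ^ 2 * C2) with hεS
  have hden : 0 < 1 + T1 ^ 2 * C2 := by positivity
  have hεS0 : 0 < εS := by positivity
  have hεS1 : εS ≤ η := by
    rw [hεS, div_le_iff₀ hden]
    nlinarith [mul_pos (pow_pos hT1 2) hC2]
  have hεS2 : T1 ^ 2 * (C2 * εS) ≤ η := by
    have h1 : (1 + T1 ^ 2 * C2) * εS = η := by rw [hεS]; field_simp
    nlinarith
  -- the index `i0`
  obtain ⟨N2, hN2⟩ := hS εS hεS0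
  set i0 := max N1 N2 with hi0
  have hi01 : N1 ≤ i0 := le_max_left _ _
  have hi02 : N2 ≤ i0 := le_max_right _ _
  -- the radius
  obtain ⟨gc0, gs0, K0, gK0⟩ := gg_cont hM hw (hv i0)
  obtain ⟨r, hr⟩ := gs0.isCompact.isBounded.subset_closedBall (0 : E n)
  set R : ℝ := max (r + 2) 2 with hR
  have hR2 : 2 ≤ R := le_max_right _ _
  have hRr : r + 2 ≤ R := le_max_left _ _
  have hsup : ∀ x, R - 1 ≤ ‖x‖ → gg ψ w (v i0) x = 0 := by
    intro x hx
    by_contra hcon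
    have h1 : x ∈ tsupport (gg ψ w (v i0)) := subset_tsupport _ hcon
    have h2 := hr h1
    rw [mem_closedBall_zero_iff] at h2
    linarith
  obtain ⟨χ, hχ, hPt⟩ := hPT R hR2
  -- the scale `m`
  obtain ⟨m0, hm0⟩ := hav R
  have hleb : ∀ᶠ m in atTop, ∀ b : Fin n,
      ∫ x, (pd b (gg ψ w (v i0)) x - mo m (pd b (gg ψ w (v i0))) x) ^ 2 * Real.exp (-V x) ≤ η := by
    rw [eventually_all]
    intro b
    exact ((leb hVc gK0 gs0 b).2.eventually (ge_mem_nhds hη0))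
  obtain ⟨m, hm1, hm2⟩ := (hleb.and (eventually_ge_atTop m0)).exists
  -- the index `j`
  have hj : ∀ᶠ j in atTop, (T1 * (dl m)⁻¹) ^ 2 * (C2 * ∫ x, (gg ψ w (v j) x) ^ 2 * Real.exp (-V x)) ≤ η := by
    have h1 := (hlim'.const_mul C2).const_mul ((T1 * (dl m)⁻¹) ^ 2)
    rw [mul_zero, mul_zero] at h1
    exact h1.eventually (ge_mem_nhds hη0)
  obtain ⟨j, hj1, hj2⟩ := (hj.and (eventually_ge_atTop i0)).exists
  obtain ⟨q1, q2, q3⟩ := pt_est hM hT hT1 hTL hχ hPt m (hv i0) (hv j) hw hsup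
  have hF := (test_FF (m := m) hχ (hv i0) (hv j)).1
  -- the pieces
  have hdt : Test (fun y => v j y - v i0 y) := test_sub (hv j) (hv i0)
  have hdS : ∫ x, (S2 (fun y => v j y - v i0 y) x) ^ 2 * Real.exp (-V x) ≤ εS :=
    hN2 j (hi02.trans hj2) i0 hi02
  obtain ⟨gcj, gsj, -, -⟩ := gg_cont hM hw (hv j)
  have pA : ∀ b, Integrable (fun x => (pd b (gg ψ w (v i0)) x - mo m (pd b (gg ψ w (v i0))) x) ^ 2
      * Real.exp (-V x)) := fun b => (leb hVc gK0 gs0 b).1 m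
  have pG := hm0 m hm2 (gg ψ w (v j)) gcj gsj (T1 * (dl m)⁻¹)
  have pS := hm0 m hm2 (S2 (fun y => v j y - v i0 y)) (S2_cont hdt) (S2_supp hdt)
  have pS1 := pS T1
  have pS2 := pS ((3 + T * n ^ 2) * T1)
  have hS1 : ∫ x, (T1 * avR m R (S2 (fun y => v j y - v i0 y)) x) ^ 2 * Real.exp (-V x) ≤ η := by
    refine pS1.2.trans (le_trans ?_ hεS2)
    exact mul_le_mul_of_nonneg_left (mul_le_mul_of_nonneg_left hdS hC2.le) (sq_nonneg _)
  have hS2 : ∫ x, (((3 + T * n ^ 2) * T1) * avR m R (S2 (fun y => v j y - v i0 y)) x) ^ 2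
      * Real.exp (-V x) ≤ ((3 + T * n ^ 2) * T1) ^ 2 * (C2 * 1) := by
    refine pS2.2.trans ?_
    refine mul_le_mul_of_nonneg_left (mul_le_mul_of_nonneg_left ?_ hC2.le) (sq_nonneg _)
    linarith
  refine ⟨FF m χ (v i0) (v j), i0, hF, ?_, ?_, ?_⟩
  · unfold Ex
    rw [div_le_iff₀ hZ]
    have key := key_sum V (ι := Fin 3)
      (fun b k => ![fun x => pd b (gg ψ w (v i0)) x - mo m (pd b (gg ψ w (v i0))) x,
        fun x => T1 * (dl m)⁻¹ * avR m R (gg ψ w (v j)) x,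
        fun x => T1 * avR m R (S2 (fun y => v j y - v i0 y)) x] k)
      (fun _ _ => η)
      (by
        intro b k
        fin_cases k
        · exact ⟨pA b, hm1 b⟩
        · exact ⟨pG.1, pG.2.trans hj1⟩
        · exact ⟨pS1.1, hS1⟩)
      (fun b => pd b (gg ψ w (FF m χ (v i0) (v j))))
      (by
        filter_upwards [q1] with x hx b
        have := hx b
        simpa [Fin.sum_univ_three] using this)
    refine le_trans (le_of_eq ?_) (key.trans ?_)
    · rfl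
    · simp only [Finset.sum_const, Finset.card_univ, Fintype.card_fin, nsmul_eq_mul]
      push_cast
      linarith
  · intro i hi
    unfold Ex
    rw [div_le_iff₀ hZ]
    have hdi : Test (fun y => v i0 y - v i y) := test_sub (hv i0) (hv i)
    have key := key_sum V (ι := Fin 2)
      (fun _ k => ![fun x => S2 (fun y => v i0 y - v i y) x,
        fun x => T1 * avR m R (S2 (fun y => v j y - v i0 y)) x] k)
      (fun _ _ => η)
      (by
        intro b k
        fin_cases k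
        · exact ⟨integrable_cs hVc (S2_cont hdi) (S2_supp hdi),
            (hN2 i0 hi02 i (hi02.trans hi)).trans hεS1⟩
        · exact ⟨pS1.1, hS1⟩)
      (fun b x => pd b (FF m χ (v i0) (v j)) x - pd b (v i) x)
      (by
        refine Eventually.of_forall (fun x b => ?_)
        have := q2 (v i) (hv i) x b
        simpa [Fin.sum_univ_two] using this)
    refine key.trans ?_
    simp only [Finset.sum_const, Finset.card_univ, Fintype.card_fin, nsmul_eq_mul]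
    push_cast
    have hn : (0 : ℝ) ≤ n := Nat.cast_nonneg n
    nlinarith [mul_nonneg hn hη0.le]
  · unfold Ex
    rw [div_le_div_iff_of_pos_right hZ]
    have key := key_sum V (ι := Fin 5)
      (fun b k => ![fun x => (2 + T) * S2 (v i0) x,
        fun x => ((3 + T * n ^ 2) * T1) * avR m R (S2 (fun y => v j y - v i0 y)) x,
        fun x => pd b (gg ψ w (v i0)) x - mo m (pd b (gg ψ w (v i0))) x,
        fun x => T1 * (dl m)⁻¹ * avR m R (gg ψ w (v j)) x,
        fun x => pd b w x] k)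
      (fun b k => ![(2 + T) ^ 2 * B0, ((3 + T * n ^ 2) * T1) ^ 2 * (C2 * 1), 1, 1,
        ∫ x, (pd b w x) ^ 2 * Real.exp (-V x)] k)
      (by
        intro b k
        fin_cases k
        · have i1 := integrable_cs hVc (S2_cont (hv i0)) (S2_supp (hv i0))
          have e : (fun x => ((2 + T) * S2 (v i0) x) ^ 2 * Real.exp (-V x)) =
              fun x => (2 + T) ^ 2 * ((S2 (v i0) x) ^ 2 * Real.exp (-V x)) := by
            funext x; ring
          show Integrable (fun x => ((2 + T) * S2 (v i0) x) ^ 2 * Real.exp (-V x)) ∧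
            ∫ x, ((2 + T) * S2 (v i0) x) ^ 2 * Real.exp (-V x) ≤ (2 + T) ^ 2 * B0
          rw [e, integral_const_mul]
          exact ⟨i1.const_mul _, mul_le_mul_of_nonneg_left (hBd i0 hi01) (sq_nonneg _)⟩
        · exact ⟨pS2.1, hS2⟩
        · exact ⟨pA b, (hm1 b).trans hη1⟩
        · exact ⟨pG.1, (pG.2.trans hj1).trans hη1⟩
        · exact ⟨integrable_cs hVc (pd_test hw b).1.continuous (pd_test hw b).2, le_rfl⟩)
      (fun b => Lop ψ (pd b (FF m χ (v i0) (v j))))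
      (by
        filter_upwards [q3] with x hx b
        have := hx b
        simpa [Fin.sum_univ_five] using this)
    refine key.trans (le_of_eq ?_)
    refine Finset.sum_congr rfl (fun b _ => ?_)
    simp [Fin.sum_univ_five]

end Vale.Agent.P227.M.LIN.H1T
end

section

namespace Vale.Agent.P227.Int899
open Vale.Agent.P227.M Vale.Agent.P227.M.LIN

theorem stmtH1 : StmtH1 := H1T.stmtH1_of fun _ _ _ _ _ _ h => by
  obtain ⟨T1, hT, H⟩ := pt_bound h
  exact ⟨T1, hT, fun R hR => H R (by linarith)⟩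

end Vale.Agent.P227.Int899
end

section

namespace Vale.Agent.P227.Int899
open Vale.Agent.P227.M

theorem q1 : StmtQ1 :=
  q1_of_blocks (HL.stmtSC_of_heat SC.stmtHeat) MX.stmtMM_of_sc B294.stmtStein B294.stmtIBP B294.stmtDiv
    X.stmtKey (LIN.stmtLin_of_two LIN.E456.stmtESA stmtH1) stmtLocal_of END.stmtQ1_of_stmtLocal

end Vale.Agent.P227.Int899
end
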